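import Vale.Agent.P202.Mixed2.Defs
import Vale.Agent.P202.Char.Matrix

/-!
P202, mixed characteristic: complexes over `T / a ^ L` with null homotopies for the powers of the
generators of `a = (U)` are acyclic in positive degree, up to a power of `β` and a shift of the
precision, when `U` is regular up to `β`.
-/

namespace Vale.Agent.P202.Mixed2

open Vale.Agent.P202.Char

universe u

variable {T : Type u} [CommRing T] {n : ℕ} (U : Fin (n + 1) → T) (β : T)

/-- The span of the monomials with exponents in a set. -/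
def monI (S : Set (Fin (n + 1) →₀ ℕ)) : Ideal T :=
  Ideal.span ((fun γ => ∏ l, U l ^ γ l) '' S)

/-- Powers of the first `i` elements together with a power of the ideal. -/
def mI (M i ℓ : ℕ) : Ideal T :=
  Ideal.span {x | ∃ l : Fin (n + 1), (l : ℕ) < i ∧ x = U l ^ M} ⊔ aI U ^ ℓ

variable {U β}

theorem eval_monomial_one (γ : Fin (n + 1) →₀ ℕ) (c : T) :
    MvPolynomial.eval U (MvPolynomial.monomial γ c) = c * ∏ l, U l ^ γ l := by
  rw [MvPolynomial.eval_monomial, Finsupp.prod_fintype _ _ (fun _ => pow_zero _)]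

theorem prod_pow_mem (γ : Fin (n + 1) →₀ ℕ) : ∏ l, U l ^ γ l ∈ aI U ^ γ.degree := by
  rw [Finsupp.degree_eq_sum, ← Finset.prod_pow_eq_pow_sum]
  exact Ideal.prod_mem_prod fun l _ => Ideal.pow_mem_pow (Ideal.subset_span (Set.mem_range_self l)) _

theorem prod_add (γ δ : Fin (n + 1) →₀ ℕ) :
    ∏ l, U l ^ (γ + δ) l = (∏ l, U l ^ γ l) * ∏ l, U l ^ δ l := by
  simp only [Finsupp.add_apply, pow_add, Finset.prod_mul_distrib]

theorem prod_single (l : Fin (n + 1)) (M : ℕ) :
    ∏ i, U i ^ (Finsupp.single l M) i = U l ^ M := by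
  classical
  rw [Finset.prod_eq_single l (fun b _ hb => by simp [hb.symm]) (by simp)]
  simp

theorem exists_homog {D : ℕ} {w : T} (hw : w ∈ aI U ^ D) :
    ∃ f : MvPolynomial (Fin (n + 1)) T, f.IsHomogeneous D ∧ MvPolynomial.eval U f = w := by
  induction D generalizing w with
  | zero => exact ⟨MvPolynomial.C w, MvPolynomial.isHomogeneous_C _ _, by simp⟩
  | succ D ih =>
    rw [pow_succ] at hw
    refine Submodule.mul_induction_on hw (fun y hy z hz => ?_) (fun y z hy hz => ?_)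
    · obtain ⟨f, hf, rfl⟩ := ih hy
      obtain ⟨c, rfl⟩ := (Ideal.mem_span_range_iff_exists_fun).1 hz
      refine ⟨f * ∑ l, MvPolynomial.C (c l) * MvPolynomial.X l, hf.mul
        (MvPolynomial.IsHomogeneous.sum _ _ _ fun l _ => MvPolynomial.isHomogeneous_C_mul_X _ _), ?_⟩
      simp [map_sum]
    · obtain ⟨f, hf, rfl⟩ := hy
      obtain ⟨g, hg, rfl⟩ := hz
      exact ⟨f + g, hf.add hg, map_add _ _ _⟩

theorem monI_mono {S S' : Set (Fin (n + 1) →₀ ℕ)} (h : S ⊆ S') : monI U S ≤ monI U S' :=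
  Ideal.span_mono (Set.image_mono h)

theorem prod_mem_monI {S : Set (Fin (n + 1) →₀ ℕ)} {γ} (h : γ ∈ S) :
    ∏ l, U l ^ γ l ∈ monI U S :=
  Ideal.subset_span ⟨γ, h, rfl⟩

/-- Elements of a monomial ideal: the part of degree `D` and the rest. -/
theorem monI_split {S : Set (Fin (n + 1) →₀ ℕ)} {D : ℕ} {z : T}
    (hz : z ∈ monI U {γ | γ ∈ S ∧ D ≤ γ.degree}) :
    ∃ g : MvPolynomial (Fin (n + 1)) T, g.IsHomogeneous D ∧ (∀ γ ∉ S, g.coeff γ = 0) ∧
      ∃ r ∈ monI U {γ | γ ∈ S ∧ D + 1 ≤ γ.degree}, z = MvPolynomial.eval U g + r := by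
  classical
  induction hz using Submodule.span_induction with
  | mem x hx =>
    obtain ⟨γ, ⟨hγS, hγD⟩, rfl⟩ := hx
    rcases eq_or_lt_of_le hγD with h | h
    · refine ⟨MvPolynomial.monomial γ 1, MvPolynomial.isHomogeneous_monomial _ h.symm,
        fun δ hδ => ?_, 0, zero_mem _, ?_⟩
      · rw [MvPolynomial.coeff_monomial, if_neg]
        rintro rfl
        exact hδ hγS
      · rw [eval_monomial_one, one_mul, add_zero]
    · exact ⟨0, MvPolynomial.isHomogeneous_zero _ _ _, fun δ _ => by simp, _,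
        prod_mem_monI ⟨hγS, h⟩, by simp⟩
  | zero => exact ⟨0, MvPolynomial.isHomogeneous_zero _ _ _, fun δ _ => by simp, 0, zero_mem _,
      by simp⟩
  | add x y _ _ hx hy =>
    obtain ⟨g, hg, hgS, r, hr, rfl⟩ := hx
    obtain ⟨g', hg', hgS', r', hr', rfl⟩ := hy
    exact ⟨g + g', hg.add hg', fun δ hδ => by simp [hgS δ hδ, hgS' δ hδ], r + r', add_mem hr hr',
      by rw [map_add]; abel⟩
  | smul c x _ hx =>
    obtain ⟨g, hg, hgS, r, hr, rfl⟩ := hx
    exact ⟨MvPolynomial.C c * g, hg.C_mul c, fun δ hδ => by simp [hgS δ hδ], c * r,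
      Ideal.mul_mem_left _ c hr, by simp [mul_add]⟩

variable {L : ℕ}

/-- Monomial ideals meet the powers of the ideal in their own high parts, up to `β`. -/
theorem strict (hreg : RegUpTo U β L) {S : Set (Fin (n + 1) →₀ ℕ)}
    (hup : ∀ γ ∈ S, ∀ l, γ + Finsupp.single l 1 ∈ S) {z : T} (hz : z ∈ monI U S) :
    ∀ D ≤ L, z ∈ aI U ^ D → β ^ D * z ∈ monI U {γ | γ ∈ S ∧ D ≤ γ.degree} := by
  intro D
  induction D with
  | zero =>
    intro _ _
    rw [pow_zero, one_mul]
    exact monI_mono (S' := {γ | γ ∈ S ∧ 0 ≤ γ.degree}) (fun γ hγ => ⟨hγ, Nat.zero_le _⟩) hz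
  | succ D ih =>
    intro hD hzD
    obtain ⟨g, hg, hgS, r, hr, he⟩ :=
      monI_split (ih (Nat.le_of_succ_le hD) (Ideal.pow_le_pow_right (Nat.le_succ D) hzD))
    have hge : MvPolynomial.eval U g ∈ aI U ^ (D + 1) := by
      have hr' : r ∈ aI U ^ (D + 1) := by
        refine Ideal.span_le.2 ?_ hr
        rintro _ ⟨γ, ⟨-, hγ⟩, rfl⟩
        exact Ideal.pow_le_pow_right hγ (prod_pow_mem γ)
      rw [show MvPolynomial.eval U g = β ^ D * z - r by rw [he]; ring]
      exact sub_mem (Ideal.mul_mem_left _ _ hzD) hr'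
    have hc := hreg D (Nat.lt_of_succ_le hD) g hg hge
    rw [pow_succ', mul_assoc, he, mul_add]
    refine add_mem ?_ (Ideal.mul_mem_left _ _ hr)
    rw [MvPolynomial.eval_eq', Finset.mul_sum]
    refine sum_mem fun γ hγ => ?_
    rw [MvPolynomial.mem_support_iff] at hγ
    have hγS : γ ∈ S := by
      by_contra h
      exact hγ (hgS γ h)
    have hγD : γ.degree = D := by
      rw [Finsupp.degree_eq_weight_one]
      exact hg hγ
    obtain ⟨c, hc⟩ := (Ideal.mem_span_range_iff_exists_fun).1 (hc γ)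
    rw [← mul_assoc, ← hc, Finset.sum_mul]
    refine sum_mem fun l _ => ?_
    rw [mul_assoc]
    refine Ideal.mul_mem_left _ _ ?_
    have e : U l * ∏ i, U i ^ γ i = ∏ i, U i ^ (γ + Finsupp.single l 1 : Fin (n + 1) →₀ ℕ) i := by
      rw [prod_add, prod_single, pow_one, mul_comm]
    rw [e]
    refine prod_mem_monI ⟨hup γ hγS l, ?_⟩
    rw [map_add, Finsupp.degree_single, hγD]

/-- The colon of a monomial ideal by a power of a variable, up to `β`. -/
theorem colon_monI (hreg : RegUpTo U β L) {S : Set (Fin (n + 1) →₀ ℕ)}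
    (hup : ∀ γ ∈ S, ∀ l, γ + Finsupp.single l 1 ∈ S) {M ℓ : ℕ} (hℓ : ℓ ≤ L)
    (j : Fin (n + 1)) {x : T}
    (hx : U j ^ M * x ∈ monI U S) :
    ∀ t, t + M ≤ ℓ → β ^ (t * (L + 1)) * x ∈
      monI U {γ | γ + Finsupp.single j M ∈ S} ⊔ aI U ^ t := by
  classical
  set S' := {γ | γ + Finsupp.single j M ∈ S}
  have hS' : ∀ s ∈ monI U S', U j ^ M * s ∈ monI U S := by
    intro s hs
    induction hs using Submodule.span_induction with
    | mem y hy =>
      obtain ⟨γ, hγ, rfl⟩ := hy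
      have e : U j ^ M * ∏ l, U l ^ γ l =
          ∏ l, U l ^ (γ + Finsupp.single j M : Fin (n + 1) →₀ ℕ) l := by
        rw [prod_add, prod_single, mul_comm]
      simp only
      rw [e]
      exact prod_mem_monI hγ
    | zero => simp
    | add a b _ _ ha hb => rw [mul_add]; exact add_mem ha hb
    | smul c a _ ha => rw [smul_eq_mul, mul_left_comm]; exact Ideal.mul_mem_left _ c ha
  intro t
  induction t with
  | zero => intro _; rw [pow_zero (aI U), Ideal.one_eq_top, sup_top_eq]; trivial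
  | succ t ih =>
    intro ht
    obtain ⟨s, hs, w, hw, he⟩ := Submodule.mem_sup.1 (ih (by omega))
    obtain ⟨f, hf, rfl⟩ := exists_homog hw
    have hz : U j ^ M * MvPolynomial.eval U f ∈ monI U S := by
      rw [← add_sub_cancel_left s (MvPolynomial.eval U f), he, mul_sub, mul_left_comm]
      exact sub_mem (Ideal.mul_mem_left _ _ hx) (hS' s hs)
    have hzD : U j ^ M * MvPolynomial.eval U f ∈ aI U ^ (t + M) := by
      rw [pow_add, mul_comm (U j ^ M)]
      exact Ideal.mul_mem_mul hw (Ideal.pow_mem_pow (Ideal.subset_span (Set.mem_range_self j)) M)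
    obtain ⟨g, hg, hgS, r, hr, heq⟩ :=
      monI_split (strict hreg hup hz (t + M) (by omega) hzD)
    set F := MvPolynomial.C (β ^ (t + M)) * (f * MvPolynomial.X j ^ M) - g
    have hF : F.IsHomogeneous (t + M) := by
      refine ((hf.mul ?_).C_mul _).sub hg
      simpa using (MvPolynomial.isHomogeneous_X T j).pow M
    have hFe : MvPolynomial.eval U F ∈ aI U ^ (t + M + 1) := by
      have hr' : r ∈ aI U ^ (t + M + 1) := by
        refine Ideal.span_le.2 ?_ hr
        rintro _ ⟨γ, ⟨-, hγ⟩, rfl⟩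
        exact Ideal.pow_le_pow_right hγ (prod_pow_mem γ)
      have : MvPolynomial.eval U F = r := by
        simp only [F, map_sub, map_mul, map_pow, MvPolynomial.eval_C, MvPolynomial.eval_X]
        rw [mul_comm _ (U j ^ M), heq]
        ring
      rwa [this]
    have hc := hreg (t + M) (by omega) F hF hFe
    have key : β ^ (t + M + 1) * MvPolynomial.eval U f ∈ monI U S' ⊔ aI U ^ (t + 1) := by
      rw [MvPolynomial.eval_eq', Finset.mul_sum]
      refine sum_mem fun γ hγ => ?_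
      rw [MvPolynomial.mem_support_iff] at hγ
      by_cases hγS : γ ∈ S'
      · exact Ideal.mul_mem_left _ _
          (Ideal.mul_mem_left _ _ (Submodule.mem_sup_left (prod_mem_monI hγS)))
      · have hγD : γ.degree = t := by
          rw [Finsupp.degree_eq_weight_one]
          exact hf hγ
        have h1 := hc (γ + Finsupp.single j M)
        simp only [F, MvPolynomial.coeff_sub, MvPolynomial.coeff_C_mul,
          MvPolynomial.X_pow_eq_monomial, MvPolynomial.coeff_mul_monomial, hgS _ hγS,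
          sub_zero, mul_one] at h1
        refine Submodule.mem_sup_right ?_
        rw [← mul_assoc, pow_succ' β (t + M), mul_assoc β, pow_succ' (aI U) t]
        exact Ideal.mul_mem_mul h1 (hγD ▸ prod_pow_mem γ)
    have h2 : β ^ (t + M + 1) * (β ^ (t * (L + 1)) * x) ∈ monI U S' ⊔ aI U ^ (t + 1) := by
      rw [← he, mul_add]
      exact add_mem (Ideal.mul_mem_left _ _ (Submodule.mem_sup_left hs)) key
    rw [← mul_assoc, ← pow_add] at h2
    obtain ⟨k, hk⟩ := Nat.exists_eq_add_of_le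
      (show t + M + 1 + t * (L + 1) ≤ (t + 1) * (L + 1) by rw [add_one_mul]; omega)
    rw [hk, pow_add _ _ k, mul_comm _ (β ^ k), mul_assoc]
    exact Ideal.mul_mem_left _ _ h2

/-- The powers of `U` form a regular sequence up to `β` and precision. -/
theorem colon_mI (hreg : RegUpTo U β L) {M i ℓ : ℕ} (hℓ : ℓ ≤ L) (hi : i < n + 1) {x : T}
    (hx : U ⟨i, hi⟩ ^ M * x ∈ mI U M i ℓ) : β ^ (L * (L + 1)) * x ∈ mI U M i (ℓ - M) := by
  rcases lt_or_ge ℓ M with h | h
  · rw [Nat.sub_eq_zero_of_le h.le, mI, pow_zero (aI U), Ideal.one_eq_top, sup_top_eq]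
    trivial
  classical
  let S : Set (Fin (n + 1) →₀ ℕ) :=
    {γ | (∃ l : Fin (n + 1), (l : ℕ) < i ∧ M ≤ γ l) ∨ ℓ ≤ γ.degree}
  have hup : ∀ γ ∈ S, ∀ l, γ + Finsupp.single l 1 ∈ S := by
    rintro γ (⟨l', hl', hγ⟩ | hγ) l
    · exact Or.inl ⟨l', hl', hγ.trans (by simp)⟩
    · exact Or.inr (hγ.trans (by rw [map_add]; omega))
  have hin : mI U M i ℓ ≤ monI U S := by
    refine sup_le (Ideal.span_le.2 ?_) ?_
    · rintro _ ⟨l, hl, rfl⟩
      rw [← prod_single]
      exact prod_mem_monI (Or.inl ⟨l, hl, by simp⟩)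
    · intro w hw
      obtain ⟨f, hf, rfl⟩ := exists_homog hw
      rw [MvPolynomial.eval_eq']
      refine sum_mem fun γ hγ => Ideal.mul_mem_left _ _ (prod_mem_monI (Or.inr ?_))
      rw [Finsupp.degree_eq_weight_one]
      exact (hf (MvPolynomial.mem_support_iff.1 hγ)).ge
  have hout : monI U {γ | γ + Finsupp.single (⟨i, hi⟩ : Fin (n + 1)) M ∈ S} ≤
      mI U M i (ℓ - M) := by
    refine Ideal.span_le.2 ?_
    rintro _ ⟨γ, hγ, rfl⟩
    rcases hγ with ⟨l, hl, hγ⟩ | hγ
    · have hne : (⟨i, hi⟩ : Fin (n + 1)) ≠ l := fun h => by rw [← h] at hl; simp at hl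
      rw [Finsupp.add_apply, Finsupp.single_eq_of_ne hne.symm, add_zero] at hγ
      refine Submodule.mem_sup_left ?_
      show ∏ l, U l ^ γ l ∈ _
      rw [← Finset.mul_prod_erase _ _ (Finset.mem_univ l), ← Nat.add_sub_cancel' hγ, pow_add,
        mul_assoc]
      exact Ideal.mul_mem_right _ _ (Ideal.subset_span ⟨l, hl, rfl⟩)
    · refine Submodule.mem_sup_right (Ideal.pow_le_pow_right ?_ (prod_pow_mem γ))
      rw [map_add, Finsupp.degree_single] at hγ
      omega
  have h1 := colon_monI hreg hup hℓ ⟨i, hi⟩ (hin hx) (ℓ - M) (by omega)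
  have h2 : β ^ ((ℓ - M) * (L + 1)) * x ∈ mI U M i (ℓ - M) :=
    sup_le (α := Ideal T) hout le_sup_right h1
  obtain ⟨k, hk⟩ := Nat.exists_eq_add_of_le
    (show (ℓ - M) * (L + 1) ≤ L * (L + 1) from Nat.mul_le_mul_right _ (by omega))
  rw [hk, pow_add, mul_comm _ (β ^ k), mul_assoc]
  exact Ideal.mul_mem_left _ _ h2

/-- The acyclicity induction: modulo the powers of the first `i` elements. -/
theorem acyclic_step (hreg : RegUpTo U β L) (Q : MCx (T ⧸ aI U ^ L)) {M : ℕ}
    (hQ : ∀ b, Q.deg b ≤ n + 1)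
    (hnull : ∀ l, Q.IsNullHtpic (Ideal.Quotient.mk (aI U ^ L) (β * U l ^ M))) :
    ∀ k i, i + k = n + 1 → ∀ m : ℕ, i + 1 ≤ m → ∀ ℓ ≤ L, ∀ v ∈ Q.degSub (T ⧸ aI U ^ L) m,
      (∀ a, mlin (T ⧸ aI U ^ L) Q.D v a ∈ (mI U M i ℓ).map (Ideal.Quotient.mk (aI U ^ L))) →
      ∃ x ∈ Q.degSub (T ⧸ aI U ^ L) (m + 1), ∀ a,
        Ideal.Quotient.mk (aI U ^ L) (β ^ (k * (1 + L * (L + 1)))) * v a -
            mlin (T ⧸ aI U ^ L) Q.D x a ∈
          (mI U M i (ℓ - k * M)).map (Ideal.Quotient.mk (aI U ^ L)) := by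
  classical
  set N := T ⧸ aI U ^ L
  set mk := Ideal.Quotient.mk (aI U ^ L)
  intro k
  induction k with
  | zero =>
    intro i hi m hm ℓ _ v hv _
    refine ⟨0, zero_mem _, fun a => ?_⟩
    rw [(MCx.mem_degSub N).1 hv a (by have := hQ a; omega)]
    simp
  | succ k ih =>
    intro i hi m hm ℓ hℓ v hv hDv
    obtain ⟨h, hdeg, hh⟩ := hnull ⟨i, by omega⟩
    set J : ℕ → ℕ → Ideal N := fun i ℓ => (mI U M i ℓ).map mk
    have hJmono : ∀ {i ℓ ℓ'}, ℓ' ≤ ℓ → J i ℓ ≤ J i ℓ' := fun hle =>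
      Ideal.map_mono (sup_le_sup_left (Ideal.pow_le_pow_right hle) _)
    have hJi : ∀ ℓ, J i ℓ ≤ J (i + 1) ℓ := fun ℓ => Ideal.map_mono
      (sup_le_sup_right (Ideal.span_mono (by rintro x ⟨l, hl, e⟩; exact ⟨l, by omega, e⟩)) _)
    set Ui := mk (U ⟨i, by omega⟩ ^ M)
    have hUJ : ∀ ℓ, Ui ∈ J (i + 1) ℓ := fun ℓ => Ideal.mem_map_of_mem _
      (Submodule.mem_sup_left (Ideal.subset_span ⟨_, by simp, rfl⟩))
    have happ : ∀ a, mk β * Ui * v a =
        mlin N Q.D (mlin N h v) a + mlin N h (mlin N Q.D v) a := fun a => by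
      rw [← mlin_mul, ← mlin_mul, ← Pi.add_apply, ← mlin_add, hh, mlin_smul, mlin_one,
        Pi.smul_apply, smul_eq_mul, map_mul]
    have hhD : ∀ a, mlin N h (mlin N Q.D v) a ∈ J i ℓ := fun a => by
      rw [mlin_apply]
      exact sum_mem fun b _ => Ideal.mul_mem_left _ _ (hDv b)
    have hw : mlin N h v ∈ Q.degSub N ((m : ℤ) + 1) :=
      MCx.mlin_deg N h 1 m (fun a b hab => by rw [hdeg a b hab]; push_cast; rfl) hv
    obtain ⟨x, hx, hxJ⟩ := ih (i + 1) (by omega) (m + 1) (by omega) ℓ hℓ (mlin N h v)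
      (by exact_mod_cast hw) (fun a => by
        rw [← add_sub_cancel_right (mlin N Q.D (mlin N h v) a) (mlin N h (mlin N Q.D v) a),
          ← happ a]
        exact sub_mem (Ideal.mul_mem_right _ _ (Ideal.mul_mem_left _ _ (hUJ ℓ))) (hJi ℓ (hhD a)))
    set C := k * (1 + L * (L + 1))
    set j : Q.β → N := fun b => mk (β ^ C) * mlin N h v b - mlin N Q.D x b
    have hDx : mlin N Q.D x ∈ Q.degSub N ((m + 1 : ℕ) : ℤ) := by
      have := MCx.mlin_deg N Q.D (-1) _
        (fun a b hab => by have := Q.homog a b hab; omega) hx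
      rwa [add_neg_cancel_right] at this
    have hjdeg : ∀ b, (Q.deg b : ℤ) ≠ ((m + 1 : ℕ) : ℤ) → j b = 0 := fun b hb => by
      simp [j, (MCx.mem_degSub N).1 hw b (by exact_mod_cast hb), (MCx.mem_degSub N).1 hDx b hb]
    -- split off the new power
    have hsplit : ∀ b, ∃ j0 ∈ J i (ℓ - k * M), ∃ y : N, j b = j0 + Ui * y ∧
        ((Q.deg b : ℤ) ≠ ((m + 1 : ℕ) : ℤ) → y = 0) := by
      intro b
      by_cases hb : (Q.deg b : ℤ) = ((m + 1 : ℕ) : ℤ)
      swap
      · exact ⟨0, zero_mem _, 0, by simp [hjdeg b hb], fun _ => rfl⟩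
      obtain ⟨z, hz, hze⟩ := (Ideal.mem_map_iff_of_surjective mk Ideal.Quotient.mk_surjective).1
        (hxJ b)
      have hz' : z ∈ mI U M i (ℓ - k * M) ⊔ Ideal.span {U ⟨i, by omega⟩ ^ M} := by
        refine sup_le (α := Ideal T) (Ideal.span_le.2 ?_) (le_sup_right.trans le_sup_left) hz
        rintro _ ⟨l, hl, rfl⟩
        rcases Nat.lt_succ_iff_lt_or_eq.1 hl with hl | hl
        · exact Submodule.mem_sup_left (Submodule.mem_sup_left (Ideal.subset_span ⟨l, hl, rfl⟩))
        · exact Submodule.mem_sup_right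
            (Ideal.subset_span (by simp [show l = ⟨i, by omega⟩ from Fin.ext hl]))
      obtain ⟨z0, hz0, z1, hz1, rfl⟩ := Submodule.mem_sup.1 hz'
      obtain ⟨y, rfl⟩ := Ideal.mem_span_singleton'.1 hz1
      refine ⟨mk z0, Ideal.mem_map_of_mem _ hz0, mk y, ?_, fun hb' => absurd hb hb'⟩
      show mk (β ^ C) * mlin N h v b - mlin N Q.D x b = _
      rw [← hze, map_add, map_mul, mul_comm (mk y)]
    choose j0 hj0 y hy hy0 using hsplit
    refine ⟨mk (β ^ (L * (L + 1))) • y, Submodule.smul_mem _ _ ((MCx.mem_degSub N).2 fun b hb =>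
      hy0 b (by exact_mod_cast hb)), fun a => ?_⟩
    have hDD : mlin N Q.D (mlin N Q.D x) a = 0 := by
      rw [← mlin_mul, Q.sq]; simp [mlin_apply]
    have e1 : mk (β ^ C) * mlin N Q.D (mlin N h v) a =
        mlin N Q.D j0 a + Ui * mlin N Q.D y a := by
      have : mk (β ^ C) • mlin N h v = j0 + Ui • y + mlin N Q.D x := by
        funext b
        simp only [Pi.add_apply, Pi.smul_apply, smul_eq_mul, ← hy b, j]
        ring
      have := congrFun (congrArg (mlin N Q.D) this) a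
      simpa [map_add, map_smul, hDD] using this
    have hmem : Ui * (mk (β ^ (C + 1)) * v a - mlin N Q.D y a) ∈ J i (ℓ - k * M) := by
      have : Ui * (mk (β ^ (C + 1)) * v a - mlin N Q.D y a) =
          mlin N Q.D j0 a + mk (β ^ C) * mlin N h (mlin N Q.D v) a := by
        have := congrArg (fun t => mk (β ^ C) * t) (happ a)
        simp only [mul_add, e1] at this
        rw [pow_succ, map_mul, mul_sub]
        linear_combination this
      rw [this]
      refine add_mem ?_ (Ideal.mul_mem_left _ _ (hJmono (Nat.sub_le _ _) (hhD a)))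
      rw [mlin_apply]
      exact sum_mem fun b _ => Ideal.mul_mem_left _ _ (hj0 b)
    obtain ⟨q, hq⟩ := Ideal.Quotient.mk_surjective (mk (β ^ (C + 1)) * v a - mlin N Q.D y a)
    rw [← hq, ← map_mul, Ideal.mem_quotient_iff_mem
      (((Ideal.pow_le_pow_right ((Nat.sub_le _ _).trans hℓ)).trans le_sup_right))] at hmem
    have hcol := Ideal.mem_map_of_mem mk (colon_mI hreg ((Nat.sub_le _ _).trans hℓ) (by omega) hmem)
    rw [map_mul, hq, Nat.sub_sub, ← add_one_mul, mul_sub, ← mul_assoc, ← map_mul, ← pow_add] at hcol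
    rw [show (k + 1) * (1 + L * (L + 1)) = L * (L + 1) + (C + 1) by simp only [C]; ring]
    simpa [map_smul] using hcol

/-- Acyclicity in positive degree, up to `β` and precision. -/
theorem acyclic (hreg : RegUpTo U β L) (Q : MCx (T ⧸ aI U ^ L)) {M : ℕ}
    (hQ : ∀ b, Q.deg b ≤ n + 1)
    (hnull : ∀ l, Q.IsNullHtpic (Ideal.Quotient.mk (aI U ^ L) (β * U l ^ M))) (k : ℕ)
    (v : Q.β → T ⧸ aI U ^ L) (hv : v ∈ Q.degSub (T ⧸ aI U ^ L) ((k + 1 : ℕ) : ℤ))
    (hDv : Q.dlin (T ⧸ aI U ^ L) v = 0) :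
    ∃ x ∈ Q.degSub (T ⧸ aI U ^ L) (((k + 1 : ℕ) : ℤ) + 1), ∀ a,
      Ideal.Quotient.mk (aI U ^ L) (β ^ ((n + 1) * (1 + L * (L + 1)))) * v a -
          Q.dlin (T ⧸ aI U ^ L) x a ∈
        (aI U ^ (L - (n + 1) * M)).map (Ideal.Quotient.mk (aI U ^ L)) := by
  obtain ⟨x, hx, h⟩ := acyclic_step hreg Q hQ hnull (n + 1) 0 (by omega) (k + 1) (by omega) L le_rfl
    v hv (fun a => by rw [show mlin _ Q.D v = Q.dlin _ v from rfl, hDv]; exact zero_mem _)
  refine ⟨x, hx, fun a => ?_⟩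
  have e : mI U M 0 (L - (n + 1) * M) = aI U ^ (L - (n + 1) * M) := by simp [mI]
  rw [← e]
  exact h a

end Vale.Agent.P202.Mixed2
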