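import Vale.Agent.P202.Mixed2.WinFlatGd
import Vale.Agent.P202.Char.Matrix

/-!
P202, mixed characteristic: complexes over `R` pushed to `T` along a map which is additive and,
up to `β`, multiplicative modulo an ideal. The result is a `Win.Lift` with loss `β ^ 3`, and the
homology in degree zero of the complex maps to that of the lift with dense image up to `β ^ 3`.
-/

namespace Vale.Agent.P202.Mixed2

open Vale.Agent.P202.Char

universe u v

/-- A map additive and, up to `β`, multiplicative modulo `𝔞`. -/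
structure AlmostHom (R : Type u) [CommRing R] {T : Type v} [CommRing T] (𝔞 : Ideal T) (β : T) where
  /-- The map. -/
  toFun : R → T
  map_add : ∀ x y, toFun (x + y) - (toFun x + toFun y) ∈ 𝔞
  map_one : toFun 1 - β ∈ 𝔞
  map_mul : ∀ x y, toFun x * toFun y - β * toFun (x * y) ∈ 𝔞

namespace AlmostHom

variable {R : Type u} [CommRing R] {T : Type v} [CommRing T] {𝔞 : Ideal T} {β : T}
variable (s : AlmostHom R 𝔞 β)

theorem map_zero : s.toFun 0 ∈ 𝔞 := by
  have h := s.map_add 0 0
  rw [add_zero, show s.toFun 0 - (s.toFun 0 + s.toFun 0) = -s.toFun 0 by ring, neg_mem_iff] at h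
  exact h

theorem map_sum {ι : Type*} (t : Finset ι) (f : ι → R) :
    s.toFun (∑ i ∈ t, f i) - ∑ i ∈ t, s.toFun (f i) ∈ 𝔞 := by
  classical
  induction t using Finset.induction with
  | empty => simpa using s.map_zero
  | insert a t ha ih =>
    rw [Finset.sum_insert ha, Finset.sum_insert ha,
      show s.toFun (f a + ∑ i ∈ t, f i) - (s.toFun (f a) + ∑ i ∈ t, s.toFun (f i)) =
        (s.toFun (f a + ∑ i ∈ t, f i) - (s.toFun (f a) + s.toFun (∑ i ∈ t, f i))) +
          (s.toFun (∑ i ∈ t, f i) - ∑ i ∈ t, s.toFun (f i)) by ring]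
    exact add_mem (s.map_add _ _) ih

/-- A combination of products against the value of the combination. -/
theorem sum_mul {ι : Type*} (t : Finset ι) (f g : ι → R) :
    ∑ i ∈ t, s.toFun (f i) * s.toFun (g i) - β * s.toFun (∑ i ∈ t, f i * g i) ∈ 𝔞 := by
  rw [show ∑ i ∈ t, s.toFun (f i) * s.toFun (g i) - β * s.toFun (∑ i ∈ t, f i * g i) =
    (∑ i ∈ t, (s.toFun (f i) * s.toFun (g i) - β * s.toFun (f i * g i))) -
      β * (s.toFun (∑ i ∈ t, f i * g i) - ∑ i ∈ t, s.toFun (f i * g i)) by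
    rw [Finset.sum_sub_distrib, ← Finset.mul_sum]; ring]
  exact sub_mem (Ideal.sum_mem _ fun i _ => s.map_mul _ _) (𝔞.mul_mem_left _ (s.map_sum t _))

/-- The value at a single nonzero degree. -/
theorem eq_zero_mem {x : R} (h : x = 0) : s.toFun x ∈ 𝔞 := h ▸ s.map_zero

variable (Q : MCx R)

/-- The differential pushed along `s`. -/
def pushD : Matrix Q.β Q.β T :=
  Matrix.of fun a b => if Q.deg b = Q.deg a + 1 then β * s.toFun (Q.D a b) else 0

theorem pushD_congr (a b : Q.β) : s.pushD Q a b - β * s.toFun (Q.D a b) ∈ 𝔞 := by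
  simp only [pushD, Matrix.of_apply]
  split_ifs with h
  · rw [sub_self]
    exact zero_mem _
  · have h0 : Q.D a b = 0 := by
      by_contra hne
      exact h (Q.homog a b hne)
    rw [h0, zero_sub, neg_mem_iff]
    exact 𝔞.mul_mem_left _ s.map_zero

theorem pushD_sq (a c : Q.β) : (s.pushD Q * s.pushD Q) a c ∈ 𝔞 := by
  have h1 := s.sum_mul Finset.univ (fun b => Q.D a b) fun b => Q.D b c
  have h2 : ∑ b, Q.D a b * Q.D b c = 0 := by
    have := congrFun (congrFun Q.sq a) c
    rwa [Matrix.mul_apply] at this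
  simp only [h2] at h1
  have h3 : ∑ b, s.toFun (Q.D a b) * s.toFun (Q.D b c) ∈ 𝔞 := by
    have := add_mem h1 (𝔞.mul_mem_left β s.map_zero)
    simpa using this
  rw [Matrix.mul_apply,
    show ∑ b, s.pushD Q a b * s.pushD Q b c =
      (∑ b, ((s.pushD Q a b - β * s.toFun (Q.D a b)) * s.pushD Q b c +
        β * s.toFun (Q.D a b) * (s.pushD Q b c - β * s.toFun (Q.D b c)))) +
        β * β * ∑ b, s.toFun (Q.D a b) * s.toFun (Q.D b c) by
      rw [Finset.mul_sum, ← Finset.sum_add_distrib]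
      exact Finset.sum_congr rfl fun b _ => by ring]
  exact add_mem (Ideal.sum_mem _ fun b _ => add_mem (𝔞.mul_mem_right _ (s.pushD_congr Q a b))
    (𝔞.mul_mem_left _ (s.pushD_congr Q b c))) (𝔞.mul_mem_left _ h3)

/-- A homotopy pushed along `s`. -/
def pushH (η : Matrix Q.β Q.β R) : Matrix Q.β Q.β T :=
  Matrix.of fun a b => if Q.deg a = Q.deg b + 1 then s.toFun (η a b) else 0

variable {Q}

theorem pushH_congr {η : Matrix Q.β Q.β R} (hη : ∀ a b, η a b ≠ 0 → Q.deg a = Q.deg b + 1)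
    (a b : Q.β) : s.pushH Q η a b - s.toFun (η a b) ∈ 𝔞 := by
  simp only [pushH, Matrix.of_apply]
  split_ifs with h
  · rw [sub_self]
    exact zero_mem _
  · have h0 : η a b = 0 := by
      by_contra hne
      exact h (hη a b hne)
    rw [h0, zero_sub, neg_mem_iff]
    exact s.map_zero

theorem push_htpy {y : R} {η : Matrix Q.β Q.β R}
    (hη : ∀ a b, η a b ≠ 0 → Q.deg a = Q.deg b + 1)
    (he : Q.D * η + η * Q.D = y • (1 : Matrix Q.β Q.β R)) {w : T} (hy : s.toFun y - β * w ∈ 𝔞)
    (a c : Q.β) :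
    (s.pushD Q * s.pushH Q η + s.pushH Q η * s.pushD Q) a c - (if a = c then β ^ 3 * w else 0) ∈
      𝔞 := by
  have hsum : ∑ b, Q.D a b * η b c + ∑ b, η a b * Q.D b c = if a = c then y else 0 := by
    have := congrFun (congrFun he a) c
    simpa [Matrix.add_apply, Matrix.mul_apply, Matrix.smul_apply, Matrix.one_apply] using this
  have h1 := s.sum_mul Finset.univ (fun b => Q.D a b) fun b => η b c
  have h2 := s.sum_mul Finset.univ (fun b => η a b) fun b => Q.D b c
  have h3 := s.map_add (∑ b, Q.D a b * η b c) (∑ b, η a b * Q.D b c)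
  rw [hsum] at h3
  have h4 : s.toFun (if a = c then y else 0) - (if a = c then β * w else 0) ∈ 𝔞 := by
    split_ifs
    · exact hy
    · simpa using s.map_zero
  rw [Matrix.add_apply, Matrix.mul_apply, Matrix.mul_apply,
    show (∑ b, s.pushD Q a b * s.pushH Q η b c) + (∑ b, s.pushH Q η a b * s.pushD Q b c) -
        (if a = c then β ^ 3 * w else 0) =
      (∑ b, ((s.pushD Q a b - β * s.toFun (Q.D a b)) * s.pushH Q η b c +
          β * s.toFun (Q.D a b) * (s.pushH Q η b c - s.toFun (η b c)))) +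
      (∑ b, ((s.pushH Q η a b - s.toFun (η a b)) * s.pushD Q b c +
          s.toFun (η a b) * (s.pushD Q b c - β * s.toFun (Q.D b c)))) +
      β * ((∑ b, s.toFun (Q.D a b) * s.toFun (η b c) - β * s.toFun (∑ b, Q.D a b * η b c)) +
        (∑ b, s.toFun (η a b) * s.toFun (Q.D b c) - β * s.toFun (∑ b, η a b * Q.D b c)) -
        β * (s.toFun (if a = c then y else 0) -
          (s.toFun (∑ b, Q.D a b * η b c) + s.toFun (∑ b, η a b * Q.D b c))) +
        β * (s.toFun (if a = c then y else 0) - (if a = c then β * w else 0))) by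
      have e1 : ∀ (F G : Q.β → T), ∑ b, (F b + G b) = ∑ b, F b + ∑ b, G b := fun F G =>
        Finset.sum_add_distrib
      simp only [e1, sub_mul, mul_sub, Finset.sum_sub_distrib, mul_assoc, mul_left_comm _ β,
        ← Finset.mul_sum]
      split_ifs <;> ring]
  exact add_mem (add_mem
    (Ideal.sum_mem _ fun b _ => add_mem (𝔞.mul_mem_right _ (s.pushD_congr Q a b))
      (𝔞.mul_mem_left _ (s.pushH_congr hη b c)))
    (Ideal.sum_mem _ fun b _ => add_mem (𝔞.mul_mem_right _ (s.pushH_congr hη a b))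
      (𝔞.mul_mem_left _ (s.pushD_congr Q b c))))
    (𝔞.mul_mem_left _ (add_mem (sub_mem (add_mem h1 h2) (𝔞.mul_mem_left _ h3))
      (𝔞.mul_mem_left _ h4)))

variable (Q) {n : ℕ} {U : Fin (n + 1) → T}

/-- The lift of a complex over `R` with entries in `m`, bounded by `J` under `β • s`. -/
noncomputable def lift {L : ℕ} (s : AlmostHom R (aI U ^ L) β) (hdeg : ∀ b, Q.deg b ≤ n + 1)
    {m : Ideal R} (hQ : Q.EntriesIn m) {J : ℕ} (hJ : ∀ x ∈ m, β * s.toFun x ∈ aI U ^ J)
    (y : Fin (n + 1) → R) (M : ℕ) (hy : ∀ l, s.toFun (y l) - β * U l ^ M ∈ aI U ^ L)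
    (hnull : ∀ l, Q.IsNullHtpic (y l)) : Win.Lift U (β ^ 3) L J M where
  ι := Q.β
  deg := Q.deg
  deg_le := hdeg
  D := s.pushD Q
  mem a b := by
    simp only [pushD, Matrix.of_apply]
    split_ifs
    · exact hJ _ (hQ a b)
    · exact zero_mem _
  homog a b h := by simp [pushD, h]
  sq := s.pushD_sq Q
  h l := s.pushH Q (hnull l).choose
  h_deg l a b h := by simp [pushH, h]
  htpy l a c := s.push_htpy (hnull l).choose_spec.1 (hnull l).choose_spec.2 (hy l) a c

theorem lift_deg {L : ℕ} (s : AlmostHom R (aI U ^ L) β) (hdeg : ∀ b, Q.deg b ≤ n + 1)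
    {m : Ideal R} (hQ : Q.EntriesIn m) {J : ℕ} (hJ : ∀ x ∈ m, β * s.toFun x ∈ aI U ^ J)
    (y : Fin (n + 1) → R) (M : ℕ) (hy : ∀ l, s.toFun (y l) - β * U l ^ M ∈ aI U ^ L)
    (hnull : ∀ l, Q.IsNullHtpic (y l)) (b : Q.β) :
    (s.lift Q hdeg hQ hJ y M hy hnull).deg b = Q.deg b := rfl

section Compare

variable {R : Type u} [CommRing R] {T : Type v} [CommRing T] {β : T} {n : ℕ} {U : Fin (n + 1) → T}
variable {L J M : ℕ} (s : AlmostHom R (aI U ^ L) β) (Q : MCx R) (hdeg : ∀ b, Q.deg b ≤ n + 1)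
variable {m : Ideal R} (hQ : Q.EntriesIn m) (hJ : ∀ x ∈ m, β * s.toFun x ∈ aI U ^ J)
variable (y : Fin (n + 1) → R) (hy : ∀ l, s.toFun (y l) - β * U l ^ M ∈ aI U ^ L)
variable (hnull : ∀ l, Q.IsNullHtpic (y l))

/-- The homology in degree zero maps semilinearly to that of the lift, and the image spans up to
`β ^ 3`. -/
theorem exists_compare {B : ℕ} (hB : B ≤ L) :
    ∃ Ψ : H0 Q →+ (s.lift Q hdeg hQ hJ y M hy hnull).h0B B,
      (∀ (a : R) (c : T), (∀ x, s.toFun (a * x) - c * s.toFun x ∈ aI U ^ L) →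
        ∀ z, Ψ (a • z) = c • Ψ z) ∧
      ∀ w, β ^ 3 • w ∈ Submodule.span T (Set.range Ψ) := by
  classical
  set P := s.lift Q hdeg hQ hJ y M hy hnull
  set 𝔟 := aI U ^ B
  have h𝔟 : ∀ {z : T}, z ∈ aI U ^ L → z ∈ 𝔟 := fun hz => Ideal.pow_le_pow_right hB hz
  set N := (P.img0B B).comap P.deg0.subtype
  let pre : Deg0 Q → ↥(P.deg0) := fun x =>
    ⟨fun b => if Q.deg b = 0 then β ^ 2 * s.toFun (x.1 b) else 0, fun b _ => by
      show (if Q.deg b = 0 then _ else 0) ∈ (if Q.deg b = 0 then (⊤ : Submodule T T) else ⊥)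
      split_ifs
      · trivial
      · exact zero_mem _⟩
  have hcong : ∀ u v : ↥(P.deg0), (∀ b, u.1 b - v.1 b ∈ 𝔟) →
      Submodule.Quotient.mk (p := N) u = Submodule.Quotient.mk v := fun u v h =>
    (Submodule.Quotient.eq N).2 (Submodule.mem_comap.2 (Submodule.mem_sup_right fun b _ => h b))
  have hadd : ∀ u v : Deg0 Q, Submodule.Quotient.mk (p := N) (pre (u + v)) =
      Submodule.Quotient.mk (pre u) + Submodule.Quotient.mk (pre v) := by
    intro u v
    rw [← Submodule.Quotient.mk_add]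
    refine hcong _ _ fun b => ?_
    show (if Q.deg b = 0 then β ^ 2 * s.toFun (u.1 b + v.1 b) else 0) -
      ((if Q.deg b = 0 then β ^ 2 * s.toFun (u.1 b) else 0) +
        (if Q.deg b = 0 then β ^ 2 * s.toFun (v.1 b) else 0)) ∈ 𝔟
    split_ifs
    · rw [← mul_add, ← mul_sub]
      exact 𝔟.mul_mem_left _ (h𝔟 (s.map_add _ _))
    · simp
  let ψ : Deg0 Q →+ P.h0B B := AddMonoidHom.mk' (fun x => Submodule.Quotient.mk (pre x)) hadd
  have hsemi : ∀ (a : R) (c : T), (∀ x, s.toFun (a * x) - c * s.toFun x ∈ aI U ^ L) →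
      ∀ x, ψ (a • x) = c • ψ x := by
    intro a c hac x
    show Submodule.Quotient.mk (p := N) (pre (a • x)) = c • Submodule.Quotient.mk (pre x)
    rw [← Submodule.Quotient.mk_smul]
    refine hcong _ _ fun b => ?_
    show (if Q.deg b = 0 then β ^ 2 * s.toFun (a * x.1 b) else 0) -
      c * (if Q.deg b = 0 then β ^ 2 * s.toFun (x.1 b) else 0) ∈ 𝔟
    split_ifs
    · rw [show β ^ 2 * s.toFun (a * x.1 b) - c * (β ^ 2 * s.toFun (x.1 b)) =
        β ^ 2 * (s.toFun (a * x.1 b) - c * s.toFun (x.1 b)) by ring]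
      exact 𝔟.mul_mem_left _ (h𝔟 (hac _))
    · simp
  have hker : ∀ x ∈ img0 Q, ψ x = 0 := by
    intro x hx
    obtain ⟨v, hv, hvx⟩ := Submodule.mem_map.1 hx
    show Submodule.Quotient.mk (p := N) (pre x) = 0
    rw [Submodule.Quotient.mk_eq_zero]
    let g : Q.β → T := fun b => if Q.deg b = 1 then s.toFun (v b) else 0
    have hgv : ∀ b, g b - s.toFun (v b) ∈ aI U ^ L := by
      intro b
      simp only [g]
      split_ifs with h
      · simp
      · rw [(MCx.mem_degSub R).1 hv b (by exact_mod_cast h), zero_sub, neg_mem_iff]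
        exact s.map_zero
    refine Submodule.mem_comap.2 (Submodule.mem_sup.2 ⟨P.scal T g, Submodule.mem_map_of_mem
      (fun (b : Q.β) _ => ?_), (pre x).1 - P.scal T g, fun (b : Q.β) _ => ?_, by simp⟩)
    · show g b ∈ (if Q.deg b = 1 then (⊤ : Submodule T T) else ⊥)
      simp only [g]
      split_ifs
      · trivial
      · exact zero_mem _
    · have hx0 : ∀ b, ∑ c, Q.D b c * v c = x.1 b := fun b => by
        have := congrFun hvx b
        simpa [MCx.dlin] using this
      have h1 : β * s.toFun (x.1 b) - ∑ c, s.toFun (Q.D b c) * s.toFun (v c) ∈ aI U ^ L := by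
        rw [← hx0, ← neg_mem_iff, neg_sub]
        exact s.sum_mul Finset.univ (fun c => Q.D b c) v
      have h2 : ∀ c : Q.β, s.pushD Q b c * g c - β * (s.toFun (Q.D b c) * s.toFun (v c)) ∈
          aI U ^ L := fun c => by
        rw [show s.pushD Q b c * g c - β * (s.toFun (Q.D b c) * s.toFun (v c)) =
          (s.pushD Q b c - β * s.toFun (Q.D b c)) * g c + β * s.toFun (Q.D b c) * (g c - s.toFun (v c))
          by ring]
        exact add_mem (Ideal.mul_mem_right _ _ (s.pushD_congr Q b c))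
          (Ideal.mul_mem_left _ _ (hgv c))
      refine h𝔟 ?_
      show (if Q.deg b = 0 then β ^ 2 * s.toFun (x.1 b) else 0) - P.scal T g b ∈ aI U ^ L
      have hscal : P.scal T g b = ∑ c : Q.β, s.pushD Q b c * g c := Win.Lift.scal_apply P g b
      rw [hscal]
      have h3 := Ideal.sum_mem (aI U ^ L) (fun c (_ : c ∈ Finset.univ) => h2 c)
      rw [Finset.sum_sub_distrib, ← Finset.mul_sum] at h3
      have h4 : (if Q.deg b = 0 then β ^ 2 * s.toFun (x.1 b) else 0) - β ^ 2 * s.toFun (x.1 b) ∈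
          aI U ^ L := by
        split_ifs with h
        · simp
        · rw [(MCx.mem_degSub R).1 x.2 b (by exact_mod_cast h), zero_sub, neg_mem_iff]
          exact Ideal.mul_mem_left _ _ s.map_zero
      have h5 := add_mem h4 (sub_mem (Ideal.mul_mem_left _ β h1) h3)
      convert h5 using 1
      ring
  let Ψ : H0 Q →+ P.h0B B := QuotientAddGroup.lift (img0 Q).toAddSubgroup ψ hker
  refine ⟨Ψ, fun a c hac z => ?_, fun w => ?_⟩
  · induction z using Submodule.Quotient.induction_on with | _ x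
    exact hsemi a c hac x
  · induction w using Submodule.Quotient.induction_on with | _ u
    have hbasis : ∀ b₀ : Q.β, Q.deg b₀ = 0 → ∃ x : Deg0 Q, ∀ b : Q.β,
        (pre x).1 b - (if b = b₀ then β ^ 3 else 0) ∈ 𝔟 := by
      intro b₀ hb₀
      refine ⟨⟨Pi.single b₀ 1, (MCx.mem_degSub R).2 fun b hb =>
        Pi.single_eq_of_ne (by rintro rfl; exact hb (by simp [hb₀])) _⟩, fun b => ?_⟩
      show (if Q.deg b = 0 then β ^ 2 * s.toFun ((Pi.single b₀ (1 : R) : Q.β → R) b) else 0) - _ ∈ 𝔟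
      by_cases h : b = b₀
      · subst h
        rw [if_pos hb₀, if_pos rfl, Pi.single_eq_same,
          show β ^ 2 * s.toFun 1 - β ^ 3 = β ^ 2 * (s.toFun 1 - β) by ring]
        exact 𝔟.mul_mem_left _ (h𝔟 s.map_one)
      · rw [if_neg h, Pi.single_eq_of_ne h, sub_zero]
        split_ifs
        · exact 𝔟.mul_mem_left _ (h𝔟 s.map_zero)
        · exact zero_mem _
    choose xb hxb using hbasis
    let x' : Q.β → ↥(P.deg0) := fun b₀ => if h : Q.deg b₀ = 0 then pre (xb b₀ h) else 0
    have hmain : Submodule.Quotient.mk (p := N) (β ^ 3 • u) =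
        Submodule.Quotient.mk (∑ b₀, u.1 b₀ • x' b₀) := by
      refine hcong _ _ fun b => ?_
      rw [Submodule.coe_sum, Finset.sum_apply,
        show (β ^ 3 • u : ↥(P.deg0)).1 b = β ^ 3 * u.1 b from rfl,
        show β ^ 3 * u.1 b = ∑ b₀, u.1 b₀ * (if b = b₀ then β ^ 3 else 0) by
          simp [mul_comm], ← Finset.sum_sub_distrib]
      refine Ideal.sum_mem _ fun b₀ _ => ?_
      rw [show (u.1 b₀ • x' b₀ : ↥(P.deg0)).1 b = u.1 b₀ * (x' b₀).1 b from rfl, ← mul_sub,
        ← neg_mem_iff, ← mul_neg, neg_sub]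
      by_cases h : Q.deg b₀ = 0
      · simp only [x', dif_pos h]
        convert 𝔟.mul_mem_left (u.1 b₀) (hxb b₀ h b) using 4
        all_goals exact Iff.rfl
      · have hu : u.1 b₀ ∈ (⊥ : Submodule T T) := by
          have := u.2 b₀ trivial
          simp only [SetLike.mem_coe] at this
          rwa [show P.deg b₀ = Q.deg b₀ from rfl, if_neg h] at this
        rw [(Submodule.mem_bot T).1 hu, zero_mul]
        exact zero_mem _
    rw [← Submodule.Quotient.mk_smul, hmain, ← Submodule.mkQ_apply, _root_.map_sum]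
    refine Submodule.sum_mem _ fun b₀ _ => ?_
    rw [map_smul, Submodule.mkQ_apply]
    refine Submodule.smul_mem _ _ ?_
    by_cases h : Q.deg b₀ = 0
    · simp only [x', dif_pos h]
      exact Submodule.subset_span ⟨Submodule.Quotient.mk (xb b₀ h), rfl⟩
    · simp only [x', dif_neg h, Submodule.Quotient.mk_zero]
      exact zero_mem _

end Compare

end AlmostHom

end Vale.Agent.P202.Mixed2
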