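import Mathlib

/-!
P202 mixed characteristic: a primitive element, its minimal polynomial and its conductor, for a
finite extension of domains over an integrally closed base; the determinant bound.
-/

namespace Vale.Agent.P202.Mixed2

open IsLocalRing Polynomial

set_option linter.unusedSectionVars false

universe u v

namespace ChoicesAlg

section Frac

variable {A : Type u} {R : Type v} [CommRing A] [IsDomain A] [CommRing R] [IsDomain R]
  [Algebra A R] [FaithfulSMul A R] [Module.Finite A R]

attribute [local instance] FractionRing.liftAlgebra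

theorem exists_mul_eq (y : FractionRing R) :
    ∃ (a : R) (b : A), b ≠ 0 ∧
      y * algebraMap A (FractionRing R) b = algebraMap R (FractionRing R) a := by
  obtain ⟨⟨a, s⟩, h⟩ := IsLocalization.surj (nonZeroDivisors R) y
  obtain ⟨b, hb, t, ht⟩ := (Algebra.IsIntegral.isIntegral (R := A) (s : R)).isAlgebraic
    |>.exists_nonzero_dvd s.2
  refine ⟨a * t, b, hb, ?_⟩
  rw [IsScalarTower.algebraMap_apply A R (FractionRing R), ht, map_mul, ← mul_assoc]
  simp only at h
  rw [h, map_mul]

theorem finiteDimensional : FiniteDimensional (FractionRing A) (FractionRing R) := by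
  obtain ⟨s, hs⟩ := (Module.Finite.fg_top : (⊤ : Submodule A R).FG)
  classical
  refine ⟨⟨s.image (algebraMap R (FractionRing R)), eq_top_iff.2 fun y _ => ?_⟩⟩
  obtain ⟨a, b, hb, hy⟩ := exists_mul_eq (A := A) y
  have hb' : algebraMap A (FractionRing A) b ≠ 0 :=
    (map_ne_zero_iff _ (IsFractionRing.injective A (FractionRing A))).2 hb
  have hy' : y = (algebraMap A (FractionRing A) b)⁻¹ • algebraMap R (FractionRing R) a := by
    rw [← hy, Algebra.smul_def, IsScalarTower.algebraMap_apply A (FractionRing A) (FractionRing R),
      map_inv₀, mul_comm y, inv_mul_cancel_left₀ (by simpa using hb')]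
  rw [hy']
  refine Submodule.smul_mem _ _ ?_
  have ha : a ∈ Submodule.span A (s : Set R) := hs ▸ Submodule.mem_top
  clear hy hy'
  induction ha using Submodule.span_induction with
  | mem x hx => exact Submodule.subset_span (Finset.mem_coe.2 (Finset.mem_image_of_mem _ hx))
  | zero => simp
  | add x z _ _ hx hz => rw [map_add]; exact add_mem hx hz
  | smul c x _ hx =>
    rw [Algebra.smul_def, map_mul, ← IsScalarTower.algebraMap_apply A R (FractionRing R),
      ← Algebra.smul_def, ← algebraMap_smul (FractionRing A) c (algebraMap R (FractionRing R) x)]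
    exact Submodule.smul_mem _ _ hx

theorem algebraMap_ne_zero {b : A} (hb : b ≠ 0) : algebraMap A R b ≠ 0 :=
  (map_ne_zero_iff _ (FaithfulSMul.algebraMap_injective A R)).2 hb

variable [CharZero A]

/-- Among the translates of `z` by multiples of an element some are primitive, and a common
denominator exists. -/
theorem exists_primitive (c : ℕ → A) (hc : Function.Injective c) :
    ∃ x : R, ∀ z : R, ∃ i, ∀ w : R, ∃ (Q : A[X]) (b : A), b ≠ 0 ∧
      aeval (z + c i • x) Q = algebraMap A R b * w := by
  set K := FractionRing A
  set L := FractionRing R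
  have : CharZero K :=
    charZero_of_injective_algebraMap (R := A) (IsFractionRing.injective A K)
  have : FiniteDimensional K L := finiteDimensional
  obtain ⟨y, hy⟩ := Field.exists_primitive_element K L
  have : Finite (IntermediateField K L) :=
    (Field.exists_primitive_element_iff_finite_intermediateField K L).1
      ⟨Algebra.IsAlgebraic.of_finite K L, y, hy⟩
  obtain ⟨x, b, hb, hxy⟩ := exists_mul_eq (A := A) y
  refine ⟨x, fun z => ?_⟩
  set u : ℕ → L := fun i => algebraMap R L (z + c i • x) with hu
  obtain ⟨i, j, hij, heq⟩ :=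
    Finite.exists_ne_map_eq_of_infinite fun i => IntermediateField.adjoin K ({u i} : Set L)
  refine ⟨i, fun w => ?_⟩
  have htop : IntermediateField.adjoin K ({u i} : Set L) = ⊤ := by
    refine top_le_iff.1 (hy.ge.trans (IntermediateField.adjoin_simple_le_iff.2 ?_))
    have hi : u i ∈ IntermediateField.adjoin K ({u i} : Set L) :=
      IntermediateField.mem_adjoin_simple_self K _
    have hj : u j ∈ IntermediateField.adjoin K ({u i} : Set L) :=
      heq ▸ IntermediateField.mem_adjoin_simple_self K _
    have hd : algebraMap A K (c i - c j) ≠ 0 :=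
      (map_ne_zero_iff _ (IsFractionRing.injective A K)).2 (sub_ne_zero.2 (hc.ne hij))
    have hbK : algebraMap A K b ≠ 0 := (map_ne_zero_iff _ (IsFractionRing.injective A K)).2 hb
    have : y = ((algebraMap A K (c i - c j))⁻¹ * (algebraMap A K b)⁻¹) • (u i - u j) := by
      have e : u i - u j = algebraMap K L (algebraMap A K (c i - c j) * algebraMap A K b) * y := by
        have e1 : u i - u j = algebraMap R L (algebraMap A R (c i - c j) * x) := by
          simp only [hu, Algebra.smul_def, ← map_sub]
          refine congrArg _ ?_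
          rw [map_sub]
          ring
        rw [e1, map_mul, ← IsScalarTower.algebraMap_apply, ← hxy, map_mul,
          ← IsScalarTower.algebraMap_apply, ← IsScalarTower.algebraMap_apply]
        ring
      rw [e, Algebra.smul_def, ← mul_assoc, ← map_mul, ← mul_inv, inv_mul_cancel₀
        (mul_ne_zero hd hbK), map_one, one_mul]
    rw [this]
    exact IntermediateField.smul_mem _ (sub_mem hi hj)
  have halg : IsAlgebraic K (u i) := Algebra.IsAlgebraic.isAlgebraic _
  have hw : algebraMap R L w ∈ (IntermediateField.adjoin K ({u i} : Set L)).toSubalgebra := by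
    rw [htop]; trivial
  rw [IntermediateField.adjoin_simple_toSubalgebra_of_isAlgebraic halg,
    Algebra.adjoin_singleton_eq_range_aeval] at hw
  obtain ⟨P, hP⟩ := hw
  obtain ⟨d, hd, hQ⟩ := IsLocalization.integerNormalization_spec (nonZeroDivisors A) P
  have hP' : aeval (algebraMap R L (z + c i • x)) P = algebraMap R L w := hP
  refine ⟨IsLocalization.integerNormalization (nonZeroDivisors A) P, d,
    nonZeroDivisors.ne_zero hd, IsFractionRing.injective R L ?_⟩
  rw [← aeval_algebraMap_apply, ← aeval_map_algebraMap K, hQ, ← AlgHom.toLinearMap_apply,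
    LinearMap.map_smul_of_tower, AlgHom.toLinearMap_apply, hP', Algebra.smul_def, map_mul, ← IsScalarTower.algebraMap_apply]

/-- One denominator for all elements. -/
theorem exists_denominator {u : R}
    (h : ∀ w : R, ∃ (Q : A[X]) (b : A), b ≠ 0 ∧ aeval u Q = algebraMap A R b * w) :
    ∃ b : A, b ≠ 0 ∧ ∀ w : R, ∃ Q : A[X], aeval u Q = algebraMap A R b * w := by
  obtain ⟨s, hs⟩ := (Module.Finite.fg_top : (⊤ : Submodule A R).FG)
  choose Q b hb hQ using h
  classical
  refine ⟨∏ g ∈ s, b g, Finset.prod_ne_zero_iff.2 fun g _ => hb g, fun w => ?_⟩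
  have hw : w ∈ Submodule.span A (s : Set R) := hs ▸ Submodule.mem_top
  induction hw using Submodule.span_induction with
  | mem g hg =>
    refine ⟨Polynomial.C (∏ g' ∈ s.erase g, b g') * Q g, ?_⟩
    rw [map_mul, aeval_C, hQ, ← Finset.prod_erase_mul s b (Finset.mem_coe.1 hg), map_mul, mul_assoc]
  | zero => exact ⟨0, by simp⟩
  | add x z _ _ hx hz =>
    obtain ⟨P, hP⟩ := hx
    obtain ⟨P', hP'⟩ := hz
    exact ⟨P + P', by rw [map_add, hP, hP', mul_add]⟩
  | smul c x _ hx =>
    obtain ⟨P, hP⟩ := hx
    exact ⟨c • P, by rw [map_smul, hP, mul_smul_comm]⟩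

variable [IsIntegrallyClosed A]

theorem minpoly_separable (u : R) :
    IsCoprime ((minpoly A u).map (algebraMap A (FractionRing A)))
      ((minpoly A u).map (algebraMap A (FractionRing A))).derivative := by
  set K := FractionRing A
  have : CharZero K :=
    charZero_of_injective_algebraMap (R := A) (IsFractionRing.injective A K)
  have : FiniteDimensional K (FractionRing R) := finiteDimensional
  rw [← minpoly.isIntegrallyClosed_eq_field_fractions K (FractionRing R)
    (Algebra.IsIntegral.isIntegral u)]
  exact (minpoly.irreducible (Algebra.IsIntegral.isIntegral _)).separable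

theorem discr_ne_zero (u : R) : (minpoly A u).discr ≠ 0 := by
  set K := FractionRing A
  set f := minpoly A u with hf
  have hu : IsIntegral A u := Algebra.IsIntegral.isIntegral u
  have hm : f.Monic := minpoly.monic hu
  intro h0
  have hpos : 0 < f.natDegree := minpoly.natDegree_pos hu
  have h1 := resultant_deriv (natDegree_pos_iff_degree_pos.1 hpos)
  rw [h0, mul_zero] at h1
  have hinj : Function.Injective (algebraMap A K) := IsFractionRing.injective A K
  have h2 := congrArg (algebraMap A K) h1
  rw [map_zero, ← resultant_map_map, ← derivative_map] at h2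
  have hdeg : (f.map (algebraMap A K)).natDegree = f.natDegree := hm.natDegree_map _
  have : CharZero K := charZero_of_injective_algebraMap (R := A) hinj
  have hdd : (f.map (algebraMap A K)).derivative.natDegree = f.natDegree - 1 := by
    rw [natDegree_derivative, hdeg]
  rw [← hdd, ← hdeg] at h2
  exact (resultant_eq_zero_iff.1 h2).2 (minpoly_separable u)

end Frac

section Local

variable {A : Type u} {R : Type v} [CommRing A] [IsDomain A] [IsLocalRing A]
  [CommRing R] [IsDomain R] [IsLocalRing R]
  [Algebra A R] [FaithfulSMul A R] [Module.Finite A R] [IsIntegrallyClosed A]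

/-- The minimal polynomial of an element of the maximal ideal is distinguished. -/
theorem coeff_mem {u : R} (hu : u ∈ maximalIdeal R) {i : ℕ} (hi : i < (minpoly A u).natDegree) :
    (minpoly A u).coeff i ∈ maximalIdeal A := by
  classical
  have hint : IsIntegral A u := Algebra.IsIntegral.isIntegral u
  set f := minpoly A u with hf
  have hm : f.Monic := minpoly.monic hint
  by_contra hne
  have hex : ∃ j, f.coeff j ∉ maximalIdeal A := ⟨i, hne⟩
  set j := Nat.find hex with hj
  have hji : j ≤ i := Nat.find_min' hex hne
  set g := (∑ l ∈ Finset.range (f.natDegree + 1 - j), Polynomial.C (f.coeff (l + j)) * X ^ l)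
    with hg
  have hgc : ∀ l, g.coeff l = f.coeff (l + j) := fun l => by
    rw [hg, finsetSum_coeff]
    simp only [coeff_C_mul_X_pow]
    rw [Finset.sum_ite_eq]
    split_ifs with hl
    · rfl
    · rw [coeff_eq_zero_of_natDegree_lt]
      simp only [Finset.mem_range] at hl
      omega
  -- `g(u)` is a unit of `A[u]`
  have hunit : IsUnit (aeval u g) := by
    rw [← not_not (a := IsUnit _), ← mem_nonunits_iff, ← IsLocalRing.mem_maximalIdeal,
      aeval_eq_sum_range, Finset.sum_range_succ']
    intro hmem
    have hs : ∀ l, g.coeff (l + 1) • u ^ (l + 1) ∈ maximalIdeal R := fun l => by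
      rw [Algebra.smul_def, pow_succ]
      exact Ideal.mul_mem_left _ _ (Ideal.mul_mem_left _ _ hu)
    have h0 : g.coeff 0 • u ^ 0 ∈ maximalIdeal R := by
      simpa using sub_mem hmem (sum_mem fun l (_ : l ∈ Finset.range g.natDegree) => hs l)
    rw [pow_zero, Algebra.smul_def, mul_one, hgc, zero_add] at h0
    have : IsUnit (f.coeff j) := by
      by_contra hn
      exact Nat.find_spec hex ((IsLocalRing.mem_maximalIdeal _).2 hn)
    exact (IsLocalRing.mem_maximalIdeal _).1 h0 (this.map _)
  have : IsUnit (⟨aeval u g, aeval_mem_adjoin_singleton A u⟩ : Algebra.adjoin A ({u} : Set R)) := by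
    have : Algebra.IsIntegral (Algebra.adjoin A ({u} : Set R)) R :=
      Algebra.IsIntegral.tower_top (R := A)
    exact IsLocalHom.map_nonunit (f := algebraMap (Algebra.adjoin A ({u} : Set R)) R) _ hunit
  obtain ⟨⟨w, hw⟩, hwg⟩ := this.exists_right_inv
  rw [Algebra.adjoin_singleton_eq_range_aeval] at hw
  obtain ⟨P, rfl⟩ := hw
  have h1 : aeval u (g * P - 1) = 0 := by
    rw [map_sub, map_mul, map_one, sub_eq_zero]
    exact congrArg Subtype.val hwg
  obtain ⟨Q, hQ⟩ := minpoly.isIntegrallyClosed_dvd hint h1
  set red := Polynomial.mapRingHom (residue A)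
  have hfX : red f = X ^ j * red g := by
    refine Polynomial.ext fun l => ?_
    simp only [red, coe_mapRingHom, coeff_map, coeff_X_pow_mul', hgc]
    split_ifs with hl
    · rw [Nat.sub_add_cancel hl]
    · rw [residue_eq_zero_iff]
      exact not_not.1 (Nat.find_min hex (not_le.1 hl))
  have h2 := congrArg red hQ
  rw [map_sub, map_mul, map_mul, map_one, hfX] at h2
  have h3 : red g ∣ 1 := ⟨red P - X ^ j * red Q, by linear_combination -h2⟩
  have h4 : (red g).natDegree = 0 := natDegree_eq_zero_of_isUnit (isUnit_of_dvd_one h3)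
  have h5 : (red g).coeff (f.natDegree - j) = 1 := by
    simp only [red, coe_mapRingHom, coeff_map, hgc]
    rw [Nat.sub_add_cancel (by omega), hm.coeff_natDegree, map_one]
  have : f.natDegree - j ≤ (red g).natDegree := le_natDegree_of_ne_zero (h5 ▸ one_ne_zero)
  omega

end Local

section Bound

variable {B : Type u} {R : Type v} [CommRing B] [CommRing R] [IsDomain R] [IsNoetherianRing R]
  [Algebra B R] [Module.Finite B R]

/-- The determinant trick. -/
theorem exists_monic_bound (a : B) (I : Ideal B) (J : Ideal R) (hJ : J ≠ ⊥)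
    (h : ∀ y ∈ J, algebraMap B R a * y ∈ I.map (algebraMap B R) * J) :
    ∃ P : B[X], P.Monic ∧ (∀ l, P.coeff l ∈ I ^ (P.natDegree - l)) ∧
      algebraMap B R (P.eval a) = 0 := by
  set M := J.restrictScalars B
  have : Module.Finite R J := Module.Finite.iff_fg.2 (IsNoetherian.noetherian J)
  have : Module.Finite B J := Module.Finite.trans R J
  set f : Module.End B J := algebraMap B (Module.End B J) a
  obtain ⟨P, hP, -, hc, h0⟩ :=
    LinearMap.exists_monic_and_natDegree_eq_and_coeff_mem_pow_and_aeval_eq_zero B f I (by
      rintro _ ⟨⟨y, hy⟩, rfl⟩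
      have h1 : ∀ z ∈ I.map (algebraMap B R) * J, ∃ hz : z ∈ J,
          (⟨z, hz⟩ : J) ∈ (I • ⊤ : Submodule B J) := by
        intro z hz
        refine Submodule.mul_induction_on hz (fun s hs t ht => ?_) ?_
        · induction hs using Submodule.span_induction generalizing t with
          | mem s hs =>
            obtain ⟨b, hb, rfl⟩ := hs
            refine ⟨J.mul_mem_left _ ht, ?_⟩
            have := Submodule.smul_mem_smul hb (Submodule.mem_top (x := (⟨t, ht⟩ : J)))
            convert this using 1
            exact Subtype.ext (Algebra.smul_def b t).symm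
          | zero =>
            refine ⟨by simp, ?_⟩
            convert Submodule.zero_mem (I • ⊤ : Submodule B J) using 1
            exact Subtype.ext (zero_mul t)
          | add s₁ s₂ _ _ h₁ h₂ =>
            obtain ⟨m₁, e₁⟩ := h₁ t ht
            obtain ⟨m₂, e₂⟩ := h₂ t ht
            refine ⟨J.mul_mem_left _ ht, ?_⟩
            convert add_mem e₁ e₂ using 1
            exact Subtype.ext (add_mul s₁ s₂ t)
          | smul r s _ hs =>
            obtain ⟨m₁, e₁⟩ := hs (r * t) (J.mul_mem_left _ ht)
            refine ⟨J.mul_mem_left _ ht, ?_⟩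
            convert e₁ using 1
            exact Subtype.ext (by show r • s * t = s * (r * t); rw [smul_eq_mul]; ring)
        · rintro z₁ z₂ ⟨m₁, e₁⟩ ⟨m₂, e₂⟩
          exact ⟨add_mem m₁ m₂, add_mem e₁ e₂⟩
      obtain ⟨m2, h2⟩ := h1 _ (h y hy)
      convert h2 using 1
      exact Subtype.ext (Algebra.smul_def a y))
  refine ⟨P, hP, hc, ?_⟩
  rw [aeval_algebraMap_apply, Polynomial.coe_aeval_eq_eval] at h0
  obtain ⟨y, hy, hy0⟩ := Submodule.exists_mem_ne_zero_of_ne_bot hJ
  have h3 := congrArg Subtype.val (LinearMap.congr_fun h0 (⟨y, hy⟩ : J))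
  change (P.eval a) • y = 0 at h3
  rw [Algebra.smul_def] at h3
  exact (mul_eq_zero.1 h3).resolve_right hy0

end Bound

end ChoicesAlg

end Vale.Agent.P202.Mixed2
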