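import Mathlib

/-!
P202 mixed characteristic: power series over a Noetherian integrally closed domain are integrally
closed.
-/

namespace Vale.Agent.P202.Mixed2

open PowerSeries

universe u

namespace PSNormal

variable {R : Type u} [CommRing R] [IsDomain R]

/-- Elements of `K⟦X⟧` almost integral over `R⟦X⟧` have coefficients in `R`. -/
theorem mem_range_of_almostIntegral [IsNoetherianRing R] [IsIntegrallyClosed R]
    (K : Type u) [Field K] [Algebra R K] [IsFractionRing R K]
    {g : PowerSeries K} {c : PowerSeries R} (hc : c ≠ 0)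
    (h : ∀ j, PowerSeries.map (algebraMap R K) c * g ^ j ∈
      (PowerSeries.map (algebraMap R K)).range) :
    g ∈ (PowerSeries.map (algebraMap R K)).range := by
  set f := PowerSeries.map (algebraMap R K) with hf
  have hinj : Function.Injective (algebraMap R K) := IsFractionRing.injective R K
  suffices hm : ∀ m, coeff m g ∈ (algebraMap R K).range by
    choose a ha using hm
    exact ⟨PowerSeries.mk a, PowerSeries.ext fun m => by rw [hf, coeff_map, coeff_mk, ha]⟩
  intro m
  induction m using Nat.strong_induction_on with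
  | _ m ih =>
    choose a ha using ih
    set t : PowerSeries R := PowerSeries.mk fun i => if hi : i < m then a i hi else 0 with ht
    set g' := g - f t
    have hlow : ∀ i < m, coeff i g' = 0 := fun i hi => by
      rw [map_sub, hf, coeff_map, ht, coeff_mk, dif_pos hi, ha, sub_self]
    have hgm : coeff m g' = coeff m g := by
      rw [map_sub, hf, coeff_map, ht, coeff_mk, dif_neg (lt_irrefl m), map_zero, sub_zero]
    obtain ⟨q, hq⟩ := PowerSeries.X_pow_dvd_iff.2 hlow
    have hq0 : constantCoeff q = coeff m g := by
      rw [← hgm, hq, ← coeff_zero_eq_constantCoeff_apply, ← coeff_X_pow_mul q m 0, zero_add]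
    have hc' : ∀ j, f c * g' ^ j ∈ f.range := by
      intro j
      rw [show g' = g + -f t from sub_eq_add_neg _ _, add_pow, Finset.mul_sum]
      refine sum_mem fun i _ => ?_
      rw [show f c * (g ^ i * (-f t) ^ (j - i) * (j.choose i : PowerSeries K)) =
        f c * g ^ i * ((-f t) ^ (j - i) * (j.choose i : PowerSeries K)) by ring]
      refine mul_mem (h i) (mul_mem (pow_mem ?_ _) ?_)
      · exact ⟨-t, map_neg _ _⟩
      · exact ⟨(j.choose i : PowerSeries R), map_natCast _ _⟩
    obtain ⟨ν, hν, hνlow⟩ : ∃ ν, coeff ν c ≠ 0 ∧ ∀ i < ν, coeff i c = 0 := by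
      classical
      have hex : ∃ ν, coeff ν c ≠ 0 := by
        by_contra hne
        push Not at hne
        exact hc (PowerSeries.ext fun i => by rw [hne i, map_zero])
      exact ⟨Nat.find hex, Nat.find_spec hex, fun i hi => not_not.1 (Nat.find_min hex hi)⟩
    obtain ⟨d, hd⟩ := PowerSeries.X_pow_dvd_iff.2 hνlow
    have hd0 : constantCoeff d = coeff ν c := by
      rw [hd, ← coeff_zero_eq_constantCoeff_apply, ← coeff_X_pow_mul d ν 0, zero_add]
    have key : ∀ j, algebraMap R K (coeff ν c) * coeff m g ^ j ∈ (algebraMap R K).range := by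
      intro j
      obtain ⟨w, hw⟩ := hc' j
      refine ⟨coeff (0 + (ν + m * j)) w, ?_⟩
      have hfw : f w = PowerSeries.X ^ (ν + m * j) * (f d * q ^ j) := by
        rw [hw, hq, hd, map_mul, map_pow, hf, map_X, mul_pow, ← pow_mul, pow_add]
        ring
      rw [← coeff_map, ← hf, hfw, coeff_X_pow_mul, coeff_zero_eq_constantCoeff_apply, map_mul,
        map_pow, hq0, ← coeff_zero_eq_constantCoeff_apply, hf, coeff_map,
        coeff_zero_eq_constantCoeff_apply, hd0]
    have hai : IsAlmostIntegral R (coeff m g) :=
      ⟨coeff ν c, mem_nonZeroDivisors_of_ne_zero hν, fun j => by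
        rw [Algebra.smul_def]; exact key j⟩
    exact RingHom.mem_range.2 (IsIntegrallyClosed.isIntegral_iff.1 hai.isIntegral)

instance instIsIntegrallyClosed [IsNoetherianRing R] [IsIntegrallyClosed R] :
    IsIntegrallyClosed (PowerSeries R) := by
  set K := FractionRing R
  set f := PowerSeries.map (algebraMap R K) with hf
  have hinj : Function.Injective f :=
    PowerSeries.map_injective _ (IsFractionRing.injective R K)
  set L := FractionRing (PowerSeries R)
  set M := FractionRing (PowerSeries K)
  let φ : L →+* M := IsFractionRing.lift (A := PowerSeries R)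
    (g := (algebraMap (PowerSeries K) M).comp f)
    ((IsFractionRing.injective (PowerSeries K) M).comp hinj)
  have hφ : ∀ a, φ (algebraMap _ L a) = algebraMap (PowerSeries K) M (f a) := fun a =>
    IsFractionRing.lift_algebraMap _ a
  refine (isIntegrallyClosed_iff L).2 fun {x} hx => ?_
  obtain ⟨c, hc, hcx⟩ := hx.isAlmostIntegral
  choose w hw using hcx
  have hxM : IsIntegral (PowerSeries K) (φ x) := by
    obtain ⟨P, hP, hPx⟩ := hx
    refine ⟨P.map f, hP.map f, ?_⟩
    rw [Polynomial.eval₂_map]
    have h1 := congrArg φ hPx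
    rw [map_zero, Polynomial.hom_eval₂] at h1
    rwa [show φ.comp (algebraMap (PowerSeries R) L) = (algebraMap (PowerSeries K) M).comp f from
      RingHom.ext hφ] at h1
  obtain ⟨g, hg⟩ := IsIntegrallyClosed.isIntegral_iff.1 hxM
  have hrange : g ∈ f.range := by
    refine mem_range_of_almostIntegral K (nonZeroDivisors.ne_zero hc) fun j => ⟨w j, ?_⟩
    refine IsFractionRing.injective (PowerSeries K) M ?_
    rw [← hφ, hw, Algebra.smul_def, map_mul, map_pow, hφ, ← hg, map_mul, map_pow, hf]
  obtain ⟨a, rfl⟩ := hrange
  refine ⟨a, φ.injective ?_⟩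
  rw [hφ, hg]

theorem mv_fin [IsNoetherianRing R] [IsIntegrallyClosed R] (n : ℕ) :
    IsIntegrallyClosed (MvPowerSeries (Fin n) R) := by
  induction n with
  | zero =>
    exact IsIntegrallyClosed.of_equiv
      (MvPowerSeries.isEmptyEquiv (σ := Fin 0) (R := R)).symm.toRingEquiv
  | succ n ih =>
    have : IsDomain (MvPowerSeries (Fin n) R) := NoZeroDivisors.to_isDomain _
    exact IsIntegrallyClosed.of_equiv (MvPowerSeries.finSuccEquiv R n).symm.toRingEquiv

end PSNormal

end Vale.Agent.P202.Mixed2
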