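import Mathlib

/-!
P202 mixed characteristic: the structure map `W(k) → R` of a complete local ring with perfect
residue field `k` of characteristic `p`.
-/

namespace Vale.Agent.P202.Mixed2

open IsLocalRing WittVector

set_option linter.unusedSectionVars false

universe u

namespace WittMap

variable (p : ℕ) [hp : Fact p.Prime] {R : Type u} [CommRing R] [IsLocalRing R]

theorem natCast_mem [CharP (ResidueField R) p] : (p : R) ∈ maximalIdeal R := by
  rw [← residue_eq_zero_iff, map_natCast]
  exact CharP.cast_eq_zero _ p

theorem succ_le_pow (j : ℕ) : j + 1 ≤ p ^ j := Nat.succ_le_of_lt (Nat.lt_pow_self hp.out.one_lt)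

variable [CharP (ResidueField R) p]

/-- Witt vectors with coefficients in the maximal ideal have small ghost components. -/
theorem ghostComponent_mem {x : WittVector p R} (hx : ∀ i, x.coeff i ∈ maximalIdeal R) (n : ℕ) :
    ghostComponent n x ∈ maximalIdeal R ^ (n + 1) := by
  rw [ghostComponent_apply, wittPolynomial_eq_sum_C_mul_X_pow, map_sum]
  refine sum_mem fun i hi => ?_
  have hin : i ≤ n := Nat.lt_succ_iff.1 (Finset.mem_range.1 hi)
  simp only [map_mul, map_pow, MvPolynomial.aeval_X, map_natCast]
  rw [show n + 1 = i + (n - i + 1) by omega, pow_add]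
  exact Ideal.mul_mem_mul (Ideal.pow_mem_pow (natCast_mem p) _)
    (Ideal.pow_le_pow_right (succ_le_pow p _) (Ideal.pow_mem_pow (hx i) _))

theorem map_frobenius {S : Type u} [CommRing S] (f : R →+* S) (x : WittVector p R) :
    WittVector.map f (WittVector.frobenius x) = WittVector.frobenius (WittVector.map f x) := by
  refine WittVector.ext fun n => ?_
  rw [map_coeff, coeff_frobenius, coeff_frobenius, MvPolynomial.map_aeval,
    MvPolynomial.aeval_def, MvPolynomial.coe_eval₂Hom]
  exact congrArg₂ (fun g v => MvPolynomial.eval₂ g v _) (RingHom.ext_int _ _)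
    (funext fun i => (map_coeff f x i).symm)

/-- The ghost component on the residue field. -/
noncomputable def level (n : ℕ) : WittVector p (ResidueField R) →+* R ⧸ maximalIdeal R ^ (n + 1) :=
  (WittVector.map (residue R)).liftOfSurjective (WittVector.map_surjective _ residue_surjective)
    ⟨(Ideal.Quotient.mk _).comp (ghostComponent n), fun x hx => by
      rw [RingHom.mem_ker, RingHom.comp_apply, Ideal.Quotient.eq_zero_iff_mem]
      refine ghostComponent_mem p (fun i => (residue_eq_zero_iff _).1 ?_) n
      rw [← map_coeff, RingHom.mem_ker.1 hx]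
      exact zero_coeff p (ResidueField R) i⟩

theorem level_map (n : ℕ) (x : WittVector p R) :
    level p n (WittVector.map (residue R) x) = Ideal.Quotient.mk _ (ghostComponent n x) :=
  RingHom.liftOfRightInverse_comp_apply _ _ _ _ x

theorem level_succ (n : ℕ) (y : WittVector p (ResidueField R)) :
    Ideal.Quotient.factorPow (maximalIdeal R) (Nat.le_succ (n + 1)) (level p (n + 1) y) =
      level p n (WittVector.frobenius y) := by
  obtain ⟨x, rfl⟩ := WittVector.map_surjective _ residue_surjective y
  rw [← map_frobenius p (residue R) x, level_map, level_map, ghostComponent_frobenius]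
  rfl

variable [PerfectRing (ResidueField R) p]

/-- The inverse of Frobenius. -/
noncomputable def root : WittVector p (ResidueField R) →+* WittVector p (ResidueField R) :=
  (WittVector.frobeniusEquiv p (ResidueField R)).symm.toRingHom

theorem root_frobenius (y : WittVector p (ResidueField R)) :
    root p (WittVector.frobenius y) = y :=
  (WittVector.frobeniusEquiv p (ResidueField R)).symm_apply_apply y

theorem frobenius_root (y : WittVector p (ResidueField R)) :
    WittVector.frobenius (root p y) = y :=
  (WittVector.frobeniusEquiv p (ResidueField R)).apply_symm_apply y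

/-- Iterates of the inverse of Frobenius. -/
noncomputable def rootN : ℕ → (WittVector p (ResidueField R) →+* WittVector p (ResidueField R))
  | 0 => RingHom.id _
  | n + 1 => (root p).comp (rootN n)

/-- The map modulo the `n + 1`-st power. -/
noncomputable def theta (n : ℕ) : WittVector p (ResidueField R) →+* R ⧸ maximalIdeal R ^ (n + 1) :=
  (level p n).comp (rootN p n)

theorem theta_succ (n : ℕ) :
    (Ideal.Quotient.factorPow (maximalIdeal R) (Nat.le_succ (n + 1))).comp (theta p (n + 1)) =
      theta p n := RingHom.ext fun y => by
  simp only [theta, rootN, RingHom.comp_apply]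
  rw [level_succ, frobenius_root]

theorem theta_le {m n : ℕ} (h : m ≤ n) :
    (Ideal.Quotient.factorPow (maximalIdeal R) (Nat.succ_le_succ h)).comp (theta p n) =
      theta p m := by
  induction h with
  | refl =>
    refine RingHom.ext fun y => ?_
    obtain ⟨r, hr⟩ := Ideal.Quotient.mk_surjective (theta p m y)
    rw [RingHom.comp_apply, ← hr]
    rfl
  | @step n h ih =>
    rw [← ih, ← theta_succ p n]
    refine RingHom.ext fun y => ?_
    obtain ⟨r, hr⟩ := Ideal.Quotient.mk_surjective (theta p (n + 1) y)
    simp only [RingHom.comp_apply, ← hr]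
    rfl

variable (R) in
/-- A family modulo all powers. -/
noncomputable def fam (n : ℕ) : WittVector p (ResidueField R) →+* R ⧸ maximalIdeal R ^ n :=
  (Ideal.Quotient.factorPow (maximalIdeal R) (Nat.le_succ n)).comp (theta p n)

theorem fam_compat {m n : ℕ} (h : m ≤ n) :
    (Ideal.Quotient.factorPow (maximalIdeal R) h).comp (fam p R n) = fam p R m := by
  rw [fam, fam, ← theta_le p h]
  refine RingHom.ext fun y => ?_
  obtain ⟨r, hr⟩ := Ideal.Quotient.mk_surjective (theta p n y)
  simp only [RingHom.comp_apply, ← hr]
  rfl

variable [IsAdicComplete (maximalIdeal R) R]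

variable (R) in
/-- The structure map of a complete local ring with perfect residue field. -/
noncomputable def wittMap : WittVector p (ResidueField R) →+* R :=
  (AdicCompletion.ofAlgEquiv (maximalIdeal R)).symm.toRingEquiv.toRingHom.comp
    (AdicCompletion.liftRingHom (maximalIdeal R) (fam p R) (fam_compat p))

theorem mk_wittMap (n : ℕ) (y : WittVector p (ResidueField R)) :
    Ideal.Quotient.mk (maximalIdeal R ^ n) (wittMap p R y) = fam p R n y := by
  show Ideal.Quotient.mk _ ((AdicCompletion.ofAlgEquiv (maximalIdeal R)).symm _) = _
  rw [AdicCompletion.mk_ofAlgEquiv_symm, AdicCompletion.evalₐ_liftRingHom]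

theorem residue_wittMap (y : WittVector p (ResidueField R)) :
    residue R (wittMap p R y) = WittVector.constantCoeff y := by
  set y' := rootN p 1 y with hy'
  obtain ⟨x, hx⟩ := WittVector.map_surjective _ residue_surjective y'
  have h1 : Ideal.Quotient.mk (maximalIdeal R ^ 1) (wittMap p R y) =
      Ideal.Quotient.mk (maximalIdeal R ^ 1) (ghostComponent 1 x) := by
    rw [mk_wittMap, fam, RingHom.comp_apply, theta, RingHom.comp_apply, ← hy', ← hx, level_map]
    rfl
  rw [Ideal.Quotient.eq, pow_one, ← residue_eq_zero_iff, map_sub, sub_eq_zero] at h1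
  rw [h1, ghostComponent_apply, wittPolynomial_eq_sum_C_mul_X_pow, map_sum, Finset.sum_range_succ,
    Finset.sum_range_one]
  simp only [map_mul, MvPolynomial.aeval_C, map_pow, MvPolynomial.aeval_X, map_natCast,
    map_add, CharP.cast_eq_zero, pow_one, zero_mul, add_zero, pow_zero, Nat.sub_zero]
  rw [← map_coeff, hx, hy', rootN, rootN, RingHom.comp_id]
  have h2 := congrArg (fun z => z.coeff 0) (frobenius_root p y)
  simpa [coeff_frobenius_charP] using h2

end WittMap

end Vale.Agent.P202.Mixed2
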