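import Vale.Agent.P202.Char.Stage2
import Vale.Agent.P202.Perf.BaseIdeal
import Vale.Agent.P202.Mixed2.PSNormal
import Vale.Agent.P202.Mixed2.WittMap
import Vale.Agent.P202.Mixed2.ChoicesAlg

/-!
P202 mixed characteristic: the choices. For a complete local domain `R` of mixed characteristic
with infinite residue field and a complete discrete valuation ring `V` with uniformiser `p`
covering it: a reduction `(θ, z)` of the maximal ideal such that `R` is finite over `A = V[[z]]` and `θ` is primitive, its minimal polynomial `Φ`, a denominator `h`,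
and the bound for the elements of the maximal ideal.
-/

namespace Vale.Agent.P202.Mixed2

open IsLocalRing Polynomial Vale.Agent.P202.Char ChoicesAlg

universe u

/-- The regular base `W(k)[[z]]`. -/
abbrev Base (p : ℕ) [Fact p.Prime] (k : Type u) [CommRing k] (n : ℕ) : Type u :=
  MvPowerSeries (Fin n) (WittVector p k)

/-- The choices made at the start of the proof. -/
structure Choices (V : Type u) [CommRing V] (R : Type u) [CommRing R] [IsLocalRing R] (n : ℕ) where
  /-- The map from the regular base. -/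
  φ : MvPowerSeries (Fin n) V →+* R
  φ_injective : Function.Injective φ
  φ_finite : φ.Finite
  residue_φ_surjective : Function.Surjective fun w => residue R (φ (MvPowerSeries.C w))
  /-- The primitive element. -/
  θ : R
  θ_mem : θ ∈ maximalIdeal R
  φ_X_mem : ∀ i, φ (MvPowerSeries.X i) ∈ maximalIdeal R
  isRed : Red.IsRed (Fin.cons θ fun i => φ (MvPowerSeries.X i))
  /-- The minimal polynomial of `θ`. -/
  Φ : (MvPowerSeries (Fin n) V)[X]
  monic : Φ.Monic
  root : Φ.eval₂ φ θ = 0
  dvd_of_root : ∀ P : (MvPowerSeries (Fin n) V)[X], P.eval₂ φ θ = 0 → Φ ∣ P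
  natDegree_pos : 0 < Φ.natDegree
  coeff_not_isUnit : ∀ i < Φ.natDegree, ¬IsUnit (Φ.coeff i)
  discr_ne_zero : Φ.discr ≠ 0
  /-- The denominator. -/
  h : MvPowerSeries (Fin n) V
  h_ne_zero : h ≠ 0
  h_mul_mem : ∀ x : R, ∃ Q : (MvPowerSeries (Fin n) V)[X], Q.eval₂ φ θ = φ h * x

namespace Choices

set_option linter.unusedSectionVars false

variable {p : ℕ} [hp : Fact p.Prime]

section Base

variable {V : Type u} [CommRing V] [IsDomain V] [IsDiscreteValuationRing V] {n : ℕ}

theorem isIntegrallyClosed_base : IsIntegrallyClosed (MvPowerSeries (Fin n) V) :=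
  PSNormal.mv_fin n

variable (hπ : Irreducible (p : V))
include hπ

theorem maximalIdeal_coeff : maximalIdeal V = Ideal.span {(p : V)} := hπ.maximalIdeal_eq

theorem charZero_coeff : CharZero V := by
  refine charZero_of_inj_zero fun m hm => ?_
  by_contra h0
  obtain ⟨v, r, hr, rfl⟩ := Nat.exists_eq_pow_mul_and_not_dvd h0 p hp.out.ne_one
  rw [Nat.cast_mul, Nat.cast_pow, mul_eq_zero] at hm
  rcases hm with hm | hm
  · exact pow_ne_zero _ hπ.ne_zero hm
  · have hc : IsCoprime ((r : ℕ) : V) (p : V) :=
      Nat.Coprime.cast (((Nat.Prime.coprime_iff_not_dvd hp.out).2 hr).symm)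
    rw [hm, isCoprime_zero_left] at hc
    exact hπ.not_isUnit hc

theorem charZero_base : CharZero (MvPowerSeries (Fin n) V) :=
  have : CharZero V := charZero_coeff hπ
  charZero_of_injective_algebraMap (R := V) (fun a b h => by
    simpa [MvPowerSeries.algebraMap_apply] using congrArg MvPowerSeries.constantCoeff h)

theorem maximalIdeal_base_le :
    maximalIdeal (MvPowerSeries (Fin n) V) ≤
      Ideal.span (Set.range fun o : Option (Fin n) =>
        o.elim (p : MvPowerSeries (Fin n) V) MvPowerSeries.X) := by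
  intro f hf
  rw [mem_maximalIdeal, mem_nonunits_iff, MvPowerSeries.isUnit_iff_constantCoeff,
    ← mem_nonunits_iff, ← mem_maximalIdeal, maximalIdeal_coeff hπ, Ideal.mem_span_singleton] at hf
  obtain ⟨c, hc⟩ := hf
  have h1 : f - MvPowerSeries.C (MvPowerSeries.constantCoeff f) ∈
      Ideal.span (Set.range (MvPowerSeries.X : Fin n → MvPowerSeries (Fin n) V)) := by
    rw [← pow_one (Ideal.span _)]
    refine Perf.Base.mem_pow_span_X fun a ha => ?_
    rw [(Finsupp.degree_eq_zero_iff a).1 (Nat.lt_one_iff.1 ha), map_sub,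
      MvPowerSeries.coeff_zero_C, MvPowerSeries.coeff_zero_eq_constantCoeff_apply, sub_self]
  rw [← sub_add_cancel f (MvPowerSeries.C (MvPowerSeries.constantCoeff f))]
  refine add_mem (Ideal.span_mono ?_ h1) ?_
  · rintro _ ⟨i, rfl⟩
    exact ⟨some i, rfl⟩
  · rw [hc, map_mul, map_natCast]
    exact Ideal.mul_mem_right _ _ (Ideal.subset_span ⟨none, rfl⟩)

theorem dim_base_le : ringKrullDim (MvPowerSeries (Fin n) V) ≤ (n + 1 : ℕ) := by
  have : IsNoetherianRing (MvPowerSeries (Fin n) V) := inferInstance
  obtain ⟨hle⟩ : Nonempty (maximalIdeal (MvPowerSeries (Fin n) V) = Ideal.span (Set.range fun o : Option (Fin n)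
      => o.elim (p : MvPowerSeries (Fin n) V) MvPowerSeries.X)) := by
    refine ⟨le_antisymm (maximalIdeal_base_le hπ) (Ideal.span_le.2 ?_)⟩
    rintro _ ⟨_ | i, rfl⟩
    · rw [SetLike.mem_coe, mem_maximalIdeal, mem_nonunits_iff,
        MvPowerSeries.isUnit_iff_constantCoeff]
      simp only [Option.elim_none, map_natCast]
      exact hπ.not_isUnit
    · rw [SetLike.mem_coe, mem_maximalIdeal, mem_nonunits_iff,
        MvPowerSeries.isUnit_iff_constantCoeff]
      simp only [Option.elim_some, MvPowerSeries.constantCoeff_X]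
      exact not_isUnit_zero
  refine (ringKrullDim_le_spanFinrank_maximalIdeal _).trans ?_
  rw [hle]
  have h1 : (Set.range fun o : Option (Fin n) => o.elim (p : MvPowerSeries (Fin n) V) MvPowerSeries.X).ncard
      ≤ n + 1 := by
    rw [← Set.image_univ]
    exact (Set.ncard_image_le (Set.toFinite _)).trans (by simp [Set.ncard_univ])
  exact_mod_cast (Submodule.spanFinrank_span_le_ncard_of_finite (R := MvPowerSeries (Fin n) V)
    (Set.finite_range fun o : Option (Fin n) => o.elim (p : MvPowerSeries (Fin n) V) MvPowerSeries.X)).trans h1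

/-- A finite map from the base to a domain of dimension `n + 1` is injective. -/
theorem injective_of_dim {B : Type u} [CommRing B] [IsDomain B] (f : MvPowerSeries (Fin n) V →+* B)
    (hf : f.Finite) (hB : ringKrullDim B = (n + 1 : ℕ)) : Function.Injective f := by
  set C := MvPowerSeries (Fin n) V
  have : IsDomain C := NoZeroDivisors.to_isDomain _
  rw [injective_iff_map_eq_zero]
  intro x hx
  by_contra hx0
  let : Algebra C B := f.toAlgebra
  have : Module.Finite C B := hf
  have h1 : ringKrullDim (C ⧸ RingHom.ker f) + 1 ≤ ringKrullDim C :=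
    ringKrullDim_succ_le_of_surjective (Ideal.Quotient.mk _) Ideal.Quotient.mk_surjective
      (mem_nonZeroDivisors_of_ne_zero hx0) (Ideal.Quotient.eq_zero_iff_mem.2 hx)
  have h2 : ringKrullDim B ≤ ringKrullDim (C ⧸ RingHom.ker f) := by
    rw [ringKrullDim_quotient]
    refine Order.krullDim_le_of_strictMono (fun P : PrimeSpectrum B =>
      (⟨⟨P.asIdeal.comap f, P.isPrime.comap f⟩, fun a (ha : f a = 0) =>
        show f a ∈ P.asIdeal from ha ▸ zero_mem _⟩ :
          PrimeSpectrum.zeroLocus (R := C) (RingHom.ker f))) fun P P' h => ?_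
    have := P.isPrime
    exact Ideal.IsIntegral.comap_lt_comap (R := C) h
  rw [hB] at h2
  have h3 : ((n + 1 : ℕ) : WithBot ℕ∞) + 1 ≤ (n + 1 : ℕ) :=
    (add_le_add h2 le_rfl).trans (h1.trans (dim_base_le hπ))
  have h4 : n + 1 + 1 ≤ n + 1 := by exact_mod_cast h3
  omega

end Base

variable {R : Type u} [CommRing R] [IsLocalRing R] [IsNoetherianRing R] {n : ℕ}

/-- A reduction `y` whose first `n` members are parameters together with `p`. -/
theorem exists_params_p [IsDomain R] [Infinite (ResidueField R)] (hd : ringKrullDim R = (n + 1 : ℕ))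
    (hp0 : (p : R) ≠ 0) :
    ∃ y : Fin (n + 1) → R, Red.IsRed y ∧
      ∃ c, maximalIdeal R ^ c ≤
        Ideal.span {(p : R)} ⊔ Ideal.span (Set.range fun i : Fin n => y i.castSucc) := by
  classical
  obtain ⟨z, hzm, c₀, hc₀⟩ := Stage2.exists_red_dim hd
  have hz : ∃ c, maximalIdeal R ^ c ≤ Ideal.span (Set.range z) :=
    ⟨c₀ + 1, hc₀.trans Ideal.mul_le_left⟩
  have hco : ∀ P : PrimeSpectrum R, Ideal.span {(p : R)} ≤ P.asIdeal → Order.coheight P ≤ n := by
    intro P hP
    have hlt : (⊥ : PrimeSpectrum R) < P := bot_lt_iff_ne_bot.2 fun h => hp0 (by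
      have := hP (Ideal.mem_span_singleton_self _)
      rwa [h, PrimeSpectrum.asIdeal_bot, Ideal.mem_bot] at this)
    have h1 : ((Order.coheight P + 1 : ℕ∞) : WithBot ℕ∞) ≤ ((n + 1 : ℕ) : ℕ∞) := by
      refine le_trans (WithBot.coe_le_coe.2 (Order.coheight_add_one_le hlt)) ?_
      rw [WithBot.coe_natCast, ← hd]
      exact Order.coheight_le_krullDim _
    rw [WithBot.coe_le_coe, Nat.cast_succ] at h1
    exact (ENat.add_le_add_iff_right ENat.one_ne_top).1 h1
  obtain ⟨a, ha, haP⟩ := Params.exists_rows hz hco (Nat.le_succ n) n le_rfl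
  obtain ⟨a', ha', hl⟩ := Params.extend_rows hz ha 1 le_rfl
  set y : Fin (n + 1) → R := fun l => Fintype.linearCombination R z (a' l) with hy
  have hspan : Ideal.span (Set.range y) = Ideal.span (Set.range z) := by
    have htop : Submodule.span R (Set.range a') = ⊤ := by
      refine Params.eq_top_of_map_res _ fun w => ?_
      have hsp := ha'.span_eq_top_of_card_eq_finrank' (by simp)
      have hw : w ∈ Submodule.span (ResidueField R)
          (Set.range fun l => Params.res R (n + 1) (a' l)) := hsp ▸ Submodule.mem_top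
      obtain ⟨c, hc⟩ := (Submodule.mem_span_range_iff_exists_fun _).1 hw
      choose c' hc' using fun l => residue_surjective (R := R) (c l)
      refine ⟨∑ l, c' l • a' l, Submodule.sum_mem _ fun l _ =>
        Submodule.smul_mem _ _ (Submodule.subset_span ⟨l, rfl⟩), ?_⟩
      rw [map_sum, ← hc]
      exact Finset.sum_congr rfl fun l _ => by rw [map_smulₛₗ, hc']
    change Submodule.span R _ = _
    rw [hy, show (fun l => Fintype.linearCombination R z (a' l)) =
      Fintype.linearCombination R z ∘ a' from rfl, Set.range_comp, Submodule.span_image, htop,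
      Submodule.map_top, Fintype.range_linearCombination]
  refine ⟨y, ⟨fun i => ?_, c₀, hspan.symm ▸ hc₀⟩, ?_⟩
  · have h1 : Ideal.span (Set.range y) ≤ maximalIdeal R :=
      hspan ▸ Ideal.span_le.2 (by rintro _ ⟨j, rfl⟩; exact hzm j)
    exact h1 (Ideal.subset_span ⟨i, rfl⟩)
  · refine Ideal.exists_pow_le_of_le_radical_of_fg ?_ (IsNoetherian.noetherian _)
    rw [Ideal.radical_eq_sInf]
    refine le_sInf fun P hP => ?_
    have hP2 := hP.2
    have hcut : Params.cut z (Ideal.span {(p : R)}) a ≤ (⟨P, hP2⟩ : PrimeSpectrum R).asIdeal := by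
      refine le_trans (sup_le_sup_left (Ideal.span_mono ?_) _) hP.1
      rintro _ ⟨l, rfl⟩
      refine ⟨l, ?_⟩
      simp only [hy]
      rw [show l.castSucc = Fin.castAdd 1 l from rfl, hl]
    rcases haP _ hcut with h1 | h1
    · exact h1.ge
    · have h2 : Order.coheight (⟨P, hP2⟩ : PrimeSpectrum R) ≤ 0 :=
        (ENat.add_le_add_iff_right (ENat.natCast_ne_top n)).1 (h1.trans_eq (zero_add _).symm)
      have hmax := Order.coheight_eq_zero.1 (nonpos_iff_eq_zero.1 h2)
      exact hmax (b := ⟨maximalIdeal R, inferInstance⟩) (le_maximalIdeal hP2.ne_top)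

variable {V : Type u} [CommRing V] [IsDomain V] [IsDiscreteValuationRing V]
variable [CharP (ResidueField R) p] [IsAdicComplete (maximalIdeal R) R]

/-- The base map through parameters together with `p` is finite. -/
theorem finite_base [IsAdicComplete (maximalIdeal V) V] (hπ : Irreducible (p : V)) (ι : V →+* R)
    (hι : Function.Surjective fun w => residue R (ι w)) {z : Fin n → R} (hz : ∀ i, z i ∈ maximalIdeal R) {c : ℕ}
    (hc : maximalIdeal R ^ c ≤ Ideal.span {(p : R)} ⊔ Ideal.span (Set.range z)) :
    (EvalPS.eval ι z hz).Finite := by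
  set A := MvPowerSeries (Fin n) V
  set φ := EvalPS.eval ι z hz with hφ
  set J : Ideal R := Ideal.span (Set.range z)
  have hJm : J ≤ maximalIdeal R := Ideal.span_le.2 (by rintro _ ⟨i, rfl⟩; exact hz i)
  let : Algebra A R := φ.toAlgebra
  let : Algebra V R := ι.toAlgebra
  have : IsScalarTower V A R := IsScalarTower.of_algebraMap_eq fun w => by
    rw [RingHom.algebraMap_toAlgebra, RingHom.algebraMap_toAlgebra, MvPowerSeries.algebraMap_apply,
      Algebra.algebraMap_self, RingHom.id_apply, hφ, EvalPS.eval_C]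
  have : Nontrivial (R ⧸ J) :=
    Ideal.Quotient.nontrivial_iff.2 fun h => (maximalIdeal.isMaximal R).ne_top
      (top_le_iff.1 (h ▸ hJm))
  have : IsLocalRing (R ⧸ J) :=
    IsLocalRing.of_surjective' (Ideal.Quotient.mk J) Ideal.Quotient.mk_surjective
  have hmaxJ : (maximalIdeal R).map (Ideal.Quotient.mk J) = maximalIdeal (R ⧸ J) :=
    IsLocalRing.eq_maximalIdeal (Ideal.IsMaximal.map_of_surjective_of_ker_le
      Ideal.Quotient.mk_surjective (Ideal.mk_ker.trans_le hJm))
  have hWD : Module.Finite V (R ⧸ J) := by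
    have hmap : (maximalIdeal V).map (algebraMap V (R ⧸ J)) =
        Ideal.span {(p : R ⧸ J)} := by
      rw [maximalIdeal_coeff hπ, Ideal.map_span, Set.image_singleton, map_natCast]
    have : IsLocalHom (algebraMap V (R ⧸ J)) := by
      refine ((local_hom_TFAE _).out 0 2).mpr ?_
      rw [hmap, Ideal.span_singleton_le_iff_mem, ← hmaxJ]
      simpa using Ideal.mem_map_of_mem (Ideal.Quotient.mk J) (WittMap.natCast_mem p (R := R))
    have : Module.Finite V ((R ⧸ J) ⧸ maximalIdeal (R ⧸ J)) := by
      refine Module.Finite.of_surjective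
        (Algebra.linearMap V ((R ⧸ J) ⧸ maximalIdeal (R ⧸ J))) fun x => ?_
      obtain ⟨x', rfl⟩ := Ideal.Quotient.mk_surjective x
      obtain ⟨r, rfl⟩ := Ideal.Quotient.mk_surjective x'
      obtain ⟨w, hw⟩ := hι (residue R r)
      refine ⟨w, ?_⟩
      rw [Algebra.linearMap_apply, IsScalarTower.algebraMap_apply V R,
        IsScalarTower.algebraMap_apply R (R ⧸ J) ((R ⧸ J) ⧸ maximalIdeal (R ⧸ J)),
        Ideal.Quotient.algebraMap_eq, Ideal.Quotient.algebraMap_eq, RingHom.algebraMap_toAlgebra,
        Ideal.Quotient.eq, ← map_sub, ← hmaxJ]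
      refine Ideal.mem_map_of_mem _ ((residue_eq_zero_iff _).1 ?_)
      rw [map_sub, show residue R (ι w) = residue R r from hw, sub_self]
    have := Compl.finite_fibre (R := V) (S := R ⧸ J) (c := c) (by
      rw [hmap, ← hmaxJ, ← Ideal.map_pow]
      refine (Ideal.map_mono hc).trans ?_
      rw [Ideal.map_sup, Ideal.map_quotient_self, sup_bot_eq, Ideal.map_span, Set.image_singleton,
        map_natCast])
    have : IsHausdorff (maximalIdeal V) (R ⧸ J) := by
      refine (IsHausdorff.map_algebraMap_iff (I := maximalIdeal V) (S := R ⧸ J) (M := R ⧸ J)).1 ?_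
      exact IsHausdorff.of_isLocalRing _ _ (map_maximalIdeal_lt_top (algebraMap V (R ⧸ J))).ne
    have : Module.Finite V ((R ⧸ J) ⧸ (maximalIdeal V • ⊤ : Submodule V (R ⧸ J))) := by
      rw [Ideal.smul_top_eq_map]
      exact Module.Finite.equiv (Submodule.Quotient.restrictScalarsEquiv V
        ((maximalIdeal V).map (algebraMap V (R ⧸ J)))).symm
    exact PSBase.finite_of_complete (maximalIdeal V)
  set I : Ideal A := Ideal.span (Set.range MvPowerSeries.X) with hI
  have hIJ : I.map (algebraMap A R) = J := by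
    rw [hI, Ideal.map_span, ← Set.range_comp]
    exact congrArg Ideal.span (congrArg Set.range (funext fun i => EvalPS.eval_X _ z hz i))
  have : Module.Finite A (R ⧸ J) := Module.Finite.of_restrictScalars_finite V A _
  have : IsHausdorff I R := by
    refine (IsHausdorff.map_algebraMap_iff (I := I) (S := R) (M := R)).1 ?_
    rw [hIJ]
    exact IsHausdorff.of_isLocalRing _ _ fun h => (maximalIdeal.isMaximal R).ne_top
      (top_le_iff.1 (h ▸ hJm))
  have : Module.Finite A (R ⧸ (I • ⊤ : Submodule A R)) := by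
    rw [Ideal.smul_top_eq_map, hIJ]
    exact Module.Finite.equiv (Submodule.Quotient.restrictScalarsEquiv A J).symm
  have : IsAdicComplete I A := hI ▸ inferInstance
  exact PSBase.finite_of_complete I

omit [IsAdicComplete (maximalIdeal R) R] [CharP (ResidueField R) p] in
/-- Perturbing a member of a reduction by the square of the maximal ideal keeps a reduction. -/
theorem isRed_perturb {y : Fin (n + 1) → R} (hy : Red.IsRed y) {e : R}
    (he : e ∈ maximalIdeal R ^ 2) :
    Red.IsRed (Fin.cons (y (Fin.last n) + e) fun i : Fin n => y i.castSucc) := by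
  obtain ⟨hym, c, hc⟩ := hy
  refine ⟨Fin.cases (add_mem (hym _) (Ideal.pow_le_self two_ne_zero he)) fun i => hym _,
    c, Red.nakayama (hc.trans ?_)⟩
  refine Ideal.mul_le.2 fun s hs t ht => ?_
  induction hs using Submodule.span_induction with
  | mem s hs =>
    obtain ⟨l, rfl⟩ := hs
    induction l using Fin.lastCases with
    | last =>
      have hsplit : y (Fin.last n) * t = (y (Fin.last n) + e) * t + -e * t := by ring
      rw [hsplit]
      refine Submodule.add_mem_sup (Ideal.mul_mem_mul (Ideal.subset_span ⟨0, rfl⟩) ht) ?_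
      rw [show c + 2 = 2 + c from Nat.add_comm _ _, pow_add]
      exact Ideal.mul_mem_mul (neg_mem he) ht
    | cast l =>
      exact Ideal.mem_sup_left (Ideal.mul_mem_mul (Ideal.subset_span ⟨l.succ, by simp⟩) ht)
  | zero => simp
  | add a b _ _ ha hb => rw [add_mul]; exact add_mem ha hb
  | smul a b _ hb => rw [smul_eq_mul, mul_assoc]; exact Ideal.mul_mem_left _ _ hb

omit [IsAdicComplete (maximalIdeal R) R] in
/-- A primitive element near a given one. -/
theorem exists_theta [IsDomain R] (hπ : Irreducible (p : V)) (φ : MvPowerSeries (Fin n) V →+* R) (hfin : φ.Finite)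
    (hinj : Function.Injective φ) (z₁ : R) :
    ∃ e ∈ maximalIdeal R ^ 2, ∃ h : MvPowerSeries (Fin n) V, h ≠ 0 ∧
      ∀ x : R, ∃ Q : (MvPowerSeries (Fin n) V)[X], Q.eval₂ φ (z₁ + e) = φ h * x := by
  set A := MvPowerSeries (Fin n) V
  have : IsDomain A := NoZeroDivisors.to_isDomain _
  have : CharZero A := charZero_base hπ
  let : Algebra A R := φ.toAlgebra
  have : Module.Finite A R := hfin
  have : FaithfulSMul A R := (faithfulSMul_iff_algebraMap_injective A R).2 hinj
  have hcinj : Function.Injective fun i : ℕ => (p : A) ^ (i + 2) := fun a b h => by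
    have h' : ((p ^ (a + 2) : ℕ) : A) = ((p ^ (b + 2) : ℕ) : A) := by
      rw [Nat.cast_pow, Nat.cast_pow]
      exact h
    have := Nat.pow_right_injective hp.out.two_le (Nat.cast_injective h')
    omega
  obtain ⟨x, hx⟩ := exists_primitive (A := A) (R := R) (fun i => (p : A) ^ (i + 2)) hcinj
  obtain ⟨i, hi⟩ := hx z₁
  obtain ⟨h, hh, hQ⟩ := exists_denominator hi
  refine ⟨(p : A) ^ (i + 2) • x, ?_, h, hh, hQ⟩
  rw [Algebra.smul_def, map_pow, map_natCast, pow_add, mul_comm _ ((p : R) ^ 2), mul_assoc]
  exact Ideal.mul_mem_right _ _ (Ideal.pow_mem_pow (WittMap.natCast_mem p) 2)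

omit [IsAdicComplete (maximalIdeal R) R] in
/-- The choices from the map and the primitive element. -/
theorem of_theta [IsDomain R] (hπ : Irreducible (p : V)) (φ : MvPowerSeries (Fin n) V →+* R) (hfin : φ.Finite)
    (hinj : Function.Injective φ)
    (hC : Function.Surjective fun w => residue R (φ (MvPowerSeries.C w)))
    (hX : ∀ i, φ (MvPowerSeries.X i) ∈ maximalIdeal R) {θ : R}
    (hred : Red.IsRed (Fin.cons θ fun i => φ (MvPowerSeries.X i)))
    {den : MvPowerSeries (Fin n) V} (hh : den ≠ 0)
    (hQ : ∀ x : R, ∃ Q : (MvPowerSeries (Fin n) V)[X], Q.eval₂ φ θ = φ den * x) :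
    ∃ C : Choices V R n, C.φ = φ := by
  have : IsDomain (MvPowerSeries (Fin n) V) := NoZeroDivisors.to_isDomain _
  have : CharZero (MvPowerSeries (Fin n) V) := charZero_base hπ
  have : IsIntegrallyClosed (MvPowerSeries (Fin n) V) := isIntegrallyClosed_base
  let : Algebra (MvPowerSeries (Fin n) V) R := φ.toAlgebra
  have : Module.Finite (MvPowerSeries (Fin n) V) R := hfin
  have : FaithfulSMul (MvPowerSeries (Fin n) V) R := (faithfulSMul_iff_algebraMap_injective (MvPowerSeries (Fin n) V) R).2 hinj
  have hθm : θ ∈ maximalIdeal R := hred.1 0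
  have hint : IsIntegral (MvPowerSeries (Fin n) V) θ := Algebra.IsIntegral.isIntegral θ
  exact ⟨{
    φ := φ
    φ_injective := hinj
    φ_finite := hfin
    residue_φ_surjective := hC
    θ := θ
    θ_mem := hθm
    φ_X_mem := hX
    isRed := hred
    Φ := minpoly (MvPowerSeries (Fin n) V) θ
    monic := minpoly.monic hint
    root := minpoly.aeval (MvPowerSeries (Fin n) V) θ
    dvd_of_root := fun P hP => minpoly.isIntegrallyClosed_dvd hint hP
    natDegree_pos := minpoly.natDegree_pos hint
    coeff_not_isUnit := fun i hi => (mem_maximalIdeal _).1 (coeff_mem hθm hi)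
    discr_ne_zero := ChoicesAlg.discr_ne_zero θ
    h := den
    h_ne_zero := hh
    h_mul_mem := hQ }, rfl⟩

/-- The choices exist. -/
theorem exists_choices [IsDomain R] [Infinite (ResidueField R)]
    [IsAdicComplete (maximalIdeal V) V] (hπ : Irreducible (p : V)) (ι : V →+* R)
    (hι : Function.Surjective fun w => residue R (ι w))
    (hd : ringKrullDim R = (n + 1 : ℕ)) (hp0 : (p : R) ≠ 0) :
    ∃ C : Choices V R n, ∀ w, C.φ (MvPowerSeries.C w) = ι w := by
  obtain ⟨y, hy, c, hc⟩ := exists_params_p (p := p) hd hp0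
  set z : Fin n → R := fun i => y i.castSucc with hz
  have hzm : ∀ i, z i ∈ maximalIdeal R := fun i => hy.1 _
  set φ := EvalPS.eval ι z hzm with hφ
  have hfin : φ.Finite := finite_base hπ ι hι hzm hc
  have hinj : Function.Injective φ := injective_of_dim hπ φ hfin hd
  obtain ⟨e, he, h, hh, hQ⟩ := exists_theta hπ φ hfin hinj (y (Fin.last n))
  have hφC : ∀ w, φ (MvPowerSeries.C w) = ι w := fun w => EvalPS.eval_C ι z hzm w
  obtain ⟨C, hC⟩ := of_theta hπ φ hfin hinj (by simpa [hφC] using hι)
    (fun i => by rw [hφ, EvalPS.eval_X]; exact hzm i)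
    (by
      rw [show (fun i => φ (MvPowerSeries.X i)) = z from funext fun i => EvalPS.eval_X _ z hzm i]
      exact isRed_perturb hy he) hh hQ
  exact ⟨C, fun w => by rw [hC, hφC]⟩

/-- The choices over the Witt vectors of a perfect residue field. -/
theorem exists_choices_witt [PerfectRing (ResidueField R) p] [IsDomain R]
    [Infinite (ResidueField R)] (hd : ringKrullDim R = (n + 1 : ℕ)) (hp0 : (p : R) ≠ 0) :
    ∃ C : Choices (WittVector p (ResidueField R)) R n,
      ∀ w, C.φ (MvPowerSeries.C w) = WittMap.wittMap p R w := by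
  have hπ : Irreducible (p : WittVector p (ResidueField R)) := WittVector.irreducible p
  have : IsAdicComplete (maximalIdeal (WittVector p (ResidueField R)))
      (WittVector p (ResidueField R)) :=
    (maximalIdeal_coeff hπ).symm ▸ inferInstance
  refine exists_choices hπ (WittMap.wittMap p R) (fun x => ?_) hd hp0
  obtain ⟨w, hw⟩ := WittVector.constantCoeff_surjective (p := p) x
  exact ⟨w, (WittMap.residue_wittMap p w).trans hw⟩

variable (C : Choices V R n)

/-- The ideal `(θ, z)` of `A[θ]`. -/
noncomputable def zIdealV (V : Type u) [CommRing V] (n : ℕ) :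
    Ideal (MvPowerSeries (Fin n) V)[X] :=
  Ideal.span (Set.range (Fin.cons Polynomial.X fun i => Polynomial.C (MvPowerSeries.X i) :
    Fin (n + 1) → (MvPowerSeries (Fin n) V)[X]))

/-- The ideal `(θ, z)` over the Witt vectors. -/
noncomputable abbrev zIdeal (p : ℕ) [Fact p.Prime] (k : Type u) [CommRing k] (n : ℕ) :
    Ideal (Base p k n)[X] :=
  zIdealV (WittVector p k) n

/-- An element of `A[θ]` which carries a nonzero ideal into `I` times it is a root of a monic
polynomial with coefficients in powers of `I`. -/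
theorem exists_bound [IsDomain R] (Q : (MvPowerSeries (Fin n) V)[X])
    (I : Ideal (MvPowerSeries (Fin n) V)[X]) (J : Ideal R) (hJ : J ≠ ⊥)
    (h : ∀ y ∈ J, Q.eval₂ C.φ C.θ * y ∈ I.map (eval₂RingHom C.φ C.θ) * J) :
    ∃ P : ((MvPowerSeries (Fin n) V)[X])[X], P.Monic ∧
      (∀ l, P.coeff l ∈ I ^ (P.natDegree - l)) ∧ C.Φ ∣ P.eval Q := by
  let : Algebra (MvPowerSeries (Fin n) V)[X] R := (eval₂RingHom C.φ C.θ).toAlgebra
  have : Module.Finite (MvPowerSeries (Fin n) V)[X] R := by
    refine RingHom.Finite.of_comp_finite (f := Polynomial.C) ?_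
    rw [show (eval₂RingHom C.φ C.θ).comp Polynomial.C = C.φ from RingHom.ext fun a => by simp]
    exact C.φ_finite
  obtain ⟨P, hP, hc, h0⟩ := exists_monic_bound Q I J hJ h
  exact ⟨P, hP, hc, C.dvd_of_root _ h0⟩

/-- For `x` in the maximal ideal, `h x` is a root of a monic polynomial with coefficients in powers
of `h (θ, z)`. -/
theorem exists_bound_maximalIdeal [IsDomain R] {x : R} (hx : x ∈ maximalIdeal R)
    (hm : maximalIdeal R ≠ ⊥) (Q : (MvPowerSeries (Fin n) V)[X])
    (hQ : Q.eval₂ C.φ C.θ = C.φ C.h * x) :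
    ∃ P : ((MvPowerSeries (Fin n) V)[X])[X], P.Monic ∧
      (∀ l, P.coeff l ∈ (Ideal.span {Polynomial.C C.h} *
        zIdealV V n) ^ (P.natDegree - l)) ∧ C.Φ ∣ P.eval Q := by
  obtain ⟨-, c, hc⟩ := C.isRed
  refine exists_bound C Q _ (maximalIdeal R ^ c) (pow_ne_zero c hm) fun y hy => ?_
  rw [hQ, Ideal.map_mul, mul_assoc, mul_assoc, Ideal.map_span, Set.image_singleton,
    coe_eval₂RingHom, eval₂_C]
  refine Ideal.mul_mem_mul (Ideal.mem_span_singleton_self _) ?_
  have h1 : x * y ∈ Ideal.span (Set.range (Fin.cons C.θ fun i => C.φ (MvPowerSeries.X i))) *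
      maximalIdeal R ^ c := hc (by rw [pow_succ']; exact Ideal.mul_mem_mul hx hy)
  convert h1 using 3
  rw [zIdealV, Ideal.map_span, ← Set.range_comp]
  refine congrArg _ (congrArg _ (funext fun l => ?_))
  induction l using Fin.cases <;> simp

end Choices

end Vale.Agent.P202.Mixed2
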