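import Vale.Agent.P202.Perf.BaseIdeal

/-!
P202 mixed characteristic: powers of the maximal ideal of a power series ring over a local ring,
and completeness.
-/

namespace Vale.Agent.P202.Mixed2.PSComplete

open IsLocalRing MvPowerSeries

universe u

variable {V : Type u} [CommRing V] [IsLocalRing V] {σ : Type} [Finite σ]

theorem maximalIdeal_eq :
    maximalIdeal (MvPowerSeries σ V) =
      (maximalIdeal V).map C ⊔ Ideal.span (Set.range MvPowerSeries.X) := by
  refine le_antisymm (fun f hf => ?_) (sup_le ?_ ?_)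
  · rw [mem_maximalIdeal, mem_nonunits_iff, isUnit_iff_constantCoeff, ← mem_nonunits_iff,
      ← mem_maximalIdeal] at hf
    have hX : f - C (constantCoeff f) ∈
        Ideal.span (Set.range (MvPowerSeries.X : σ → MvPowerSeries σ V)) := by
      rw [← pow_one (Ideal.span _)]
      refine Perf.Base.mem_pow_span_X fun a ha => ?_
      rw [(Finsupp.degree_eq_zero_iff a).1 (Nat.lt_one_iff.1 ha), map_sub, coeff_zero_C,
        coeff_zero_eq_constantCoeff_apply, sub_self]
    exact Submodule.mem_sup.2 ⟨_, Ideal.mem_map_of_mem _ hf, _, hX, add_sub_cancel _ _⟩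
  · rw [Ideal.map_le_iff_le_comap]
    intro c hc
    rw [Ideal.mem_comap, mem_maximalIdeal, mem_nonunits_iff, isUnit_iff_constantCoeff,
      constantCoeff_C, ← mem_nonunits_iff, ← mem_maximalIdeal]
    exact hc
  · rw [Ideal.span_le]
    rintro _ ⟨i, rfl⟩
    rw [SetLike.mem_coe, mem_maximalIdeal, mem_nonunits_iff, isUnit_iff_constantCoeff,
      constantCoeff_X]
    exact not_isUnit_zero

theorem coeff_mem_of_mem_pow {s : ℕ} {f : MvPowerSeries σ V}
    (hf : f ∈ maximalIdeal (MvPowerSeries σ V) ^ s) (a : σ →₀ ℕ) :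
    coeff a f ∈ maximalIdeal V ^ (s - a.degree) := by
  classical
  induction s generalizing f a with
  | zero => simp
  | succ s ih =>
    rw [pow_succ] at hf
    refine Submodule.mul_induction_on hf (fun g hg h hh => ?_) (fun g h hg hh => ?_)
    · rw [coeff_mul]
      refine sum_mem fun e he => ?_
      have hdeg : a.degree = e.1.degree + e.2.degree := by
        rw [← Finset.HasAntidiagonal.mem_antidiagonal.1 he, map_add]
      have h2 : coeff e.2 h ∈ maximalIdeal V ^ (1 - e.2.degree) := by
        rcases Nat.eq_zero_or_pos e.2.degree with h0 | h0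
        · rw [h0, Nat.sub_zero, pow_one, (Finsupp.degree_eq_zero_iff _).1 h0,
            coeff_zero_eq_constantCoeff_apply, mem_maximalIdeal, mem_nonunits_iff,
            ← isUnit_iff_constantCoeff]
          exact (mem_maximalIdeal _).1 hh
        · rw [Nat.sub_eq_zero_of_le h0, pow_zero, Ideal.one_eq_top]
          trivial
      refine Ideal.pow_le_pow_right (m := s + 1 - a.degree)
        (n := (s - e.1.degree) + (1 - e.2.degree)) (by omega) ?_
      rw [pow_add]
      exact Ideal.mul_mem_mul (ih hg e.1) h2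
    · rw [map_add]
      exact add_mem hg hh

theorem mem_pow_of_coeff_mem {s : ℕ} {f : MvPowerSeries σ V}
    (hf : ∀ a : σ →₀ ℕ, a.degree < s → coeff a f ∈ maximalIdeal V ^ (s - a.degree)) :
    f ∈ maximalIdeal (MvPowerSeries σ V) ^ s := by
  classical
  have hfin : {e : σ →₀ ℕ | e.degree < s}.Finite := by
    refine (Finite.of_injective (β := σ → Fin s) (fun e : {e : σ →₀ ℕ | e.degree < s} => fun i : σ =>
      (⟨e.1 i, (Finsupp.le_degree i e.1).trans_lt e.2⟩ : Fin s)) ?_)
    intro e e' hee
    ext i
    exact congrArg Fin.val (congrFun hee i)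
  set g := ∑ e ∈ hfin.toFinset, monomial e (coeff e f) with hg
  have htail : f - g ∈ Ideal.span (Set.range (MvPowerSeries.X : σ → MvPowerSeries σ V)) ^ s := by
    refine Perf.Base.mem_pow_span_X fun a ha => ?_
    rw [map_sub, hg, map_sum, Finset.sum_eq_single a, coeff_monomial_same, sub_self]
    · exact fun e _ hne => coeff_monomial_ne (Ne.symm hne) _
    · exact fun hnot => absurd (hfin.mem_toFinset.2 ha) hnot
  rw [← sub_add_cancel f g]
  refine add_mem (Ideal.pow_right_mono (le_sup_right.trans (maximalIdeal_eq (V := V) (σ := σ)).ge) s htail)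
    (sum_mem fun e he => ?_)
  have he' : e.degree < s := hfin.mem_toFinset.1 he
  have hm := monomial_mul_monomial (R := V) (0 : σ →₀ ℕ) e (coeff e f) 1
  rw [zero_add, mul_one, monomial_zero_eq_C_apply] at hm
  rw [← hm, show maximalIdeal (MvPowerSeries σ V) ^ s = maximalIdeal (MvPowerSeries σ V) ^
    (s - e.degree) * maximalIdeal (MvPowerSeries σ V) ^ e.degree by
      rw [← pow_add, Nat.sub_add_cancel he'.le]]
  refine Ideal.mul_mem_mul ?_ (Ideal.pow_right_mono (le_sup_right.trans (maximalIdeal_eq (V := V) (σ := σ)).ge) _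
    (Perf.Base.monomial_mem_pow_span_X e))
  have h1 := Ideal.mem_map_of_mem (C : V →+* MvPowerSeries σ V) (hf e he')
  rw [Ideal.map_pow] at h1
  exact Ideal.pow_right_mono (le_sup_left.trans (maximalIdeal_eq (V := V) (σ := σ)).ge) _ h1

/-- Power series over a complete Noetherian local ring are complete. -/
theorem isAdicComplete [IsNoetherianRing V] [IsAdicComplete (maximalIdeal V) V] :
    IsAdicComplete (maximalIdeal (MvPowerSeries σ V)) (MvPowerSeries σ V) := by
  refine { haus' := IsHausdorff.haus (IsHausdorff.of_isLocalRing _ _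
    (maximalIdeal.isMaximal _).ne_top), prec' := fun f hf => ?_ }
  simp only [smul_eq_mul, Ideal.mul_top, SModEq.sub_mem] at hf ⊢
  have hc : ∀ a : σ →₀ ℕ, ∃ L : V, ∀ j, coeff a (f (j + a.degree)) - L ∈ maximalIdeal V ^ j := by
    intro a
    obtain ⟨L, hL⟩ := IsPrecomplete.prec' (I := maximalIdeal V)
      (fun j => coeff a (f (j + a.degree))) (fun {i j} hij => by
        rw [SModEq.sub_mem, smul_eq_mul, Ideal.mul_top, ← map_sub]
        have := coeff_mem_of_mem_pow (hf (Nat.add_le_add_right hij a.degree)) a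
        rwa [Nat.add_sub_cancel] at this)
    exact ⟨L, fun j => by simpa [SModEq.sub_mem, smul_eq_mul, Ideal.mul_top] using hL j⟩
  choose L hL using hc
  let Lf : MvPowerSeries σ V := fun a => L a
  refine ⟨Lf, fun s => mem_pow_of_coeff_mem fun a ha => ?_⟩
  have h := hL a (s - a.degree)
  rw [Nat.sub_add_cancel ha.le] at h
  rw [LinearMap.map_sub]
  exact h

end Vale.Agent.P202.Mixed2.PSComplete
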