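import Vale.Agent.P202.Ext.Setting
import Vale.Agent.P202.Mixed2.Choices
import Vale.Agent.P202.Mixed2.PSComplete

/-!
P202 mixed characteristic: maps `V[[z]] → W[[z, Z]]` of power series over discrete valuation rings
with uniformiser `p` sending variables to distinct variables are flat.
-/

namespace Vale.Agent.P202.Mixed2.BaseFlat

open IsLocalRing Vale.Agent.P202.Char Vale.Agent.P202.Zero
open scoped TensorProduct

set_option linter.unusedSectionVars false

universe u

variable {p : ℕ} [hp : Fact p.Prime] {W : Type u} [CommRing W] [IsDomain W]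
  [IsDiscreteValuationRing W] (hW : Irreducible (p : W))

include hW in
/-- The kernel of reduction modulo `p`. -/
theorem exists_of_map_eq_zero {D : ℕ} {f : MvPowerSeries (Fin D) W}
    (hf : MvPowerSeries.map (residue W) f = 0) :
    ∃ g, f = (p : MvPowerSeries (Fin D) W) * g := by
  have h : ∀ a, ∃ b, MvPowerSeries.coeff a f = (p : W) * b := fun a => by
    have h1 := congrArg (MvPowerSeries.coeff a) hf
    rw [MvPowerSeries.coeff_map, map_zero, residue_eq_zero_iff, hW.maximalIdeal_eq,
      Ideal.mem_span_singleton] at h1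
    exact h1
  choose b hb using h
  let G : MvPowerSeries (Fin D) W := fun a => b a
  have hG : ∀ a, MvPowerSeries.coeff a G = b a := fun a => rfl
  refine ⟨G, MvPowerSeries.ext fun a => ?_⟩
  rw [← map_natCast (MvPowerSeries.C (σ := Fin D) (R := W)), MvPowerSeries.coeff_C_mul, hb, hG]

include hW in
/-- Syzygies of `p` and distinct variables. -/
theorem syzygy {d D : ℕ} (e : Fin d → Fin D) (he : Function.Injective e)
    (b₀ : MvPowerSeries (Fin D) W) (b : Fin d → MvPowerSeries (Fin D) W)
    (h : (p : MvPowerSeries (Fin D) W) * b₀ + ∑ i, MvPowerSeries.X (e i) * b i = 0) :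
    ∃ (c : Fin d → MvPowerSeries (Fin D) W) (L : Fin d → Fin d → MvPowerSeries (Fin D) W),
      b₀ = -∑ i, MvPowerSeries.X (e i) * c i ∧ ∀ i, b i = (p : MvPowerSeries (Fin D) W) * c i +
        (∑ j, MvPowerSeries.X (e j) * L i j - ∑ j, MvPowerSeries.X (e j) * L j i) := by
  classical
  set red := MvPowerSeries.map (σ := Fin D) (residue W)
  have hp0 : (p : MvPowerSeries (Fin D) W) ≠ 0 := fun h0 => hW.ne_zero (by
    simpa using congrArg MvPowerSeries.constantCoeff h0)
  have hred : ∑ i, MvPowerSeries.X (e i) ^ 1 * red (b i) = 0 := by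
    have h1 := congrArg red h
    rw [map_add, map_mul, map_natCast, map_sum, map_zero] at h1
    have hpK : ((p : ℕ) : PS (ResidueField W) D) = 0 := by
      rw [← map_natCast (MvPowerSeries.C (σ := Fin D) (R := ResidueField W)),
        show ((p : ℕ) : ResidueField W) = 0 by
          rw [← map_natCast (residue W), residue_eq_zero_iff, hW.maximalIdeal_eq]
          exact Ideal.mem_span_singleton_self _, map_zero]
    rw [hpK, zero_mul, zero_add] at h1
    rw [← h1]
    exact Finset.sum_congr rfl fun i _ => by rw [pow_one, map_mul]; simp [red]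
  obtain ⟨L', hL'⟩ := Ext.Setting.syzygy e he 1 (fun i => red (b i)) hred
  have hsurj : Function.Surjective red := fun f => by
    choose g hg using fun a => residue_surjective (R := W) (MvPowerSeries.coeff a f)
    let G : MvPowerSeries (Fin D) W := fun a => g a
    exact ⟨G, MvPowerSeries.ext fun a => (MvPowerSeries.coeff_map (residue W) a G).trans (hg a)⟩
  choose L hL using fun i j => hsurj (L' i j)
  have hc : ∀ i, ∃ c, b i - (∑ j, MvPowerSeries.X (e j) * L i j -
      ∑ j, MvPowerSeries.X (e j) * L j i) = (p : MvPowerSeries (Fin D) W) * c := fun i => by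
    refine exists_of_map_eq_zero hW ?_
    rw [map_sub, map_sub, map_sum, map_sum, sub_eq_zero]
    refine (hL' i).trans (congrArg₂ (· - ·) ?_ ?_) <;>
      exact Finset.sum_congr rfl fun j _ => by rw [map_mul, pow_one, hL]; simp
  choose c hc using hc
  refine ⟨c, L, ?_, fun i => by rw [← hc i]; ring⟩
  refine mul_left_cancel₀ hp0 ?_
  have hanti : ∑ i, MvPowerSeries.X (e i) * (∑ j, MvPowerSeries.X (e j) * L i j -
      ∑ j, MvPowerSeries.X (e j) * L j i) = (0 : MvPowerSeries (Fin D) W) := by
    simp only [mul_sub, Finset.mul_sum, Finset.sum_sub_distrib]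
    rw [sub_eq_zero, Finset.sum_comm]
    exact Finset.sum_congr rfl fun j _ => Finset.sum_congr rfl fun i _ => by ring
  have hb : ∑ i, MvPowerSeries.X (e i) * b i =
      (p : MvPowerSeries (Fin D) W) * ∑ i, MvPowerSeries.X (e i) * c i := by
    rw [← sub_eq_zero, Finset.mul_sum, ← Finset.sum_sub_distrib, ← hanti]
    refine Finset.sum_congr rfl fun i _ => ?_
    linear_combination (MvPowerSeries.X (e i) : MvPowerSeries (Fin D) W) * hc i
  linear_combination h - hb

include hW in
/-- Flatness. -/
theorem flat {V : Type u} [CommRing V] [IsDomain V] [IsDiscreteValuationRing V]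
    (hV : Irreducible (p : V)) {d D : ℕ}
    (ι : MvPowerSeries (Fin d) V →+* MvPowerSeries (Fin D) W) (e : Fin d → Fin D)
    (he : Function.Injective e)
    (hX : ∀ i, ι (MvPowerSeries.X i) = MvPowerSeries.X (e i)) : ι.Flat := by
  classical
  let A := MvPowerSeries (Fin d) V
  let B := MvPowerSeries (Fin D) W
  let : Algebra A B := ι.toAlgebra
  let g : Option (Fin d) → A := fun o => o.elim (p : A) MvPowerSeries.X
  have hmax : maximalIdeal A = Ideal.span (Set.range g) := by
    refine le_antisymm (Choices.maximalIdeal_base_le hV) (Ideal.span_le.2 ?_)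
    rintro _ ⟨_ | i, rfl⟩ <;>
      rw [SetLike.mem_coe, mem_maximalIdeal, mem_nonunits_iff,
        MvPowerSeries.isUnit_iff_constantCoeff] <;>
      simp [g, hV.not_isUnit]
  have : IsLocalHom (algebraMap A B) := by
    refine ((local_hom_TFAE _).out 0 2).mpr ?_
    rw [hmax, Ideal.map_span, Ideal.span_le]
    rintro _ ⟨_, ⟨_ | i, rfl⟩, rfl⟩ <;>
      rw [SetLike.mem_coe, mem_maximalIdeal, mem_nonunits_iff,
        MvPowerSeries.isUnit_iff_constantCoeff] <;>
      simp [g, RingHom.algebraMap_toAlgebra, hX, hW.not_isUnit]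
  change Module.Flat A B
  refine flat_of_act_injective ?_
  rw [← LinearMap.ker_eq_bot, Submodule.eq_bot_iff]
  intro t ht
  let xm : Option (Fin d) → maximalIdeal A := fun o =>
    ⟨g o, hmax ▸ Ideal.subset_span ⟨o, rfl⟩⟩
  obtain ⟨b, rfl⟩ : ∃ b : Option (Fin d) → B, t = ∑ o, xm o ⊗ₜ[A] b o := by
    clear ht
    induction t using TensorProduct.induction_on with
    | zero => exact ⟨0, by simp⟩
    | add u v hu hv =>
      obtain ⟨b, rfl⟩ := hu
      obtain ⟨c, rfl⟩ := hv
      exact ⟨b + c, by simp [TensorProduct.tmul_add, Finset.sum_add_distrib]⟩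
    | tmul a y =>
      obtain ⟨c, hc⟩ := (Submodule.mem_span_range_iff_exists_fun A).1
        (show (a : A) ∈ Ideal.span (Set.range g) from hmax ▸ a.2)
      have ha : a = ∑ o, c o • xm o := Subtype.ext (by simp [xm, ← hc])
      exact ⟨fun o => c o • y, by rw [ha, TensorProduct.sum_tmul]; simp [TensorProduct.smul_tmul]⟩
  rw [LinearMap.mem_ker, map_sum, Fintype.sum_option] at ht
  simp only [FlatCrit.act_tmul, Algebra.smul_def, RingHom.algebraMap_toAlgebra, xm, g,
    Option.elim_none, Option.elim_some, hX] at ht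
  rw [map_natCast ι] at ht
  obtain ⟨c, L, hb₀, hb⟩ := syzygy hW e he (b none) (fun i => b (some i)) ht
  have hkey : ∀ (o : Option (Fin d)) (o' : Option (Fin d)) (y : B),
      xm o ⊗ₜ[A] (algebraMap A B (g o') * y) = xm o' ⊗ₜ[A] (algebraMap A B (g o) * y) := by
    intro o o' y
    rw [← Algebra.smul_def, ← Algebra.smul_def, ← TensorProduct.smul_tmul,
      ← TensorProduct.smul_tmul]
    exact congrArg (· ⊗ₜ[A] y) (Subtype.ext (mul_comm _ _))
  have hgX : ∀ i, algebraMap A B (g (some i)) = MvPowerSeries.X (e i) := fun i => hX i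
  have hgp : algebraMap A B (g none) = (p : B) := map_natCast _ p
  rw [Fintype.sum_option]
  have h1 : ∀ i, xm (some i) ⊗ₜ[A] b (some i) = xm none ⊗ₜ[A] (MvPowerSeries.X (e i) * c i) +
      (∑ j, xm (some j) ⊗ₜ[A] (MvPowerSeries.X (e i) * L i j) -
        ∑ j, xm (some j) ⊗ₜ[A] (MvPowerSeries.X (e i) * L j i)) := by
    intro i
    rw [hb i, TensorProduct.tmul_add, TensorProduct.tmul_sub, TensorProduct.tmul_sum,
      TensorProduct.tmul_sum]
    simp only [← hgX, ← hgp, hkey (some i) none, hkey (some i) (some _)]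
  rw [Finset.sum_congr rfl fun i _ => h1 i, Finset.sum_add_distrib, ← TensorProduct.tmul_sum,
    hb₀, TensorProduct.tmul_neg]
  refine (neg_add_cancel_left _ _).trans ?_
  refine (Finset.sum_sub_distrib _ _).trans (sub_eq_zero.2 ?_)
  rw [Finset.sum_comm]
  refine Finset.sum_congr rfl fun j _ => Finset.sum_congr rfl fun i _ => ?_
  rw [← hgX, ← hgX, hkey]

end Vale.Agent.P202.Mixed2.BaseFlat
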