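import Vale.Agent.P202.Perf.BaseIdeal
import Vale.Agent.P202.Perf.Retract

/-!
P202, mixed characteristic: each level of the perfectoid base is free over the lower ones, on
`varpi ^ j * T ^ e` with `j, e i < p ^ (m - n)`, and the weight against powers of the maximal ideal
of a lower level.
-/

namespace Vale.Agent.P202.Mixed2.BaseFree

open MvPowerSeries Perf Perf.Base

set_option linter.unusedSectionVars false

variable {p : ℕ} [hp : Fact (Nat.Prime p)] {k : Type*} [Field k] [CharP k p] [PerfectRing k p]
variable {σ : Type*} [Finite σ]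

/-- The index set of the basis. -/
abbrev Ix (σ : Type*) (P : ℕ) : Type _ := Fin P × (σ → Fin P)

theorem card_Ix (P : ℕ) : Nat.card (Ix σ P) = P ^ (Nat.card σ + 1) := by
  rw [Nat.card_prod, Nat.card_fun, Nat.card_fin, pow_succ']

/-- The exponent of an index. -/
noncomputable def expo {P : ℕ} (e : σ → Fin P) : σ →₀ ℕ :=
  Finsupp.equivFunOnFinite.symm fun i => (e i : ℕ)

theorem expo_apply {P : ℕ} (e : σ → Fin P) (i : σ) : expo e i = e i := rfl

variable (p k) in
/-- A basis element. -/
noncomputable def mon (m : ℕ) {P : ℕ} (x : Ix σ P) : An p k σ m :=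
  monomial (expo x.2) (varpi p k m ^ (x.1 : ℕ))

variable (p k σ) in
/-- The combination map. -/
noncomputable def comb {n m : ℕ} (h : n ≤ m) :
    (Ix σ (p ^ (m - n)) → An p k σ n) →+ An p k σ m :=
  letI := Fintype.ofFinite (Ix σ (p ^ (m - n)))
  { toFun := fun v => ∑ x, tr p k σ h (v x) * mon p k m x
    map_zero' := by simp
    map_add' := fun v w => by simp [add_mul, Finset.sum_add_distrib] }

theorem comb_apply {n m : ℕ} (h : n ≤ m) [Fintype (Ix σ (p ^ (m - n)))]
    (v : Ix σ (p ^ (m - n)) → An p k σ n) :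
    comb p k σ h v = ∑ x, tr p k σ h (v x) * mon p k m x := by
  simp only [comb, AddMonoidHom.coe_mk, ZeroHom.coe_mk]
  exact Finset.sum_congr (Finset.ext fun x => by simp) fun x _ => rfl

theorem comb_mul {n m : ℕ} (h : n ≤ m) (g : An p k σ n) (v : Ix σ (p ^ (m - n)) → An p k σ n) :
    comb p k σ h (fun x => g * v x) = tr p k σ h g * comb p k σ h v := by
  have := Fintype.ofFinite (Ix σ (p ^ (m - n)))
  rw [comb_apply, comb_apply, Finset.mul_sum]
  simp only [map_mul, mul_assoc]

section Coeff

variable {n m : ℕ} (h : n ≤ m)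

theorem sum_trans_injective {g : Fin (p ^ (m - n)) → Wn p k n}
    (hg : ∑ j : Fin (p ^ (m - n)), trans p k h (g j) * varpi p k m ^ (j : ℕ) = 0) : g = 0 := by
  revert g
  set P := p ^ (m - n)
  intro g hg
  funext i
  have h1 := congrArg (fun z => retW p k n m (varpi p k m ^ (P - (i : ℕ)) * z)) hg
  simp only [mul_zero, map_zero, Finset.mul_sum, map_sum] at h1
  rw [Finset.sum_eq_single i] at h1
  · rw [mul_left_comm, ← pow_add, retW_trans_mul h, Nat.sub_add_cancel i.2.le,
      retW_varpi_pow h, if_pos dvd_rfl, Nat.div_self (pow_pos hp.out.pos _), pow_one] at h1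
    simpa using (mul_eq_zero.1 h1).resolve_right (varpi_ne_zero n)
  · intro j _ hji
    rw [mul_left_comm, ← pow_add, retW_trans_mul h, retW_varpi_pow h, if_neg, mul_zero]
    intro hd
    apply hji
    have hi := i.2
    have hj := j.2
    obtain ⟨c, hc⟩ := hd
    rw [show p ^ (m - n) = P from rfl] at hc
    rcases Nat.lt_or_ge c 1 with hc0 | hc1
    · rw [Nat.lt_one_iff.1 hc0, mul_zero] at hc
      omega
    rcases Nat.lt_or_ge c 2 with hc2 | hc2
    · obtain rfl : c = 1 := by omega
      rw [mul_one] at hc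
      exact Fin.ext (by omega)
    · have : P * 2 ≤ P * c := Nat.mul_le_mul_left _ hc2
      omega
  · simp

theorem exists_sum_trans (x : Wn p k m) :
    ∃ g : Fin (p ^ (m - n)) → Wn p k n,
      ∑ j : Fin (p ^ (m - n)), trans p k h (g j) * varpi p k m ^ (j : ℕ) = x := by
  set P := p ^ (m - n)
  induction x using AdjoinRoot.induction_on with
  | _ f =>
    induction f using Polynomial.induction_on' with
    | add f g hf hg =>
      obtain ⟨a, ha⟩ := hf
      obtain ⟨b, hb⟩ := hg
      exact ⟨a + b, by simp [map_add, add_mul, Finset.sum_add_distrib, ha, hb]⟩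
    | monomial i a =>
      have hP : 0 < P := pow_pos hp.out.pos _
      refine ⟨Pi.single ⟨i % P, Nat.mod_lt _ hP⟩
        (AdjoinRoot.of _ a * varpi p k n ^ (i / P)), ?_⟩
      rw [Finset.sum_eq_single ⟨i % P, Nat.mod_lt _ hP⟩]
      · rw [Pi.single_eq_same, map_mul, map_pow, Base.trans_of, trans_varpi, ← pow_mul, mul_assoc,
          ← pow_add, Nat.div_add_mod, ← Polynomial.C_mul_X_pow_eq_monomial, map_mul, map_pow,
          AdjoinRoot.mk_C, AdjoinRoot.mk_X]
      · intro j _ hj
        rw [Pi.single_eq_of_ne hj, map_zero, zero_mul]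
      · simp

open scoped Classical in
theorem coeff_tr_mul_mon (g : An p k σ n) (x : Ix σ (p ^ (m - n))) (a : σ →₀ ℕ)
    (e : σ → Fin (p ^ (m - n))) :
    coeff (p ^ (m - n) • a + expo e) (tr p k σ h g * mon p k m x) =
      if x.2 = e then trans p k h (coeff a g) * varpi p k m ^ (x.1 : ℕ) else 0 := by
  classical
  rw [mon, coeff_mul_monomial]
  by_cases hx : x.2 = e
  · rw [if_pos hx, hx, if_pos le_add_self, add_tsub_cancel_right, coeff_tr_smul]
  · rw [if_neg hx]
    split_ifs with hle
    · obtain ⟨i, hi⟩ := Function.ne_iff.1 hx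
      rw [coeff_tr_of_not_dvd h g (i := i), zero_mul]
      intro hd
      apply hi
      apply Fin.ext
      have hle' := hle i
      simp only [Finsupp.coe_tsub, Pi.sub_apply, Finsupp.add_apply, Finsupp.smul_apply,
        smul_eq_mul, expo_apply] at hd hle'
      have h2 : (p ^ (m - n) * a i + (e i : ℕ)) % p ^ (m - n) = (x.2 i : ℕ) % p ^ (m - n) :=
        ((Nat.modEq_iff_dvd' hle').2 hd).symm
      rw [Nat.mul_add_mod, Nat.mod_eq_of_lt (e i).2, Nat.mod_eq_of_lt (x.2 i).2] at h2
      exact h2.symm
    · rfl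

theorem coeff_comb (v : Ix σ (p ^ (m - n)) → An p k σ n) (a : σ →₀ ℕ)
    (e : σ → Fin (p ^ (m - n))) :
    coeff (p ^ (m - n) • a + expo e) (comb p k σ h v) =
      ∑ j : Fin (p ^ (m - n)), trans p k h (coeff a (v (j, e))) * varpi p k m ^ (j : ℕ) := by
  classical
  have := Fintype.ofFinite σ
  rw [comb_apply, map_sum]
  simp only [coeff_tr_mul_mon]
  rw [Fintype.sum_prod_type]
  refine Finset.sum_congr rfl fun j _ => ?_
  simp only
  rw [Finset.sum_ite_eq' Finset.univ e, if_pos (Finset.mem_univ e)]

theorem comb_injective : Function.Injective (comb p k σ h) := by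
  refine (injective_iff_map_eq_zero _).2 fun v hv => ?_
  funext x
  refine MvPowerSeries.ext fun a => ?_
  have h1 := congrArg (coeff (p ^ (m - n) • a + expo x.2)) hv
  rw [coeff_comb, map_zero] at h1
  rw [Pi.zero_apply, map_zero]
  exact congrFun (sum_trans_injective h h1) x.1

theorem comb_surjective : Function.Surjective (comb p k σ h) := by
  intro f
  set P := p ^ (m - n)
  have hP : 0 < P := pow_pos hp.out.pos _
  choose g hg using fun c : Wn p k m => exists_sum_trans h c
  let v : Ix σ P → An p k σ n := fun x a => g (coeff (P • a + expo x.2) f) x.1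
  refine ⟨v, MvPowerSeries.ext fun b => ?_⟩
  let a : σ →₀ ℕ := b.mapRange (fun t => t / P) (Nat.zero_div _)
  let e : σ → Fin P := fun i => ⟨b i % P, Nat.mod_lt _ hP⟩
  have hb : b = P • a + expo e := by
    ext i
    simp only [Finsupp.add_apply, Finsupp.smul_apply, smul_eq_mul, expo_apply, a, e,
      Finsupp.mapRange_apply, Nat.div_add_mod]
  rw [hb, coeff_comb]
  exact hg (coeff (P • a + expo e) f)

variable (p k σ) in
/-- Coordinates. -/
noncomputable def coord : An p k σ m → Ix σ (p ^ (m - n)) → An p k σ n :=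
  Function.surjInv (comb_surjective (p := p) (k := k) (σ := σ) h)

theorem comb_coord (f : An p k σ m) : comb p k σ h (coord p k σ h f) = f :=
  Function.surjInv_eq _ _

theorem coord_comb (v : Ix σ (p ^ (m - n)) → An p k σ n) :
    coord p k σ h (comb p k σ h v) = v := comb_injective h (comb_coord h _)

/-- The index of the constant monomial. -/
def x0 : Ix σ (p ^ (m - n)) :=
  (⟨0, pow_pos hp.out.pos _⟩, fun _ => ⟨0, pow_pos hp.out.pos _⟩)

theorem mon_x0 : mon p k m (x0 (p := p) (σ := σ) (n := n) (m := m)) = 1 := by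
  have he : expo (x0 (p := p) (σ := σ) (n := n) (m := m)).2 = 0 := Finsupp.ext fun i => rfl
  rw [mon, he]
  show monomial 0 (varpi p k m ^ 0) = 1
  rw [pow_zero, monomial_zero_one]

theorem coord_tr (g : An p k σ n) [DecidableEq (Ix σ (p ^ (m - n)))] :
    coord p k σ h (tr p k σ h g) = Pi.single x0 g := by
  refine comb_injective h ?_
  have := Fintype.ofFinite (Ix σ (p ^ (m - n)))
  rw [comb_coord, comb_apply, Finset.sum_eq_single x0, Pi.single_eq_same, mon_x0, mul_one]
  · intro x _ hx
    rw [Pi.single_eq_of_ne hx, map_zero, zero_mul]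
  · simp

theorem coord_tr_mul (g : An p k σ n) (f : An p k σ m) (x : Ix σ (p ^ (m - n))) :
    coord p k σ h (tr p k σ h g * f) x = g * coord p k σ h f x := by
  have h1 : coord p k σ h (tr p k σ h g * f) = fun x => g * coord p k σ h f x := by
    refine comb_injective h ?_
    rw [comb_coord, comb_mul, comb_coord]
  exact congrFun h1 x

theorem coord_add (f f' : An p k σ m) :
    coord p k σ h (f + f') = coord p k σ h f + coord p k σ h f' := by
  refine comb_injective h ?_
  rw [comb_coord, map_add, comb_coord, comb_coord]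

/-- The constant coordinate does not see the transition to a higher level. -/
theorem coord_tr_x0 {l : ℕ} (h' : m ≤ l) (f : An p k σ m) :
    coord p k σ (h.trans h') (tr p k σ h' f) x0 = coord p k σ h f x0 := by
  classical
  have := Fintype.ofFinite (Ix σ (p ^ (m - n)))
  have := Fintype.ofFinite (Ix σ (p ^ (l - n)))
  have he : p ^ (l - n) = p ^ (l - m) * p ^ (m - n) := by
    rw [← pow_add]
    congr 1
    omega
  have hlt : ∀ j : Fin (p ^ (m - n)), p ^ (l - m) * (j : ℕ) < p ^ (l - n) := fun j => by
    rw [he]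
    exact Nat.mul_lt_mul_of_pos_left j.2 (pow_pos hp.out.pos _)
  let ι : Ix σ (p ^ (m - n)) → Ix σ (p ^ (l - n)) := fun x =>
    (⟨_, hlt x.1⟩, fun i => ⟨_, hlt (x.2 i)⟩)
  have hι : Function.Injective ι := by
    intro x y hxy
    have hq : 0 < p ^ (l - m) := pow_pos hp.out.pos _
    refine Prod.ext (Fin.ext ?_) (funext fun i => Fin.ext ?_)
    · exact Nat.eq_of_mul_eq_mul_left hq (congrArg (fun z : Ix σ _ => (z.1 : ℕ)) hxy)
    · exact Nat.eq_of_mul_eq_mul_left hq (congrArg (fun z : Ix σ _ => (z.2 i : ℕ)) hxy)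
  have hmon : ∀ x, tr p k σ h' (mon p k m x) = mon p k l (ι x) := by
    intro x
    have h1 : expo (ι x).2 = p ^ (l - m) • expo x.2 := Finsupp.ext fun i => rfl
    rw [mon, mon, h1]
    rw [tr, RingHom.comp_apply, AlgHom.toRingHom_eq_coe, RingHom.coe_coe,
      MvPowerSeries.map_monomial, expand_monomial, map_pow, trans_varpi, ← pow_mul]
  have h0 : ι (x0 (p := p) (σ := σ) (n := n) (m := m)) = x0 := by
    refine Prod.ext (Fin.ext ?_) (funext fun i => Fin.ext ?_) <;> exact Nat.mul_zero _
  set v := coord p k σ h f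
  have hv : coord p k σ (h.trans h') (tr p k σ h' f) = Function.extend ι v 0 := by
    refine comb_injective (h.trans h') ?_
    rw [comb_coord]
    conv_lhs => rw [← comb_coord h f]
    rw [comb_apply, comb_apply, map_sum]
    refine Finset.sum_of_injOn ι hι.injOn (fun x _ => Finset.mem_univ _) ?_ ?_
    · intro y _ hy
      rw [Function.extend_apply' _ _ _ (fun ⟨x, hx⟩ => hy ⟨x, Finset.mem_univ _, hx⟩),
        Pi.zero_apply, map_zero, zero_mul]
    · intro x _
      rw [hι.extend_apply, map_mul, ← hmon, ← RingHom.comp_apply, tr_comp]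
  rw [hv]
  conv_lhs => rw [← h0]
  rw [hι.extend_apply]

end Coeff

section Power

/-- A high power of a finitely generated ideal lies in a power of the ideal of `P`-th powers. -/
theorem pow_span_le {R : Type*} [CommRing R] (P : ℕ) (hP : 0 < P) (G : Finset R) (J : Ideal R)
    (hG : ∀ g ∈ G, g ^ P ∈ J) :
    ∀ N s, P * (N + G.card) ≤ s → Ideal.span (G : Set R) ^ s ≤ J ^ N := by
  classical
  induction G using Finset.induction_on with
  | empty =>
    intro N s hs
    rcases Nat.eq_zero_or_pos N with rfl | hN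
    · simp
    · rw [Finset.coe_empty, Ideal.span_empty, Ideal.bot_pow]
      · exact bot_le
      · have := Nat.mul_pos hP (Nat.lt_of_lt_of_le hN (Nat.le_add_right N (∅ : Finset R).card))
        omega
  | insert g G hg ih =>
    intro N s hs
    have ih := ih fun x hx => hG x (Finset.mem_insert_of_mem hx)
    rw [Finset.card_insert_of_notMem hg] at hs
    rw [Finset.coe_insert, Ideal.span_insert, ← Ideal.add_eq_sup, add_pow]
    refine Finset.sum_induction _ (· ≤ J ^ N) (fun _ _ => sup_le) bot_le fun i hi => ?_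
    refine Ideal.mul_le_left.trans ?_
    have hi' : i ≤ s := Finset.mem_range_succ_iff.1 hi
    rw [Ideal.span_singleton_pow]
    set q := i / P
    have hgq : g ^ i ∈ J ^ q := by
      rw [← Nat.div_add_mod i P, pow_add, pow_mul]
      exact Ideal.mul_mem_right _ _
        (Ideal.pow_mem_pow (hG g (Finset.mem_insert_self g G)) q)
    rcases le_or_gt N q with hNq | hNq
    · exact Ideal.mul_le_left.trans
        (((Ideal.span_singleton_le_iff_mem _).2 hgq).trans (Ideal.pow_le_pow_right hNq))
    · have hs' : P * (N - q + G.card) ≤ s - i := by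
        have h1 := Nat.div_add_mod i P
        have h2 := Nat.mod_lt i hP
        obtain ⟨u, rfl⟩ := Nat.exists_eq_add_of_le hNq.le
        rw [Nat.add_sub_cancel_left]
        simp only [Nat.mul_add, Nat.mul_one] at hs ⊢
        show P * u + P * G.card ≤ s - i
        rw [show q = i / P from rfl] at hs
        omega
      rw [show J ^ N = J ^ q * J ^ (N - q) by rw [← pow_add, Nat.add_sub_cancel' hNq.le]]
      exact Ideal.mul_mono ((Ideal.span_singleton_le_iff_mem _).2 hgq) (ih _ _ hs')

/-- High weight at level `m` lies in a power of the maximal ideal of level `0`. -/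
theorem mem_map_pow_of_le_ord {m N : ℕ} {f : An p k σ m}
    (hf : ((p ^ m * (N + (Nat.card σ + 1)) : ℕ) : ℕ∞) ≤ ord m f) :
    f ∈ (IsLocalRing.maximalIdeal (An p k σ 0) ^ N).map (tr p k σ (Nat.zero_le m)) := by
  classical
  have := Fintype.ofFinite σ
  rw [le_ord_iff_mem_pow, maximalIdeal_eq_span] at hf
  rw [Ideal.map_pow]
  set G : Finset (An p k σ m) := insert (C (varpi p k m)) (Finset.univ.image X)
  have hspan : Ideal.span {C (varpi p k m)} ⊔ Ideal.span (Set.range X) =
      Ideal.span (G : Set (An p k σ m)) := by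
    simp [G, Ideal.span_insert]
  rw [hspan] at hf
  refine pow_span_le (p ^ m) (pow_pos hp.out.pos m) G _ ?_ N _ ?_ hf
  · intro g hg
    rcases Finset.mem_insert.1 hg with rfl | hg
    · have := Ideal.mem_map_of_mem (tr p k σ (Nat.zero_le m))
        (show C (varpi p k 0) ∈ IsLocalRing.maximalIdeal (An p k σ 0) by
          rw [maximalIdeal_eq_span]
          exact Ideal.mem_sup_left (Ideal.mem_span_singleton_self _))
      rwa [tr_C, trans_varpi, map_pow, Nat.sub_zero] at this
    · obtain ⟨i, -, rfl⟩ := Finset.mem_image.1 hg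
      have := Ideal.mem_map_of_mem (tr p k σ (Nat.zero_le m))
        (show (X i : An p k σ 0) ∈ IsLocalRing.maximalIdeal (An p k σ 0) by
          rw [maximalIdeal_eq_span]
          exact Ideal.mem_sup_right (Ideal.subset_span (Set.mem_range_self i)))
      rwa [tr_X, Nat.sub_zero] at this
  · refine Nat.mul_le_mul_left _ (Nat.add_le_add_left ?_ N)
    refine (Finset.card_insert_le _ _).trans (Nat.add_le_add_right (Finset.card_image_le.trans ?_) 1)
    rw [Finset.card_univ, Nat.card_eq_fintype_card]

/-- The converse. -/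
theorem le_ord_of_mem_map {m N : ℕ} {f : An p k σ m}
    (hf : f ∈ (IsLocalRing.maximalIdeal (An p k σ 0) ^ N).map (tr p k σ (Nat.zero_le m))) :
    ((p ^ m * N : ℕ) : ℕ∞) ≤ ord m f := by
  rw [le_ord_iff_mem_pow]
  refine Ideal.map_le_iff_le_comap.2 (fun x hx => ?_) hf
  rw [Ideal.mem_comap, ← le_ord_iff_mem_pow, ord_tr, Nat.sub_zero, Nat.cast_mul]
  exact mul_le_mul_right ((le_ord_iff_mem_pow 0 x N).2 hx) _

end Power

end Vale.Agent.P202.Mixed2.BaseFree
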