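import Vale.Agent.P202.Lambda.BaseChange
import Vale.Agent.P202.Lambda.Killed

/-!
P202, mixed characteristic: the measure of a base change to an almost free algebra.

If `T ⧸ I T` agrees with `(B ⧸ I B) ^ nT` up to elements `β P` whose cotorsion tends to zero, then
`T ⊗ N` has normalised length exactly `nT * length N` for `N` killed by `I`.
-/

open scoped ENNReal TensorProduct
open Filter Topology

namespace Vale.Agent.P202.Mixed2

open Lambda

variable {A₀ B : Type*} [CommRing A₀] [CommRing B] [Algebra A₀ B] [IsNoetherianRing A₀]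
variable {A : ℕ → Subalgebra A₀ B} {c : ℕ}

/-- The ideal of `B` generated by an ideal of the bottom ring. -/
abbrev extI (B : Type*) [CommRing B] [Algebra A₀ B] (I : Ideal A₀) : Ideal B :=
  I.map (algebraMap A₀ B)

/-- `β P` is almost a unit against `I`. -/
def AlmostUnit (A : ℕ → Subalgebra A₀ B) (c : ℕ) (I : Ideal A₀) (β : ℕ → B) : Prop :=
  Tendsto (fun P => lam A c (B ⧸ (Ideal.span {β P} ⊔ extI B I))) atTop (𝓝 0)

section Inject

variable {M Q : Type*} [AddCommGroup M] [Module A₀ M] [Module B M] [IsScalarTower A₀ B M]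
  [AddCommGroup Q] [Module A₀ Q] [Module B Q] [IsScalarTower A₀ B Q]

/-- Almost injective maps do not increase the normalised length. -/
theorem lam_le_of_almost_injective (h : IsTower A c) (hU : ∀ b, ∃ n, b ∈ A n) (I : Ideal A₀)
    (hI : Module.length A₀ (A₀ ⧸ I) ≠ ⊤) (hM : ∀ a ∈ I, ∀ x : M, a • x = 0) (β : ℕ → B)
    (hβ : AlmostUnit A c I β) (g : ℕ → M →ₗ[B] Q)
    (hg : ∀ P, ∀ x, g P x = 0 → β P • x = 0) : lam A c M ≤ lam A c Q := by
  classical
  refine iSup_le fun S => ?_
  set N := Submodule.span B (S : Set M)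
  have hS : ⨅ n, rat A c n S ≤ lam A c N := by
    refine le_trans (le_iInf fun n => (iInf_le _ n).trans ?_)
      (iInf_rat_le (S.attach.image fun s : S =>
        (⟨(s : M), Submodule.subset_span s.2⟩ : N)))
    refine ENNReal.div_le_div_right (ENat.toENNReal_mono ?_) _
    set S₁ := S.attach.image fun s : S => (⟨(s : M), Submodule.subset_span s.2⟩ : N)
    have : S₁.image N.subtype = S := by
      ext x
      simp only [S₁, Finset.image_image]
      simp only [Finset.mem_image, Finset.mem_attach, true_and, Subtype.exists, Function.comp]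
      exact ⟨fun ⟨_, ha, he⟩ => he ▸ ha, fun hx => ⟨x, hx, rfl⟩⟩
    conv_lhs => rw [← this, ← map_lev]
    exact Module.length_le_of_surjective _ ((N.subtype.restrictScalars A₀).submoduleMap_surjective _)
  refine hS.trans ?_
  -- the generators of `N` as a map from a power of `B / I B`
  obtain ⟨r, v, hv⟩ : ∃ r, ∃ v : Fin r → M, Submodule.span B (Set.range v) = N :=
    ⟨S.card, fun i => (S.equivFin.symm i : M), by
      rw [show (fun i => (S.equivFin.symm i : M)) = Subtype.val ∘ S.equivFin.symm from rfl,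
        Set.range_comp, S.equivFin.symm.surjective.range_eq, Set.image_univ,
        Subtype.range_coe_subtype]
      rfl⟩
  have hkill : ∀ b ∈ extI B I, ∀ x : M, b • x = 0 := by
    intro b hb x
    induction hb using Submodule.span_induction with
    | mem y hy => obtain ⟨a, ha, rfl⟩ := hy; rw [algebraMap_smul]; exact hM a ha x
    | zero => exact zero_smul _ _
    | add y z _ _ hy hz => rw [add_smul, hy, hz, add_zero]
    | smul r y _ hy => rw [smul_eq_mul, mul_smul, hy, smul_zero]
  have hvi : ∀ i, v i ∈ N := fun i => hv.le (Submodule.subset_span ⟨i, rfl⟩)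
  let φ : (Fin r → B ⧸ extI B I) →ₗ[B] N :=
    ∑ i, ((extI B I).liftQ (LinearMap.toSpanSingleton B N
      ⟨v i, hvi i⟩) fun b hb => by
        rw [LinearMap.mem_ker]
        exact Subtype.ext (hkill b hb _)) ∘ₗ LinearMap.proj i
  have hφ : Function.Surjective φ := by
    intro y
    have hy : (y : M) ∈ Submodule.span B (Set.range v) := hv.ge y.2
    rw [Submodule.mem_span_range_iff_exists_fun] at hy
    obtain ⟨b, hb⟩ := hy
    refine ⟨fun i => Submodule.Quotient.mk (b i), Subtype.ext ?_⟩
    rw [← hb]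
    simp only [φ, LinearMap.sum_apply, LinearMap.comp_apply, LinearMap.proj_apply,
      AddSubmonoidClass.coe_finsetSum]
    rfl
  have hN : lam A c N ≠ ⊤ := by
    refine ne_top_of_le_ne_top ?_ (lam_le_of_surjective φ hφ)
    rw [lam_pi h]
    refine ENNReal.mul_ne_top (ENNReal.natCast_ne_top r) (ne_top_of_le_ne_top
      (by simpa using hI) (lam_le_length h hU (I.liftQ
        ((Ideal.Quotient.mkₐ A₀ (extI B I)).toLinearMap ∘ₗ Algebra.linearMap A₀ B) fun a ha =>
          LinearMap.mem_ker.2 (Ideal.Quotient.eq_zero_iff_mem.2 (Ideal.mem_map_of_mem _ ha))) ?_))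
    rw [eq_top_iff]
    rintro y -
    obtain ⟨b, rfl⟩ := Ideal.Quotient.mk_surjective y
    rw [show Ideal.Quotient.mk (extI B I) b = b • Ideal.Quotient.mk (extI B I) 1 by
      rw [← Ideal.Quotient.mk_eq_mk, ← Ideal.Quotient.mk_eq_mk, ← Submodule.Quotient.mk_smul,
        smul_eq_mul, mul_one]]
    exact Submodule.smul_mem _ b (Submodule.subset_span ⟨Submodule.Quotient.mk 1,
      congrArg (Ideal.Quotient.mk (extI B I)) (map_one (algebraMap A₀ B))⟩)
  have hbound : ∀ P, lam A c N ≤
      (r : ℝ≥0∞) * lam A c (B ⧸ (Ideal.span {β P} ⊔ extI B I)) + lam A c Q := by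
    intro P
    set μ := LinearMap.lsmul B N (β P)
    have hk : LinearMap.ker (g P ∘ₗ N.subtype) ≤ LinearMap.ker μ := fun x hx =>
      LinearMap.mem_ker.2 (Subtype.ext (hg P x hx))
    have h1 := lam_le_add h μ.ker.subtype μ.ker.mkQ μ.ker.subtype_injective
      (LinearMap.exact_subtype_mkQ _)
    refine h1.trans (add_le_add ?_ (lam_quotient_le_of_ker _ hk))
    rw [lam_ker_smul h hN (β P), ← lam_pi (M := B ⧸ (Ideal.span {β P} ⊔ extI B I)) h]
    let ψ : (Fin r → B ⧸ (Ideal.span {β P} ⊔ extI B I)) →ₗ[B] N ⧸ LinearMap.range μ :=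
      ∑ i, ((Ideal.span {β P} ⊔ extI B I).liftQ (LinearMap.toSpanSingleton B _
        ((LinearMap.range μ).mkQ ⟨v i, hvi i⟩)) (by
          refine sup_le ?_ fun b hb => ?_
          · rw [Ideal.span_le, Set.singleton_subset_iff]
            exact LinearMap.mem_ker.2 ((Submodule.Quotient.mk_eq_zero _).2
              ⟨⟨v i, hvi i⟩, rfl⟩)
          · refine LinearMap.mem_ker.2 ?_
            rw [LinearMap.toSpanSingleton_apply, ← map_smul,
              show b • (⟨v i, _⟩ : N) = 0 from Subtype.ext (hkill b hb _), map_zero])) ∘ₗ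
        LinearMap.proj i
    refine lam_le_of_surjective ψ fun y => ?_
    obtain ⟨y, rfl⟩ := Submodule.mkQ_surjective _ y
    obtain ⟨w, rfl⟩ := hφ y
    refine ⟨fun i => Submodule.factor le_sup_right (w i), ?_⟩
    simp only [ψ, φ, LinearMap.sum_apply, LinearMap.comp_apply, LinearMap.proj_apply, map_sum]
    refine Finset.sum_congr rfl fun i _ => ?_
    obtain ⟨b, hb⟩ := Submodule.Quotient.mk_surjective _ (w i)
    rw [← hb]
    exact (map_smul (LinearMap.range μ).mkQ b ⟨v i, hvi i⟩).symm
  have hlim : Tendsto (fun P => (r : ℝ≥0∞) * lam A c (B ⧸ (Ideal.span {β P} ⊔ extI B I)) +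
      lam A c Q) atTop (𝓝 ((r : ℝ≥0∞) * 0 + lam A c Q)) :=
    (ENNReal.Tendsto.const_mul hβ (Or.inr (ENNReal.natCast_ne_top r))).add_const _
  rw [mul_zero, zero_add] at hlim
  exact ge_of_tendsto hlim (Filter.Eventually.of_forall hbound)

end Inject

section Almost

variable {T : Type*} [CommRing T] [Algebra A₀ T] [Algebra B T] [IsScalarTower A₀ B T]
variable (N : Type*) [AddCommGroup N] [Module A₀ N] (I : Ideal A₀)

omit [IsNoetherianRing A₀] in
theorem smul_tensor_eq_zero {X : Type*} [AddCommGroup X] [Module A₀ X]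
    (hN : ∀ a ∈ I, ∀ x : N, a • x = 0) {a : A₀} (ha : a ∈ I) (z : X ⊗[A₀] N) : a • z = 0 := by
  induction z using TensorProduct.induction_on with
  | zero => exact smul_zero a
  | tmul x y => rw [← TensorProduct.tmul_smul, hN a ha, TensorProduct.tmul_zero]
  | add x y hx hy => rw [smul_add, hx, hy, add_zero]

omit [IsNoetherianRing A₀] in
/-- Only `T ⧸ I T` matters for `T ⊗ N`. -/
theorem lam_tensor_mod (hN : ∀ a ∈ I, ∀ x : N, a • x = 0) :
    lam A c (T ⊗[A₀] N) = lam A c ((T ⧸ I.map (algebraMap A₀ T)) ⊗[A₀] N) := by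
  set J := I.map (algebraMap A₀ T)
  have hJ : ∀ t ∈ J, ∀ y : N, t ⊗ₜ[A₀] y = 0 := by
    intro t ht y
    induction ht using Submodule.span_induction with
    | mem x hx =>
      obtain ⟨a, ha, rfl⟩ := hx
      rw [Algebra.algebraMap_eq_smul_one, TensorProduct.smul_tmul, hN a ha, TensorProduct.tmul_zero]
    | zero => exact TensorProduct.zero_tmul _ _
    | add x y _ _ hx hy => rw [TensorProduct.add_tmul, hx, hy, add_zero]
    | smul r x _ hx =>
      rw [← TensorProduct.smul_tmul' r x y, hx, smul_zero]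
  let φ : T ⊗[A₀] N →ₗ[B] (T ⧸ J) ⊗[A₀] N :=
    TensorProduct.AlgebraTensorModule.map (Ideal.Quotient.mkₐ B J).toLinearMap LinearMap.id
  refine lam_congr (LinearEquiv.ofBijective φ ⟨?_, ?_⟩)
  · rw [injective_iff_map_eq_zero]
    intro z hz
    have hex : Function.Exact ((J.restrictScalars A₀).subtype.rTensor N)
        ((Ideal.Quotient.mkₐ A₀ J).toLinearMap.rTensor N) :=
      rTensor_exact N (LinearMap.exact_iff.2 (by
        ext x
        simp [Ideal.Quotient.eq_zero_iff_mem])) (Ideal.Quotient.mkₐ_surjective A₀ J)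
    obtain ⟨u, rfl⟩ := (hex z).1 hz
    induction u using TensorProduct.induction_on with
    | zero => exact map_zero _
    | add x y hx hy =>
      have hx' : φ ((J.restrictScalars A₀).subtype.rTensor N x) = 0 := hex.apply_apply_eq_zero x
      have hy' : φ ((J.restrictScalars A₀).subtype.rTensor N y) = 0 := hex.apply_apply_eq_zero y
      rw [map_add, hx hx', hy hy', add_zero]
    | tmul t y =>
      exact hJ t t.2 y
  · exact LinearMap.rTensor_surjective N (g := (Ideal.Quotient.mkₐ A₀ J).toLinearMap)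
      (Ideal.Quotient.mkₐ_surjective A₀ J)

/-- `T` almost free of rank `nT`: the measure of `T ⊗ N` is `nT * length N`. -/
theorem lam_baseChange_almost (h : IsTower A c) (hU : ∀ b, ∃ n, b ∈ A n)
    [Nontrivial A₀] [∀ n, Module.Free A₀ (A n)] [∀ n, Module.Finite A₀ (A n)]
    (hrank : ∀ n, Module.finrank A₀ (A n) = c ^ n)
    (ρ : ∀ n, B →ₗ[A₀] A n) (hρ : ∀ n (a : A n), ρ n a = a) [Module.Finite A₀ N]
    (hI : Module.length A₀ (A₀ ⧸ I) ≠ ⊤) (hN : ∀ a ∈ I, ∀ x : N, a • x = 0)
    (β : ℕ → B) (hβ : AlmostUnit A c I β) (nT : ℕ)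
    (f : ℕ → (Fin nT → B ⧸ extI B I) →ₗ[B] T ⧸ I.map (algebraMap A₀ T))
    (g : ℕ → (T ⧸ I.map (algebraMap A₀ T)) →ₗ[B] Fin nT → B ⧸ extI B I)
    (hgf : ∀ P x, g P (f P x) = β P • x) (hfg : ∀ P x, f P (g P x) = β P • x) :
    lam A c (T ⊗[A₀] N) = (nT : ℝ≥0∞) * (Module.length A₀ N : ℝ≥0∞) := by
  rw [lam_tensor_mod N I hN]
  let f' := fun P => TensorProduct.AlgebraTensorModule.map (f P) (LinearMap.id : N →ₗ[A₀] N)
  let g' := fun P => TensorProduct.AlgebraTensorModule.map (g P) (LinearMap.id : N →ₗ[A₀] N)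
  have hgf' : ∀ P x, g' P (f' P x) = β P • x := by
    intro P x
    induction x using TensorProduct.induction_on with
    | zero => simp
    | tmul v y => simp [f', g', hgf, TensorProduct.smul_tmul']
    | add x y hx hy => rw [map_add, map_add, hx, hy, smul_add]
  have hfg' : ∀ P x, f' P (g' P x) = β P • x := by
    intro P x
    induction x using TensorProduct.induction_on with
    | zero => simp
    | tmul v y => simp [f', g', hfg, TensorProduct.smul_tmul']
    | add x y hx hy => rw [map_add, map_add, hx, hy, smul_add]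
  have e1 : lam A c ((T ⧸ I.map (algebraMap A₀ T)) ⊗[A₀] N) =
      lam A c ((Fin nT → B ⧸ extI B I) ⊗[A₀] N) :=
    (lam_le_of_almost_injective h hU I hI (fun a ha z => smul_tensor_eq_zero N I hN ha z) β hβ g'
      fun P x hx => by rw [← hfg', hx, map_zero]).antisymm
    (lam_le_of_almost_injective h hU I hI (fun a ha z => smul_tensor_eq_zero N I hN ha z) β hβ f'
      fun P x hx => by rw [← hgf', hx, map_zero])
  let toPi : (Fin nT → B ⧸ extI B I) ⊗[A₀] N →ₗ[B] Fin nT → (B ⧸ extI B I) ⊗[A₀] N :=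
    LinearMap.pi fun i => TensorProduct.AlgebraTensorModule.map (LinearMap.proj i) LinearMap.id
  let back : (Fin nT → (B ⧸ extI B I) ⊗[A₀] N) →ₗ[B] (Fin nT → B ⧸ extI B I) ⊗[A₀] N :=
    ∑ i, TensorProduct.AlgebraTensorModule.map (LinearMap.single B _ i) LinearMap.id ∘ₗ
      LinearMap.proj i
  have hbt : back ∘ₗ toPi = LinearMap.id := by
    refine TensorProduct.AlgebraTensorModule.ext fun v y => ?_
    simp only [back, toPi, LinearMap.comp_apply, LinearMap.sum_apply, LinearMap.proj_apply,
      LinearMap.pi_apply, TensorProduct.AlgebraTensorModule.map_tmul, LinearMap.id_apply,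
      ← TensorProduct.sum_tmul, LinearMap.coe_single, Finset.univ_sum_single]
  have htb : toPi ∘ₗ back = LinearMap.id := by
    refine LinearMap.pi_ext' fun i => TensorProduct.AlgebraTensorModule.ext fun v y => ?_
    ext j
    rcases eq_or_ne j i with rfl | hji
    · simp [toPi, back, Pi.single_apply, apply_ite]
    · simp [toPi, back, Pi.single_apply, apply_ite, hji]
  have e2 := lam_congr (A := A) (c := c) (LinearEquiv.ofLinearMap toPi back htb hbt)
  rw [e1, e2, lam_pi h, ← lam_tensor_mod (T := B) N I hN, lam_baseChange h hU hrank ρ hρ N]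

end Almost

end Vale.Agent.P202.Mixed2
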