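import Vale.Agent.P202.Mixed2.BaseFree
import Vale.Agent.P202.Mixed2.Measure

/-!
P202, mixed characteristic: the tower of the levels inside the perfectoid base.

Over the bottom level the level `n` is free of rank `(p ^ (d + 1)) ^ n` and a direct summand of the
union, so the normalised length of a base change is the length. Deep roots of a fixed element are
almost units against a power of the maximal ideal.
-/

open scoped ENNReal TensorProduct
open Filter Topology

namespace Vale.Agent.P202.Mixed2.BaseTower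

open MvPowerSeries Perf Perf.Base BaseFree Lambda

set_option linter.unusedSectionVars false

variable {p : ℕ} [hp : Fact (Nat.Prime p)] {k : Type*} [Field k] [CharP k p] [PerfectRing k p]
variable {σ : Type*} [Finite σ]

noncomputable instance algAcol : Algebra (An p k σ 0) (Acol p k σ) := (incl p k σ 0).toAlgebra

theorem algebraMap_eq : algebraMap (An p k σ 0) (Acol p k σ) = incl p k σ 0 := rfl

variable (p k σ) in
/-- The level `n` as a subalgebra over the bottom level. -/
noncomputable def lvl (n : ℕ) : Subalgebra (An p k σ 0) (Acol p k σ) :=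
  { (incl p k σ n).range.toSubsemiring with
    algebraMap_mem' := fun a => ⟨tr p k σ (Nat.zero_le n) a, incl_tr _ a⟩ }

theorem mem_lvl {n : ℕ} {x : Acol p k σ} : x ∈ lvl p k σ n ↔ ∃ f, incl p k σ n f = x := Iff.rfl

theorem incl_mem (n : ℕ) (f : An p k σ n) : incl p k σ n f ∈ lvl p k σ n := ⟨f, rfl⟩

theorem lvl_le {n m : ℕ} (h : n ≤ m) : lvl p k σ n ≤ lvl p k σ m := fun _ ⟨f, hf⟩ =>
  ⟨tr p k σ h f, (incl_tr h f).trans hf⟩

theorem exists_mem (b : Acol p k σ) : ∃ n, b ∈ lvl p k σ n := exists_incl b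

theorem lvl_zero : lvl p k σ 0 = ⊥ :=
  le_antisymm (fun _ ⟨f, hf⟩ => Algebra.mem_bot.2 ⟨f, hf⟩) bot_le

/-- The generators per step. -/
noncomputable abbrev cc (p : ℕ) (σ : Type*) : ℕ := p ^ (Nat.card σ + 1)

variable (p k σ) in
theorem isTower : IsTower (lvl p k σ) (cc p σ) := by
  classical
  refine ⟨pow_pos hp.out.pos _, lvl_zero, fun n => lvl_le n.le_succ, fun n => ?_⟩
  have := Fintype.ofFinite (Ix σ (p ^ (n + 1 - n)))
  refine ⟨Finset.univ.image fun x : Ix σ (p ^ (n + 1 - n)) => incl p k σ (n + 1) (mon p k (n + 1) x),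
    ?_, ?_, ?_⟩
  · refine Finset.card_image_le.trans ?_
    rw [Finset.card_univ, ← Nat.card_eq_fintype_card, card_Ix, Nat.add_sub_cancel_left, pow_one]
  · intro x hx
    obtain ⟨y, -, rfl⟩ := Finset.mem_image.1 (Finset.mem_coe.1 hx)
    exact incl_mem _ _
  · intro x hx
    obtain ⟨f, rfl⟩ := mem_lvl.1 ((Subalgebra.mem_toSubmodule _).1 hx)
    rw [← comb_coord n.le_succ f, comb_apply, map_sum]
    refine Submodule.sum_mem _ fun y _ => ?_
    rw [map_mul, incl_tr, mul_comm (incl p k σ n _)]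
    refine Submodule.mul_mem_mul (Submodule.subset_span ?_) ((Subalgebra.mem_toSubmodule _).2 ?_)
    · exact Finset.mem_coe.2 (Finset.mem_image_of_mem _ (Finset.mem_univ y))
    · exact incl_mem n _

variable (p k σ) in
/-- The basis of a level over the bottom one. -/
noncomputable def combIncl (n : ℕ) :
    (Ix σ (p ^ (n - 0)) → An p k σ 0) →ₗ[An p k σ 0] lvl p k σ n where
  toFun v := ⟨incl p k σ n (comb p k σ (Nat.zero_le n) v), incl_mem _ _⟩
  map_add' v w := Subtype.ext (by
    show incl p k σ n _ = incl p k σ n _ + incl p k σ n _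
    rw [map_add, map_add])
  map_smul' a v := Subtype.ext (by
    show incl p k σ n (comb p k σ _ fun x => a * v x) = a • incl p k σ n (comb p k σ _ v)
    rw [comb_mul, map_mul, incl_tr, Algebra.smul_def, algebraMap_eq])

theorem combIncl_bijective (n : ℕ) : Function.Bijective (combIncl p k σ n) := by
  refine ⟨fun v w h => comb_injective _ (incl_injective n (congrArg Subtype.val h)), fun x => ?_⟩
  obtain ⟨f, hf⟩ := mem_lvl.1 x.2
  obtain ⟨v, rfl⟩ := comb_surjective (Nat.zero_le n) f
  exact ⟨v, Subtype.ext hf⟩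

instance lvl_free (n : ℕ) : Module.Free (An p k σ 0) (lvl p k σ n) :=
  Module.Free.of_equiv (LinearEquiv.ofBijective _ (combIncl_bijective n))

instance lvl_finite (n : ℕ) : Module.Finite (An p k σ 0) (lvl p k σ n) :=
  Module.Finite.of_surjective _ (combIncl_bijective n).2

theorem lvl_finrank (n : ℕ) : Module.finrank (An p k σ 0) (lvl p k σ n) = cc p σ ^ n := by
  have := Fintype.ofFinite (Ix σ (p ^ (n - 0)))
  rw [← (LinearEquiv.ofBijective _ (combIncl_bijective (p := p) (k := k) n)).finrank_eq,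
    Module.finrank_fintype_fun_eq_card, ← Nat.card_eq_fintype_card, card_Ix, Nat.sub_zero,
    ← pow_mul, ← pow_mul, mul_comm]

variable (p k σ) in
/-- The retraction on the level `i`. -/
noncomputable def retAt (n i : ℕ) (f : An p k σ i) : Acol p k σ :=
  if h : n ≤ i then incl p k σ n (coord p k σ h f x0) else incl p k σ i f

theorem retAt_tr (n : ℕ) {i j : ℕ} (h : i ≤ j) (f : An p k σ i) :
    retAt p k σ n j (tr p k σ h f) = retAt p k σ n i f := by
  classical
  rw [retAt, retAt]
  by_cases hi : n ≤ i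
  · rw [dif_pos (hi.trans h), dif_pos hi, coord_tr_x0 hi h]
  · rw [dif_neg hi]
    by_cases hj : n ≤ j
    · rw [dif_pos hj, ← tr_comp (not_le.1 hi).le hj, RingHom.comp_apply, coord_tr,
        Pi.single_eq_same, incl_tr]
    · rw [dif_neg hj, incl_tr]

variable (p k σ) in
/-- The retraction onto a level. -/
noncomputable def retFun (n : ℕ) : Acol p k σ → Acol p k σ :=
  DirectLimit.lift (trf p k σ) (retAt p k σ n) fun _ _ h x => (retAt_tr n h x).symm

theorem retFun_incl (n i : ℕ) (f : An p k σ i) :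
    retFun p k σ n (incl p k σ i f) = retAt p k σ n i f := rfl

theorem retFun_mem (n : ℕ) (x : Acol p k σ) : retFun p k σ n x ∈ lvl p k σ n := by
  obtain ⟨i, f, rfl⟩ := exists_incl x
  rw [retFun_incl, retAt]
  split_ifs with h
  · exact incl_mem _ _
  · exact lvl_le (not_le.1 h).le (incl_mem _ _)

variable (p k σ) in
/-- The retraction as a linear map. -/
noncomputable def ret (n : ℕ) : Acol p k σ →ₗ[An p k σ 0] lvl p k σ n where
  toFun x := ⟨retFun p k σ n x, retFun_mem n x⟩
  map_add' x y := Subtype.ext (by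
    show retFun p k σ n (x + y) = retFun p k σ n x + retFun p k σ n y
    obtain ⟨i, f, rfl⟩ := exists_incl x
    obtain ⟨j, g, rfl⟩ := exists_incl y
    set l := max n (max i j)
    have hn : n ≤ l := le_max_left _ _
    have hi : i ≤ l := (le_max_left _ _).trans (le_max_right _ _)
    have hj : j ≤ l := (le_max_right _ _).trans (le_max_right _ _)
    rw [← incl_tr hi f, ← incl_tr hj g, ← map_add, retFun_incl, retFun_incl, retFun_incl]
    simp only [retAt, dif_pos hn]
    rw [coord_add, Pi.add_apply, map_add])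
  map_smul' a x := Subtype.ext (by
    show retFun p k σ n (a • x) = a • retFun p k σ n x
    obtain ⟨i, f, rfl⟩ := exists_incl x
    set l := max n i
    have hn : n ≤ l := le_max_left _ _
    rw [← incl_tr (le_max_right n i) f, Algebra.smul_def, Algebra.smul_def, algebraMap_eq,
      show incl p k σ 0 a = incl p k σ l (tr p k σ (Nat.zero_le l) a) from (incl_tr _ a).symm,
      ← map_mul, retFun_incl, retFun_incl]
    rw [retAt, retAt, dif_pos hn, dif_pos hn]
    rw [← tr_comp (Nat.zero_le n) hn, RingHom.comp_apply, coord_tr_mul, map_mul, incl_tr, incl_tr,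
      incl_tr])

theorem ret_self (n : ℕ) (x : lvl p k σ n) : ret p k σ n x = x := by
  classical
  obtain ⟨f, hf⟩ := mem_lvl.1 x.2
  refine Subtype.ext ?_
  show retFun p k σ n (x : Acol p k σ) = _
  rw [← hf, retFun_incl, retAt, dif_pos le_rfl]
  congr 1
  have h := coord_tr (le_refl n) f
  rw [tr_self, RingHom.id_apply] at h
  rw [h, Pi.single_eq_same]

/-- The measure of a base change is the length. -/
theorem lam_baseChange (N : Type*) [AddCommGroup N] [Module (An p k σ 0) N]
    [Module.Finite (An p k σ 0) N] :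
    lam (lvl p k σ) (cc p σ) (Acol p k σ ⊗[An p k σ 0] N) =
      (Module.length (An p k σ 0) N : ℝ≥0∞) :=
  Lambda.lam_baseChange (isTower p k σ) exists_mem lvl_finrank (ret p k σ) ret_self N

/-- The maximal ideal of the bottom level, pushed into the union. -/
noncomputable abbrev mPow (p : ℕ) [Fact (Nat.Prime p)] (k : Type*) [Field k] [CharP k p] [PerfectRing k p]
    (σ : Type*) [Finite σ] (N : ℕ) : Ideal (Acol p k σ) :=
  extI (Acol p k σ) (IsLocalRing.maximalIdeal (An p k σ 0) ^ N)

theorem mPow_antitone {N N' : ℕ} (h : N ≤ N') : mPow p k σ N' ≤ mPow p k σ N :=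
  Ideal.map_mono (Ideal.pow_le_pow_right h)

theorem incl_mem_mPow {m N : ℕ} {f : An p k σ m}
    (hf : ((p ^ m * (N + (Nat.card σ + 1)) : ℕ) : ℕ∞) ≤ ord m f) :
    incl p k σ m f ∈ mPow p k σ N := by
  have h := Ideal.mem_map_of_mem (incl p k σ m) (mem_map_pow_of_le_ord hf)
  rwa [Ideal.map_map, show (incl p k σ m).comp (tr p k σ (Nat.zero_le m)) = incl p k σ 0 from
    RingHom.ext fun x => incl_tr _ x] at h

theorem le_ord_of_mem_mPow {N : ℕ} {x : Acol p k σ} (hx : x ∈ mPow p k σ N) {m : ℕ}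
    {f : An p k σ m} (hf : incl p k σ m f = x) : ((p ^ m * N : ℕ) : ℕ∞) ≤ ord m f := by
  obtain ⟨l, g, hg, hgN⟩ : ∃ l g, incl p k σ l g = x ∧ ((p ^ l * N : ℕ) : ℕ∞) ≤ ord l g := by
    clear hf f m
    induction hx using Submodule.span_induction with
    | mem y hy =>
      obtain ⟨a, ha, rfl⟩ := hy
      exact ⟨0, a, rfl, le_ord_of_mem_map (m := 0) (by
        rw [tr_self, Ideal.map_id]; exact ha)⟩
    | zero => exact ⟨0, 0, map_zero _, by rw [ord_eq_top_iff.2 rfl]; exact le_top⟩
    | add y z _ _ hy hz =>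
      obtain ⟨i, a, rfl, ha⟩ := hy
      obtain ⟨j, b, rfl, hb⟩ := hz
      refine ⟨max i j, tr p k σ (le_max_left i j) a + tr p k σ (le_max_right i j) b,
        by rw [map_add, incl_tr, incl_tr], (le_min ?_ ?_).trans (min_le_ord_add _ _ _)⟩
      · rw [ord_tr, show p ^ max i j = p ^ (max i j - i) * p ^ i by
          rw [← pow_add, Nat.sub_add_cancel (le_max_left i j)], mul_assoc, Nat.cast_mul]
        exact mul_le_mul_right ha _
      · rw [ord_tr, show p ^ max i j = p ^ (max i j - j) * p ^ j by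
          rw [← pow_add, Nat.sub_add_cancel (le_max_right i j)], mul_assoc, Nat.cast_mul]
        exact mul_le_mul_right hb _
    | smul r y _ hy =>
      obtain ⟨i, a, rfl, ha⟩ := hy
      obtain ⟨j, b, rfl⟩ := exists_incl r
      refine ⟨max i j, tr p k σ (le_max_right i j) b * tr p k σ (le_max_left i j) a,
        by rw [map_mul, incl_tr, incl_tr, smul_eq_mul], ?_⟩
      rw [ord_mul]
      refine le_trans ?_ le_add_self
      rw [ord_tr, show p ^ max i j = p ^ (max i j - i) * p ^ i by
        rw [← pow_add, Nat.sub_add_cancel (le_max_left i j)], mul_assoc, Nat.cast_mul]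
      exact mul_le_mul_right ha _
  set M := max m l
  have hfg : tr p k σ (le_max_left m l) f = tr p k σ (le_max_right m l) g :=
    incl_injective M (by rw [incl_tr, incl_tr, hf, hg])
  have h1 : ((p ^ (M - m) * (p ^ m * N) : ℕ) : ℕ∞) ≤ (p ^ (M - m) : ℕ) * ord m f := by
    rw [← ord_tr (le_max_left m l), hfg, ord_tr (le_max_right m l), ← mul_assoc, ← pow_add,
      Nat.sub_add_cancel (le_max_left m l), show p ^ M = p ^ (M - l) * p ^ l by
        rw [← pow_add, Nat.sub_add_cancel (le_max_right m l)], mul_assoc, Nat.cast_mul]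
    exact mul_le_mul_right hgN _
  rcases eq_or_ne (ord m f) ⊤ with ht | ht
  · rw [ht]; exact le_top
  · obtain ⟨o, ho⟩ := ENat.ne_top_iff_exists.1 ht
    rw [← ho] at h1 ⊢
    rw [← Nat.cast_mul, Nat.cast_le] at h1
    exact Nat.cast_le.2 (Nat.le_of_mul_le_mul_left h1 (pow_pos hp.out.pos _))

/-- The colon of the powers by an element outside `mPow w`. -/
theorem mem_mPow_of_mul_mem {N w : ℕ} {x y : Acol p k σ} (hy : y ∉ mPow p k σ w)
    (h : y * x ∈ mPow p k σ (N + w + 2 * (Nat.card σ + 1))) : x ∈ mPow p k σ N := by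
  obtain ⟨i, a, rfl⟩ := exists_incl x
  obtain ⟨j, b, rfl⟩ := exists_incl y
  set m := max i j
  rw [← incl_tr (le_max_left i j) a] at h ⊢
  rw [← incl_tr (le_max_right i j) b] at h hy
  have hb := mt incl_mem_mPow hy
  rw [← map_mul] at h
  have hab := le_ord_of_mem_mPow h rfl
  rw [ord_mul] at hab
  refine incl_mem_mPow ?_
  rcases eq_or_ne (ord m (tr p k σ (le_max_left i j) a)) ⊤ with ht | ht
  · rw [ht]; exact le_top
  · obtain ⟨oa, hoa⟩ := ENat.ne_top_iff_exists.1 ht
    obtain ⟨ob, hob⟩ := ENat.ne_top_iff_exists.1 (not_le.1 hb).ne_top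
    rw [← hoa, ← hob, ← Nat.cast_add, Nat.cast_le] at hab
    rw [← hob, not_le, Nat.cast_lt] at hb
    rw [← hoa, Nat.cast_le]
    simp only [Nat.mul_add, two_mul] at hab hb ⊢
    omega

/-- A nonzero element of the bottom level stays outside some power, also after a change by a
multiple of `p ^ K`. -/
theorem exists_not_mem {D : An p k σ 0} (hD : D ≠ 0) :
    ∃ w, ∀ K, w ≤ K → ∀ y : Acol p k σ, (p : Acol p k σ) ^ K ∣ y - incl p k σ 0 D →
      y ∉ mPow p k σ w := by
  obtain ⟨o, ho⟩ := ENat.ne_top_iff_exists.1 (mt ord_eq_top_iff.1 hD)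
  refine ⟨o + 1, fun K hK y hy hmem => ?_⟩
  have hp0 : (p : An p k σ 0) ∈ IsLocalRing.maximalIdeal (An p k σ 0) := by
    rw [← pow_one (IsLocalRing.maximalIdeal _), ← le_ord_iff_mem_pow, ord_p, pow_zero]
  have hK' : (p : Acol p k σ) ^ K ∈ mPow p k σ (o + 1) := by
    rw [← map_natCast (incl p k σ 0), ← map_pow]
    exact Ideal.mem_map_of_mem _ (Ideal.pow_le_pow_right hK (Ideal.pow_mem_pow hp0 K))
  obtain ⟨c, hc⟩ := hy
  have hDm : incl p k σ 0 D ∈ mPow p k σ (o + 1) := by
    rw [show incl p k σ 0 D = y - (p : Acol p k σ) ^ K * c by rw [← hc, sub_sub_cancel]]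
    exact sub_mem hmem (Ideal.mul_mem_right _ _ hK')
  have := le_ord_of_mem_mPow hDm rfl
  rw [← ho, Nat.cast_le, pow_zero, one_mul] at this
  omega

theorem length_quot_ne_top (N : ℕ) :
    Module.length (An p k σ 0) (An p k σ 0 ⧸ IsLocalRing.maximalIdeal (An p k σ 0) ^ N) ≠ ⊤ := by
  set 𝔪 := IsLocalRing.maximalIdeal (An p k σ 0)
  rw [Module.length_ne_top_iff, isFiniteLength_iff_isNoetherian_isArtinian]
  suffices IsArtinianRing (An p k σ 0 ⧸ 𝔪 ^ N) from
    ⟨isNoetherian_quotient (𝔪 ^ N),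
      isArtinian_of_surjective_algebraMap (Ideal.Quotient.mk_surjective (I := 𝔪 ^ N))⟩
  have : Ring.KrullDimLE 0 (An p k σ 0 ⧸ 𝔪 ^ N) := Ring.krullDimLE_zero_iff.2 fun P hP => by
    have hsurj := Ideal.Quotient.mk_surjective (I := 𝔪 ^ N)
    have hle : 𝔪 ≤ P.comap (Ideal.Quotient.mk (𝔪 ^ N)) := fun x hx => by
      refine (hP.comap (Ideal.Quotient.mk (𝔪 ^ N))).mem_of_pow_mem N ?_
      rw [Ideal.mem_comap, Ideal.Quotient.eq_zero_iff_mem.2 (Ideal.pow_mem_pow hx N)]
      exact zero_mem _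
    have hne : P.comap (Ideal.Quotient.mk (𝔪 ^ N)) ≠ ⊤ :=
      (hP.comap (Ideal.Quotient.mk (𝔪 ^ N))).ne_top
    have heq : P.comap (Ideal.Quotient.mk (𝔪 ^ N)) = 𝔪 :=
      le_antisymm (IsLocalRing.le_maximalIdeal hne) hle
    rcases Ideal.map_eq_top_or_isMaximal_of_surjective _ hsurj
      (show (P.comap (Ideal.Quotient.mk (𝔪 ^ N))).IsMaximal by
        rw [heq]
        exact IsLocalRing.maximalIdeal.isMaximal _) with h | h
    · rw [Ideal.map_comap_of_surjective _ hsurj] at h
      exact absurd h hP.ne_top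
    · rwa [Ideal.map_comap_of_surjective _ hsurj] at h
  exact IsNoetherianRing.isArtinianRing_of_krullDimLE_zero

theorem lam_quot_ne_top (N : ℕ) :
    lam (lvl p k σ) (cc p σ) (Acol p k σ ⧸ mPow p k σ N) ≠ ⊤ := by
  set I := IsLocalRing.maximalIdeal (An p k σ 0) ^ N
  refine ne_top_of_le_ne_top (by simpa using length_quot_ne_top (p := p) (k := k) (σ := σ) N)
    (lam_le_length (isTower p k σ) exists_mem
      (I.liftQ ((Ideal.Quotient.mkₐ (An p k σ 0) (mPow p k σ N)).toLinearMap ∘ₗ
        Algebra.linearMap (An p k σ 0) (Acol p k σ)) fun a ha => LinearMap.mem_ker.2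
          (Ideal.Quotient.eq_zero_iff_mem.2 (Ideal.mem_map_of_mem _ ha))) ?_)
  rw [eq_top_iff]
  rintro y -
  obtain ⟨b, rfl⟩ := Ideal.Quotient.mk_surjective y
  rw [show Ideal.Quotient.mk (mPow p k σ N) b = b • Ideal.Quotient.mk (mPow p k σ N) 1 by
    rw [← Ideal.Quotient.mk_eq_mk, ← Ideal.Quotient.mk_eq_mk, ← Submodule.Quotient.mk_smul,
      smul_eq_mul, mul_one]]
  exact Submodule.smul_mem _ b (Submodule.subset_span ⟨Submodule.Quotient.mk 1,
    congrArg (Ideal.Quotient.mk (mPow p k σ N)) (map_one (algebraMap (An p k σ 0) (Acol p k σ)))⟩)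

/-- Deep roots are almost units. -/
theorem almostUnit (L w : ℕ) (I : Ideal (An p k σ 0))
    (hI : IsLocalRing.maximalIdeal (An p k σ 0) ^ L ≤ I) (β : ℕ → Acol p k σ) (e : ℕ → ℕ)
    (he : Tendsto e atTop atTop) (hw : ∀ P, β P ^ e P ∉ mPow p k σ w) :
    AlmostUnit (lvl p k σ) (cc p σ) I β := by
  set C := lam (lvl p k σ) (cc p σ) (Acol p k σ ⧸ mPow p k σ (L + w + 2 * (Nat.card σ + 1)))
  have hbd : ∀ P, (e P : ℝ≥0∞) * lam (lvl p k σ) (cc p σ)
      (Acol p k σ ⧸ (Ideal.span {β P} ⊔ extI (Acol p k σ) I)) ≤ C := by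
    intro P
    refine le_trans (mul_le_mul_right ?_ _) (lam_root (B := Acol p k σ) (β P) (e P)
      (mPow p k σ (L + w + 2 * (Nat.card σ + 1))) (mPow p k σ L)
      fun x hx => mem_mPow_of_mul_mem (hw P) hx)
    exact lam_le_of_surjective
      (Ideal.Quotient.factorₐ (Acol p k σ) (sup_le_sup_left (Ideal.map_mono hI)
        (Ideal.span {β P}))).toLinearMap
      (Ideal.Quotient.factor_surjective (sup_le_sup_left (Ideal.map_mono hI) _))
  have hlim : Tendsto (fun P => C / (e P : ℝ≥0∞)) atTop (𝓝 0) := by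
    have h1 : Tendsto (fun n : ℕ => C * (n : ℝ≥0∞)⁻¹) atTop (𝓝 (C * 0)) :=
      ENNReal.Tendsto.const_mul ENNReal.tendsto_inv_nat_nhds_zero (Or.inr (lam_quot_ne_top _))
    rw [mul_zero] at h1
    exact (h1.comp he).congr fun P => (div_eq_mul_inv _ _).symm
  refine tendsto_of_tendsto_of_tendsto_of_le_of_le' tendsto_const_nhds hlim
    (Eventually.of_forall fun P => zero_le) ?_
  filter_upwards [he.eventually (eventually_ge_atTop 1)] with P hP
  rw [ENNReal.le_div_iff_mul_le (Or.inl (by exact_mod_cast Nat.one_le_iff_ne_zero.1 hP))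
    (Or.inl (ENNReal.natCast_ne_top _)), mul_comm]
  exact hbd P

end Vale.Agent.P202.Mixed2.BaseTower
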