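import Vale.Agent.P202.Mixed2.CohenExt

/-!
P202 mixed characteristic: Cohen rings inside Witt vectors of the algebraic closure.
-/

namespace Vale.Agent.P202.Mixed2.Cohen

set_option linter.unusedSectionVars false

open Ideal MvPolynomial

universe u

variable (p : ℕ) [hp : Fact p.Prime] (k : Type u) [Field k] [CharP k p]

/-- The Witt vectors of the algebraic closure. -/
abbrev Wk : Type u := WittVector p (AlgebraicClosure k)

instance : CharP (AlgebraicClosure k) p :=
  charP_of_injective_ringHom (algebraMap k (AlgebraicClosure k)).injective p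

instance : PerfectRing (AlgebraicClosure k) p := PerfectField.toPerfectRing p

variable {p k}

/-- Evaluation of the polynomials on `k` in `k`. -/
noncomputable abbrev aug : MvPolynomial k ℤ →+* k := (aeval (id : k → k)).toRingHom

theorem dvd_iff (w : Wk p k) : (p : Wk p k) ∣ w ↔ WittVector.constantCoeff w = 0 := by
  rw [← Ideal.mem_span_singleton, ← WittVector.ker_constantCoeff, RingHom.mem_ker]

theorem cc_natCast_p : WittVector.constantCoeff (p : Wk p k) = 0 :=
  (dvd_iff _).1 dvd_rfl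

/-- Maps from the polynomials lifting the residue map. -/
def Lifts (ψ : MvPolynomial k ℤ →+* Wk p k) : Prop :=
  ∀ x, WittVector.constantCoeff (ψ x) = algebraMap k _ (aug x)

/-- The digits of `ψ` below `n` are in `k`. -/
def Good (n : ℕ) (ψ : MvPolynomial k ℤ →+* Wk p k) : Prop :=
  ∀ i < n, ∀ x w, ψ x = (p : Wk p k) ^ i * w →
    WittVector.constantCoeff w ∈ (algebraMap k (AlgebraicClosure k)).range

theorem lifts_of_X (ψ : MvPolynomial k ℤ →+* Wk p k)
    (h : ∀ a, WittVector.constantCoeff (ψ (X a)) = algebraMap k _ a) : Lifts ψ := by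
  intro x
  change ((WittVector.constantCoeff).comp ψ) x = ((algebraMap k _).comp aug) x
  refine RingHom.congr_fun (MvPolynomial.ringHom_ext (fun z => by simp) fun a => ?_) x
  simp [aug, h]

theorem good_one {ψ : MvPolynomial k ℤ →+* Wk p k} (h : Lifts ψ) : Good 1 ψ := by
  intro i hi x w hw
  obtain rfl : i = 0 := by omega
  rw [pow_zero, one_mul] at hw
  exact ⟨aug x, by rw [← hw, h]⟩

theorem pow_ne_zero' (n : ℕ) : (p : Wk p k) ^ n ≠ 0 :=
  pow_ne_zero n (WittVector.p_nonzero p _)

/-- Below the good levels the divisibility ideals differ by powers of `p`. -/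
theorem exists_sub_dvd {n : ℕ} {ψ : MvPolynomial k ℤ →+* Wk p k} (hl : Lifts ψ) (hg : Good n ψ)
    {i : ℕ} (hi : i < n) {x : MvPolynomial k ℤ} (hx : (p : Wk p k) ^ i ∣ ψ x) :
    ∃ q, (p : Wk p k) ^ (i + 1) ∣ ψ (x - (p : MvPolynomial k ℤ) ^ i * q) := by
  obtain ⟨w, hw⟩ := hx
  obtain ⟨b, hb⟩ := hg i hi x w hw
  refine ⟨X b, ?_⟩
  rw [map_sub, map_mul, map_pow, map_natCast, hw, ← mul_sub, pow_succ]
  refine mul_dvd_mul_left _ ((dvd_iff _).2 ?_)
  rw [map_sub, hl, ← hb]
  simp [aug]

/-- The kernel of the residue map is the `n`-th divisibility ideal plus multiples of `p`. -/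
theorem exists_decomp {n : ℕ} {ψ : MvPolynomial k ℤ →+* Wk p k} (hl : Lifts ψ) (hg : Good n ψ)
    {x : MvPolynomial k ℤ} (hx : aug x = 0) :
    ∀ i ≤ n, ∃ q, (p : Wk p k) ^ i ∣ ψ (x - (p : MvPolynomial k ℤ) * q) := by
  intro i hi
  induction i with
  | zero => exact ⟨0, by simp⟩
  | succ i ih =>
    obtain ⟨q, hq⟩ := ih (by omega)
    rcases Nat.eq_zero_or_pos i with rfl | h0
    · refine ⟨q, ?_⟩
      rw [zero_add, pow_one, dvd_iff, hl, map_sub, map_mul, hx, map_natCast, CharP.cast_eq_zero,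
        zero_mul, sub_zero, map_zero]
    · obtain ⟨j, rfl⟩ : ∃ j, i = j + 1 := ⟨i - 1, by omega⟩
      obtain ⟨q', hq'⟩ := exists_sub_dvd hl hg (by omega) hq
      refine ⟨q + (p : MvPolynomial k ℤ) ^ j * q', ?_⟩
      rw [show x - (p : MvPolynomial k ℤ) * (q + (p : MvPolynomial k ℤ) ^ j * q') =
        x - (p : MvPolynomial k ℤ) * q - (p : MvPolynomial k ℤ) ^ (j + 1) * q' by ring]
      exact hq'

/-- One correction step. -/
theorem exists_step {n : ℕ} (hn : 1 ≤ n) {ψ : MvPolynomial k ℤ →+* Wk p k} (hl : Lifts ψ)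
    (hg : Good n ψ) :
    ∃ ψ' : MvPolynomial k ℤ →+* Wk p k, Lifts ψ' ∧ Good (n + 1) ψ' ∧
      ∀ x, (p : Wk p k) ^ n ∣ ψ' x - ψ x := by
  classical
  let : Algebra (MvPolynomial k ℤ) k := aug.toAlgebra
  have hsmul : ∀ (a : MvPolynomial k ℤ) (m : AlgebraicClosure k),
      a • m = algebraMap k _ (aug a) * m := fun a m => by
    rw [Algebra.smul_def, IsScalarTower.algebraMap_apply (MvPolynomial k ℤ) k]
    rfl
  obtain ⟨π, hπ⟩ := LinearMap.exists_leftInverse_of_injective
    (Algebra.linearMap k (AlgebraicClosure k))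
    (LinearMap.ker_eq_bot.2 (algebraMap k (AlgebraicClosure k)).injective)
  have hπk : ∀ b, π (algebraMap k _ b) = b := fun b => LinearMap.congr_fun hπ b
  let J : Ideal (MvPolynomial k ℤ) := (Ideal.span {(p : Wk p k) ^ n}).comap ψ
  have hJd : ∀ j : J, ∃ w, ψ j = (p : Wk p k) ^ n * w := fun j => Ideal.mem_span_singleton.1 j.2
  choose w hw using hJd
  let dig : J → AlgebraicClosure k := fun j => WittVector.constantCoeff (w j)
  have hcancel : ∀ a b, (p : Wk p k) ^ n * a = (p : Wk p k) ^ n * b → a = b := fun a b h =>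
    mul_left_cancel₀ (pow_ne_zero' n) h
  have hdadd : ∀ i j, dig (i + j) = dig i + dig j := fun i j => by
    simp only [dig, ← map_add]
    refine congrArg _ (hcancel _ _ ?_)
    rw [mul_add, ← hw, ← hw, ← hw, Submodule.coe_add, map_add]
  have hdsmul : ∀ (a : MvPolynomial k ℤ) (j : J),
      dig (a • j) = algebraMap k _ (aug a) * dig j := fun a j => by
    simp only [dig]
    rw [← hl a, ← map_mul]
    refine congrArg _ (hcancel _ _ ?_)
    rw [mul_left_comm, ← hw, ← hw, Submodule.coe_smul, smul_eq_mul, map_mul]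
  let g : J →ₗ[MvPolynomial k ℤ] AlgebraicClosure k :=
    { toFun := fun j => dig j - algebraMap k _ (π (dig j))
      map_add' := fun i j => by rw [hdadd, map_add, map_add]; ring
      map_smul' := fun a j => by
        rw [hdsmul, RingHom.id_apply, hsmul, ← Algebra.smul_def, map_smul, smul_eq_mul, map_mul,
          Algebra.smul_def, mul_sub] }
  obtain ⟨D, -, hD⟩ := exists_derivation (p := p) (k := k) (M := AlgebraicClosure k)
    (fun b => ⟨X b, by simp [RingHom.algebraMap_toAlgebra, aug]⟩)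
    J
    (by
      refine le_antisymm (sup_le (fun j hj => ?_) ?_) (fun x hx => ?_)
      · obtain ⟨v, hv⟩ := Ideal.mem_span_singleton.1 hj
        refine RingHom.mem_ker.2 ((algebraMap k (AlgebraicClosure k)).injective ?_)
        change algebraMap k _ (aug j) = _
        rw [map_zero, ← hl, hv, map_mul, map_pow, cc_natCast_p, zero_pow (by omega), zero_mul]
      · rw [Ideal.span_singleton_le_iff_mem, RingHom.mem_ker, map_natCast, CharP.cast_eq_zero]
      · obtain ⟨q, hq⟩ := exists_decomp hl hg (RingHom.mem_ker.1 hx) n le_rfl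
        rw [← sub_add_cancel x ((p : MvPolynomial k ℤ) * q)]
        exact Submodule.add_mem_sup (Ideal.mem_span_singleton.2 hq)
          (Ideal.mem_span_singleton.2 ⟨q, rfl⟩))
    g (fun a j ha => by
      rw [hsmul]
      change aug a = 0 at ha
      rw [ha, map_zero, zero_mul]) fun a h => by
      obtain ⟨m, rfl⟩ : ∃ m, n = m + 1 := ⟨n - 1, by omega⟩
      have h1 := hw ⟨_, h⟩
      rw [map_mul, map_natCast, pow_succ', mul_assoc] at h1
      obtain ⟨b, hb⟩ := hg m (Nat.lt_succ_self m) a _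
        (mul_left_cancel₀ (WittVector.p_nonzero p _) h1)
      change dig ⟨_, h⟩ - algebraMap k _ (π (dig ⟨_, h⟩)) = 0
      simp only [dig]
      rw [← hb, hπk, sub_self]
  choose s hs using WittVector.constantCoeff_surjective (p := p) (R := AlgebraicClosure k)
  let ψ' : MvPolynomial k ℤ →+* Wk p k :=
    eval₂Hom (Int.castRingHom _) fun a => ψ (X a) - (p : Wk p k) ^ n * s (D (X a))
  have hcorr : ∀ x, ∃ v, ψ' x = ψ x + (p : Wk p k) ^ n * v ∧
      WittVector.constantCoeff v = -D x := by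
    intro x
    induction x using MvPolynomial.induction_on with
    | C z => exact ⟨0, by simp [ψ'], by simp [← MvPolynomial.algebraMap_eq]⟩
    | add a b ha hb =>
      obtain ⟨v, hv, hv'⟩ := ha
      obtain ⟨v', hv₁, hv₁'⟩ := hb
      refine ⟨v + v', by rw [map_add, map_add, hv, hv₁]; ring, ?_⟩
      rw [map_add, map_add, hv', hv₁', neg_add]
    | mul_X a i ha =>
      obtain ⟨v, hv, hv'⟩ := ha
      refine ⟨v * ψ (X i) - (ψ a + (p : Wk p k) ^ n * v) * s (D (X i)), ?_, ?_⟩
      · rw [map_mul, map_mul, hv, eval₂Hom_X']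
        ring
      · rw [map_sub, map_mul, map_mul, map_add, map_mul, map_pow, cc_natCast_p,
          zero_pow (by omega), zero_mul, add_zero, hs, hv', hl, hl, D.leibniz, hsmul, hsmul]
        ring
  refine ⟨ψ', lifts_of_X ψ' fun a => ?_, fun i hi x v hv => ?_, fun x => ?_⟩
  · rw [eval₂Hom_X', map_sub, map_mul, map_pow, cc_natCast_p, zero_pow (by omega), zero_mul,
      sub_zero, hl]
    simp [aug]
  · obtain ⟨u, hu, hu'⟩ := hcorr x
    rcases Nat.lt_succ_iff_lt_or_eq.1 hi with hlt | rfl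
    · obtain ⟨b, hb⟩ := hg i hlt x (v - (p : Wk p k) ^ (n - i) * u) (by
        rw [mul_sub, ← mul_assoc, ← pow_add, Nat.add_sub_cancel' hlt.le, ← hv, hu]
        ring)
      refine ⟨b, ?_⟩
      rw [hb, map_sub, map_mul, map_pow, cc_natCast_p, zero_pow (by omega), zero_mul, sub_zero]
    · have hψ : ψ x = (p : Wk p k) ^ i * (v - u) := by rw [mul_sub, ← hv, hu]; ring
      have hxJ : x ∈ J := Ideal.mem_span_singleton.2 ⟨_, hψ⟩
      have hdig : dig ⟨x, hxJ⟩ = WittVector.constantCoeff v + D x := by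
        simp only [dig]
        rw [hcancel _ _ ((hw ⟨x, hxJ⟩).symm.trans hψ), map_sub, hu', sub_neg_eq_add]
      refine ⟨π (dig ⟨x, hxJ⟩), ?_⟩
      have h1 : D x = dig ⟨x, hxJ⟩ - algebraMap k _ (π (dig ⟨x, hxJ⟩)) := hD ⟨x, hxJ⟩
      linear_combination h1 + hdig
  · obtain ⟨u, hu, -⟩ := hcorr x
    exact ⟨u, by rw [hu, add_sub_cancel_left]⟩

/-- A compatible family of corrected lifts. -/
theorem exists_family : ∃ ψ : ℕ → (MvPolynomial k ℤ →+* Wk p k),
    (∀ n, Lifts (ψ n) ∧ Good (n + 1) (ψ n)) ∧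
      ∀ n x, (p : Wk p k) ^ (n + 1) ∣ ψ (n + 1) x - ψ n x := by
  choose s hs using WittVector.constantCoeff_surjective (p := p) (R := AlgebraicClosure k)
  let ψ₀ : MvPolynomial k ℤ →+* Wk p k :=
    eval₂Hom (Int.castRingHom _) fun a => s (algebraMap k _ a)
  have h₀ : Lifts ψ₀ := lifts_of_X ψ₀ fun a => by simp [ψ₀, hs]
  choose f hf using fun (n : ℕ) (φ : {ψ : MvPolynomial k ℤ →+* Wk p k //
      Lifts ψ ∧ Good (n + 1) ψ}) => exists_step (Nat.le_add_left 1 n) φ.2.1 φ.2.2
  let F : (n : ℕ) → {ψ : MvPolynomial k ℤ →+* Wk p k // Lifts ψ ∧ Good (n + 1) ψ} := fun n =>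
    n.rec ⟨ψ₀, h₀, good_one h₀⟩ fun n φ => ⟨f n φ, (hf n φ).1, (hf n φ).2.1⟩
  exact ⟨fun n => (F n).1, fun n => (F n).2, fun n x => (hf n (F n)).2.2 x⟩

/-- A Cohen ring inside the Witt vectors of the algebraic closure. -/
theorem exists_cohen : ∃ (C : Type u) (_ : CommRing C) (_ : IsDomain C)
    (_ : IsDiscreteValuationRing C) (_ : IsAdicComplete (Ideal.span {(p : C)}) C)
    (res : C →+* k) (incl : C →+* Wk p k),
    Function.Surjective res ∧ RingHom.ker res = Ideal.span {(p : C)} ∧ Irreducible (p : C) ∧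
      Function.Injective incl ∧
      ∀ c, WittVector.constantCoeff (incl c) = algebraMap k _ (res c) := by
  classical
  obtain ⟨ψ, hψ, hcomp⟩ := exists_family (p := p) (k := k)
  let S : ℕ → Subring (Wk p k) := fun n => ((Ideal.Quotient.mk
    (Ideal.span {(p : Wk p k) ^ (n + 1)})).comp (ψ n)).range.comap (Ideal.Quotient.mk _)
  have hS : ∀ n w, w ∈ S n ↔ ∃ x, (p : Wk p k) ^ (n + 1) ∣ ψ n x - w := fun n w => by
    simp only [S, Subring.mem_comap, RingHom.mem_range, RingHom.comp_apply, Ideal.Quotient.eq,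
      Ideal.mem_span_singleton]
  let C : Subring (Wk p k) := ⨅ n, S n
  have hC : ∀ {w}, w ∈ C ↔ ∀ n, ∃ x, (p : Wk p k) ^ (n + 1) ∣ ψ n x - w := fun {w} => by
    simp only [C, Subring.mem_iInf, hS]
  have hmain : ∀ m n, n ≤ m → ∀ x, (p : Wk p k) ^ (n + 1) ∣ ψ m x - ψ n x := by
    intro m n hnm
    induction hnm with
    | refl => intro x; simp
    | @step m hnm ih =>
      intro x
      have := dvd_add ((pow_dvd_pow _ (Nat.succ_le_succ hnm)).trans (hcomp m x)) (ih x)
      rwa [sub_add_sub_cancel] at this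
  -- closedness and saturation
  have hclosed : ∀ w, (∀ n, ∃ c ∈ C, (p : Wk p k) ^ n ∣ w - c) → w ∈ C := fun w h =>
    hC.2 fun n => by
      obtain ⟨c, hc, hcw⟩ := h (n + 1)
      obtain ⟨x, hx⟩ := hC.1 hc n
      refine ⟨x, ?_⟩
      have := dvd_sub hx hcw
      rwa [show ψ n x - c - (w - c) = ψ n x - w by ring] at this
  have hsat : ∀ w, (p : Wk p k) * w ∈ C → w ∈ C := fun w hw => hC.2 fun n => by
    obtain ⟨x, hx⟩ := hC.1 hw (n + 1)
    have hx0 : aug x = 0 := by
      refine (algebraMap k (AlgebraicClosure k)).injective ?_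
      rw [map_zero, ← (hψ (n + 1)).1 x, ← dvd_iff]
      have h1 : (p : Wk p k) ∣ ψ (n + 1) x - p * w := (dvd_pow_self _ (by omega)).trans hx
      have := dvd_add h1 (Dvd.intro w rfl)
      rwa [sub_add_cancel] at this
    obtain ⟨q, hq⟩ := exists_decomp (hψ (n + 1)).1 (hψ (n + 1)).2 hx0 (n + 1 + 1) le_rfl
    refine ⟨q, ?_⟩
    have h2 := dvd_sub hx hq
    rw [map_sub, map_mul, map_natCast, show ψ (n + 1) x - p * w - (ψ (n + 1) x - p * ψ (n + 1) q)
      = p * (ψ (n + 1) q - w) by ring, pow_succ' _ (n + 1)] at h2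
    have h3 := dvd_sub ((mul_dvd_mul_iff_left (WittVector.p_nonzero p _)).1 h2) (hcomp n q)
    rwa [show ψ (n + 1) q - w - (ψ (n + 1) q - ψ n q) = ψ n q - w by ring] at h3
  have hsatn : ∀ n w, (p : Wk p k) ^ n * w ∈ C → w ∈ C := by
    intro n
    induction n with
    | zero => intro w hw; simpa using hw
    | succ n ih =>
      intro w hw
      rw [pow_succ, mul_assoc] at hw
      exact hsat w (ih _ hw)
  -- the residue map
  have hres : ∀ w : C, WittVector.constantCoeff (w : Wk p k) ∈
      (algebraMap k (AlgebraicClosure k)).range := fun w => by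
    obtain ⟨x, hx⟩ := hC.1 w.2 0
    rw [zero_add, pow_one, dvd_iff, map_sub, sub_eq_zero, (hψ 0).1] at hx
    exact ⟨_, hx⟩
  let e := RingEquiv.ofBijective (algebraMap k (AlgebraicClosure k)).rangeRestrict
    ⟨fun a b h => (algebraMap k (AlgebraicClosure k)).injective (congrArg Subtype.val h),
      (algebraMap k (AlgebraicClosure k)).rangeRestrict_surjective⟩
  let res : C →+* k := (e.symm : _ →+* k).comp
    ((WittVector.constantCoeff.comp C.subtype).codRestrict _ hres)
  have hcc : ∀ c : C, algebraMap k _ (res c) = WittVector.constantCoeff (c : Wk p k) := fun c =>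
    congrArg Subtype.val (e.apply_symm_apply ⟨_, hres c⟩)
  have hnat : ((p : C) : Wk p k) = p := map_natCast C.subtype p
  have hdvd : ∀ (n : ℕ) (c : C), (p : Wk p k) ^ n ∣ (c : Wk p k) →
      c ∈ Ideal.span {(p : C) ^ n} := by
    rintro n c ⟨w, hw⟩
    refine Ideal.mem_span_singleton.2 ⟨⟨w, hsatn n w (hw ▸ c.2)⟩, Subtype.ext ?_⟩
    rw [Subring.coe_mul, Subring.coe_pow, hnat]
    exact hw
  have hspan : ∀ (n : ℕ) (c : C), c ∈ Ideal.span {(p : C)} ^ n →
      (p : Wk p k) ^ n ∣ (c : Wk p k) := by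
    intro n c hc
    rw [Ideal.span_singleton_pow, Ideal.mem_span_singleton] at hc
    obtain ⟨d, rfl⟩ := hc
    exact ⟨d, by rw [Subring.coe_mul, Subring.coe_pow, hnat]⟩
  have hpre : IsPrecomplete (Ideal.span {(p : Wk p k)}) (Wk p k) :=
    (WittVector.isAdicCompleteIdealSpanP).toIsPrecomplete
  have hcompl : IsAdicComplete (Ideal.span {(p : C)}) C :=
    { toIsHausdorff := ⟨fun c hc => Subtype.ext <| IsHausdorff.haus'
        (I := Ideal.span {(p : Wk p k)}) _ fun n => by
          rw [SModEq.zero, smul_eq_mul, Ideal.mul_top, Ideal.span_singleton_pow,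
            Ideal.mem_span_singleton]
          exact hspan n c (by simpa using SModEq.zero.1 (hc n))⟩
      toIsPrecomplete := ⟨fun f hf => by
        have hd : ∀ {i j}, i ≤ j → (p : Wk p k) ^ i ∣ (f i : Wk p k) - f j := fun {i j} h => by
          rw [← AddSubgroupClass.coe_sub]
          exact hspan i _ (by simpa using SModEq.sub_mem.1 (hf h))
        obtain ⟨L, hL⟩ := hpre.prec' (fun n => (f n : Wk p k)) fun {i j} h => by
          rw [SModEq.sub_mem, smul_eq_mul, Ideal.mul_top, Ideal.span_singleton_pow,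
            Ideal.mem_span_singleton]
          exact hd h
        have hL' : ∀ n, (p : Wk p k) ^ n ∣ (f n : Wk p k) - L := fun n => by
          have := SModEq.sub_mem.1 (hL n)
          rwa [smul_eq_mul, Ideal.mul_top, Ideal.span_singleton_pow,
            Ideal.mem_span_singleton] at this
        have hLC : L ∈ C := hclosed L fun n => ⟨f n, (f n).2, by
          rw [← neg_sub]; exact (hL' n).neg_right⟩
        refine ⟨⟨L, hLC⟩, fun n => SModEq.sub_mem.2 ?_⟩
        rw [smul_eq_mul, Ideal.mul_top, Ideal.span_singleton_pow]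
        exact hdvd n _ (hL' n)⟩ }
  have hsurj : Function.Surjective res := by
    intro a
    obtain ⟨L, hL⟩ := hpre.prec' (fun n => ψ n (X a)) fun {i j} h => by
      rw [SModEq.sub_mem, smul_eq_mul, Ideal.mul_top, Ideal.span_singleton_pow,
        Ideal.mem_span_singleton, ← neg_sub]
      exact ((pow_dvd_pow _ i.le_succ).trans (hmain j i h _)).neg_right
    have hL' : ∀ n, (p : Wk p k) ^ n ∣ ψ n (X a) - L := fun n => by
      have := SModEq.sub_mem.1 (hL n)
      rwa [smul_eq_mul, Ideal.mul_top, Ideal.span_singleton_pow, Ideal.mem_span_singleton] at this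
    have hLC : L ∈ C := hC.2 fun n => ⟨X a, by
      have := dvd_sub (hL' (n + 1)) (hcomp n (X a))
      rwa [show ψ (n + 1) (X a) - L - (ψ (n + 1) (X a) - ψ n (X a)) = ψ n (X a) - L by ring]
        at this⟩
    refine ⟨⟨L, hLC⟩, (algebraMap k (AlgebraicClosure k)).injective ?_⟩
    rw [hcc]
    have h1 : (p : Wk p k) ∣ ψ 1 (X a) - L := by simpa using hL' 1
    rw [dvd_iff, map_sub, sub_eq_zero, (hψ 1).1] at h1
    rw [← h1]
    simp [aug]
  have hker : RingHom.ker res = Ideal.span {(p : C)} := by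
    ext c
    rw [RingHom.mem_ker, ← (algebraMap k (AlgebraicClosure k)).injective.eq_iff, map_zero, hcc,
      ← dvd_iff]
    exact ⟨fun h => by simpa using hdvd 1 c (by simpa using h),
      fun h => by simpa using hspan 1 c (by simpa using h)⟩
  have hunit : ∀ c : C, res c ≠ 0 → IsUnit c := by
    intro c hc
    obtain ⟨d, hd⟩ := hsurj (res c)⁻¹
    have h1 : c * d - 1 ∈ Ideal.span {(p : C)} := by
      rw [← hker, RingHom.mem_ker, map_sub, map_mul, map_one, hd, mul_inv_cancel₀ hc, sub_self]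
    have h2 := Ideal.mem_jacobson_bot.1 (IsAdicComplete.le_jacobson_bot _ h1) 1
    rw [mul_one, sub_add_cancel] at h2
    exact isUnit_of_mul_isUnit_left h2
  have hirr : Irreducible (p : C) := by
    refine ⟨fun h => ?_, fun a b hab => ?_⟩
    · have := h.map res
      rw [map_natCast, CharP.cast_eq_zero] at this
      exact not_isUnit_zero this
    · by_contra hne
      simp only [not_or] at hne
      have ha : (p : Wk p k) ∣ (a : Wk p k) := by
        rw [dvd_iff, ← hcc, not_not.1 (mt (hunit a) hne.1), map_zero]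
      have hb : (p : Wk p k) ∣ (b : Wk p k) := by
        rw [dvd_iff, ← hcc, not_not.1 (mt (hunit b) hne.2), map_zero]
      obtain ⟨a', ha'⟩ := ha
      obtain ⟨b', hb'⟩ := hb
      have h1 := congrArg Subtype.val hab
      rw [Subring.coe_mul, hnat, ha', hb'] at h1
      refine (WittVector.irreducible (k := AlgebraicClosure k) p).not_isUnit
        (IsUnit.of_mul_eq_one (a' * b') ?_)
      refine mul_left_cancel₀ (WittVector.p_nonzero p (AlgebraicClosure k)) ?_
      linear_combination -h1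
  refine ⟨C, inferInstance, inferInstance, ?_, hcompl, res, C.subtype, hsurj, hker, hirr,
    Subtype.val_injective, fun c => (hcc c).symm⟩
  refine IsDiscreteValuationRing.ofHasUnitMulPowIrreducibleFactorization
    ⟨(p : C), hirr, fun {c} hc => ?_⟩
  have hc' : (c : Wk p k) ≠ 0 := fun h => hc (Subtype.ext h)
  obtain ⟨n, u, hu⟩ := WittVector.exists_eq_pow_p_mul' (c : Wk p k) hc'
  have huC : (u : Wk p k) ∈ C := hsatn n _ (hu ▸ c.2)
  have hun : res ⟨u, huC⟩ ≠ 0 := fun h0 => by
    have := hcc ⟨u, huC⟩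
    rw [h0, map_zero] at this
    exact (WittVector.irreducible (k := AlgebraicClosure k) p).not_isUnit
      (isUnit_of_dvd_unit ((dvd_iff _).2 this.symm) u.isUnit)
  exact ⟨n, (hunit _ hun).unit, Subtype.ext (by
    rw [Subring.coe_mul, Subring.coe_pow, hnat, hu]
    rfl)⟩

end Vale.Agent.P202.Mixed2.Cohen
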