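import Vale.Agent.P202.Char.CoeffField

/-!
P202 mixed characteristic, Cohen rings: a linear map on a lift of the kernel of a ring map onto a
field of characteristic `p` extends to a derivation (formal smoothness over the prime field).
-/

namespace Vale.Agent.P202.Mixed2.Cohen

open Ideal

universe u v

variable {p : ℕ} [hp : Fact p.Prime] {P : Type u} [CommRing P] {k : Type u} [Field k] [CharP k p]
  [Algebra P k] {M : Type v} [AddCommGroup M] [Module P M]

/-- A linear map on a lift `J` of the kernel which kills the multiples of `p` extends to a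
derivation. -/
theorem exists_derivation (hsurj : Function.Surjective (algebraMap P k))
    (J : Ideal P)
    (hJ : J ⊔ span {(p : P)} = RingHom.ker (algebraMap P k)) (g : J →ₗ[P] M)
    (hM : ∀ (a : P) (j : J), algebraMap P k a = 0 → a • g j = 0)
    (hg : ∀ (a : P) (h : (p : P) * a ∈ J), g ⟨(p : P) * a, h⟩ = 0) :
    ∃ D : Derivation ℤ P M, (∀ x, ∃ j, D x = g j) ∧ ∀ j : J, D j = g j := by
  classical
  set I := RingHom.ker (algebraMap P k) with hI
  have hdec : ∀ a : I, ∃ (j : J) (q : P), (a : P) = j + p * q := by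
    rintro ⟨a, ha⟩
    rw [← hJ, Submodule.mem_sup] at ha
    obtain ⟨j, hj, b, hb, rfl⟩ := ha
    obtain ⟨q, rfl⟩ := mem_span_singleton'.1 hb
    exact ⟨⟨j, hj⟩, q, show j + q * (p : P) = j + p * q by rw [mul_comm (p : P) q]⟩
  choose j₀ q₀ hjq using hdec
  have key : ∀ (a : I) (j : J) (q : P), (a : P) = j + p * q → g (j₀ a) = g j := by
    intro a j q h
    have h1 : (p : P) * (q₀ a - q) = ((j - j₀ a : J) : P) := by
      rw [Submodule.coe_sub]
      linear_combination h - hjq a
    have h2 := hg (q₀ a - q) (h1 ▸ (j - j₀ a).2)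
    rw [show (⟨(p : P) * (q₀ a - q), h1 ▸ (j - j₀ a).2⟩ : J) = j - j₀ a from Subtype.ext h1,
      map_sub, sub_eq_zero] at h2
    exact h2.symm
  let G : I →ₗ[P] M :=
    { toFun := fun a => g (j₀ a)
      map_add' := fun a b => by
        rw [← map_add g]
        refine key _ _ (q₀ a + q₀ b) ?_
        rw [Submodule.coe_add, Submodule.coe_add]
        linear_combination hjq a + hjq b
      map_smul' := fun c a => by
        rw [RingHom.id_apply, ← map_smul g]
        refine key _ _ (c * q₀ a) ?_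
        rw [Submodule.coe_smul, Submodule.coe_smul, smul_eq_mul, smul_eq_mul]
        linear_combination c * hjq a }
  let L : Ideal P := (LinearMap.ker G).map (Submodule.subtype I)
  have hmemL : ∀ {a : P} (ha : a ∈ I), a ∈ L ↔ G ⟨a, ha⟩ = 0 := fun {a} ha =>
    ⟨fun ⟨b, hb, hba⟩ => by
      rw [show (⟨a, ha⟩ : I) = b from Subtype.ext hba.symm]
      exact hb, fun h => ⟨⟨a, ha⟩, h, rfl⟩⟩
  have hLI : L ≤ I := by rintro _ ⟨b, -, rfl⟩; exact b.2
  have hsq : I * I ≤ L := Ideal.mul_le.2 fun a ha b hb => by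
    rw [hmemL (I.mul_mem_left a hb), show (⟨a * b, _⟩ : I) = a • ⟨b, hb⟩ from rfl, map_smul]
    exact hM a (j₀ ⟨b, hb⟩) ha
  have hpI : (p : P) ∈ I := by rw [RingHom.mem_ker, map_natCast, CharP.cast_eq_zero]
  have hpL : (p : P) ∈ L := (hmemL hpI).2 <| by
    change g (j₀ ⟨(p : P), hpI⟩) = 0
    rw [key ⟨(p : P), hpI⟩ 0 1 (by simp), map_zero]
  have hne : L ≠ ⊤ := ne_top_of_le_ne_top (RingHom.ker_ne_top _) hLI
  have : Nontrivial (P ⧸ L) := Ideal.Quotient.nontrivial_iff.2 hne
  have : CharP (P ⧸ L) p := (CharP.charP_iff_prime_eq_zero hp.out).2 (by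
    rw [← map_natCast (Ideal.Quotient.mk L), Ideal.Quotient.eq_zero_iff_mem]
    exact hpL)
  let : Algebra (ZMod p) (P ⧸ L) := ZMod.algebra _ p
  let : Algebra (ZMod p) k := ZMod.algebra _ p
  have := Char.formallySmooth_of_perfect (ZMod p) k
  let π₀ : P ⧸ L →+* k := Ideal.Quotient.lift L (algebraMap P k) fun a ha => hLI ha
  let π : P ⧸ L →ₐ[ZMod p] k :=
    { π₀ with commutes' := fun r => RingHom.congr_fun (Subsingleton.elim
        (π₀.comp (algebraMap (ZMod p) (P ⧸ L))) (algebraMap (ZMod p) k)) r }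
  have hπ : ∀ a, π (Ideal.Quotient.mk L a) = algebraMap P k a := fun a => rfl
  have hπs : Function.Surjective π := fun y => by
    obtain ⟨a, rfl⟩ := hsurj y
    exact ⟨_, hπ a⟩
  have hker : IsNilpotent (RingHom.ker (π : P ⧸ L →+* k)) := by
    refine ⟨2, le_bot_iff.1 ?_⟩
    rw [pow_two, Ideal.mul_le]
    intro a ha b hb
    obtain ⟨a, rfl⟩ := Ideal.Quotient.mk_surjective a
    obtain ⟨b, rfl⟩ := Ideal.Quotient.mk_surjective b
    rw [Submodule.mem_bot, ← map_mul, Ideal.Quotient.eq_zero_iff_mem]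
    exact hsq (Ideal.mul_mem_mul ha hb)
  let s := Algebra.FormallySmooth.liftOfSurjective (AlgHom.id (ZMod p) k) π hπs hker
  have hs : ∀ x, π (s x) = x := fun x =>
    Algebra.FormallySmooth.liftOfSurjective_apply _ π hπs hker x
  choose c hc using fun x : P => Ideal.Quotient.mk_surjective (s (algebraMap P k x))
  have hcx : ∀ x, algebraMap P k (c x) = algebraMap P k x := fun x => by rw [← hπ, hc, hs]
  have hxI : ∀ x, x - c x ∈ I := fun x => by rw [RingHom.mem_ker, map_sub, hcx, sub_self]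
  let D₀ : P → M := fun x => G ⟨x - c x, hxI x⟩
  have hG : ∀ (a b : I), (a : P) - b ∈ L → G a = G b := fun a b h => by
    rw [← sub_eq_zero, ← map_sub]
    exact (hmemL (a - b).2).1 h
  have hcmk : ∀ x y, Ideal.Quotient.mk L x = Ideal.Quotient.mk L y → x - y ∈ L :=
    fun x y h => Ideal.Quotient.eq.1 h
  have hadd : ∀ x y, D₀ (x + y) = D₀ x + D₀ y := fun x y => by
    rw [← map_add G]
    refine hG _ _ ?_
    rw [Submodule.coe_add, show (x + y - c (x + y)) - ((x - c x) + (y - c y)) =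
      (c x + c y) - c (x + y) by ring]
    exact hcmk _ _ (by rw [map_add, hc, hc, hc, map_add, map_add])
  have hmul : ∀ x y, D₀ (x * y) = x • D₀ y + y • D₀ x := fun x y => by
    have h1 : y • D₀ x = c y • D₀ x := by
      rw [← sub_eq_zero, ← sub_smul]
      exact hM _ (j₀ _) (hxI y)
    rw [h1, ← map_smul G, ← map_smul G, ← map_add G]
    refine hG _ _ ?_
    rw [Submodule.coe_add, Submodule.coe_smul, Submodule.coe_smul, smul_eq_mul, smul_eq_mul,
      show (x * y - c (x * y)) - (x * (y - c y) + c y * (x - c x)) =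
        c x * c y - c (x * y) by ring]
    exact hcmk _ _ (by rw [map_mul, hc, hc, hc, map_mul, map_mul])
  refine ⟨Derivation.mk' (AddMonoidHom.mk' D₀ hadd).toIntLinearMap hmul,
    fun x => ⟨j₀ ⟨x - c x, hxI x⟩, rfl⟩, fun j => ?_⟩
  change D₀ (j : P) = g j
  have hjI : (j : P) ∈ I := hJ ▸ Submodule.mem_sup_left j.2
  rw [show D₀ (j : P) = G ⟨j, hjI⟩ from hG _ _ (by
    rw [show ((j : P) - c j) - (j : P) = 0 - c j by ring]
    exact hcmk _ _ (by rw [map_zero, hc, RingHom.mem_ker.1 hjI, map_zero]))]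
  exact key ⟨j, hjI⟩ j 0 (by simp)

end Vale.Agent.P202.Mixed2.Cohen
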