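import Vale.Agent.P202.Mixed2.CohenExt

/-!
P202 mixed characteristic: maps from a Cohen ring lift along quotients of complete local rings.
-/

namespace Vale.Agent.P202.Mixed2.Cohen

open Ideal MvPolynomial IsLocalRing

set_option linter.unusedSectionVars false

universe u v

variable {p : ℕ} [hp : Fact p.Prime] {C : Type u} [CommRing C] {k : Type u} [Field k] [CharP k p]
  {E : Type v} [CommRing E] [IsLocalRing E]

/-- Evaluation of the polynomials on `C` in `C`. -/
noncomputable abbrev evC : MvPolynomial C ℤ →+* C := (aeval (id : C → C)).toRingHom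

theorem inf_pow_mul_le (J : Ideal E) (n : ℕ) :
    maximalIdeal E * (J ⊓ maximalIdeal E ^ n) ≤ J ⊓ maximalIdeal E ^ (n + 1) :=
  le_inf (Ideal.mul_le.2 fun a _ b hb => J.mul_mem_left a hb.1) (by
    rw [pow_succ']
    exact Ideal.mul_mono le_rfl inf_le_right)

/-- One step of lifting. -/
theorem exists_lift_step (res : C →+* k) (hres : Function.Surjective res)
    (hker : RingHom.ker res = span {(p : C)}) (hreg : ∀ a : C, (p : C) * a = 0 → a = 0)
    (hpE : (p : E) ∈ maximalIdeal E) {J : Ideal E} (hJ : J ≤ maximalIdeal E) (n : ℕ)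
    (h : MvPolynomial C ℤ →+* E)
    (hh : ∀ x, evC x = 0 → h x ∈ J ⊓ maximalIdeal E ^ n) :
    ∃ h' : MvPolynomial C ℤ →+* E, (∀ x, h' x - h x ∈ J ⊓ maximalIdeal E ^ n) ∧
      ∀ x, evC x = 0 → h' x ∈ J ⊓ maximalIdeal E ^ (n + 1) := by
  classical
  set I := J ⊓ maximalIdeal E ^ n with hIdef
  set I' := J ⊓ maximalIdeal E ^ (n + 1) with hI'def
  let q : E →+* E ⧸ I' := Ideal.Quotient.mk I'
  let : Algebra (MvPolynomial C ℤ) k := (res.comp evC).toAlgebra
  let : Algebra (MvPolynomial C ℤ) (E ⧸ I') := (q.comp h).toAlgebra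
  have hsmul : ∀ (a : MvPolynomial C ℤ) (m : E ⧸ I'), a • m = q (h a) * m := fun a m => rfl
  have hdec : ∀ x, res (evC x) = 0 → ∃ y, evC (x - (p : MvPolynomial C ℤ) * y) = 0 := by
    intro x hx
    obtain ⟨c, hc⟩ := Ideal.mem_span_singleton.1
      (show evC x ∈ span {(p : C)} from hker ▸ hx)
    refine ⟨X c, ?_⟩
    rw [map_sub, map_mul, map_natCast, hc]
    simp [evC]
  have hhm : ∀ x, res (evC x) = 0 → h x ∈ maximalIdeal E := fun x hx => by
    obtain ⟨y, hy⟩ := hdec x hx
    rw [← sub_add_cancel x ((p : MvPolynomial C ℤ) * y), map_add, map_mul, map_natCast]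
    exact add_mem (hJ (hh _ hy).1) (Ideal.mul_mem_right _ _ hpE)
  have hmM : ∀ e ∈ maximalIdeal E, ∀ i ∈ I, q e * q i = 0 := by
    intro e he i hi
    rw [← map_mul, Ideal.Quotient.eq_zero_iff_mem]
    exact inf_pow_mul_le J n (Ideal.mul_mem_mul he hi)
  let g : (RingHom.ker (evC (C := C))) →ₗ[MvPolynomial C ℤ] E ⧸ I' :=
    { toFun := fun j => q (h j)
      map_add' := fun i j => by rw [Submodule.coe_add, map_add, map_add]
      map_smul' := fun a j => by
        rw [RingHom.id_apply, hsmul, Submodule.coe_smul, smul_eq_mul, map_mul, map_mul] }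
  obtain ⟨D, hDr, hD⟩ := exists_derivation (p := p) (k := k) (M := E ⧸ I')
    (fun b => by
      obtain ⟨c, rfl⟩ := hres b
      exact ⟨X c, by simp [RingHom.algebraMap_toAlgebra, evC]⟩)
    (RingHom.ker (evC (C := C)))
    (by
      refine le_antisymm (sup_le (fun j hj => ?_) ?_) (fun x hx => ?_)
      · rw [RingHom.mem_ker] at hj ⊢
        change res (evC j) = 0
        rw [hj, map_zero]
      · rw [Ideal.span_singleton_le_iff_mem, RingHom.mem_ker, map_natCast, CharP.cast_eq_zero]
      · obtain ⟨y, hy⟩ := hdec x hx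
        rw [← sub_add_cancel x ((p : MvPolynomial C ℤ) * y)]
        exact Submodule.add_mem_sup hy (Ideal.mem_span_singleton.2 ⟨y, rfl⟩))
    g (fun a j ha => by
      rw [hsmul]
      exact hmM _ (hhm a ha) _ (hh _ j.2)) fun a ha => (by
      change q (h ((p : MvPolynomial C ℤ) * a)) = 0
      rw [RingHom.mem_ker, map_mul, map_natCast] at ha
      rw [map_mul, map_natCast, Ideal.Quotient.eq_zero_iff_mem]
      exact inf_pow_mul_le J n (Ideal.mul_mem_mul hpE (hh a (hreg _ ha))))
  have hrep : ∀ x, ∃ i ∈ I, q i = D x := fun x => by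
    obtain ⟨j, hj⟩ := hDr x
    exact ⟨h j, hh _ j.2, hj.symm⟩
  choose r hrI hr using hrep
  let h' : MvPolynomial C ℤ →+* E :=
    eval₂Hom (Int.castRingHom E) fun c => h (X c) - r (X c)
  have hcorr : ∀ x, q (h' x) = q (h x) - D x := by
    intro x
    induction x using MvPolynomial.induction_on with
    | C z => simp [h', ← MvPolynomial.algebraMap_eq]
    | add a b ha hb =>
      rw [map_add h', map_add q, ha, hb, map_add h, map_add q, map_add D]
      ring
    | mul_X a i ha =>
      have hX : q (h' (X i)) = q (h (X i)) - D (X i) := by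
        rw [eval₂Hom_X', map_sub, hr]
      have hzero : D a * D (X i) = 0 := by
        rw [← hr a, ← hr (X i)]
        exact hmM _ (hJ (hrI a).1) _ (hrI _)
      rw [map_mul h', map_mul q, ha, hX, D.leibniz, hsmul, hsmul, map_mul h,
        map_mul q]
      linear_combination hzero
  refine ⟨h', fun x => ?_, fun x hx => ?_⟩
  · have h1 : q (h' x - h x) = q (-(r x)) := by
      rw [map_sub, hcorr, map_neg, hr]
      ring
    rw [show h' x - h x = (h' x - h x - -(r x)) + -(r x) by ring]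
    refine add_mem (?_ : _ ∈ I) (neg_mem (hrI _))
    exact (inf_le_inf_left J (Ideal.pow_le_pow_right n.le_succ))
      (Ideal.Quotient.eq.1 h1)
  · rw [← Ideal.Quotient.eq_zero_iff_mem]
    change q (h' x) = 0
    rw [hcorr, sub_eq_zero]
    exact (hD ⟨x, hx⟩).symm

/-- Maps from a Cohen ring lift. -/
theorem exists_lift [IsNoetherianRing E] [IsAdicComplete (maximalIdeal E) E] (res : C →+* k)
    (hres : Function.Surjective res) (hker : RingHom.ker res = span {(p : C)})
    (hreg : ∀ a : C, (p : C) * a = 0 → a = 0) (hpE : (p : E) ∈ maximalIdeal E) {J : Ideal E}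
    (hJ : J ≤ maximalIdeal E) (f : C →+* E ⧸ J) :
    ∃ g : C →+* E, (Ideal.Quotient.mk J).comp g = f := by
  classical
  choose s hs using Ideal.Quotient.mk_surjective (I := J)
  let h₀ : MvPolynomial C ℤ →+* E := eval₂Hom (Int.castRingHom E) fun c => s (f c)
  have hcomp₀ : (Ideal.Quotient.mk J).comp h₀ = f.comp evC :=
    MvPolynomial.ringHom_ext (fun z => by simp [h₀]) fun c => by simp [h₀, hs, evC]
  have h₀J : ∀ x, evC x = 0 → h₀ x ∈ J ⊓ maximalIdeal E ^ 0 := fun x hx => by
    refine ⟨Ideal.Quotient.eq_zero_iff_mem.1 ?_, by simp⟩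
    rw [← RingHom.comp_apply, hcomp₀, RingHom.comp_apply, hx, map_zero]
  choose F hF hF' using fun (n : ℕ) (h : {h : MvPolynomial C ℤ →+* E //
      ∀ x, evC x = 0 → h x ∈ J ⊓ maximalIdeal E ^ n}) =>
    exists_lift_step res hres hker hreg hpE hJ n h.1 h.2
  let H : (n : ℕ) → {h : MvPolynomial C ℤ →+* E //
      ∀ x, evC x = 0 → h x ∈ J ⊓ maximalIdeal E ^ n} := fun n =>
    n.rec ⟨h₀, h₀J⟩ fun n h => ⟨F n h, hF' n h⟩
  have hH : ∀ {i j}, i ≤ j → ∀ x, (H j).1 x - (H i).1 x ∈ J ⊓ maximalIdeal E ^ i := by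
    intro i j hij
    induction hij with
    | refl => intro x; rw [sub_self]; exact zero_mem _
    | @step j hij ih =>
      intro x
      rw [← sub_add_sub_cancel _ ((H j).1 x) _]
      exact add_mem (inf_le_inf_left J (Ideal.pow_le_pow_right hij) (hF j (H j) x)) (ih x)
  have hev : Function.Surjective (evC (C := C)) := fun c => ⟨X c, by simp [evC]⟩
  let fn : ∀ n, C →+* E ⧸ maximalIdeal E ^ n := fun n => (evC (C := C)).liftOfSurjective hev
    ⟨(Ideal.Quotient.mk _).comp (H n).1, fun x hx => by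
      rw [RingHom.mem_ker, RingHom.comp_apply, Ideal.Quotient.eq_zero_iff_mem]
      exact ((H n).2 x hx).2⟩
  have hfn : ∀ n x, fn n (evC x) = Ideal.Quotient.mk _ ((H n).1 x) := fun n x =>
    RingHom.liftOfRightInverse_comp_apply _ _ _ _ x
  have hfc : ∀ {i j} (hij : i ≤ j),
      (Ideal.Quotient.factorPow (maximalIdeal E) hij).comp (fn j) = fn i := by
    intro i j hij
    refine RingHom.ext fun c => ?_
    obtain ⟨x, rfl⟩ := hev c
    rw [RingHom.comp_apply, hfn, hfn]
    exact Ideal.Quotient.eq.2 (hH hij x).2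
  let g : C →+* E :=
    (AdicCompletion.ofAlgEquiv (maximalIdeal E)).symm.toRingEquiv.toRingHom.comp
      (AdicCompletion.liftRingHom (maximalIdeal E) fn hfc)
  refine ⟨g, RingHom.ext fun c => ?_⟩
  obtain ⟨x, rfl⟩ := hev c
  rw [RingHom.comp_apply, ← RingHom.comp_apply f, ← hcomp₀]
  show Ideal.Quotient.mk J (g (evC x)) = Ideal.Quotient.mk J (h₀ x)
  rw [Ideal.Quotient.eq]
  have hmem : ∀ n, g (evC x) - h₀ x ∈ J ⊔ maximalIdeal E ^ n := by
    intro n
    rw [← sub_add_sub_cancel _ ((H n).1 x) _]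
    refine add_mem (Ideal.mem_sup_right (Ideal.Quotient.eq.1 ?_))
      (Ideal.mem_sup_left (hH (Nat.zero_le n) x).1)
    rw [← hfn]
    show Ideal.Quotient.mk _ ((AdicCompletion.ofAlgEquiv (maximalIdeal E)).symm _) = _
    rw [AdicCompletion.mk_ofAlgEquiv_symm, AdicCompletion.evalₐ_liftRingHom]
  rw [← Ideal.Quotient.eq_zero_iff_mem]
  have h1 : Ideal.Quotient.mk J (g (evC x) - h₀ x) ∈
      (⨅ n, maximalIdeal E ^ n • (⊤ : Submodule E (E ⧸ J))) := by
    refine Submodule.mem_iInf _ |>.2 fun n => ?_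
    rw [Ideal.smul_top_eq_map]
    change Ideal.Quotient.mk J _ ∈ (maximalIdeal E ^ n).map (algebraMap E (E ⧸ J))
    rw [Ideal.Quotient.algebraMap_eq]
    have h2 := Ideal.mem_map_of_mem (Ideal.Quotient.mk J) (hmem n)
    rwa [Ideal.map_sup, Ideal.map_quotient_self, bot_sup_eq] at h2
  rw [Ideal.iInf_pow_smul_eq_bot_of_isLocalRing _ (maximalIdeal.isMaximal E).ne_top] at h1
  simpa using h1

end Vale.Agent.P202.Mixed2.Cohen
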