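import Vale.Agent.P202.Mixed2.Choices
import Vale.Agent.P202.Ext.Syzygy

/-!
P202, mixed characteristic: the interface between the reductions and the core of the proof.

`CoreData` is what the cover, division, filtration and sums may use about the ring; `CoreGoal` is
what `Main` proves and what the reductions consume.
-/

namespace Vale.Agent.P202.Mixed2

open IsLocalRing Polynomial Filter Topology Vale.Agent.P202.Char

universe u

/-- The data of the core: no domain hypothesis, a bound for generators of the maximal ideal. -/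
structure CoreData (p : ℕ) [Fact p.Prime] (R : Type u) [CommRing R] [IsLocalRing R] (n : ℕ) where
  /-- The map from the regular base. -/
  φ : Base p (ResidueField R) n →+* R
  φ_finite : φ.Finite
  φ_C : ∀ w, residue R (φ (MvPowerSeries.C w)) = WittVector.constantCoeff w
  φ_X_mem : ∀ i, φ (MvPowerSeries.X i) ∈ maximalIdeal R
  /-- The element playing the primitive element. -/
  θ : R
  θ_mem : θ ∈ maximalIdeal R
  isRed : Red.IsRed (Fin.cons θ fun i => φ (MvPowerSeries.X i))
  /-- The equation of `θ`. -/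
  Φ : (Base p (ResidueField R) n)[X]
  monic : Φ.Monic
  root : Φ.eval₂ φ θ = 0
  dvd_of_root : ∀ P : (Base p (ResidueField R) n)[X], P.eval₂ φ θ = 0 → Φ ∣ P
  natDegree_pos : 0 < Φ.natDegree
  coeff_not_isUnit : ∀ i < Φ.natDegree, ¬IsUnit (Φ.coeff i)
  discr_ne_zero : Φ.discr ≠ 0
  /-- The denominator. -/
  h : Base p (ResidueField R) n
  h_ne_zero : h ≠ 0
  h_mul_mem : ∀ x : R, ∃ Q : (Base p (ResidueField R) n)[X], Q.eval₂ φ θ = φ h * x
  /-- The number of chosen generators of the maximal ideal. -/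
  numGen : ℕ
  /-- The chosen generators. -/
  gen : Fin numGen → R
  gen_span : maximalIdeal R = Ideal.span (Set.range gen)
  bound : ∀ i, ∃ Q : (Base p (ResidueField R) n)[X], Q.eval₂ φ θ = φ h * gen i ∧
    ∃ P : ((Base p (ResidueField R) n)[X])[X], P.Monic ∧
      (∀ l, P.coeff l ∈ (Ideal.span {Polynomial.C h} *
        Choices.zIdeal p (ResidueField R) n) ^ (P.natDegree - l)) ∧ Φ ∣ P.eval Q
  grow_h : Tendsto (fun j : ℕ => (len R (R ⧸ (Ideal.span {φ h} ⊔ maximalIdeal R ^ j)) : ℝ) /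
    (j : ℝ) ^ (n + 1)) atTop (𝓝 0)
  grow_discr : Tendsto (fun j : ℕ =>
    (len R (R ⧸ (Ideal.span {φ Φ.discr} ⊔ maximalIdeal R ^ j)) : ℝ) / (j : ℝ) ^ (n + 1))
    atTop (𝓝 0)

/-- The statement of the core: the lower bound for the growth of `M/(x^L)M`. -/
def CoreGoal (p : ℕ) [Fact p.Prime] (R : Type u) [CommRing R] [IsLocalRing R] (n : ℕ)
    (C : CoreData p R n) : Prop :=
  ∀ e : ℝ, IsMultiplicity R (n + 1) e → ∀ (M : Type u) [AddCommGroup M] [Module R M],
    Module.Finite R M → Nontrivial M → ∀ (s m : ℕ), m + s = n + 1 → 0 < m → Ext.SyzFree R s M →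
    ∀ x : Fin m → R, (∀ i, x i ∈ maximalIdeal R) →
    (∃ c, (maximalIdeal R ^ c • ⊤ : Submodule R M) ≤ Ideal.span (Set.range x) • ⊤) →
    Tendsto (fun L : ℕ => (len R (M ⧸ ((Ideal.span {C.φ C.Φ.discr} ⊔
      Ideal.span (Set.range fun i => x i ^ L)) • ⊤ : Submodule R M)) : ℝ) / (L : ℝ) ^ m)
      atTop (𝓝 0) →
    ∀ ε > 0, ∀ᶠ L : ℕ in atTop, (e - ε) * (L : ℝ) ^ m ≤
      (len R (M ⧸ (Ideal.span (Set.range fun i => x i ^ L) • ⊤ : Submodule R M)) : ℝ)

end Vale.Agent.P202.Mixed2
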