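import Vale.Agent.P202.Mixed2.Core
import Vale.Agent.P202.Char.Stage2Dim
import Vale.Agent.P202.TopComp.Assoc

/-!
P202 mixed characteristic: data of the core by base change from the choices on a domain.
-/

namespace Vale.Agent.P202.Mixed2.CoreBuild

open IsLocalRing Polynomial Filter Topology Vale.Agent.P202.Char

set_option linter.unusedSectionVars false

universe u

/-- The image of a nonzero element of a domain grows slowly in every flat local extension. -/
theorem grow (R T : Type u) [CommRing R] [IsDomain R] [CommRing T] [IsLocalRing R] [IsLocalRing T]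
    [IsNoetherianRing R] [IsNoetherianRing T] [Algebra R T] [IsLocalHom (algebraMap R T)]
    [Module.Flat R T] {D : ℕ} (hD : ringKrullDim T = D) {r : R} (hr : r ≠ 0) :
    Tendsto (fun j : ℕ => (len T (T ⧸ (Ideal.span {algebraMap R T r} ⊔ maximalIdeal T ^ j)) : ℝ) /
      (j : ℝ) ^ D) atTop (𝓝 0) := by
  set a := algebraMap R T r
  rcases em (IsUnit a) with hu | hu
  · refine tendsto_const_nhds.congr' (Eventually.of_forall fun j => ?_)
    rw [Ideal.span_singleton_eq_top.2 hu]
    simp [len]
  set I := Ideal.span {a}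
  have hI : I ≤ maximalIdeal T := (Ideal.span_singleton_le_iff_mem _).2 ((mem_maximalIdeal a).2 hu)
  have : Nontrivial (T ⧸ I) :=
    Ideal.Quotient.nontrivial_iff.2 (ne_top_of_le_ne_top (maximalIdeal.isMaximal T).ne_top hI)
  have : IsLocalRing (T ⧸ I) :=
    IsLocalRing.of_surjective' (Ideal.Quotient.mk I) Ideal.Quotient.mk_surjective
  obtain ⟨D', e, hD', -, he⟩ := exists_multiplicity (T ⧸ I)
  have hreg : a ∈ nonZeroDivisors T := by
    refine mem_nonZeroDivisors_iff_right.2 fun x hx => ?_
    have h1 : IsSMulRegular T r :=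
      Module.Flat.isSMulRegular_of_isRegular (IsRegular.of_ne_zero hr)
    exact h1 ((Algebra.smul_def r x).trans ((mul_comm a x).trans (hx.trans (smul_zero r).symm)))
  have h1 : ringKrullDim (T ⧸ I) + 1 ≤ ringKrullDim T :=
    ringKrullDim_succ_le_of_surjective (Ideal.Quotient.mk I) Ideal.Quotient.mk_surjective hreg
      (Ideal.Quotient.eq_zero_iff_mem.2 (Ideal.mem_span_singleton_self a))
  rw [hD', hD] at h1
  have hlt : D' < D := by
    have h2 : D' + 1 ≤ D := by exact_mod_cast h1
    omega
  have h2 := TopComp.hasMult_zero_of_lt I hD' hlt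
  have h3 := h2.div_const (D.factorial : ℝ)
  rw [zero_div] at h3
  refine h3.congr fun j => ?_
  have hD0 : (D.factorial : ℝ) ≠ 0 := by positivity
  rw [div_right_comm, mul_div_assoc, mul_comm, div_mul_cancel₀ _ hD0]
  congr 2
  refine congrArg ENat.toNat (LinearEquiv.length_eq ?_)
  exact ((Submodule.quotEquivOfEq _ _ (by rw [Ideal.smul_top_eq_map, Ideal.Quotient.algebraMap_eq]))
    ≪≫ₗ Submodule.Quotient.restrictScalarsEquiv T
      ((maximalIdeal T ^ j).map (Ideal.Quotient.mk I))) ≪≫ₗ
    (DoubleQuot.quotQuotEquivQuotSupₐ T I (maximalIdeal T ^ j)).toLinearEquiv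

/-- The discriminant of a monic polynomial commutes with a change of ring. -/
theorem discr_map {A B : Type u} [CommRing A] [CommRing B] [Nontrivial B] (f : A →+* B) {P : A[X]}
    (hP : P.Monic) (h0 : 0 < P.natDegree) : (P.map f).discr = f P.discr := by
  have hd : (P.map f).natDegree = P.natDegree := hP.natDegree_map f
  have h1 := resultant_deriv (natDegree_pos_iff_degree_pos.1 h0)
  have h2 := resultant_deriv (f := P.map f) (natDegree_pos_iff_degree_pos.1 (hd.symm ▸ h0))
  rw [hd, (hP.map f).leadingCoeff, mul_one, derivative_map, resultant_map_map] at h2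
  rw [hP.leadingCoeff, mul_one] at h1
  rw [h1, map_mul, map_pow, map_neg, map_one] at h2
  exact ((IsUnit.neg isUnit_one).pow _).mul_left_cancel h2.symm

/-- A member of an ideal is the root of a linear polynomial with coefficients in its powers. -/
theorem exists_linear {A : Type u} [CommRing A] (I : Ideal A) {a : A} (ha : a ∈ I) :
    ∃ P : A[X], P.Monic ∧ (∀ l, P.coeff l ∈ I ^ (P.natDegree - l)) ∧ P.eval a = 0 := by
  cases subsingleton_or_nontrivial A
  · exact ⟨1, monic_one, fun l => by rw [Subsingleton.elim (Polynomial.coeff 1 l) 0]; exact zero_mem _,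
      Subsingleton.elim _ _⟩
  refine ⟨Polynomial.X - Polynomial.C a, monic_X_sub_C a, fun l => ?_, by simp⟩
  rw [natDegree_X_sub_C, coeff_sub]
  rcases l with _ | _ | l
  · simpa using neg_mem ha
  · simp
  · simp [coeff_X]

variable {p : ℕ} [hp : Fact p.Prime] {V R T : Type u} [CommRing V] [IsDomain V]
  [IsDiscreteValuationRing V] [CommRing R] [IsDomain R] [CommRing T] [IsLocalRing R]
  [IsLocalRing T] [IsNoetherianRing R] [IsNoetherianRing T] [Algebra R T]
  [IsLocalHom (algebraMap R T)] [Module.Flat R T] {n h : ℕ}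

/-- Core data by base change. -/
theorem exists_coreData [CharP (ResidueField R) p] [IsAdicComplete (maximalIdeal R) R]
    (hdR : ringKrullDim R = (n + 1 : ℕ))
    (hdT : ringKrullDim T = (n + h + 1 : ℕ)) (Ch : Choices V R n)
    (φ : Base p (ResidueField T) (n + h) →+* T) (hφ : φ.Finite)
    (hφC : ∀ w, residue T (φ (MvPowerSeries.C w)) = WittVector.constantCoeff w)
    (ι : MvPowerSeries (Fin n) V →+* Base p (ResidueField T) (n + h))
    (hι : ι.Flat) (hιloc : IsLocalHom ι)
    (hcomp : ∀ a, φ (ι a) = algebraMap R T (Ch.φ a))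
    (hιX : ∀ i, ι (MvPowerSeries.X i) = MvPowerSeries.X (Fin.castAdd h i))
    (hgen : ∀ t : T, t ∈ AddSubgroup.closure
      {y : T | ∃ b r, y = φ b * algebraMap R T r})
    (hinj : ∀ (r : ℕ) (v : Fin r → R), (∀ a : Fin r → MvPowerSeries (Fin n) V,
        ∑ i, Ch.φ (a i) * v i = 0 → a = 0) →
      ∀ b : Fin r → Base p (ResidueField T) (n + h),
        ∑ i, φ (b i) * algebraMap R T (v i) = 0 → b = 0)
    (hmax : maximalIdeal T = (maximalIdeal R).map (algebraMap R T) ⊔
      Ideal.span (Set.range fun j : Fin h => φ (MvPowerSeries.X (Fin.natAdd n j)))) :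
    ∃ D : CoreData p T (n + h), D.φ = φ ∧ D.Φ = Ch.Φ.map ι := by
  classical
  let A := MvPowerSeries (Fin n) V
  let B := Base p (ResidueField T) (n + h)
  have hιinj : Function.Injective ι := by
    rw [injective_iff_map_eq_zero]
    intro a ha
    by_contra h0
    have : IsDomain A := NoZeroDivisors.to_isDomain _
    let : Algebra A B := ι.toAlgebra
    have : Module.Flat A B := hι
    have h1 : IsSMulRegular B a :=
      Module.Flat.isSMulRegular_of_isRegular (IsRegular.of_ne_zero h0)
    exact one_ne_zero (α := B) (h1 (show a • (1 : B) = a • (0 : B) by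
      rw [smul_zero, Algebra.smul_def, RingHom.algebraMap_toAlgebra, ha, zero_mul]))
  set θ := algebraMap R T Ch.θ with hθ
  have hev : ∀ P : A[X], (P.map ι).eval₂ φ θ = algebraMap R T (P.eval₂ Ch.φ Ch.θ) := fun P => by
    rw [Polynomial.eval₂_map, Polynomial.hom_eval₂]
    exact congrArg (fun f => P.eval₂ f θ) (RingHom.ext hcomp)
  have hXm : ∀ i, φ (MvPowerSeries.X i) ∈ maximalIdeal T := fun i => by
    induction i using Fin.addCases with
    | left i =>
      rw [← hιX, hcomp]
      exact hmax ▸ Ideal.mem_sup_left (Ideal.mem_map_of_mem _ (Ch.φ_X_mem i))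
    | right j =>
      rw [hmax]
      exact Ideal.mem_sup_right (Ideal.subset_span ⟨j, rfl⟩)
  have hev0 : ∀ P : A[X], P.eval₂ Ch.φ Ch.θ = 0 → (P.map ι).eval₂ φ θ = 0 := fun P hP => by
    rw [hev, hP, map_zero]
  have hdeg : (Ch.Φ.map ι).natDegree = Ch.Φ.natDegree := Ch.monic.natDegree_map ι
  have hθm : θ ∈ maximalIdeal T := hmax ▸ Ideal.mem_sup_left (Ideal.mem_map_of_mem _ Ch.θ_mem)
  have hφh : φ (ι Ch.h) = algebraMap R T (Ch.φ Ch.h) := hcomp _
  have hz : (Choices.zIdealV V n).map (mapRingHom ι) ≤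
      Choices.zIdeal p (ResidueField T) (n + h) := by
    rw [Choices.zIdealV, Ideal.map_span, Ideal.span_le]
    rintro _ ⟨_, ⟨l, rfl⟩, rfl⟩
    rw [coe_mapRingHom]
    induction l using Fin.cases with
    | zero =>
      rw [Fin.cons_zero, Polynomial.map_X]
      exact Ideal.subset_span ⟨0, by simp⟩
    | succ i =>
      rw [Fin.cons_succ, Polynomial.map_C, hιX]
      exact Ideal.subset_span ⟨(Fin.castAdd h i).succ, by simp⟩
  obtain ⟨N, g, hg⟩ := Submodule.fg_iff_exists_fin_generating_family.1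
    (IsNoetherian.noetherian (maximalIdeal R))
  have hgm : ∀ i, g i ∈ maximalIdeal R := fun i => hg ▸ Submodule.subset_span ⟨i, rfl⟩
  have hm : maximalIdeal R ≠ ⊥ := fun h0 => by
    have h1 : ringKrullDim R = 0 :=
      ringKrullDim_eq_zero_of_isField (IsLocalRing.isField_iff_maximalIdeal_eq.2 h0)
    rw [h1] at hdR
    exact_mod_cast hdR
  refine ⟨{
    φ := φ
    φ_finite := hφ
    φ_C := hφC
    φ_X_mem := hXm
    θ := θ
    θ_mem := hθm
    isRed := ?_
    Φ := Ch.Φ.map ι
    monic := Ch.monic.map ι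
    root := hev0 _ Ch.root
    dvd_of_root := ?_
    natDegree_pos := hdeg.symm ▸ Ch.natDegree_pos
    coeff_not_isUnit := fun i hi hu => by
      rw [coeff_map] at hu
      exact Ch.coeff_not_isUnit i (hdeg ▸ hi) (hιloc.map_nonunit _ hu)
    discr_ne_zero := ?_
    h := ι Ch.h
    h_ne_zero := (map_ne_zero_iff ι hιinj).2 Ch.h_ne_zero
    h_mul_mem := ?_
    numGen := N + h
    gen := Fin.append (fun i => algebraMap R T (g i))
      fun j => φ (MvPowerSeries.X (Fin.natAdd n j))
    gen_span := ?_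
    bound := ?_
    grow_h := ?_
    grow_discr := ?_ }, rfl, rfl⟩
  · obtain ⟨-, c, hc⟩ := Ch.isRed
    refine ⟨Fin.cases hθm hXm, c, ?_⟩
    set S := Ideal.span (Set.range (Fin.cons θ fun i => φ (MvPowerSeries.X i) : Fin (n + h + 1) → T))
    set J := (maximalIdeal R).map (algebraMap R T)
    set Z := Ideal.span (Set.range fun j : Fin h => φ (MvPowerSeries.X (Fin.natAdd n j)))
    have hJ : J ^ (c + 1) ≤ S * J ^ c := by
      rw [← Ideal.map_pow, ← Ideal.map_pow]
      refine (Ideal.map_mono hc).trans ?_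
      rw [Ideal.map_mul, Ideal.map_span, ← Set.range_comp]
      refine Ideal.mul_mono_left (Ideal.span_mono ?_)
      rintro _ ⟨l, rfl⟩
      induction l using Fin.cases with
      | zero => exact ⟨0, by simp [hθ]⟩
      | succ i => exact ⟨(Fin.castAdd h i).succ, by simp [← hιX, hcomp]⟩
    have hZ : Z ≤ S := Ideal.span_mono (by rintro _ ⟨j, rfl⟩; exact ⟨(Fin.natAdd n j).succ, by simp⟩)
    have hind : ∀ k, (J ⊔ Z) ^ (k + 1) ≤ J ^ (k + 1) ⊔ Z * (J ⊔ Z) ^ k := fun k => by
      induction k with
      | zero => simp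
      | succ k ih =>
        calc (J ⊔ Z) ^ (k + 1 + 1) ≤ (J ^ (k + 1) ⊔ Z * (J ⊔ Z) ^ k) * (J ⊔ Z) := by
              rw [pow_succ]
              exact Ideal.mul_mono_left ih
          _ ≤ _ := by
              rw [Ideal.sup_mul, Ideal.mul_sup, mul_assoc, ← pow_succ, ← pow_succ, sup_assoc]
              refine sup_le_sup_left (sup_le ?_ le_rfl) _
              rw [mul_comm]
              exact Ideal.mul_mono_right (Ideal.pow_right_mono le_sup_left _)
    rw [hmax]
    refine (hind c).trans (sup_le (hJ.trans ?_) (Ideal.mul_mono_left hZ))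
    exact Ideal.mul_mono_right (Ideal.pow_right_mono le_sup_left _)
  · intro P hP
    set Ψ := Ch.Φ.map ι with hΨ
    have hmon : Ψ.Monic := Ch.monic.map ι
    have h1 : (P %ₘ Ψ).eval₂ φ θ = 0 := by
      rw [modByMonic_eq_sub_mul_div _ Ψ, eval₂_sub, eval₂_mul, hP, hev0 _ Ch.root]
      simp
    rw [← Polynomial.modByMonic_eq_zero_iff_dvd hmon]
    set r := Ch.Φ.natDegree
    have hlt : (P %ₘ Ψ).natDegree < r := hdeg ▸ natDegree_modByMonic_lt P hmon fun h0 => by
      have := congrArg natDegree h0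
      rw [natDegree_one, hdeg] at this
      exact Ch.natDegree_pos.ne' this
    rw [eval₂_eq_sum_range' φ hlt θ, Finset.sum_range] at h1
    have hb := hinj r (fun i => Ch.θ ^ (i : ℕ)) (fun a ha => by
      set Q : A[X] := ∑ i, Polynomial.C (a i) * Polynomial.X ^ (i : ℕ)
      have hQ : Ch.Φ ∣ Q := Ch.dvd_of_root Q (by simpa [Q, eval₂_finsetSum] using ha)
      have hQd : Q.degree < Ch.Φ.degree := by
        rw [degree_eq_natDegree Ch.monic.ne_zero]
        refine (degree_sum_le _ _).trans_lt ((Finset.sup_lt_iff (WithBot.bot_lt_coe _)).2 ?_)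
        exact fun i _ => (degree_C_mul_X_pow_le _ _).trans_lt (WithBot.coe_lt_coe.2 i.2)
      have hQ0 : Q = 0 := by
        rw [← (modByMonic_eq_self_iff Ch.monic).2 hQd]
        exact (Polynomial.modByMonic_eq_zero_iff_dvd Ch.monic).2 hQ
      funext i
      have h3 := congrArg (coeff · (i : ℕ)) hQ0
      simpa [Q, finsetSum_coeff, coeff_C_mul, coeff_X_pow, Fin.val_inj] using h3)
      (fun i => (P %ₘ Ψ).coeff i) (by simpa [hθ] using h1)
    refine Polynomial.ext fun i => ?_
    rcases lt_or_ge i r with hi | hi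
    · simpa using congrFun hb ⟨i, hi⟩
    · simp [coeff_eq_zero_of_natDegree_lt (hlt.trans_le hi)]
  · rw [discr_map ι Ch.monic Ch.natDegree_pos]
    exact (map_ne_zero_iff ι hιinj).2 Ch.discr_ne_zero
  · intro t
    induction hgen t using AddSubgroup.closure_induction with
    | mem y hy =>
      obtain ⟨b, r, rfl⟩ := hy
      obtain ⟨Q, hQ⟩ := Ch.h_mul_mem r
      refine ⟨Polynomial.C b * Q.map ι, ?_⟩
      rw [eval₂_mul, eval₂_C, hev, hQ, map_mul, hφh]
      ring
    | zero => exact ⟨0, by simp⟩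
    | add a b _ _ ha hb =>
      obtain ⟨Qa, ha⟩ := ha
      obtain ⟨Qb, hb⟩ := hb
      exact ⟨Qa + Qb, by rw [eval₂_add, ha, hb, mul_add]⟩
    | neg a _ ha =>
      obtain ⟨Qa, ha⟩ := ha
      exact ⟨-Qa, by rw [eval₂_neg, ha, mul_neg]⟩
  · rw [hmax, ← hg]
    change Ideal.map (algebraMap R T) (Ideal.span (Set.range g)) ⊔ _ = _
    rw [Ideal.map_span, ← Set.range_comp, ← Ideal.span_union]
    refine congrArg Ideal.span (Set.ext fun y => ?_)
    simp only [Set.mem_union, Set.mem_range, Function.comp_apply]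
    constructor
    · rintro (⟨i, rfl⟩ | ⟨j, rfl⟩)
      · exact ⟨Fin.castAdd h i, Fin.append_left _ _ i⟩
      · exact ⟨Fin.natAdd N j, Fin.append_right _ _ j⟩
    · rintro ⟨i, rfl⟩
      induction i using Fin.addCases with
      | left i => exact Or.inl ⟨i, by rw [Fin.append_left]⟩
      | right j => exact Or.inr ⟨j, by rw [Fin.append_right]⟩
  · intro i
    induction i using Fin.addCases with
    | left i =>
      obtain ⟨Q, hQ⟩ := Ch.h_mul_mem (g i)
      obtain ⟨P, hPm, hPc, hPd⟩ := Ch.exists_bound_maximalIdeal (hgm i) hm Q hQ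
      refine ⟨Q.map ι, by rw [hev, hQ, map_mul, hφh, Fin.append_left], P.map (mapRingHom ι),
        hPm.map _, fun l => ?_, ?_⟩
      · rw [coeff_map, hPm.natDegree_map]
        have h1 := Ideal.mem_map_of_mem (mapRingHom ι) (hPc l)
        rw [Ideal.map_pow, Ideal.map_mul, Ideal.map_span, Set.image_singleton, coe_mapRingHom,
          Polynomial.map_C] at h1
        exact Ideal.pow_right_mono (Ideal.mul_mono_right hz) _ h1
      · rw [← coe_mapRingHom, eval_map_apply]
        exact _root_.map_dvd (mapRingHom ι) hPd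
    | right j =>
      obtain ⟨P, hPm, hPc, hP0⟩ := exists_linear
        (Ideal.span {Polynomial.C (ι Ch.h)} * Choices.zIdeal p (ResidueField T) (n + h))
        (a := Polynomial.C (ι Ch.h) * Polynomial.C (MvPowerSeries.X (Fin.natAdd n j)))
        (Ideal.mul_mem_mul (Ideal.mem_span_singleton_self _)
          (Ideal.subset_span ⟨(Fin.natAdd n j).succ, by simp⟩))
      exact ⟨_, by rw [eval₂_mul, eval₂_C, eval₂_C, Fin.append_right], P, hPm, hPc,
        hP0 ▸ dvd_zero _⟩
  · rw [hφh]
    exact grow R T hdT ((map_ne_zero_iff Ch.φ Ch.φ_injective).2 Ch.h_ne_zero)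
  · rw [discr_map ι Ch.monic Ch.natDegree_pos, hcomp]
    exact grow R T hdT ((map_ne_zero_iff Ch.φ Ch.φ_injective).2 Ch.discr_ne_zero)

end Vale.Agent.P202.Mixed2.CoreBuild
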