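import Vale.Agent.P202.Mixed2.Measure

/-!
P202, mixed characteristic: comparison of `T ⊗_A Q` with the `r` pushforwards of `Q` along the
root maps `R' → T`. With Lagrange polynomials both composites are multiplication by the
discriminant, so no error term is needed.
-/

open scoped ENNReal TensorProduct
open Polynomial

namespace Vale.Agent.P202.Mixed2

open Lambda

section Lagrange

variable {T : Type*} [CommRing T] {r : ℕ} (τ : Fin r → T)

/-- `∏ (τ i - τ j)` over `i ≠ j`. -/
noncomputable def discProd : T := ∏ a, ∏ b ∈ Finset.univ.erase a, (τ a - τ b)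

/-- The cofactor of the `i`-th Lagrange polynomial. -/
noncomputable def cof (i : Fin r) : T :=
  ∏ a ∈ Finset.univ.erase i, ∏ b ∈ Finset.univ.erase a, (τ a - τ b)

/-- The Lagrange polynomial without denominators. -/
noncomputable def lagr (i : Fin r) : T[X] :=
  C (cof τ i) * ∏ b ∈ Finset.univ.erase i, (X - C (τ b))

theorem eval_lagr (i j : Fin r) : (lagr τ i).eval (τ j) = if j = i then discProd τ else 0 := by
  simp only [lagr, eval_mul, eval_C, eval_prod, eval_sub, eval_X]
  split_ifs with h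
  · subst h
    rw [discProd, cof, ← Finset.mul_prod_erase Finset.univ _ (Finset.mem_univ j), mul_comm]
  · rw [Finset.prod_eq_zero (Finset.mem_erase.2 ⟨h, Finset.mem_univ j⟩) (sub_self _), mul_zero]

theorem map_lagr {S : Type*} [CommRing S] (f : T →+* S) (i : Fin r) :
    (lagr τ i).map f = lagr (f ∘ τ) i := by
  simp [lagr, cof, Polynomial.map_prod, map_prod]

theorem sum_lagr [NeZero r] : ∑ i, lagr τ i = C (discProd τ) := by
  classical
  let σ : Fin r → MvPolynomial (Fin r) ℤ := MvPolynomial.X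
  suffices h : ∑ i, lagr σ i = C (discProd σ) by
    have hf : (MvPolynomial.eval₂Hom (Int.castRingHom T) τ) ∘ σ = τ := by
      ext i
      simp [σ]
    have := congrArg (Polynomial.map (MvPolynomial.eval₂Hom (Int.castRingHom T) τ)) h
    simp only [Polynomial.map_sum, map_lagr, hf, map_C] at this
    rw [this]
    congr 1
    simp only [discProd, map_prod, map_sub]
    refine Finset.prod_congr rfl fun a _ => Finset.prod_congr rfl fun b _ => ?_
    exact congrArg₂ (· - ·) (congrFun hf a) (congrFun hf b)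
  have hinj : Set.InjOn σ (Finset.univ : Finset (Fin r)) :=
    (MvPolynomial.X_injective (σ := Fin r) (R := ℤ)).injOn
  refine Polynomial.eq_of_degrees_lt_of_eval_index_eq Finset.univ hinj ?_ ?_ fun j _ => ?_
  · refine lt_of_le_of_lt (degree_sum_le _ _) ((Finset.sup_lt_iff (WithBot.bot_lt_coe _)).2
      fun i _ => ?_)
    refine lt_of_le_of_lt (degree_mul_le _ _) ?_
    refine lt_of_le_of_lt (add_le_add degree_C_le (degree_prod_le _ _)) ?_
    simp only [degree_X_sub_C, Finset.sum_const, Finset.card_erase_of_mem (Finset.mem_univ i),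
      Finset.card_univ, Fintype.card_fin, zero_add, nsmul_eq_mul, mul_one]
    exact_mod_cast Nat.sub_lt (NeZero.pos r) one_pos
  · refine lt_of_le_of_lt degree_C_le ?_
    simp [NeZero.pos r]
  · rw [eval_finsetSum, eval_C]
    simp [eval_lagr]

end Lagrange

section Push

variable {A₀ T R' : Type*} [CommRing A₀] [CommRing T] [CommRing R'] [Algebra A₀ T] [Algebra A₀ R']
variable (φ : R' →ₐ[A₀] T) (Q : Type*) [AddCommGroup Q] [Module A₀ Q] [Module R' Q]
  [IsScalarTower A₀ R' Q]

/-- The action of `R'` on `T ⊗ Q` through `Q`. -/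
noncomputable def actR : R' →ₐ[A₀] Module.End T (T ⊗[A₀] Q) :=
  (Module.End.baseChangeHom A₀ T Q).comp (Algebra.lsmul A₀ A₀ Q : R' →ₐ[A₀] Module.End A₀ Q)

theorem actR_tmul (x : R') (t : T) (q : Q) :
    actR (A₀ := A₀) (T := T) Q x (t ⊗ₜ[A₀] q) = t ⊗ₜ[A₀] (x • q) := rfl

/-- The relations of the pushforward along `φ`. -/
noncomputable def pushRel : Submodule T (T ⊗[A₀] Q) :=
  Submodule.span T {z | ∃ (x : R') (q : Q),
    z = (1 : T) ⊗ₜ[A₀] (x • q) - φ x • ((1 : T) ⊗ₜ[A₀] q)}

/-- `T ⊗_(R', φ) Q`. -/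
abbrev Push : Type _ := (T ⊗[A₀] Q) ⧸ pushRel φ Q

theorem mk_actR (x : R') (z : T ⊗[A₀] Q) :
    (pushRel φ Q).mkQ (actR Q x z) = φ x • (pushRel φ Q).mkQ z := by
  induction z using TensorProduct.induction_on with
  | zero => simp
  | add y z hy hz => simp only [map_add, smul_add, hy, hz]
  | tmul t q =>
    rw [← map_smul, ← sub_eq_zero, ← map_sub, Submodule.mkQ_apply, Submodule.Quotient.mk_eq_zero]
    have h : t • ((1 : T) ⊗ₜ[A₀] (x • q) - φ x • ((1 : T) ⊗ₜ[A₀] q)) ∈ pushRel φ Q :=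
      Submodule.smul_mem _ t (Submodule.subset_span ⟨x, q, rfl⟩)
    convert h using 1
    simp [actR_tmul, smul_sub, TensorProduct.smul_tmul', mul_comm]

theorem mk_aeval {θ : R'} (P : T[X]) (z : T ⊗[A₀] Q) :
    (pushRel φ Q).mkQ (aeval (actR Q θ) P z) = P.eval (φ θ) • (pushRel φ Q).mkQ z := by
  induction P using Polynomial.induction_on' with
  | add p q hp hq => simp only [map_add, LinearMap.add_apply, eval_add, add_smul, hp, hq]
  | monomial k a =>
    induction k generalizing z with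
    | zero => simp
    | succ k ih =>
      rw [← monomial_mul_X, map_mul, Module.End.mul_apply, ih, eval_mul, eval_X, aeval_X,
        mk_actR, smul_smul]

end Push

section Sum

variable {A₀ B T R' : Type*} [CommRing A₀] [CommRing B] [CommRing T] [CommRing R'] [Algebra A₀ B]
  [Algebra A₀ T] [Algebra B T] [IsScalarTower A₀ B T] [Algebra A₀ R']
variable {A : ℕ → Subalgebra A₀ B} {c : ℕ}
variable (Q : Type*) [AddCommGroup Q] [Module A₀ Q] [Module R' Q] [IsScalarTower A₀ R' Q]

theorem lam_le_of_comp [IsNoetherianRing A₀] (h : IsTower A c) {M N : Type*} [AddCommGroup M]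
    [Module A₀ M] [Module B M] [IsScalarTower A₀ B M] [AddCommGroup N] [Module A₀ N] [Module B N]
    [IsScalarTower A₀ B N] (f : M →ₗ[B] N) (g : N →ₗ[B] M) (b : B)
    (hfg : ∀ x, f (g x) = b • x) :
    lam A c N ≤ lam A c M + lam A c (N ⧸ LinearMap.range (LinearMap.lsmul B N b)) := by
  have hle : LinearMap.range (LinearMap.lsmul B N b) ≤ LinearMap.range f := by
    rintro _ ⟨x, rfl⟩
    exact ⟨g x, hfg x⟩
  refine (lam_le_add h (LinearMap.range f).subtype (LinearMap.range f).mkQ
    (Submodule.subtype_injective _) (LinearMap.exact_subtype_mkQ _)).trans (add_le_add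
      (lam_le_of_surjective f.rangeRestrict f.surjective_rangeRestrict) ?_)
  exact lam_le_of_surjective (Submodule.factor hle) (Submodule.factor_surjective hle)

theorem lam_piDep [IsNoetherianRing A₀] (h : IsTower A c) : ∀ {r : ℕ} (M : Fin r → Type*)
    [∀ i, AddCommGroup (M i)] [∀ i, Module A₀ (M i)] [∀ i, Module B (M i)]
    [∀ i, IsScalarTower A₀ B (M i)], lam A c (∀ i, M i) = ∑ i, lam A c (M i) := by
  intro r
  induction r with
  | zero => intro M _ _ _ _; simp [lam_of_subsingleton]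
  | succ r ih =>
    intro M _ _ _ _
    rw [← lam_congr (Fin.consLinearEquiv B M), lam_prod h, ih, Fin.sum_univ_succ]

variable {r : ℕ} [NeZero r] (θ : R') (φ : Fin r → R' →ₐ[A₀] T)

/-- The hypotheses on the root maps: `θ` generates and `∏ (X - φ i θ)` kills it. -/
structure RootMaps : Prop where
  gen : Algebra.adjoin A₀ {θ} = ⊤
  root : ∃ Φ : A₀[X], aeval θ Φ = 0 ∧ Φ.map (algebraMap A₀ T) = ∏ i, (X - C (φ i θ))

variable {θ φ}

/-- The back map. -/
noncomputable def lagrEnd (φ : Fin r → R' →ₐ[A₀] T) (θ : R') (i : Fin r) :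
    Module.End T (T ⊗[A₀] Q) :=
  aeval (actR Q θ) (lagr (fun j => φ j θ) i)

theorem pushRel_le_ker (hφ : RootMaps θ φ) (i : Fin r) :
    pushRel (φ i) Q ≤ LinearMap.ker (lagrEnd Q φ θ i) := by
  rw [pushRel, Submodule.span_le]
  rintro _ ⟨x, q, rfl⟩
  obtain ⟨P, rfl⟩ : ∃ P : A₀[X], aeval θ P = x := by
    have hx : x ∈ Algebra.adjoin A₀ {θ} := hφ.gen ▸ Algebra.mem_top
    rwa [Algebra.adjoin_singleton_eq_range_aeval, AlgHom.mem_range] at hx
  obtain ⟨Φ, hΦ, hΦ'⟩ := hφ.root
  set P' := P.map (algebraMap A₀ T)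
  obtain ⟨R, hR⟩ : X - C (φ i θ) ∣ P' - C (P'.eval (φ i θ)) := X_sub_C_dvd_sub_C_eval
  have hval : φ i (aeval θ P) = P'.eval (φ i θ) := by
    rw [← aeval_algHom_apply, eval_map_algebraMap]
  have hgen : (1 : T) ⊗ₜ[A₀] (aeval θ P • q) - φ i (aeval θ P) • ((1 : T) ⊗ₜ[A₀] q) =
      aeval (actR Q θ) (P' - C (P'.eval (φ i θ))) ((1 : T) ⊗ₜ[A₀] q) := by
    rw [map_sub, LinearMap.sub_apply, aeval_map_algebraMap, aeval_algHom_apply, actR_tmul, hval,
      aeval_C, Module.algebraMap_end_apply]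
  show lagrEnd Q φ θ i _ = 0
  have h0 : aeval (actR (A₀ := A₀) (T := T) Q θ) (∏ j, (X - C (φ j θ))) = 0 := by
    rw [← hΦ', aeval_map_algebraMap, aeval_algHom_apply, hΦ, map_zero]
  have hpoly : lagr (fun j => φ j θ) i * (P' - C (P'.eval (φ i θ))) =
      (∏ j, (X - C (φ j θ))) * (C (cof (fun j => φ j θ) i) * R) := by
    rw [hR, lagr, ← Finset.mul_prod_erase Finset.univ _ (Finset.mem_univ i)]
    ring
  rw [hgen, lagrEnd, ← Module.End.mul_apply, ← map_mul, hpoly, map_mul, h0, zero_mul,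
    LinearMap.zero_apply]

/-- The abstract comparison: surjections `π i` and back maps `g i` whose composites are the
multiplication by `D`. -/
theorem sum_compare [IsNoetherianRing A₀] (h : IsTower A c) {N : Type*} [AddCommGroup N]
    [Module A₀ N] [Module B N] [Module T N] [IsScalarTower A₀ B N] [IsScalarTower B T N]
    (M : Fin r → Type*) [∀ i, AddCommGroup (M i)] [∀ i, Module A₀ (M i)] [∀ i, Module B (M i)]
    [∀ i, Module T (M i)] [∀ i, IsScalarTower A₀ B (M i)] [∀ i, IsScalarTower B T (M i)]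
    (π : ∀ i, N →ₗ[T] M i) (hπ : ∀ i, Function.Surjective (π i)) (g : ∀ i, M i →ₗ[T] N) (b : B)
    (h1 : ∀ z, ∑ i, g i (π i z) = b • z)
    (h2 : ∀ j z, π j (g j (π j z)) = b • π j z) (h3 : ∀ i j z, i ≠ j → π j (g i (π i z)) = 0) :
    (∑ i, lam A c (M i) ≤ lam A c N + r * lam A c (N ⧸ LinearMap.range (LinearMap.lsmul B N b))) ∧
      lam A c N ≤ ∑ i, lam A c (M i) +
        lam A c (N ⧸ LinearMap.range (LinearMap.lsmul B N b)) := by
  classical
  let Ψ : N →ₗ[B] ∀ i, M i := LinearMap.pi fun i => (π i).restrictScalars B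
  let G : (∀ i, M i) →ₗ[B] N := ∑ i, (g i).restrictScalars B ∘ₗ LinearMap.proj i
  have hG : ∀ v, G v = ∑ i, g i (v i) := fun v => by simp [G, LinearMap.sum_apply]
  have hGΨ : ∀ z, G (Ψ z) = b • z := fun z => by rw [hG]; exact h1 z
  have hΨG : ∀ v, Ψ (G v) = b • v := by
    intro v
    funext j
    show π j (G v) = b • v j
    rw [hG, map_sum, Finset.sum_eq_single j]
    · obtain ⟨z, hz⟩ := hπ j (v j)
      rw [← hz, h2]
    · intro i _ hij
      obtain ⟨z, hz⟩ := hπ i (v i)
      rw [← hz, h3 i j z hij]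
    · simp
  rw [← lam_piDep h M]
  refine ⟨(lam_le_of_comp h Ψ G b hΨG).trans (add_le_add le_rfl ?_),
    lam_le_of_comp h G Ψ b hGΨ⟩
  rw [← lam_pi h]
  let ξ : (Fin r → N ⧸ LinearMap.range (LinearMap.lsmul B N b)) →ₗ[B]
      (∀ i, M i) ⧸ LinearMap.range (LinearMap.lsmul B (∀ i, M i) b) :=
    ∑ i, ((LinearMap.range (LinearMap.lsmul B N b)).liftQ
      ((Submodule.mkQ _) ∘ₗ LinearMap.single B M i ∘ₗ (π i).restrictScalars B) (by
      rintro _ ⟨y, rfl⟩
      rw [LinearMap.mem_ker, LinearMap.comp_apply, Submodule.mkQ_apply,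
        Submodule.Quotient.mk_eq_zero]
      exact ⟨LinearMap.single B M i (π i y), by simp [← Pi.single_smul]⟩)) ∘ₗ LinearMap.proj i
  refine lam_le_of_surjective ξ fun y => ?_
  obtain ⟨y, rfl⟩ := Submodule.mkQ_surjective _ y
  choose z hz using fun i => hπ i (y i)
  refine ⟨fun i => Submodule.Quotient.mk (z i), ?_⟩
  simp only [ξ, LinearMap.sum_apply, LinearMap.comp_apply, LinearMap.proj_apply,
    Submodule.liftQ_apply, LinearMap.restrictScalars_apply, hz, ← map_sum,
    LinearMap.coe_single, Finset.univ_sum_single]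

/-- Both directions of the comparison. -/
theorem sums [IsNoetherianRing A₀] (h : IsTower A c) (hφ : RootMaps θ φ) (d₀ : A₀)
    (hD : discProd (fun i => φ i θ) = algebraMap A₀ T d₀) :
    (∑ i, lam A c (Push (φ i) Q) ≤ lam A c (T ⊗[A₀] Q) +
        r * lam A c (T ⊗[A₀] (Q ⧸ LinearMap.range (LinearMap.lsmul A₀ Q d₀)))) ∧
      lam A c (T ⊗[A₀] Q) ≤ ∑ i, lam A c (Push (φ i) Q) +
        lam A c (T ⊗[A₀] (Q ⧸ LinearMap.range (LinearMap.lsmul A₀ Q d₀))) := by
  classical
  set b := algebraMap A₀ B d₀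
  set MQ := T ⊗[A₀] (Q ⧸ LinearMap.range (LinearMap.lsmul A₀ Q d₀))
  have hQ : lam A c ((T ⊗[A₀] Q) ⧸ LinearMap.range (LinearMap.lsmul B (T ⊗[A₀] Q) b)) ≤
      lam A c MQ := by
    let π : T ⊗[A₀] Q →ₗ[B] MQ :=
      TensorProduct.AlgebraTensorModule.map LinearMap.id (Submodule.mkQ _)
    refine lam_quotient_le_of_ker π fun z hz => ?_
    have hex := lTensor_exact T (LinearMap.exact_map_mkQ_range (LinearMap.lsmul A₀ Q d₀))
      (Submodule.mkQ_surjective _)
    obtain ⟨u, rfl⟩ := (hex z).1 hz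
    induction u using TensorProduct.induction_on with
    | zero => rw [map_zero]; exact zero_mem _
    | add x y hx hy =>
      rw [map_add]
      exact add_mem (hx (hex.apply_apply_eq_zero x)) (hy (hex.apply_apply_eq_zero y))
    | tmul t q =>
      refine ⟨t ⊗ₜ[A₀] q, ?_⟩
      show b • (t ⊗ₜ[A₀] q) = t ⊗ₜ[A₀] (d₀ • q)
      rw [algebraMap_smul, TensorProduct.tmul_smul]
  have hlift : ∀ i z, (pushRel (φ i) Q).liftQ (lagrEnd Q φ θ i) (pushRel_le_ker Q hφ i)
      ((pushRel (φ i) Q).mkQ z) = lagrEnd Q φ θ i z := fun i z => Submodule.liftQ_apply _ _ _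
  have key := sum_compare (A := A) h (fun i => Push (φ i) Q) (fun i => (pushRel (φ i) Q).mkQ)
    (fun i => Submodule.mkQ_surjective _)
    (fun i => (pushRel (φ i) Q).liftQ (lagrEnd Q φ θ i) (pushRel_le_ker Q hφ i)) b
    (fun z => by
      simp only [hlift]
      rw [← LinearMap.sum_apply]
      simp only [lagrEnd]
      rw [← map_sum, sum_lagr, aeval_C, Module.algebraMap_end_apply, hD,
        IsScalarTower.algebraMap_apply A₀ B T, algebraMap_smul])
    (fun j z => by
      rw [hlift, lagrEnd, mk_aeval,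
        show eval (φ j θ) (lagr (fun j => φ j θ) j) = _ from eval_lagr (fun j => φ j θ) j j,
        if_pos rfl, hD, IsScalarTower.algebraMap_apply A₀ B T, algebraMap_smul])
    (fun i j z hij => by
      rw [hlift, lagrEnd, mk_aeval,
        show eval (φ j θ) (lagr (fun j => φ j θ) i) = _ from eval_lagr (fun j => φ j θ) i j,
        if_neg hij.symm, zero_smul])
  exact ⟨key.1.trans (add_le_add le_rfl (mul_le_mul_right hQ _)),
    key.2.trans (add_le_add le_rfl hQ)⟩

end Sum

end Vale.Agent.P202.Mixed2
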