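import Vale.Agent.P202.Perf.Approx

/-!
# The untilt `W(B) ⧸ (p - [π])` of a perfect domain

For a perfect domain `B` of characteristic `p` and a nonzero `π`, the ring `W(B) ⧸ (p - [π])` is
`p`-adically complete without any completion of `B`, Frobenius is onto modulo `p`, and the image of
the Teichmüller map `sharp` supplies all untilts up to a high power of `p`.
-/

namespace Vale.Agent.P202.Mixed2

open Ideal WittVector Vale.Agent.P202.Perf

variable (p : ℕ) [Fact (Nat.Prime p)]

section Defs

variable {B : Type*} [CommRing B]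

/-- The element `p - [π]`. -/
noncomputable def xiElt (π : B) : WittVector p B := (p : WittVector p B) - teichmuller p π

/-- The untilt of `B` at `π`. -/
abbrev Untilt (π : B) : Type _ := WittVector p B ⧸ span {xiElt p π}

variable {p}

/-- The Teichmüller map into the untilt. -/
noncomputable def sharp (π : B) : B →* Untilt p π :=
  (Ideal.Quotient.mk (span {xiElt p π})).toMonoidHom.comp (teichmuller p)

theorem sharp_self (π : B) : sharp (p := p) π π = (p : Untilt p π) := by
  have h : Ideal.Quotient.mk (span {xiElt p π}) (xiElt p π) = 0 :=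
    Ideal.Quotient.eq_zero_iff_mem.2 (mem_span_singleton_self _)
  rw [xiElt, map_sub, sub_eq_zero, map_natCast] at h
  exact h.symm

theorem sharp_zero (π : B) : sharp (p := p) π 0 = 0 := by
  show Ideal.Quotient.mk _ (teichmuller p (0 : B)) = 0
  rw [teichmuller_zero, map_zero]

variable [CharP B p]

theorem constantCoeff_natCast_p : constantCoeff ((p : WittVector p B)) = 0 := by
  rw [map_natCast, CharP.cast_eq_zero]

theorem constantCoeff_teichmuller (a : B) : constantCoeff (teichmuller p a) = a :=
  teichmuller_coeff_zero p a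

theorem constantCoeff_xiElt (π : B) : constantCoeff (xiElt p π) = -π := by
  rw [xiElt, map_sub, constantCoeff_natCast_p, constantCoeff_teichmuller, zero_sub]

/-- Functoriality of the untilt. -/
noncomputable def mapUntilt {C : Type*} [CommRing C] (f : B →+* C) (π : B) :
    Untilt p π →+* Untilt p (f π) :=
  Ideal.quotientMap _ (WittVector.map f) <| by
    simp only [xiElt, Ideal.span_le, Set.singleton_subset_iff, SetLike.mem_coe, Ideal.mem_comap,
      map_sub, map_natCast, map_teichmuller]
    exact mem_span_singleton_self _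

theorem mapUntilt_sharp {C : Type*} [CommRing C] (f : B →+* C) (π a : B) :
    mapUntilt (p := p) f π (sharp π a) = sharp (f π) (f a) := by
  show Ideal.quotientMap _ (WittVector.map f) _ (Ideal.Quotient.mk _ (teichmuller p a)) = _
  rw [Ideal.quotientMap_mk, map_teichmuller]
  rfl

end Defs

variable {p}
variable {B : Type*} [CommRing B] [CharP B p] [PerfectRing B p] {π : B}

theorem dvd_iff_constantCoeff_eq_zero (x : WittVector p B) :
    (p : WittVector p B) ∣ x ↔ constantCoeff x = 0 := by
  rw [← mem_span_singleton, ← ker_constantCoeff]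
  rfl

/-- Every element is a Teichmüller element plus a multiple of `p`. -/
theorem exists_eq_sharp_add (π : B) (x : Untilt p π) :
    ∃ b : B, (p : Untilt p π) ∣ x - sharp π b := by
  obtain ⟨w, rfl⟩ := Ideal.Quotient.mk_surjective x
  refine ⟨constantCoeff w, ?_⟩
  have h : (p : WittVector p B) ∣ w - teichmuller p (constantCoeff w) := by
    rw [dvd_iff_constantCoeff_eq_zero, map_sub, constantCoeff_teichmuller, sub_self]
  have := map_dvd (Ideal.Quotient.mk (span {xiElt p π})) h
  rwa [map_natCast, map_sub] at this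

/-- Congruence modulo `p` is congruence modulo `π`. -/
theorem dvd_sharp_sub_iff (π a b : B) :
    (p : Untilt p π) ∣ sharp π a - sharp π b ↔ π ∣ a - b := by
  constructor
  · rintro ⟨c, hc⟩
    obtain ⟨c, rfl⟩ := Ideal.Quotient.mk_surjective c
    have h : Ideal.Quotient.mk (span {xiElt p π})
        (teichmuller p a - teichmuller p b - (p : WittVector p B) * c) = 0 := by
      rw [map_sub, map_sub, map_mul, map_natCast]
      exact sub_eq_zero.2 hc
    obtain ⟨d, hd⟩ := mem_span_singleton.1 (Ideal.Quotient.eq_zero_iff_mem.1 h)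
    have := congrArg constantCoeff hd
    rw [map_sub, map_sub, map_mul, map_mul, constantCoeff_natCast_p, constantCoeff_teichmuller,
      constantCoeff_teichmuller, constantCoeff_xiElt, zero_mul, sub_zero, neg_mul] at this
    exact ⟨-constantCoeff d, by rw [this, mul_neg]⟩
  · rintro ⟨c, hc⟩
    have h : (p : WittVector p B) ∣ teichmuller p a - teichmuller p b
        - teichmuller p π * teichmuller p c := by
      rw [dvd_iff_constantCoeff_eq_zero, map_sub, map_sub, map_mul, constantCoeff_teichmuller,
        constantCoeff_teichmuller, constantCoeff_teichmuller, constantCoeff_teichmuller, hc,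
        sub_self]
    obtain ⟨d, hd⟩ := map_dvd (Ideal.Quotient.mk (span {xiElt p π})) h
    rw [map_sub, map_sub, map_mul, map_natCast, sub_eq_iff_eq_add] at hd
    refine ⟨d + sharp π c, ?_⟩
    show Ideal.Quotient.mk _ (teichmuller p a) - Ideal.Quotient.mk _ (teichmuller p b) = _
    rw [hd, mul_add, ← sharp_self (p := p) π]
    rfl

/-- The Teichmüller map is additive modulo `p`. -/
theorem dvd_sharp_add_sub (π a b : B) :
    (p : Untilt p π) ∣ sharp π (a + b) - (sharp π a + sharp π b) := by
  have h : (p : WittVector p B) ∣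
      teichmuller p (a + b) - (teichmuller p a + teichmuller p b) := by
    rw [dvd_iff_constantCoeff_eq_zero, map_sub, map_add constantCoeff (teichmuller p a),
      constantCoeff_teichmuller, constantCoeff_teichmuller, constantCoeff_teichmuller, sub_self]
  obtain ⟨c, hc⟩ := h
  refine ⟨Ideal.Quotient.mk _ c, ?_⟩
  have := congrArg (Ideal.Quotient.mk (span {xiElt p π})) hc
  rw [map_sub, map_add (Ideal.Quotient.mk (span {xiElt p π})), map_mul, map_natCast] at this
  exact this

theorem p_dvd_sharp_iff (π a : B) : (p : Untilt p π) ∣ sharp π a ↔ π ∣ a := by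
  simpa [sharp_zero] using dvd_sharp_sub_iff (p := p) π a 0

theorem pow_dvd_sharp (π : B) {a : B} {n : ℕ} (h : π ^ n ∣ a) :
    (p : Untilt p π) ^ n ∣ sharp π a := by
  have := (sharp (p := p) π).map_dvd h
  rwa [map_pow, sharp_self] at this

/-- Frobenius is onto modulo `p`. -/
theorem frobenius_surjective_modP (π : B) [Fact ¬IsUnit (p : Untilt p π)] :
    Function.Surjective (frobenius (ModP (Untilt p π) p) p) := by
  intro y
  obtain ⟨x, rfl⟩ := Ideal.Quotient.mk_surjective y
  obtain ⟨b, hb⟩ := exists_eq_sharp_add π x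
  refine ⟨Ideal.Quotient.mk _ (sharp π ((frobeniusEquiv B p).symm b)), ?_⟩
  rw [frobenius_def, ← map_pow, ← map_pow, frobeniusEquiv_symm_pow_p, Ideal.Quotient.eq,
    mem_span_singleton, ← dvd_neg, neg_sub]
  exact hb

variable [IsDomain B]

theorem p_dvd_of_dvd_xiElt_mul (hπ : π ≠ 0) {d : WittVector p B} :
    ∀ n : ℕ, (p : WittVector p B) ^ n ∣ xiElt p π * d → (p : WittVector p B) ^ n ∣ d := by
  intro n
  induction n generalizing d with
  | zero => simp
  | succ n ih =>
    intro h
    obtain ⟨c, hc⟩ := h
    have h0 : constantCoeff d = 0 := by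
      have := congrArg constantCoeff hc
      rw [map_mul, map_mul, map_pow, constantCoeff_natCast_p, constantCoeff_xiElt,
        zero_pow n.succ_ne_zero, zero_mul, neg_mul, neg_eq_zero] at this
      exact (mul_eq_zero.1 this).resolve_left hπ
    obtain ⟨e, rfl⟩ := (dvd_iff_constantCoeff_eq_zero d).2 h0
    have hz : (xiElt p π * e - (p : WittVector p B) ^ n * c) * (p : WittVector p B) = 0 := by
      linear_combination hc
    rw [pow_succ']
    exact mul_dvd_mul_left _ (ih ⟨c, sub_eq_zero.1 (eq_zero_of_p_mul_eq_zero _ hz)⟩)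

theorem mul_left_cancel_p (hπ : π ≠ 0) {x y : Untilt p π}
    (h : (p : Untilt p π) * x = p * y) : x = y := by
  obtain ⟨x, rfl⟩ := Ideal.Quotient.mk_surjective x
  obtain ⟨y, rfl⟩ := Ideal.Quotient.mk_surjective y
  have h' : Ideal.Quotient.mk (span {xiElt p π}) ((p : WittVector p B) * (x - y)) = 0 := by
    rw [map_mul, map_sub, map_natCast, mul_sub, h, sub_self]
  obtain ⟨d, hd⟩ := mem_span_singleton.1 (Ideal.Quotient.eq_zero_iff_mem.1 h')
  have hp : (p : WittVector p B) ^ 1 ∣ d :=
    p_dvd_of_dvd_xiElt_mul hπ 1 ⟨x - y, by rw [pow_one, ← hd]⟩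
  obtain ⟨e, rfl⟩ := hp
  have hz : (x - y - xiElt p π * e) * (p : WittVector p B) = 0 := by
    linear_combination hd
  rw [Ideal.Quotient.eq, mem_span_singleton]
  exact ⟨e, sub_eq_zero.1 (eq_zero_of_p_mul_eq_zero _ hz)⟩

/-- The untilt is separated and complete for the `p`-adic topology. -/
theorem isAdicComplete_untilt (hπ : π ≠ 0) :
    IsAdicComplete (span {(p : Untilt p π)}) (Untilt p π) := by
  set mk := Ideal.Quotient.mk (span {xiElt p π}) with hmk
  have hW : IsAdicComplete (span {(p : WittVector p B)}) (WittVector p B) := inferInstance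
  have key : ∀ (z : Untilt p π) (n : ℕ),
      z ∈ (span {(p : Untilt p π)}) ^ n • (⊤ : Submodule (Untilt p π) (Untilt p π)) ↔
        (p : Untilt p π) ^ n ∣ z := fun z n => by
    rw [smul_eq_mul, Ideal.mul_top, span_singleton_pow, mem_span_singleton]
  have keyW : ∀ (z : WittVector p B) (n : ℕ),
      z ∈ (span {(p : WittVector p B)}) ^ n • (⊤ : Submodule (WittVector p B) (WittVector p B)) ↔
        (p : WittVector p B) ^ n ∣ z := fun z n => by
    rw [smul_eq_mul, Ideal.mul_top, span_singleton_pow, mem_span_singleton]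
  refine { haus' := fun x hx => ?_, prec' := fun f hf => ?_ }
  · obtain ⟨x, rfl⟩ := Ideal.Quotient.mk_surjective x
    have hx' : ∀ n, ∃ b, (p : WittVector p B) ^ n ∣ x - xiElt p π * b := by
      intro n
      have := hx n
      rw [SModEq.zero, key] at this
      obtain ⟨a, ha⟩ := this
      obtain ⟨a, rfl⟩ := Ideal.Quotient.mk_surjective a
      have h : mk (x - (p : WittVector p B) ^ n * a) = 0 := by
        rw [hmk, map_sub, map_mul, map_pow, map_natCast, ha, sub_self]
      obtain ⟨b, hb⟩ := mem_span_singleton.1 (Ideal.Quotient.eq_zero_iff_mem.1 h)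
      exact ⟨b, a, by linear_combination hb⟩
    choose b hb using hx'
    obtain ⟨β, hβ⟩ := hW.prec' b fun {m n} hmn => by
      rw [SModEq.sub_mem, keyW]
      refine p_dvd_of_dvd_xiElt_mul hπ m ?_
      rw [show xiElt p π * (b m - b n)
        = (x - xiElt p π * b n) - (x - xiElt p π * b m) by ring]
      exact dvd_sub ((pow_dvd_pow _ hmn).trans (hb n)) (hb m)
    have hx0 : x = xiElt p π * β := sub_eq_zero.1 <| hW.haus' _ fun n => by
      rw [SModEq.zero, keyW, show x - xiElt p π * β
        = (x - xiElt p π * b n) + xiElt p π * (b n - β) by ring]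
      refine dvd_add (hb n) (dvd_mul_of_dvd_right ?_ _)
      rw [← keyW, ← SModEq.sub_mem]
      exact hβ n
    exact Ideal.Quotient.eq_zero_iff_mem.2 (mem_span_singleton.2 ⟨β, hx0⟩)
  · have hd : ∀ m, ∃ a : WittVector p B,
        mk ((p : WittVector p B) ^ m * a) = f (m + 1) - f m := by
      intro m
      have h := hf (Nat.le_succ m)
      rw [SModEq.sub_mem, key] at h
      obtain ⟨a, ha⟩ := h
      obtain ⟨a, rfl⟩ := Ideal.Quotient.mk_surjective a
      refine ⟨-a, ?_⟩
      rw [hmk, map_mul, map_pow, map_natCast, map_neg, mul_neg, ← ha, neg_sub]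
    choose a ha using hd
    obtain ⟨f0, hf0⟩ := Ideal.Quotient.mk_surjective (f 0)
    set w : ℕ → WittVector p B :=
      fun n => f0 + ∑ j ∈ Finset.range n, (p : WittVector p B) ^ j * a j with hw
    have hwf : ∀ n, mk (w n) = f n := by
      intro n
      induction n with
      | zero => simpa [hw] using hf0
      | succ n ih =>
        have : w (n + 1) = w n + (p : WittVector p B) ^ n * a n := by
          simp [hw, Finset.sum_range_succ, add_assoc]
        rw [this, map_add, ih, ha, add_sub_cancel]
    obtain ⟨L, hL⟩ := hW.prec' w fun {m n} hmn => by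
      rw [SModEq.sub_mem, keyW, ← dvd_neg, neg_sub]
      simp only [hw, add_sub_add_left_eq_sub, ← Finset.sum_Ico_eq_sub _ hmn]
      exact Finset.dvd_sum fun j hj =>
        dvd_mul_of_dvd_left (pow_dvd_pow _ (Finset.mem_Ico.1 hj).1) _
    refine ⟨mk L, fun n => ?_⟩
    have h := hL n
    rw [SModEq.sub_mem, keyW] at h
    obtain ⟨c, hc⟩ := h
    have h' := congrArg mk hc
    rw [map_mul, map_pow, map_natCast, map_sub, hwf] at h'
    rw [SModEq.sub_mem, key]
    exact ⟨mk c, h'⟩

instance [Fact (π ≠ 0)] : IsAdicComplete (span {(p : Untilt p π)}) (Untilt p π) :=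
  isAdicComplete_untilt Fact.out

instance [Fact ¬IsUnit π] : Fact ¬IsUnit (p : Untilt p π) :=
  ⟨fun h => (Fact.out : ¬IsUnit π) <| isUnit_of_dvd_one <| by
    exact (p_dvd_sharp_iff (p := p) π 1).1 h.dvd⟩

section Tilt

variable [Fact (π ≠ 0)] [Fact ¬IsUnit π]

/-- Every Teichmüller element is an untilt. -/
theorem exists_untilt_eq_sharp (a : B) :
    ∃ g : PreTilt (Untilt p π) p, g.untilt = sharp (p := p) π a := by
  obtain ⟨g, hg⟩ := exists_untilt_eq (O := Untilt p π) (p := p)
    (fun n => sharp π ((frobeniusEquiv B p).symm^[n] a)) fun n => by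
      rw [← map_pow, Function.iterate_succ_apply', frobeniusEquiv_symm_pow_p]
  exact ⟨g, hg⟩

theorem exists_tilt_pi (π : B) [Fact (π ≠ 0)] [Fact ¬IsUnit π] :
    ∃ g : PreTilt (Untilt p π) p, g.untilt = (p : Untilt p π) := by
  obtain ⟨g, hg⟩ := exists_untilt_eq_sharp (p := p) (π := π) π
  exact ⟨g, hg.trans (sharp_self π)⟩

/-- An untilt is a Teichmüller element up to any power of `p`. -/
theorem exists_sharp_sub_untilt (g : PreTilt (Untilt p π) p) (N : ℕ) :
    ∃ b : B, (p : Untilt p π) ^ (N + 1) ∣ g.untilt - sharp π b := by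
  obtain ⟨b, hb⟩ := exists_eq_sharp_add π
    (((frobeniusEquiv (PreTilt (Untilt p π) p) p).symm^[N]) g).untilt
  refine ⟨b ^ p ^ N, ?_⟩
  have h := dvd_sub_pow_of_dvd_sub hb N
  rwa [PreTilt.untilt_iterate_frobeniusEquiv_symm_pow, ← map_pow] at h

/-- Approximation by Teichmüller elements of `B`, for all valuations at once. -/
theorem exists_sharp_approx (x : Untilt p π) (m : ℕ) :
    ∃ b : B, ∀ (Γ : Type*) [LinearOrderedCommGroupWithZero Γ] (v : Valuation (Untilt p π) Γ),
      (∀ y, v y ≤ 1) → v (p : Untilt p π) < 1 →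
        v (x - sharp π b) ≤ v (p : Untilt p π) * max (v x) (v (p : Untilt p π) ^ m) ∧
        max (v x) (v (p : Untilt p π) ^ m) = max (v (sharp π b)) (v (p : Untilt p π) ^ m) ∧
        (v (p : Untilt p π) ^ m < v x → v (sharp π b) = v x) := by
  obtain ⟨π', hπ'⟩ := exists_tilt_pi (p := p) π
  obtain ⟨g, hg⟩ := exists_untilt_approx' (frobenius_surjective_modP π) π' hπ' m x
  obtain ⟨b, hb⟩ := exists_sharp_sub_untilt g m
  refine ⟨b, fun Γ _ v hv hp => ?_⟩
  obtain ⟨h1, -, -⟩ := hg Γ v hv hp
  set P := v (p : Untilt p π) with hP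
  set M := max (v x) (P ^ m) with hM
  have h2 : v (x - sharp π b) ≤ P * M := by
    rw [show x - sharp π b = (x - g.untilt) + (g.untilt - sharp π b) by ring]
    refine v.map_add_le h1 ((val_le_of_dvd v hv hb).trans ?_)
    rw [map_pow, ← hP, pow_succ']
    exact mul_le_mul_right (le_max_right _ _) _
  have hMle : P * M ≤ M := mul_le_of_le_one_left' hp.le
  have hb_le : v (sharp π b) ≤ M := by
    rw [show sharp π b = x - (x - sharp π b) by ring]
    exact v.map_sub_le (le_max_left _ _) (h2.trans hMle)
  have key : P ^ m < v x → v (sharp π b) = v x := fun hlt => by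
    have hlt' : v (x - sharp π b) < v x := by
      refine h2.trans_lt ?_
      rw [hM, max_eq_left hlt.le]
      exact mul_lt_of_lt_one_left (lt_of_le_of_lt zero_le hlt) hp
    rw [show sharp π b = x + -(x - sharp π b) by ring]
    exact v.map_add_eq_of_lt_left (by rwa [Valuation.map_neg])
  refine ⟨h2, ?_, key⟩
  rcases lt_or_ge (P ^ m) (v x) with hlt | hge
  · rw [key hlt]
  · have : M = P ^ m := max_eq_right hge
    rw [this] at hb_le ⊢
    rw [max_eq_right hb_le]

end Tilt

end Vale.Agent.P202.Mixed2
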