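import Vale.Agent.P202.Mixed2.Untilt

/-!
# Points given by valuation rings

For a valuation ring `V` of a perfect field containing `B`, in which `π` is a nonunit, the untilt of
`V` is a valuation ring. So it gives a valuation `v ≤ 1` on the untilt of `B` with `v p < 1`, and
divisibility of Teichmüller elements is divisibility in `V`.
-/

namespace Vale.Agent.P202.Mixed2

open Ideal WittVector Vale.Agent.P202.Perf

variable {p : ℕ} [Fact (Nat.Prime p)]

section ValRing

variable {V : Type*} [CommRing V] [CharP V p] [PerfectRing V p] [IsDomain V] [ValuationRing V]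
variable {π : V}

theorem sharp_eq_zero_iff (hπ : π ≠ 0) (hπu : ¬IsUnit π) (a : V) :
    sharp (p := p) π a = 0 ↔ ∀ n : ℕ, π ^ n ∣ a := by
  have hp0 : ∀ n : ℕ, (p : Untilt p π) ^ n ≠ 0 := by
    intro n
    induction n with
    | zero =>
      rw [pow_zero]
      intro h
      have h1 : (p : Untilt p π) ∣ sharp π (1 : V) := by
        rw [map_one, h]
        exact dvd_zero _
      exact hπu (isUnit_of_dvd_one ((p_dvd_sharp_iff π 1).1 h1))
    | succ n ih =>
      rw [pow_succ']
      intro h
      exact ih (mul_left_cancel_p hπ (h.trans (mul_zero _).symm))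
  constructor
  · intro h n
    rcases ValuationRing.dvd_total (π ^ n) a with h' | ⟨d, hd⟩
    · exact h'
    · refine absurd ?_ (hp0 n)
      have := congrArg (sharp (p := p) π) hd
      rwa [map_pow, sharp_self, map_mul, h, zero_mul] at this
  · intro h
    have := isAdicComplete_untilt (p := p) hπ
    refine IsHausdorff.haus' (I := span {(p : Untilt p π)}) _ fun n => ?_
    rw [SModEq.zero, smul_eq_mul, Ideal.mul_top, span_singleton_pow, mem_span_singleton]
    exact pow_dvd_sharp π (h n)

/-- Every element of the untilt of a valuation ring is a Teichmüller element times a unit. -/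
theorem exists_sharp_mul_unit (hπ : π ≠ 0) (hπu : ¬IsUnit π) (x : Untilt p π) :
    ∃ (a : V) (u : (Untilt p π)ˣ), x = sharp (p := p) π a * u := by
  classical
  have := isAdicComplete_untilt (p := p) hπ
  by_cases hex : ∀ n : ℕ, (p : Untilt p π) ^ n ∣ x
  · refine ⟨0, 1, ?_⟩
    rw [sharp_zero, zero_mul]
    refine IsHausdorff.haus' (I := span {(p : Untilt p π)}) _ fun n => ?_
    rw [SModEq.zero, smul_eq_mul, Ideal.mul_top, span_singleton_pow, mem_span_singleton]
    exact hex n
  rw [not_forall] at hex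
  have hn0 : Nat.find hex ≠ 0 := fun h => Nat.find_spec hex (by rw [h, pow_zero]; exact one_dvd _)
  obtain ⟨j, hj⟩ := Nat.exists_eq_succ_of_ne_zero hn0
  obtain ⟨y, rfl⟩ : (p : Untilt p π) ^ j ∣ x := not_not.1 (Nat.find_min hex (by omega))
  have hy : ¬(p : Untilt p π) ∣ y := fun h => Nat.find_spec hex <| by
    rw [hj, pow_succ]
    exact mul_dvd_mul_left _ h
  obtain ⟨c, z, hz⟩ := exists_eq_sharp_add π y
  have hc : ¬π ∣ c := fun h => hy <| by
    rw [show y = (p : Untilt p π) * z + sharp π c by linear_combination hz]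
    exact dvd_add (dvd_mul_right _ _) ((p_dvd_sharp_iff π c).2 h)
  obtain ⟨d, hd⟩ := (ValuationRing.dvd_total π c).resolve_left hc
  have hdu : ¬IsUnit d := fun h => hc ⟨(h.unit⁻¹ : Vˣ), by
    rw [hd, mul_assoc, IsUnit.mul_val_inv, mul_one]⟩
  have hunit : IsUnit (1 + sharp π d * z) := by
    obtain ⟨z0, hz0⟩ := exists_eq_sharp_add π z
    have hu : IsUnit (1 + d * z0) := by
      rcases IsLocalRing.isUnit_or_isUnit_of_add_one (a := 1 + d * z0) (b := -(d * z0))
        (by ring) with h | h
      · exact h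
      · rw [IsUnit.neg_iff] at h
        exact absurd (isUnit_of_mul_isUnit_left h) hdu
    obtain ⟨e, he⟩ := hu.exists_right_inv
    have hle : span {(p : Untilt p π)} ≤ Ideal.jacobson ⊥ := IsAdicComplete.le_jacobson_bot _
    refine isUnit_of_mul_isUnit_left (y := sharp π e) <|
      Ideal.isUnit_of_sub_one_mem_jacobson_bot _ (hle (mem_span_singleton.2 ?_))
    have h2 := dvd_sharp_add_sub (p := p) π 1 (d * z0)
    rw [map_one, map_mul] at h2
    rw [show (1 + sharp π d * z) * sharp π e - 1
      = (sharp π d * (z - sharp π z0)) * sharp π e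
        - (sharp π (1 + d * z0) - (1 + sharp π d * sharp π z0)) * sharp π e
        + (sharp π (1 + d * z0) * sharp π e - 1) by ring, ← map_mul (sharp π) (1 + d * z0) e, he,
      map_one, sub_self,
      add_zero]
    exact dvd_sub (dvd_mul_of_dvd_left (dvd_mul_of_dvd_right hz0 _) _) (dvd_mul_of_dvd_left h2 _)
  refine ⟨π ^ j * c, hunit.unit, ?_⟩
  rw [map_mul, map_pow, sharp_self, IsUnit.unit_spec, mul_assoc]
  congr 1
  have hpd : (p : Untilt p π) = sharp π c * sharp π d := by
    rw [← map_mul, ← hd, sharp_self]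
  linear_combination hz + z * hpd

theorem isDomain_untilt (hπ : π ≠ 0) (hπu : ¬IsUnit π) : IsDomain (Untilt p π) := by
  have : Nontrivial (Untilt p π) := by
    refine nontrivial_of_ne 1 0 fun h => hπu (isUnit_of_dvd_one ?_)
    have := (sharp_eq_zero_iff (p := p) hπ hπu 1).1 (by rw [map_one, h]) 1
    rwa [pow_one] at this
  have : NoZeroDivisors (Untilt p π) := ⟨fun {x y} hxy => by
    obtain ⟨a, u, rfl⟩ := exists_sharp_mul_unit hπ hπu x
    obtain ⟨b, u', rfl⟩ := exists_sharp_mul_unit hπ hπu y
    rw [mul_mul_mul_comm, ← map_mul, (u.isUnit.mul u'.isUnit).mul_left_eq_zero] at hxy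
    rw [sharp_eq_zero_iff hπ hπu] at hxy
    simp only [Units.mul_left_eq_zero, sharp_eq_zero_iff hπ hπu]
    by_contra h
    simp only [not_or, not_forall] at h
    obtain ⟨⟨m, hm⟩, ⟨n, hn⟩⟩ := h
    obtain ⟨c, hc⟩ := (ValuationRing.dvd_total (π ^ m) a).resolve_left hm
    obtain ⟨d, hd⟩ := (ValuationRing.dvd_total (π ^ n) b).resolve_left hn
    obtain ⟨e, he⟩ := hxy (m + n + 1)
    refine hπu (isUnit_of_dvd_one ⟨e * (c * d), ?_⟩)
    refine mul_left_cancel₀ (pow_ne_zero (m + n) hπ) ?_
    calc π ^ (m + n) * 1 = (a * b) * (c * d) := by rw [mul_one, pow_add, hc, hd]; ring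
      _ = π ^ (m + n) * (π * (e * (c * d))) := by rw [he]; ring⟩
  exact NoZeroDivisors.to_isDomain _

theorem valuationRing_untilt (hπ : π ≠ 0) (hπu : ¬IsUnit π) [IsDomain (Untilt p π)] :
    ValuationRing (Untilt p π) := by
  rw [ValuationRing.iff_dvd_total]
  refine ⟨fun x y => ?_⟩
  obtain ⟨a, u, rfl⟩ := exists_sharp_mul_unit hπ hπu x
  obtain ⟨b, u', rfl⟩ := exists_sharp_mul_unit hπ hπu y
  simp only [Units.dvd_mul_right, Units.mul_right_dvd]
  exact (ValuationRing.dvd_total a b).imp (sharp π).map_dvd (sharp π).map_dvd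

/-- Divisibility of Teichmüller elements. -/
theorem sharp_dvd_sharp_iff (hπ : π ≠ 0) (hπu : ¬IsUnit π) (a b : V) :
    sharp (p := p) π a ∣ sharp π b ↔ a ∣ b ∨ ∀ n : ℕ, π ^ n ∣ b := by
  constructor
  · rintro ⟨x, hx⟩
    refine or_iff_not_imp_left.2 fun hab => ?_
    obtain ⟨d, hd⟩ := (ValuationRing.dvd_total a b).resolve_left hab
    have hdu : ¬IsUnit d := fun h => hab ⟨(h.unit⁻¹ : Vˣ), by
      rw [hd, mul_assoc, IsUnit.mul_val_inv, mul_one]⟩
    have := isDomain_untilt (p := p) hπ hπu
    rw [← sharp_eq_zero_iff (p := p) hπ hπu]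
    by_contra hb0
    rw [hd, map_mul, mul_assoc] at hx
    have h1 : (1 : Untilt p π) = sharp π d * x :=
      mul_left_cancel₀ hb0 ((mul_one _).trans hx)
    have hud : IsUnit (sharp (p := p) π d) := isUnit_of_dvd_one ⟨x, h1⟩
    obtain ⟨e, he⟩ := exists_eq_sharp_add π (↑hud.unit⁻¹ : Untilt p π)
    have h2 : (p : Untilt p π) ∣ sharp π (d * e) - sharp π 1 := by
      rw [← dvd_neg, neg_sub, map_mul, map_one]
      have := he.mul_left (sharp π d)
      rwa [mul_sub, IsUnit.mul_val_inv] at this
    obtain ⟨w, hw⟩ := (dvd_sharp_sub_iff (p := p) π (d * e) 1).1 h2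
    rcases IsLocalRing.isUnit_or_isUnit_of_add_one (a := d * e) (b := -(π * w))
      (by linear_combination hw) with h | h
    · exact hdu (isUnit_of_mul_isUnit_left h)
    · exact hπu (isUnit_of_mul_isUnit_left (IsUnit.neg_iff _ |>.1 h))
  · rintro (h | h)
    · exact (sharp π).map_dvd h
    · rw [(sharp_eq_zero_iff (p := p) hπ hπu b).2 h]
      exact dvd_zero _

section Facts

variable [Fact (π ≠ 0)] [Fact ¬IsUnit π]

instance instIsDomainUntilt : IsDomain (Untilt p π) := isDomain_untilt Fact.out Fact.out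

instance instValuationRingUntilt : ValuationRing (Untilt p π) :=
  valuationRing_untilt Fact.out Fact.out

variable (p π) in
/-- The value group of the untilt of a valuation ring. -/
abbrev UntiltValueGroup : Type _ :=
  ValuationRing.ValueGroup (Untilt p π) (FractionRing (Untilt p π))

variable (p π) in
/-- The valuation of the untilt of a valuation ring. -/
noncomputable def untiltVal : Valuation (Untilt p π) (UntiltValueGroup p π) :=
  (ValuationRing.valuation (Untilt p π) (FractionRing (Untilt p π))).comap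
    (algebraMap (Untilt p π) (FractionRing (Untilt p π)))

theorem untiltVal_le_one (x : Untilt p π) : untiltVal p π x ≤ 1 :=
  (ValuationRing.mem_integer_iff (Untilt p π) (FractionRing (Untilt p π)) _).2 ⟨x, rfl⟩

theorem untiltVal_eq_zero_iff {x : Untilt p π} : untiltVal p π x = 0 ↔ x = 0 := by
  rw [untiltVal, Valuation.comap_apply, Valuation.zero_iff]
  exact map_eq_zero_iff _ (IsFractionRing.injective _ _)

theorem untiltVal_le_iff {x y : Untilt p π} : untiltVal p π x ≤ untiltVal p π y ↔ y ∣ x := by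
  constructor
  · intro h
    rcases eq_or_ne y 0 with rfl | hy
    · rw [map_zero, le_zero_iff, untiltVal_eq_zero_iff] at h
      rw [h]
    have hy' : algebraMap (Untilt p π) (FractionRing (Untilt p π)) y ≠ 0 :=
      (map_ne_zero_iff _ (IsFractionRing.injective _ _)).2 hy
    obtain ⟨c, hc⟩ := (ValuationRing.mem_integer_iff (Untilt p π) (FractionRing (Untilt p π))
      (algebraMap _ _ x / algebraMap _ _ y)).1 (by
        rw [Valuation.mem_integer_iff, map_div₀]
        exact div_le_one_of_le₀ h zero_le)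
    refine ⟨c, IsFractionRing.injective (Untilt p π) (FractionRing (Untilt p π)) ?_⟩
    rw [map_mul, hc, mul_div_cancel₀ _ hy']
  · rintro ⟨c, rfl⟩
    rw [map_mul]
    exact mul_le_of_le_one_right' (untiltVal_le_one c)

theorem untiltVal_p_ne_zero : untiltVal p π (p : Untilt p π) ≠ 0 := by
  rw [Ne, untiltVal_eq_zero_iff, ← sharp_self, sharp_eq_zero_iff Fact.out Fact.out]
  intro h
  refine (Fact.out : ¬IsUnit π) (isUnit_of_dvd_one ?_)
  have h2 := h 2
  rw [pow_two] at h2
  exact (mul_dvd_mul_iff_left (Fact.out : π ≠ 0)).1 (by rwa [mul_one])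

theorem untiltVal_p_lt_one : untiltVal p π (p : Untilt p π) < 1 := by
  refine lt_of_le_not_ge (untiltVal_le_one _) fun h => ?_
  rw [← map_one (untiltVal p π), untiltVal_le_iff, ← map_one (sharp (p := p) π),
    p_dvd_sharp_iff] at h
  exact (Fact.out : ¬IsUnit π) (isUnit_of_dvd_one h)

theorem untiltVal_sharp_le_iff (a b : V) :
    untiltVal p π (sharp π a) ≤ untiltVal p π (sharp π b) ↔
      b ∣ a ∨ ∀ n : ℕ, π ^ n ∣ a :=
  untiltVal_le_iff.trans (sharp_dvd_sharp_iff Fact.out Fact.out b a)

end Facts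

end ValRing

section Point

variable {B : Type*} [CommRing B] [CharP B p] {π : B}
variable {V : Type*} [CommRing V] [CharP V p] [PerfectRing V p] [IsDomain V] [ValuationRing V]
variable (g : B →+* V) [Fact (g π ≠ 0)] [Fact ¬IsUnit (g π)]

variable (p π) in
/-- The point of the untilt of `B` given by a map to a valuation ring. -/
noncomputable def pointVal : Valuation (Untilt p π) (UntiltValueGroup p (g π)) :=
  (untiltVal p (g π)).comap (mapUntilt g π)

theorem pointVal_le_one (x : Untilt p π) : pointVal p π g x ≤ 1 := untiltVal_le_one _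

theorem pointVal_p_ne_zero : pointVal p π g (p : Untilt p π) ≠ 0 := by
  rw [pointVal, Valuation.comap_apply, map_natCast]
  exact untiltVal_p_ne_zero

theorem pointVal_p_lt_one : pointVal p π g (p : Untilt p π) < 1 := by
  rw [pointVal, Valuation.comap_apply, map_natCast]
  exact untiltVal_p_lt_one

theorem pointVal_sharp_le_iff (a b : B) :
    pointVal p π g (sharp π a) ≤ pointVal p π g (sharp π b) ↔
      g b ∣ g a ∨ ∀ n : ℕ, g π ^ n ∣ g a := by
  rw [pointVal, Valuation.comap_apply, Valuation.comap_apply, mapUntilt_sharp, mapUntilt_sharp,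
    untiltVal_sharp_le_iff]

end Point

section Subring

universe u

variable {B : Type*} [CommRing B] [CharP B p]
variable {K : Type u} [Field K] [CharP K p] [PerfectRing K p] (V : ValuationSubring K)

instance : CharP V p := CharP.subring K p V.toSubring

omit [CharP K p] in
theorem root_mem {x : K} (hx : x ^ p ∈ V) : x ∈ V := by
  rw [← V.valuation_le_one_iff] at hx ⊢
  rw [map_pow] at hx
  exact (pow_le_one_iff (Fact.out : p.Prime).ne_zero).1 hx

instance : PerfectRing V p := by
  refine PerfectRing.ofSurjective V p fun x => ?_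
  refine ⟨⟨(frobeniusEquiv K p).symm x, root_mem (p := p) V ?_⟩, Subtype.ext ?_⟩
  · rw [frobeniusEquiv_symm_pow_p]
    exact x.2
  · exact frobeniusEquiv_symm_pow_p K p (x : K)

theorem dvd_iff_valuation_le (x y : V) : y ∣ x ↔ V.valuation x ≤ V.valuation y := by
  constructor
  · rintro ⟨c, rfl⟩
    rw [MulMemClass.coe_mul, map_mul]
    exact mul_le_of_le_one_right' (V.valuation_le_one c)
  · intro h
    rcases eq_or_ne (y : K) 0 with hy | hy
    · rw [hy, map_zero, le_zero_iff, map_eq_zero] at h
      exact ⟨0, Subtype.ext (by simp [h])⟩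
    · refine ⟨⟨(x : K) / y, ?_⟩, Subtype.ext (mul_div_cancel₀ _ hy).symm⟩
      rw [← V.valuation_le_one_iff, map_div₀]
      exact div_le_one_of_le₀ h zero_le

/-- A valuation subring containing the image of `B`, in which `π` is a nonunit but not zero, gives a
point of the untilt. -/
theorem exists_pointVal (f : B →+* K) (hfV : ∀ b, f b ∈ V) (π : B)
    (hπ : f π ≠ 0) (hπv : V.valuation (f π) < 1) :
    ∃ (Γ : Type u) (_ : LinearOrderedCommGroupWithZero Γ) (w : Valuation (Untilt p π) Γ),
      (∀ x, w x ≤ 1) ∧ w (p : Untilt p π) ≠ 0 ∧ w (p : Untilt p π) < 1 ∧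
      ∀ a b : B, (w (sharp π a) ≤ w (sharp π b) ↔
        V.valuation (f a) ≤ V.valuation (f b) ∨
          ∀ n : ℕ, V.valuation (f a) ≤ V.valuation (f π) ^ n) := by
  let g : B →+* V := f.codRestrict V hfV
  have : Fact (g π ≠ 0) := ⟨fun h => hπ (congrArg Subtype.val h)⟩
  have : Fact ¬IsUnit (g π) := ⟨fun h => hπv.ne ((V.valuation_eq_one_iff (g π)).1 h)⟩
  refine ⟨_, inferInstance, pointVal p π g, pointVal_le_one g, pointVal_p_ne_zero g,
    pointVal_p_lt_one g, fun a b => ?_⟩
  rw [pointVal_sharp_le_iff, dvd_iff_valuation_le]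
  simp only [dvd_iff_valuation_le, SubmonoidClass.coe_pow, map_pow]
  rfl

end Subring

end Vale.Agent.P202.Mixed2
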