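import Mathlib

/-!
# Elements bounded at every point are integral over an ideal

`B` is a domain with fraction field `K`. If an element `f` is bounded by an ideal `I` at every valuation
subring containing `B`, then `(I + (f)) ^ (n + 1) = I * (I + (f)) ^ n` for some `n`.
-/

namespace Vale.Agent.P202.Mixed2

open Ideal

variable {B : Type*} [CommRing B] [IsDomain B] {K : Type*} [Field K] [Algebra B K] [IsFractionRing B K]

omit [IsDomain B] in
/-- The valuative criterion for integrality over an ideal. -/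
theorem exists_pow_succ_mem_of_le_valuation (I : Ideal B) (f : B)
    (h : ∀ V : ValuationSubring K, (∀ b, algebraMap B K b ∈ V) →
      ∃ y ∈ I, V.valuation (algebraMap B K f) ≤ V.valuation (algebraMap B K y)) :
    ∃ n : ℕ, f ^ (n + 1) ∈ I * (I ⊔ span {f}) ^ n := by
  rcases eq_or_ne f 0 with rfl | hf
  · exact ⟨0, by simp⟩
  set φ := algebraMap B K
  have hfK : φ f ≠ 0 := by simpa using (map_ne_zero_iff φ (IsFractionRing.injective B K)).2 hf
  set S : Set K := (fun y => φ y / φ f) '' (I : Set B)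
  set A := Algebra.adjoin B S
  set J : Ideal A := span (Subtype.val ⁻¹' S)
  have hfJ : f ∈ I ⊔ span {f} := mem_sup_right (mem_span_singleton_self f)
  have hA : ∀ a ∈ A, ∃ n, ∃ b ∈ (I ⊔ span {f}) ^ n, φ b = a * φ f ^ n := by
    intro a ha
    induction ha using Algebra.adjoin_induction with
    | mem x hx =>
      obtain ⟨y, hy, rfl⟩ := hx
      exact ⟨1, y, by rw [pow_one]; exact mem_sup_left hy, by rw [pow_one, div_mul_cancel₀ _ hfK]⟩
    | algebraMap r => exact ⟨0, r, by simp, by simp [φ]⟩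
    | add x y _ _ hx hy =>
      obtain ⟨n, b, hb, hb'⟩ := hx
      obtain ⟨m, c, hc, hc'⟩ := hy
      refine ⟨n + m, b * f ^ m + f ^ n * c, ?_, ?_⟩
      · rw [pow_add]
        exact add_mem (mul_mem_mul hb (pow_mem_pow hfJ m)) (mul_mem_mul (pow_mem_pow hfJ n) hc)
      · rw [map_add, map_mul, map_mul, map_pow, map_pow, hb', hc']
        ring
    | mul x y _ _ hx hy =>
      obtain ⟨n, b, hb, hb'⟩ := hx
      obtain ⟨m, c, hc, hc'⟩ := hy
      refine ⟨n + m, b * c, by rw [pow_add]; exact mul_mem_mul hb hc, ?_⟩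
      rw [map_mul, hb', hc']
      ring
  by_contra hcon
  have hJ : J ≠ ⊤ := by
    intro htop
    have key : ∀ a ∈ J, ∃ n, ∃ b ∈ I * (I ⊔ span {f}) ^ n, φ b = (a : K) * φ f ^ (n + 1) := by
      intro a ha
      induction ha using Submodule.span_induction with
      | mem x hx =>
        obtain ⟨y, hy, hy'⟩ := hx
        exact ⟨0, y, by simpa using hy, by rw [← hy', zero_add, pow_one, div_mul_cancel₀ _ hfK]⟩
      | zero => exact ⟨0, 0, zero_mem _, by simp⟩
      | add x y _ _ hx hy =>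
        obtain ⟨n, b, hb, hb'⟩ := hx
        obtain ⟨m, c, hc, hc'⟩ := hy
        refine ⟨n + m, b * f ^ m + c * f ^ n, add_mem ?_ ?_, ?_⟩
        · rw [pow_add, ← mul_assoc]
          exact mul_mem_mul hb (pow_mem_pow hfJ m)
        · rw [add_comm n m, pow_add, ← mul_assoc]
          exact mul_mem_mul hc (pow_mem_pow hfJ n)
        · rw [map_add, map_mul, map_mul, map_pow, map_pow, hb', hc', Subalgebra.coe_add]
          ring
      | smul a x _ hx =>
        obtain ⟨n, b, hb, hb'⟩ := hx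
        obtain ⟨m, c, hc, hc'⟩ := hA a a.2
        refine ⟨n + m, b * c, by rw [pow_add, ← mul_assoc]; exact mul_mem_mul hb hc, ?_⟩
        rw [smul_eq_mul, Subalgebra.coe_mul, map_mul, hb', hc']
        ring
    obtain ⟨n, b, hb, hb'⟩ := key 1 (by rw [htop]; trivial)
    rw [Subalgebra.coe_one, one_mul, ← map_pow] at hb'
    exact hcon ⟨n, (IsFractionRing.injective B K hb') ▸ hb⟩
  obtain ⟨V, hV, hV'⟩ := Ideal.image_subset_nonunits_valuationSubring (A := A.toSubring) J hJ
  obtain ⟨y, hy, hle⟩ := h V fun b => hV (A.algebraMap_mem b)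
  have hmem : φ y / φ f ∈ A := Algebra.subset_adjoin ⟨y, hy, rfl⟩
  have hnu := hV' ⟨⟨φ y / φ f, hmem⟩, subset_span ⟨y, hy, rfl⟩, rfl⟩
  have hlt : V.valuation (φ y / φ f) < 1 := hnu
  rw [map_div₀, div_lt_one₀ (pos_iff_ne_zero.2 ((V.valuation.ne_zero_iff).2 hfK))] at hlt
  exact absurd hle (not_le.2 hlt)

omit [IsDomain B] in
theorem le_mul_pow_aux {I J F : Ideal B} (hJ : J = I ⊔ F) {n : ℕ} (h : F ^ (n + 1) ≤ I * J ^ n) :
    ∀ k ≤ n + 1, J ^ k * F ^ (n + 1 - k) ≤ I * J ^ n := by
  have hFJ : F ≤ J := hJ ▸ le_sup_right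
  intro k hk
  induction k with
  | zero => rwa [pow_zero, one_mul, Nat.sub_zero]
  | succ k ih =>
    have e1 : F * F ^ (n + 1 - (k + 1)) = F ^ (n + 1 - k) := by
      rw [← pow_succ', show n + 1 - (k + 1) + 1 = n + 1 - k by omega]
    have e2 : J ^ k * (I * F ^ (n + 1 - (k + 1))) ≤ I * J ^ n := by
      rw [mul_left_comm]
      refine Ideal.mul_mono_right ((Ideal.mul_mono_right (Ideal.pow_right_mono hFJ _)).trans ?_)
      rw [← pow_add, show k + (n + 1 - (k + 1)) = n by omega]
    have hstep : J ^ (k + 1) * F ^ (n + 1 - (k + 1))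
        = J ^ k * (I * F ^ (n + 1 - (k + 1))) ⊔ J ^ k * F ^ (n + 1 - k) := by
      rw [← e1, ← Ideal.mul_sup, ← Ideal.sup_mul, ← hJ, pow_succ, mul_assoc]
    rw [hstep]
    exact sup_le e2 (ih (by omega))

omit [IsDomain B] in
theorem pow_le_of_pow_succ_le {I J : Ideal B} {n : ℕ} (h : J ^ (n + 1) ≤ I * J ^ n) (j : ℕ) :
    J ^ (n + j) ≤ I ^ j * J ^ n := by
  induction j with
  | zero => rw [add_zero, pow_zero, one_mul]
  | succ j ih =>
    rw [← add_assoc, pow_succ, pow_succ, mul_assoc]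
    refine (Ideal.mul_mono_left ih).trans ?_
    rw [mul_assoc, ← pow_succ]
    exact Ideal.mul_mono_right h

omit [IsDomain B] in
/-- Integrality over an ideal puts high powers into high powers of the ideal. -/
theorem pow_add_mem_pow {I : Ideal B} {f : B} {n : ℕ} (h : f ^ (n + 1) ∈ I * (I ⊔ span {f}) ^ n)
    (j : ℕ) : f ^ (n + j) ∈ I ^ j := by
  have h0 : span {f} ^ (n + 1) ≤ I * (I ⊔ span {f}) ^ n := by
    rw [span_singleton_pow, span_singleton_le_iff_mem]
    exact h
  have h1 := le_mul_pow_aux (I := I) (J := I ⊔ span {f}) (F := span {f}) (n := n) rfl h0 (n + 1)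
    (le_refl _)
  simp only [Nat.sub_self, pow_zero, mul_one] at h1
  have h2 := pow_le_of_pow_succ_le (I := I) (J := I ⊔ span {f}) (n := n) h1 j
  have h3 : f ^ (n + j) ∈ (I ⊔ span {f}) ^ (n + j) :=
    Ideal.pow_mem_pow (I := I ⊔ span {f}) (mem_sup_right (mem_span_singleton_self f)) (n + j)
  exact (h2.trans Ideal.mul_le_left) h3

omit [IsDomain B] in
/-- The criterion with test points only where `ϖ` is not invertible. -/
theorem exists_pow_mem_of_le_valuation (ϖ : B) {X Y : B} {N : ℕ} (hN : ϖ ^ N ∈ span {X, Y}) (f : B)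
    (h : ∀ V : ValuationSubring K, (∀ b, algebraMap B K b ∈ V) →
      V.valuation (algebraMap B K ϖ) < 1 →
      V.valuation (algebraMap B K f)
        ≤ max (V.valuation (algebraMap B K X)) (V.valuation (algebraMap B K Y))) :
    ∃ n : ℕ, ∀ q, f ^ q ∈ span {X, Y} ^ (q - n) := by
  obtain ⟨n, hn⟩ := exists_pow_succ_mem_of_le_valuation (K := K) (span {X, Y}) f fun V hV => by
    have hle : ∀ b, V.valuation (algebraMap B K b) ≤ 1 := fun b =>
      (V.valuation_le_one_iff _).2 (hV b)
    rcases lt_or_eq_of_le (hle ϖ) with hlt | heq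
    · rcases le_max_iff.1 (h V hV hlt) with h1 | h1
      · exact ⟨X, subset_span (by simp), h1⟩
      · exact ⟨Y, subset_span (by simp), h1⟩
    · exact ⟨ϖ ^ N, hN, by rw [map_pow, map_pow, heq, one_pow]; exact hle f⟩
  refine ⟨n, fun q => ?_⟩
  rcases le_total q n with hq | hq
  · rw [Nat.sub_eq_zero_of_le hq, pow_zero, Ideal.one_eq_top]; trivial
  · have := pow_add_mem_pow hn (q - n)
    rwa [Nat.add_sub_cancel' hq] at this

omit [IsDomain B] in
/-- In a normal domain divisibility by `ϖ` is tested at the points. -/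
theorem dvd_of_le_valuation [IsIntegrallyClosed B] {ϖ b : B} (hϖ : ϖ ≠ 0)
    (h : ∀ V : ValuationSubring K, (∀ x, algebraMap B K x ∈ V) →
      V.valuation (algebraMap B K ϖ) < 1 →
      V.valuation (algebraMap B K b) ≤ V.valuation (algebraMap B K ϖ)) : ϖ ∣ b := by
  set φ := algebraMap B K
  have hϖK : φ ϖ ≠ 0 := by simpa using (map_ne_zero_iff φ (IsFractionRing.injective B K)).2 hϖ
  have : IsIntegrallyClosedIn φ.range K := Subring.isIntegrallyClosedIn_iff.2 fun {x} hx => by
    have h1 : IsIntegral B x := by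
      obtain ⟨P, hPm, hP⟩ := hx
      have hl : P ∈ Polynomial.lifts φ.rangeRestrict := by
        rw [Polynomial.lifts_iff_coeff_lifts]
        exact fun i => RingHom.rangeRestrict_surjective φ _
      obtain ⟨Q, hQ, -, hQm⟩ := Polynomial.lifts_and_natDegree_eq_and_monic hl hPm
      refine ⟨Q, hQm, ?_⟩
      rw [← hQ, Polynomial.eval₂_map] at hP
      exact hP
    obtain ⟨c, hc⟩ := IsIntegrallyClosed.algebraMap_eq_of_integral h1
    exact ⟨c, hc⟩
  have hmem : φ b / φ ϖ ∈ φ.range := by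
    by_contra hx
    obtain ⟨V, hV, hxV⟩ := Subring.exists_le_valuationSubring_of_isIntegrallyClosedIn hx
    have hb : ∀ x, φ x ∈ V := fun x => hV ⟨x, rfl⟩
    refine hxV ((V.valuation_le_one_iff _).1 ?_)
    have hle : V.valuation (φ ϖ) ≤ 1 := (V.valuation_le_one_iff _).2 (hb ϖ)
    have hpos : 0 < V.valuation (φ ϖ) := pos_iff_ne_zero.2 ((V.valuation.ne_zero_iff).2 hϖK)
    rw [map_div₀, div_le_one₀ hpos]
    rcases lt_or_eq_of_le hle with hlt | heq
    · exact h V hb hlt
    · rw [heq]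
      exact (V.valuation_le_one_iff _).2 (hb b)
  obtain ⟨c, hc⟩ := hmem
  refine ⟨c, IsFractionRing.injective B K ?_⟩
  rw [map_mul, hc]
  field_simp
  ring

omit [IsDomain B] in
/-- In a perfect ring membership of a `p ^ m`-th power in a power of an ideal descends to the roots. -/
theorem mem_span_pow_of_pow_mem (p : ℕ) [ExpChar B p] [PerfectRing B p] {X Y f : B} {m j : ℕ}
    (h : f ^ p ^ m ∈ span {X, Y} ^ j) :
    f ∈ span {(iterateFrobeniusEquiv B p m).symm X, (iterateFrobeniusEquiv B p m).symm Y} ^ j := by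
  set e := (iterateFrobeniusEquiv B p m).symm
  have h2 : e (f ^ p ^ m) ∈ (span {X, Y} ^ j).map e := Ideal.mem_map_of_mem _ h
  rwa [Ideal.map_pow, Ideal.map_span, Set.image_pair,
    show e (f ^ p ^ m) = f from (iterateFrobeniusEquiv B p m).symm_apply_eq.2
      (iterateFrobeniusEquiv_apply B p m f).symm] at h2

omit [IsDomain B] in
/-- (I): an element which is at most `‖p‖ ^ t` at every point is divisible by `p ^ t`. `sharp` is
the untilt, `w V` the point attached to the valuation subring `V`. -/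
theorem pow_dvd_of_le_points [IsIntegrallyClosed B] {O : Type*} [CommRing O] (sharp : B →* O) {ϖ : B}
    (hϖ : ϖ ≠ 0) {π : O} (hπ : sharp ϖ = π) (hrepr : ∀ u : O, ∃ b, π ∣ u - sharp b)
    {Γ : ValuationSubring K → Type*} [∀ V, LinearOrderedCommGroupWithZero (Γ V)]
    (w : ∀ V : ValuationSubring K, Valuation O (Γ V))
    (hw : ∀ V : ValuationSubring K, (∀ b, algebraMap B K b ∈ V) →
      V.valuation (algebraMap B K ϖ) < 1 → (∀ x, w V x ≤ 1) ∧ w V π ≠ 0 ∧
        ∀ b, w V (sharp b) ≤ w V π →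
          V.valuation (algebraMap B K b) ≤ V.valuation (algebraMap B K ϖ))
    (t : ℕ) {u : O} (hu : ∀ V : ValuationSubring K, (∀ b, algebraMap B K b ∈ V) →
      V.valuation (algebraMap B K ϖ) < 1 → w V u ≤ w V π ^ t) : π ^ t ∣ u := by
  induction t generalizing u with
  | zero => simp
  | succ t ih =>
    obtain ⟨b, c, hc⟩ := hrepr u
    have hb : ϖ ∣ b := dvd_of_le_valuation (K := K) hϖ fun V hV hlt => by
      obtain ⟨h1, -, h3⟩ := hw V hV hlt
      refine h3 b ?_
      rw [show sharp b = u - π * c by rw [← hc]; ring]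
      refine (w V).map_sub_le ((hu V hV hlt).trans ?_) ?_
      · rw [pow_succ]
        exact mul_le_of_le_one_left' (pow_le_one₀ zero_le (h1 π))
      · rw [map_mul]
        exact mul_le_of_le_one_right' (h1 c)
    obtain ⟨b', rfl⟩ := hb
    obtain ⟨u', rfl⟩ : π ∣ u := ⟨sharp b' + c, by
      rw [mul_add, ← hc, map_mul, hπ]; ring⟩
    rw [pow_succ']
    refine mul_dvd_mul_left π (ih fun V hV hlt => ?_)
    obtain ⟨-, h2, -⟩ := hw V hV hlt
    have h := hu V hV hlt
    rw [map_mul, pow_succ'] at h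
    exact le_of_mul_le_mul_left h (pos_iff_ne_zero.2 h2)

end Vale.Agent.P202.Mixed2
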