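import Vale.Agent.P202.Mixed2.FiltRoots
import Vale.Agent.P202.Mixed2.Integral
import Vale.Agent.P202.Mixed2.Points

/-!
# The adic filtration of `U = sharp u` on the untilt

`u` are `q`-th roots of the parameters `Y` in the perfect domain `B`.  The ideal `a = (U)` of the
untilt contains `p ^ N`, contains `p` to order about `q`, contains to the same order every element
bounded by `Y` at the points, and `U` is regular up to the loss `δ` of `u` in `B`.
-/

namespace Vale.Agent.P202.Mixed2.Filt

open Ideal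

variable {p : ℕ} [Fact p.Prime] {B : Type*} [CommRing B] [CharP B p] [PerfectRing B p] [IsDomain B]
variable {π : B} {n : ℕ}

omit [CharP B p] [PerfectRing B p] [IsDomain B] in
/-- The elements of the untilt attached to `u`. -/
noncomputable def US (π : B) (u : Fin (n + 1) → B) : Fin (n + 1) → Untilt p π :=
  fun l => sharp π (u l)

variable {u : Fin (n + 1) → B}

omit [IsDomain B] in
theorem dvd_sharp_sum_sub {ι : Type*} (t : Finset ι) (f : ι → B) :
    (p : Untilt p π) ∣ sharp π (∑ i ∈ t, f i) - ∑ i ∈ t, sharp π (f i) := by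
  classical
  induction t using Finset.induction with
  | empty => simp [sharp_zero]
  | insert a t ha ih =>
    rw [Finset.sum_insert ha, Finset.sum_insert ha,
      show sharp π (f a + ∑ i ∈ t, f i) - (sharp π (f a) + ∑ i ∈ t, sharp π (f i))
        = (sharp π (f a + ∑ i ∈ t, f i) - (sharp π (f a) + sharp π (∑ i ∈ t, f i)))
          + (sharp (p := p) π (∑ i ∈ t, f i) - ∑ i ∈ t, sharp π (f i)) by ring]
    exact dvd_add (dvd_sharp_add_sub π _ _) ih

omit [CharP B p] [PerfectRing B p] [IsDomain B] in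
theorem prod_US_mem (a : Fin (n + 1) → ℕ) {D : ℕ} (h : D ≤ ∑ l, a l) (c : Untilt p π) :
    c * ∏ l, US π u l ^ a l ∈ aI (US π u) ^ D := by
  refine Ideal.mul_mem_left _ _ (Ideal.pow_le_pow_right h ?_)
  rw [← Finset.prod_pow_eq_pow_sum]
  exact Ideal.prod_mem_prod fun l _ =>
    Ideal.pow_mem_pow (Ideal.mem_span_range_self (x := l)) _

omit [CharP B p] [PerfectRing B p] [IsDomain B] in
theorem sharp_term (c : B) (a : Fin (n + 1) → ℕ) :
    sharp π (c * ∏ l, u l ^ a l) = sharp (p := p) π c * ∏ l, US π u l ^ a l := by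
  simp [US, map_prod]

omit [IsDomain B] in
/-- A sum of monomial terms: `sharp` is additive up to `p` times the degree. -/
theorem sharp_sum_mem {ι : Type*} (t : Finset ι) (c : ι → B) (a : ι → Fin (n + 1) → ℕ) {D : ℕ}
    (ha : ∀ i ∈ t, D ≤ ∑ l, a i l) (k : ℕ) :
    sharp π (∑ i ∈ t, c i * ∏ l, u l ^ a i l) - ∑ i ∈ t, sharp π (c i * ∏ l, u l ^ a i l)
      ∈ span {(p : Untilt p π)} * aI (US π u) ^ (D - n) ⊔ span {(p : Untilt p π) ^ (k + 1)} := by
  have hp : p.Prime := Fact.out
  set P := p ^ k with hP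
  set v : Fin (n + 1) → B := fun l => root p k (u l) with hv
  set f : ι → B := fun i => c i * ∏ l, u l ^ a i l with hf
  set r : ι → B := fun i => root p k (f i) with hr
  have hrmem : ∀ i ∈ t, sharp π (r i) ∈ aI (US (p := p) π v) ^ D := by
    intro i hi
    rw [hr, hf]
    simp only [map_mul, map_prod, map_pow]
    simpa [US, hv] using prod_US_mem (p := p) (π := π) (u := v) (a i) (ha i hi)
      (sharp π (root p k (c i)))
  have h1 := sum_pow_pow_mem hp t (fun i => sharp (p := p) π (r i)) hrmem k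
  have h2 := dvd_sub_pow_of_dvd_sub (dvd_sharp_sum_sub (p := p) (π := π) t r) k
  rw [← map_pow, ← map_sum (root p k), root_pow] at h2
  have hle : (aI (US (p := p) π v) ^ D) ^ P ≤ aI (US π u) ^ (D - n) := by
    rcases Nat.lt_or_ge D n with hD | hD
    · rw [Nat.sub_eq_zero_of_le hD.le, pow_zero, Ideal.one_eq_top]
      exact le_top
    rw [← pow_mul]
    refine (range_le_of_mul_le (US π v) (P := P) (e := D - n) (pow_pos hp.pos k)
      (by rw [Nat.sub_add_cancel hD])).trans ?_
    refine Ideal.pow_right_mono (Ideal.span_le.2 ?_) _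
    rintro _ ⟨l, rfl⟩
    show sharp π (root p k (u l)) ^ p ^ k ∈ aI (US π u)
    rw [← map_pow, root_pow]
    exact Ideal.mem_span_range_self (x := l)
  have hfr : ∀ i, sharp π (r i) ^ p ^ k = sharp (p := p) π (f i) := fun i => by
    rw [← map_pow]
    exact congrArg (sharp π) (root_pow p k (f i))
  rw [show sharp π (∑ i ∈ t, f i) - ∑ i ∈ t, sharp π (f i)
    = ((∑ i ∈ t, sharp (p := p) π (r i)) ^ p ^ k - ∑ i ∈ t, sharp π (r i) ^ p ^ k)
      + (sharp π (∑ i ∈ t, f i) - (∑ i ∈ t, sharp π (r i)) ^ p ^ k) by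
      simp only [hfr]; ring]
  refine add_mem (Ideal.mem_sup_left (Ideal.mul_mono_right hle h1)) ?_
  exact Ideal.mem_sup_right (mem_span_singleton.2 h2)

omit [CharP B p] [PerfectRing B p] [IsDomain B] in
theorem exists_terms {D : ℕ} {s : B} (hs : s ∈ span (Set.range u) ^ D) :
    ∃ (t : Finset (Fin (n + 1) →₀ ℕ)) (c : (Fin (n + 1) →₀ ℕ) → B),
      (∀ a ∈ t, ∑ l, a l = D) ∧ s = ∑ a ∈ t, c a * ∏ l, u l ^ a l := by
  rw [Ideal.mem_span_pow_iff_exists_isHomogeneous] at hs
  obtain ⟨f, hf, rfl⟩ := hs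
  refine ⟨f.support, fun a => f.coeff a, fun a ha => ?_, ?_⟩
  · have := hf (MvPolynomial.mem_support_iff.1 ha)
    simpa [Finsupp.weight_apply, Finsupp.sum_fintype] using this
  · rw [MvPolynomial.eval_eq']

omit [IsDomain B] in
/-- Elements of `(u) ^ D` have `sharp` in `a ^ (D - n)` modulo any power of `p`. -/
theorem sharp_mem_sup {D : ℕ} {s : B} (hs : s ∈ span (Set.range u) ^ D) (k : ℕ) :
    sharp π s ∈ aI (US (p := p) π u) ^ (D - n) ⊔ span {(p : Untilt p π) ^ (k + 1)} := by
  obtain ⟨t, c, ht, rfl⟩ := exists_terms hs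
  have h := sharp_sum_mem (p := p) (π := π) (u := u) t c (fun a l => a l)
    (D := D) (fun a ha => (ht a ha).ge) k
  have hsum : ∑ a ∈ t, sharp π (c a * ∏ l, u l ^ a l) ∈ aI (US (p := p) π u) ^ (D - n) :=
    Ideal.sum_mem _ fun a ha => by
      rw [sharp_term]
      exact prod_US_mem _ ((Nat.sub_le _ _).trans (ht a ha).ge) _
  have hle : span {(p : Untilt p π)} * aI (US π u) ^ (D - n) ⊔ span {(p : Untilt p π) ^ (k + 1)}
      ≤ aI (US π u) ^ (D - n) ⊔ span {(p : Untilt p π) ^ (k + 1)} :=
    sup_le_sup_right Ideal.mul_le_right _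
  have h3 := add_mem (hle h) (Ideal.mem_sup_left hsum)
  rwa [sub_add_cancel] at h3

variable (hπ : π ≠ 0)

include hπ in
/-- A power of `π` in a high power of `(u)` puts that power of `p` into `a`. -/
theorem p_pow_mem {N : ℕ} (hN : π ^ N ∈ span (Set.range u) ^ (n + 1)) :
    (p : Untilt p π) ^ N ∈ aI (US π u) := by
  have := isAdicComplete_untilt (p := p) hπ
  refine pow_mem_of_mem_sup ?_
  have h := sharp_mem_sup (p := p) (π := π) hN N
  rwa [map_pow, sharp_self, Nat.add_sub_cancel_left, pow_one] at h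

variable {N : ℕ} (hpN : (p : Untilt p π) ^ N ∈ aI (US π u))

omit [IsDomain B] in
include hpN in
/-- `sharp` of `(u) ^ D` lies in `a ^ (D - n)`. -/
theorem sharp_mem {D : ℕ} {s : B} (hs : s ∈ span (Set.range u) ^ D) :
    sharp π s ∈ aI (US (p := p) π u) ^ (D - n) := by
  have h := sharp_mem_sup (p := p) (π := π) hs (N * (D - n))
  have hle : aI (US (p := p) π u) ^ (D - n) ⊔ span {(p : Untilt p π) ^ (N * (D - n) + 1)}
      ≤ aI (US π u) ^ (D - n) := sup_le le_rfl ((span_singleton_le_iff_mem _).2 ?_)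
  · exact hle h
  rw [pow_succ, pow_mul]
  exact Ideal.mul_mem_right _ _ (Ideal.pow_mem_pow hpN _)

omit [IsDomain B] in
include hpN in
/-- `p` itself. -/
theorem p_mem {D : ℕ} (h : π ∈ span (Set.range u) ^ D) :
    (p : Untilt p π) ∈ aI (US π u) ^ (D - n) := by
  simpa [sharp_self] using sharp_mem hpN h

omit [IsDomain B] in
include hpN in
/-- (F2) An element congruent modulo `p` to `sharp` of an element of `(u) ^ D`. -/
theorem mem_of_dvd_sub {D : ℕ} (hπD : π ∈ span (Set.range u) ^ D) {x : Untilt p π} {g : B}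
    (hx : (p : Untilt p π) ∣ x - sharp π g) (hg : g ∈ span (Set.range u) ^ D) :
    x ∈ aI (US π u) ^ (D - n) := by
  obtain ⟨z, hz⟩ := hx
  rw [show x = sharp π g + (p : Untilt p π) * z by linear_combination hz]
  exact add_mem (sharp_mem hpN hg) (Ideal.mul_mem_right _ _ (p_mem hpN hπD))

variable {K : Type*} [Field K] [Algebra B K] [IsFractionRing B K]

omit [IsDomain B] in
include p in
/-- An element at most `max |u| ^ E` at every point lies in a slightly smaller power of `(u)`. -/
theorem mem_pow_of_le_valuation {M : ℕ} (hM : π ^ M ∈ span (Set.range u)) {E : ℕ}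
    {s : B} (h : ∀ V : ValuationSubring K, (∀ b, algebraMap B K b ∈ V) →
      V.valuation (algebraMap B K π) < 1 →
      (∃ l, V.valuation (algebraMap B K s) ≤ V.valuation (algebraMap B K (u l)) ^ E)
        ∨ V.valuation (algebraMap B K s) ≤ V.valuation (algebraMap B K π) ^ (M * E)) :
    s ∈ span (Set.range u) ^ (E - 1 - n) := by
  have hI : π ^ (M * E) ∈ span (Set.range u) ^ E := by
    rw [pow_mul]
    exact Ideal.pow_mem_pow hM E
  obtain ⟨N, hN⟩ := exists_pow_succ_mem_of_le_valuation (K := K) (span (Set.range u) ^ E) s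
    fun V hV => by
      rcases lt_or_eq_of_le ((V.valuation_le_one_iff _).2 (hV π)) with hlt | heq
      · rcases h V hV hlt with ⟨l, hl⟩ | hl
        · exact ⟨u l ^ E, Ideal.pow_mem_pow (Ideal.mem_span_range_self (x := l)) E,
            by rwa [map_pow, map_pow]⟩
        · exact ⟨_, hI, by rwa [map_pow, map_pow]⟩
      · refine ⟨_, hI, ?_⟩
        rw [map_pow, map_pow, heq, one_pow]
        exact (V.valuation_le_one_iff _).2 (hV s)
  exact mem_pow_of_pow_mem p (Fact.out : p.Prime).one_lt u (pow_add_mem_pow hN)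

omit [IsDomain B] in
include p in
/-- An element bounded by the parameters `u ^ q` at every point lies in `(u) ^ (q - 1 - n)`. -/
theorem mem_pow_of_le_max {M : ℕ} (hM : π ^ M ∈ span (Set.range u)) {q : ℕ} {s : B}
    (h : ∀ V : ValuationSubring K, (∀ b, algebraMap B K b ∈ V) →
      V.valuation (algebraMap B K π) < 1 →
      ∃ l, V.valuation (algebraMap B K s) ≤ V.valuation (algebraMap B K (u l ^ q))) :
    s ∈ span (Set.range u) ^ (q - 1 - n) :=
  mem_pow_of_le_valuation (p := p) hM fun V hV hlt => Or.inl <| by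
    obtain ⟨l, hl⟩ := h V hV hlt
    exact ⟨l, by rwa [map_pow, map_pow] at hl⟩

variable [CharP K p] [PerfectRing K p]

omit [IsDomain B] in
include hπ K in
/-- An element with `sharp` in `a ^ E` lies in a slightly smaller power of `(u)`. -/
theorem mem_pow_of_sharp_mem {M : ℕ} (hM : π ^ M ∈ span (Set.range u)) {E : ℕ} {s : B}
    (h : sharp π s ∈ aI (US (p := p) π u) ^ E) : s ∈ span (Set.range u) ^ (E - 1 - n) := by
  refine mem_pow_of_le_valuation (K := K) (p := p) hM fun V hV hlt => ?_
  obtain ⟨Γ, _, w, hw1, hw0, hwlt, hw⟩ := exists_pointVal (p := p) V (algebraMap B K) hV π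
    ((map_ne_zero_iff _ (IsFractionRing.injective B K)).2 hπ) hlt
  obtain ⟨l0, -, hl0⟩ := Finset.exists_max_image Finset.univ
    (fun l => V.valuation (algebraMap B K (u l))) Finset.univ_nonempty
  have hle : ∀ x ∈ aI (US (p := p) π u) ^ E, w x ≤ w (sharp π (u l0 ^ E)) := by
    have h1 : ∀ x ∈ aI (US (p := p) π u), w x ≤ w (sharp π (u l0)) := by
      intro x hx
      induction hx using Submodule.span_induction with
      | mem x hx =>
        obtain ⟨l, rfl⟩ := hx
        exact (hw _ _).2 (Or.inl (hl0 l (Finset.mem_univ l)))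
      | zero => simp
      | add x y _ _ hx hy => exact w.map_add_le hx hy
      | smul a x _ hx =>
        rw [smul_eq_mul, map_mul]
        exact (mul_le_of_le_one_left' (hw1 a)).trans hx
    intro x hx
    rw [map_pow, map_pow]
    clear h
    induction E generalizing x with
    | zero => rw [pow_zero]; exact hw1 x
    | succ E ih =>
      rw [pow_succ] at hx ⊢
      induction hx using Submodule.mul_induction_on' with
      | mem_mul_mem a ha b hb =>
        rw [map_mul]
        exact mul_le_mul' (ih a ha) (h1 b hb)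
      | add x _ y _ hx hy => exact w.map_add_le hx hy
  rcases (hw _ _).1 (hle _ h) with h2 | h2
  · exact Or.inl ⟨l0, by rwa [map_pow, map_pow] at h2⟩
  · exact Or.inr (h2 _)

omit [IsDomain B] in
include hπ K in
/-- (F1) `U` is regular up to `sharp δ`. -/
theorem regUpTo {M : ℕ} (hM : π ^ M ∈ span (Set.range u)) {J : ℕ} (hJ : 2 * n + 2 ≤ J)
    (hpJ : (p : Untilt p π) ∈ aI (US (p := p) π u) ^ J) {δ : B}
    (hreg : ∀ D (f : MvPolynomial (Fin (n + 1)) B), f.IsHomogeneous D →
      MvPolynomial.eval u f ∈ span (Set.range u) ^ (D + 1) → ∀ a, δ * f.coeff a ∈ span (Set.range u))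
    (L : ℕ) : RegUpTo (US (p := p) π u) (sharp π δ) L := by
  classical
  intro D _ f hf hev a
  rw [Ideal.mem_span_pow_iff_exists_isHomogeneous] at hev
  obtain ⟨g, hg, hgev⟩ := hev
  choose b z hz using fun x : Untilt p π => exists_eq_sharp_add π x
  -- one family containing the terms of `f` and of `-g`
  set t : Finset ((Fin (n + 1) →₀ ℕ) ⊕ (Fin (n + 1) →₀ ℕ)) := f.support.disjSum g.support
  set X : (Fin (n + 1) →₀ ℕ) ⊕ (Fin (n + 1) →₀ ℕ) → Untilt p π :=
    Sum.elim (fun a => f.coeff a) (fun a => -g.coeff a)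
  set e : (Fin (n + 1) →₀ ℕ) ⊕ (Fin (n + 1) →₀ ℕ) → Fin (n + 1) → ℕ :=
    Sum.elim (fun a l => a l) (fun a l => a l)
  have he : ∀ i ∈ t, D ≤ ∑ l, e i l := by
    intro i hi
    rcases Finset.mem_disjSum.1 hi with ⟨a, ha, rfl⟩ | ⟨a, ha, rfl⟩
    · have := hf (MvPolynomial.mem_support_iff.1 ha)
      simp [Finsupp.weight_apply, Finsupp.sum_fintype] at this
      simp [e, this]
    · have := hg (MvPolynomial.mem_support_iff.1 ha)
      simp [Finsupp.weight_apply, Finsupp.sum_fintype] at this
      simp [e, this]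
  have hX : ∑ i ∈ t, X i * ∏ l, US π u l ^ e i l = 0 := by
    simp only [t, Finset.sum_disjSum, X, e, Sum.elim_inl, Sum.elim_inr, neg_mul,
      Finset.sum_neg_distrib, ← MvPolynomial.eval_eq', hgev, add_neg_cancel]
  -- pass to the representatives
  have hS : ∑ i ∈ t, sharp (p := p) π (b (X i) * ∏ l, u l ^ e i l) ∈ aI (US π u) ^ (J + D - n) := by
    have : ∑ i ∈ t, sharp π (b (X i) * ∏ l, u l ^ e i l)
        = -∑ i ∈ t, ((p : Untilt p π) * z (X i)) * ∏ l, US π u l ^ e i l := by
      rw [eq_neg_iff_add_eq_zero, ← Finset.sum_add_distrib, ← hX]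
      refine Finset.sum_congr rfl fun i _ => ?_
      rw [sharp_term]
      linear_combination -(∏ l, US π u l ^ e i l) * hz (X i)
    rw [this]
    refine neg_mem (Ideal.sum_mem _ fun i hi => ?_)
    rw [mul_assoc]
    refine Ideal.pow_le_pow_right (Nat.sub_le _ _) ?_
    rw [pow_add]
    exact Ideal.mul_mem_mul hpJ (prod_US_mem _ (he i hi) _)
  set s := ∑ i ∈ t, b (X i) * ∏ l, u l ^ e i l with hs
  have hsharp : sharp π s ∈ aI (US (p := p) π u) ^ (J + D - n) := by
    have h1 := sharp_sum_mem (p := p) (π := π) (u := u) t (fun i => b (X i)) e (D := D) he (J + D)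
    have hle : span {(p : Untilt p π)} * aI (US π u) ^ (D - n) ⊔
        span {(p : Untilt p π) ^ (J + D + 1)} ≤ aI (US π u) ^ (J + D - n) := by
      refine sup_le ?_ ((span_singleton_le_iff_mem _).2 ?_)
      · refine (Ideal.mul_mono_left ((span_singleton_le_iff_mem _).2 hpJ)).trans ?_
        rw [← pow_add]
        exact Ideal.pow_le_pow_right (by omega)
      · refine Ideal.pow_le_pow_right ?_
          ((pow_mul (aI (US (p := p) π u)) J (J + D + 1)).symm ▸ Ideal.pow_mem_pow hpJ _)
        have : 1 * (J + D + 1) ≤ J * (J + D + 1) := Nat.mul_le_mul_right _ (by omega)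
        omega
    have h2 := add_mem (hle h1) hS
    rwa [sub_add_cancel] at h2
  have hsB : s ∈ span (Set.range u) ^ (D + 1) :=
    Ideal.pow_le_pow_right (by omega) (mem_pow_of_sharp_mem (K := K) hπ hM hsharp)
  -- the part coming from `g` lies in the higher power
  set fB : MvPolynomial (Fin (n + 1)) B :=
    ∑ a ∈ f.support, MvPolynomial.monomial a (b (f.coeff a))
  have hfB : fB.IsHomogeneous D := MvPolynomial.IsHomogeneous.sum _ _ _ fun a ha =>
    MvPolynomial.isHomogeneous_monomial _ (by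
      have := hf (MvPolynomial.mem_support_iff.1 ha)
      simpa [Finsupp.degree_eq_weight_one, Pi.one_def] using this)
  have hevB : MvPolynomial.eval u fB ∈ span (Set.range u) ^ (D + 1) := by
    have hsplit : s = MvPolynomial.eval u fB
        + ∑ a ∈ g.support, b (-g.coeff a) * ∏ l, u l ^ a l := by
      simp [hs, t, X, e, fB, Finset.sum_disjSum, map_sum, MvPolynomial.eval_monomial,
        Finsupp.prod_fintype]
    have hg' : ∑ a ∈ g.support, b (-g.coeff a) * ∏ l, u l ^ a l
        ∈ span (Set.range u) ^ (D + 1) := by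
      refine Ideal.sum_mem _ fun a ha => Ideal.mul_mem_left _ _ ?_
      have hd := hg (MvPolynomial.mem_support_iff.1 ha)
      have hd' : ∑ l, a l = D + 1 := by
        simpa [Finsupp.weight_apply, Finsupp.sum_fintype] using hd
      rw [← hd', ← Finset.prod_pow_eq_pow_sum]
      exact Ideal.prod_mem_prod fun l _ =>
        Ideal.pow_mem_pow (Ideal.mem_span_range_self (x := l)) _
    have := sub_mem hsB hg'
    rwa [hsplit, add_sub_cancel_right] at this
  -- coefficients
  have ha1 : aI (US (p := p) π u) ^ J ≤ aI (US π u) := Ideal.pow_le_self (by omega)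
  by_cases ha : a ∈ f.support
  swap
  · rw [MvPolynomial.notMem_support_iff.1 ha, mul_zero]
    exact zero_mem _
  have hcoef : fB.coeff a = b (f.coeff a) := by
    simp [fB, MvPolynomial.coeff_sum, MvPolynomial.coeff_monomial,
      MvPolynomial.mem_support_iff.1 ha]
  have hδ := hreg D fB hfB hevB a
  rw [hcoef] at hδ
  obtain ⟨c, hc⟩ := Ideal.mem_span_range_iff_exists_fun.1 hδ
  have h1 : sharp π (δ * b (f.coeff a)) ∈ aI (US (p := p) π u) := by
    obtain ⟨y, hy⟩ := dvd_sharp_sum_sub (p := p) (π := π) Finset.univ (fun l => c l * u l)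
    rw [hc] at hy
    rw [sub_eq_iff_eq_add.1 hy]
    refine add_mem (Ideal.mul_mem_right _ _ (ha1 hpJ)) (Ideal.sum_mem _ fun l _ => ?_)
    rw [map_mul]
    exact Ideal.mul_mem_left _ _ (Ideal.mem_span_range_self (x := l))
  rw [show sharp π δ * f.coeff a
    = sharp π (δ * b (f.coeff a)) + (p : Untilt p π) * (sharp π δ * z (f.coeff a)) by
    rw [map_mul]; linear_combination sharp π δ * hz (f.coeff a)]
  exact add_mem h1 (Ideal.mul_mem_right _ _ (ha1 hpJ))

end Vale.Agent.P202.Mixed2.Filt
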