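import Vale.Agent.P202.Zero.PSLength

/-!
# Regularity of roots of the parameters, up to the loss of an almost basis

Powers of the variables of a power series ring are regular, hence so are roots of the variables of
a union of power series rings, and hence, up to `δ`, their images in a ring with a `δ`-almost basis.
-/

namespace Vale.Agent.P202.Mixed2.Filt

open Ideal MvPowerSeries Vale.Agent.P202.Zero

universe u

section PowerSeries

variable {k : Type u} [Field k] {d : ℕ}

/-- The coefficient of a form in powers of the variables at `N a + b` with `b` in the box. -/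
theorem coeff_eval_pow {N D : ℕ} (f : MvPolynomial (Fin d) (PS k d)) (hf : f.IsHomogeneous D)
    (a b : Fin d →₀ ℕ) (hb : ∀ i, b i < N) (ha : a.degree ≤ D) :
    coeff (N • a + b) (MvPolynomial.eval (fun i => (X i : PS k d) ^ N) f)
      = coeff b (f.coeff a) := by
  classical
  rw [MvPolynomial.eval_eq', map_sum]
  have hterm : ∀ a' : Fin d →₀ ℕ,
      (f.coeff a' * ∏ i, ((X i : PS k d) ^ N) ^ a' i)
        = monomial (N • a') 1 * f.coeff a' := by
    intro a'
    rw [mul_comm]
    congr 1
    simp only [← pow_mul]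
    simp only [X_pow_eq]
    rw [MvPowerSeries.prod_monomial (fun i => Finsupp.single i (N * a' i)) (fun _ => (1 : k)),
      Finset.prod_const_one]
    congr 1
    conv_rhs => rw [← Finsupp.univ_sum_single (N • a')]
    simp
  simp only [hterm, coeff_monomial_mul]
  rw [Finset.sum_eq_single a]
  · rw [if_pos le_self_add, add_tsub_cancel_left, one_mul]
  · intro a' ha' hne
    rw [if_neg]
    intro hle
    apply hne
    have hle' : a' ≤ a := fun i => by
      have h1 : N * a' i ≤ N * a i + b i := by simpa using hle i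
      have h2 := hb i
      by_contra hc
      have : N * (a i + 1) ≤ N * a' i := Nat.mul_le_mul_left N (by omega)
      rw [Nat.mul_succ] at this
      omega
    have hdeg : a'.degree = D := by
      have := hf (MvPolynomial.mem_support_iff.1 ha')
      simpa [Finsupp.degree_eq_weight_one, Pi.one_def] using this
    by_contra hne'
    obtain ⟨i, hi⟩ : ∃ i, a' i < a i := by
      by_contra hc
      push Not at hc
      exact hne' (le_antisymm hle' hc)
    have : a'.degree < a.degree := by
      simp only [Finsupp.degree_eq_sum]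
      exact Finset.sum_lt_sum (fun j _ => hle' j) ⟨i, Finset.mem_univ i, hi⟩
    omega
  · intro h
    rw [MvPolynomial.notMem_support_iff.1 h, map_zero, mul_zero, ite_self]

/-- Powers of the variables are regular. -/
theorem pow_variables_regular {N D : ℕ} (f : MvPolynomial (Fin d) (PS k d)) (hf : f.IsHomogeneous D)
    (hev : MvPolynomial.eval (fun i => (X i : PS k d) ^ N) f
      ∈ span (Set.range fun i => (X i : PS k d) ^ N) ^ (D + 1)) (a : Fin d →₀ ℕ) :
    f.coeff a ∈ span (Set.range fun i => (X i : PS k d) ^ N) := by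
  classical
  by_cases ha : f.coeff a = 0
  · rw [ha]; exact zero_mem _
  have hdeg : a.degree = D := by
    have := hf ha
    simpa [Finsupp.degree_eq_weight_one, Pi.one_def] using this
  refine PSLen.mem_zPow_iff.2 fun b hb => ?_
  rw [← coeff_eval_pow f hf a b hb hdeg.le]
  obtain ⟨g, hg, hgev⟩ := (Ideal.mem_span_pow_iff_exists_isHomogeneous _ _).1 hev
  rw [← hgev, coeff_eval_pow g hg a b hb (by omega)]
  by_contra h
  have hne : g.coeff a ≠ 0 := fun h0 => h (by rw [h0, map_zero])
  have := hg hne
  have h2 : a.degree = D + 1 := by simpa [Finsupp.degree_eq_weight_one, Pi.one_def] using this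
  omega

end PowerSeries

section Union

variable {P : Type*} [CommRing P] {k : Type u} [Field k] {d : ℕ}

/-- Roots of the variables of a union of power series rings are regular. -/
theorem regular_of_levels (v : Fin d → P)
    (hlev : ∀ s : Finset P, ∃ (N : ℕ) (ψ : PS k d →+* P),
      Function.Injective ψ ∧ (∀ x ∈ s, x ∈ ψ.range) ∧ ∀ i, ψ (X i ^ N) = v i)
    {D : ℕ} (f : MvPolynomial (Fin d) P) (hf : f.IsHomogeneous D)
    (hev : MvPolynomial.eval v f ∈ span (Set.range v) ^ (D + 1)) (a : Fin d →₀ ℕ) :
    f.coeff a ∈ span (Set.range v) := by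
  classical
  obtain ⟨g, hg, hgev⟩ := (Ideal.mem_span_pow_iff_exists_isHomogeneous _ _).1 hev
  obtain ⟨N, ψ, hinj, hs, hv⟩ := hlev
    (f.support.image (fun b => f.coeff b) ∪ g.support.image (fun b => g.coeff b))
  have hlift : ∀ (q : MvPolynomial (Fin d) P) (E : ℕ), q.IsHomogeneous E →
      (∀ b ∈ q.support, q.coeff b ∈ ψ.range) →
      ∃ q₀ : MvPolynomial (Fin d) (PS k d), q₀.IsHomogeneous E ∧ MvPolynomial.map ψ q₀ = q := by
    intro q E hq hq'
    have : q ∈ (MvPolynomial.map ψ).range := by
      rw [MvPolynomial.as_sum q]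
      refine sum_mem fun b hb => ?_
      obtain ⟨c, hc⟩ := hq' b hb
      exact ⟨MvPolynomial.monomial b c, by rw [MvPolynomial.map_monomial, hc]⟩
    obtain ⟨q₀, rfl⟩ := this
    refine ⟨q₀, fun b hb => hq ?_, rfl⟩
    rw [MvPolynomial.coeff_map]
    exact (map_ne_zero_iff ψ hinj).2 hb
  obtain ⟨f₀, hf₀, rfl⟩ := hlift f D hf fun b hb => hs _ (Finset.mem_union_left _
    (Finset.mem_image_of_mem _ hb))
  obtain ⟨g₀, hg₀, rfl⟩ := hlift g (D + 1) hg fun b hb => hs _ (Finset.mem_union_right _
    (Finset.mem_image_of_mem _ hb))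
  have hv' : v = ψ ∘ fun i => (X i : PS k d) ^ N := funext fun i => (hv i).symm
  rw [hv', MvPolynomial.eval_map, MvPolynomial.eval_map, ← MvPolynomial.eval₂_comp,
    ← MvPolynomial.eval₂_comp] at hgev
  have hev₀ : MvPolynomial.eval (fun i => (X i : PS k d) ^ N) f₀
      ∈ span (Set.range fun i => (X i : PS k d) ^ N) ^ (D + 1) :=
    (Ideal.mem_span_pow_iff_exists_isHomogeneous _ _).2 ⟨g₀, hg₀, hinj hgev⟩
  have := Ideal.mem_map_of_mem ψ (pow_variables_regular f₀ hf₀ hev₀ a)
  rw [Ideal.map_span, ← Set.range_comp, ← hv'] at this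
  rwa [MvPolynomial.coeff_map]

end Union

section Basis

variable {P B : Type*} [CommRing P] [CommRing B] {m : ℕ}

/-- An almost basis carries regularity over, up to its loss. -/
theorem regular_of_basis (φ : P →+* B) (v : Fin m → P) {ι : Type*} [Fintype ι] (e : ι → B) (δ : B)
    (hspan : ∀ b, ∃ c : ι → P, δ * b = ∑ i, φ (c i) * e i)
    (hind : ∀ c : ι → P, ∑ i, φ (c i) * e i = 0 → c = 0)
    (hP : ∀ D (f : MvPolynomial (Fin m) P), f.IsHomogeneous D →
      MvPolynomial.eval v f ∈ span (Set.range v) ^ (D + 1) → ∀ a, f.coeff a ∈ span (Set.range v))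
    (D : ℕ) (f : MvPolynomial (Fin m) B) (hf : f.IsHomogeneous D)
    (hev : MvPolynomial.eval (fun l => φ (v l)) f ∈ span (Set.range fun l => φ (v l)) ^ (D + 1))
    (a : Fin m →₀ ℕ) : δ * f.coeff a ∈ span (Set.range fun l => φ (v l)) := by
  classical
  obtain ⟨g, hg, hgev⟩ := (Ideal.mem_span_pow_iff_exists_isHomogeneous _ _).1 hev
  choose c hc using hspan
  let comp : MvPolynomial (Fin m) B → ι → MvPolynomial (Fin m) P :=
    fun q i => ∑ b ∈ q.support, MvPolynomial.monomial b (c (q.coeff b) i)
  have hhom : ∀ (q : MvPolynomial (Fin m) B) (E : ℕ), q.IsHomogeneous E →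
      ∀ i, (comp q i).IsHomogeneous E := fun q E hq i =>
    MvPolynomial.IsHomogeneous.sum _ _ _ fun b hb => MvPolynomial.isHomogeneous_monomial _ (by
      have := hq (MvPolynomial.mem_support_iff.1 hb)
      simpa [Finsupp.degree_eq_weight_one, Pi.one_def] using this)
  have heval : ∀ q : MvPolynomial (Fin m) B, δ * MvPolynomial.eval (fun l => φ (v l)) q
      = ∑ i, φ (MvPolynomial.eval v (comp q i)) * e i := by
    intro q
    simp only [comp, map_sum, MvPolynomial.eval_monomial, Finset.sum_mul, map_mul, Finsupp.prod,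
      map_prod, map_pow]
    rw [Finset.sum_comm, MvPolynomial.eval_eq, Finset.mul_sum]
    refine Finset.sum_congr rfl fun b _ => ?_
    rw [← mul_assoc, hc, Finset.sum_mul]
    exact Finset.sum_congr rfl fun i _ => mul_right_comm _ _ _
  have hzero : (fun i => MvPolynomial.eval v (comp f i) - MvPolynomial.eval v (comp g i)) = 0 := by
    refine hind _ ?_
    simp only [map_sub, sub_mul, Finset.sum_sub_distrib, ← heval, hgev, sub_self]
  by_cases ha : a ∈ f.support
  swap
  · rw [MvPolynomial.notMem_support_iff.1 ha, mul_zero]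
    exact zero_mem _
  rw [hc (f.coeff a)]
  refine Ideal.sum_mem _ fun i _ => Ideal.mul_mem_right _ _ ?_
  have hi : MvPolynomial.eval v (comp f i) ∈ span (Set.range v) ^ (D + 1) :=
    (Ideal.mem_span_pow_iff_exists_isHomogeneous _ _).2
      ⟨comp g i, hhom g (D + 1) hg i, (sub_eq_zero.1 (congrFun hzero i)).symm⟩
  have h1 := hP D (comp f i) (hhom f D hf i) hi a
  rw [show (comp f i).coeff a = c (f.coeff a) i by
    simp [comp, MvPolynomial.coeff_sum, MvPolynomial.coeff_monomial,
      MvPolynomial.mem_support_iff.1 ha]] at h1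
  have := Ideal.mem_map_of_mem φ h1
  rwa [Ideal.map_span, ← Set.range_comp] at this

end Basis

end Vale.Agent.P202.Mixed2.Filt
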