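import Vale.Agent.P202.Mixed2.Defs

/-!
# Powers of ideals and roots

Preparations for the filtration: `p`-th powers of sums modulo `p` times powers of an ideal, and
fractional exponents.
-/

namespace Vale.Agent.P202.Mixed2.Filt

open Ideal

section Ring

variable {R : Type*} [CommRing R]

theorem range_le_of_mul_le {n : ℕ} (x : Fin (n + 1) → R) {P m e : ℕ} (hP : 0 < P)
    (h : (e + n) * P ≤ m) :
    span (Set.range x) ^ m ≤ span (Set.range fun l => x l ^ P) ^ e := by
  rcases e with _ | e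
  · rw [pow_zero, Ideal.one_eq_top]
    exact le_top
  intro y hy
  rw [Ideal.mem_span_pow_iff_exists_isHomogeneous] at hy
  obtain ⟨f, hf, rfl⟩ := hy
  rw [MvPolynomial.eval_eq]
  refine Ideal.sum_mem _ fun a ha => Ideal.mul_mem_left _ _ ?_
  have hsum : ∑ l, a l = m := by
    have := hf (MvPolynomial.mem_support_iff.1 ha)
    simpa [Finsupp.weight_apply, Finsupp.sum_fintype] using this
  have hdiv : e + 1 ≤ ∑ l, a l / P := by
    by_contra hc
    push Not at hc
    have h1 : ∀ l, a l ≤ P * (a l / P) + (P - 1) := fun l => by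
      have := Nat.div_add_mod (a l) P
      have := Nat.mod_lt (a l) hP
      omega
    have h2 := Finset.sum_le_sum (s := Finset.univ) fun l _ => h1 l
    rw [hsum, Finset.sum_add_distrib, ← Finset.mul_sum, Finset.sum_const, Finset.card_univ,
      Fintype.card_fin, smul_eq_mul] at h2
    obtain ⟨P, rfl⟩ := Nat.exists_eq_succ_of_ne_zero hP.ne'
    rw [Nat.succ_sub_one] at h2
    nlinarith
  refine Ideal.pow_le_pow_right hdiv ?_
  rw [Finset.prod_subset (Finset.subset_univ _) fun l _ hl => by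
    rw [Finsupp.notMem_support_iff.1 hl, pow_zero]]
  rw [← Finset.prod_pow_eq_pow_sum]
  refine Ideal.prod_mem_prod fun l _ => ?_
  rw [show x l ^ a l = (x l ^ P) ^ (a l / P) * x l ^ (a l % P) by
    rw [← pow_mul, ← pow_add, Nat.div_add_mod]]
  exact Ideal.mul_mem_right _ _
    (Ideal.pow_mem_pow (Ideal.mem_span_range_self (x := l)) _)

/-- `(a + b) ^ p - a ^ p - b ^ p` is in `p I ^ p`. -/
theorem add_pow_prime_mem {p : ℕ} (hp : p.Prime) {I : Ideal R} {a b : R} (ha : a ∈ I)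
    (hb : b ∈ I) : (a + b) ^ p - a ^ p - b ^ p ∈ span {(p : R)} * I ^ p := by
  rw [add_pow, Finset.sum_range_succ, Nat.sub_self, pow_zero, mul_one, Nat.choose_self,
    Nat.cast_one, mul_one, Finset.range_eq_Ico, Finset.sum_eq_sum_Ico_succ_bot hp.pos, pow_zero,
    one_mul, Nat.sub_zero, Nat.choose_zero_right, Nat.cast_one, mul_one]
  rw [show b ^ p + ∑ k ∈ Finset.Ico (0 + 1) p, a ^ k * b ^ (p - k) * (p.choose k : R) + a ^ p
      - a ^ p - b ^ p = ∑ k ∈ Finset.Ico (0 + 1) p, a ^ k * b ^ (p - k) * (p.choose k : R) by ring]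
  refine Ideal.sum_mem _ fun k hk => ?_
  rw [Finset.mem_Ico] at hk
  obtain ⟨c, hc⟩ := hp.dvd_choose_self (k := k) (by omega) hk.2
  rw [hc, Nat.cast_mul, show a ^ k * b ^ (p - k) * ((p : R) * c) = (p : R) * (c * (a ^ k * b ^ (p - k))) by
    ring]
  refine Ideal.mul_mem_mul (mem_span_singleton_self _) (Ideal.mul_mem_left _ _ ?_)
  have := Ideal.mul_mem_mul (Ideal.pow_mem_pow ha k) (Ideal.pow_mem_pow hb (p - k))
  rwa [← pow_add, Nat.add_sub_cancel' hk.2.le] at this

/-- `(∑ f) ^ p - ∑ f ^ p` is in `p I ^ p`. -/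
theorem sum_pow_prime_mem {p : ℕ} (hp : p.Prime) {I : Ideal R} {ι : Type*} (t : Finset ι)
    (f : ι → R) (hf : ∀ i ∈ t, f i ∈ I) :
    (∑ i ∈ t, f i) ^ p - ∑ i ∈ t, f i ^ p ∈ span {(p : R)} * I ^ p := by
  classical
  induction t using Finset.induction with
  | empty => simp [hp.ne_zero]
  | insert a t ha ih =>
    rw [Finset.sum_insert ha, Finset.sum_insert ha]
    have h1 := add_pow_prime_mem hp (hf a (Finset.mem_insert_self a t))
      (Ideal.sum_mem I fun i hi => hf i (Finset.mem_insert_of_mem hi))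
    have h2 := ih fun i hi => hf i (Finset.mem_insert_of_mem hi)
    rw [show (f a + ∑ i ∈ t, f i) ^ p - (f a ^ p + ∑ i ∈ t, f i ^ p)
      = ((f a + ∑ i ∈ t, f i) ^ p - f a ^ p - (∑ i ∈ t, f i) ^ p)
        + ((∑ i ∈ t, f i) ^ p - ∑ i ∈ t, f i ^ p) by ring]
    exact add_mem h1 h2

/-- Iterated form. -/
theorem sum_pow_pow_mem {p : ℕ} (hp : p.Prime) {I : Ideal R} {ι : Type*} (t : Finset ι)
    (f : ι → R) (hf : ∀ i ∈ t, f i ∈ I) (k : ℕ) :
    (∑ i ∈ t, f i) ^ p ^ k - ∑ i ∈ t, f i ^ p ^ k ∈ span {(p : R)} * I ^ p ^ k := by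
  induction k with
  | zero => simp
  | succ k ih =>
    obtain ⟨z, hz, hz'⟩ := Ideal.mem_span_singleton_mul.1 ih
    set S := ∑ i ∈ t, f i ^ p ^ k
    have hS : S ∈ I ^ p ^ k := Ideal.sum_mem _ fun i hi => Ideal.pow_mem_pow (hf i hi) _
    have hpz : (p : R) * z ∈ I ^ p ^ k := Ideal.mul_mem_left _ _ hz
    have h1 := add_pow_prime_mem hp hS hpz
    have h2 := sum_pow_prime_mem hp t (fun i => f i ^ p ^ k) fun i hi =>
      Ideal.pow_mem_pow (hf i hi) _
    have h3 : ((p : R) * z) ^ p ∈ span {(p : R)} * (I ^ p ^ k) ^ p := by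
      rw [mul_pow]
      exact Ideal.mul_mem_mul (Ideal.mem_span_singleton.2 (dvd_pow_self _ hp.ne_zero))
        (Ideal.pow_mem_pow hz p)
    simp only [← pow_mul] at h1 h2 h3 ⊢
    rw [← pow_succ] at h1 h2 h3
    rw [show (∑ i ∈ t, f i) ^ p ^ (k + 1) = (S + (p : R) * z) ^ p by
      rw [pow_succ, pow_mul, hz', add_sub_cancel]]
    rw [show (S + (p : R) * z) ^ p - ∑ i ∈ t, f i ^ p ^ (k + 1)
      = ((S + (p : R) * z) ^ p - S ^ p - ((p : R) * z) ^ p)
        + (S ^ p - ∑ i ∈ t, f i ^ p ^ (k + 1)) + ((p : R) * z) ^ p by ring]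
    exact add_mem (add_mem h1 h2) h3

/-- In a ring complete for `(p)`, `p ^ N` lies in an ideal as soon as it lies in it modulo
`p ^ (N + 1)`. -/
theorem pow_mem_of_mem_sup {p : R} [IsAdicComplete (span {p}) R] {I : Ideal R} {N : ℕ}
    (h : p ^ N ∈ I ⊔ span {p ^ (N + 1)}) : p ^ N ∈ I := by
  obtain ⟨a, ha, b, hb, hab⟩ := Submodule.mem_sup.1 h
  obtain ⟨z, rfl⟩ := Ideal.mem_span_singleton.1 hb
  have hu : IsUnit (1 - p * z) := by
    refine Ideal.isUnit_of_sub_one_mem_jacobson_bot _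
      ((IsAdicComplete.le_jacobson_bot (span {p})) ?_)
    rw [show 1 - p * z - 1 = p * -z by ring]
    exact mem_span_singleton.2 (dvd_mul_right _ _)
  obtain ⟨e, he⟩ := hu.exists_right_inv
  rw [show p ^ N = a * e by linear_combination (-(p ^ N)) * he - e * hab]
  exact I.mul_mem_right e ha

end Ring

section Perfect

variable {B : Type*} [CommRing B] (p : ℕ) [ExpChar B p] [PerfectRing B p]

/-- The `p ^ k`-th root. -/
noncomputable def root (k : ℕ) : B ≃+* B := (iterateFrobeniusEquiv B p k).symm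

theorem root_pow (k : ℕ) (b : B) : root p k b ^ p ^ k = b := by
  rw [root, ← iterateFrobeniusEquiv_def, RingEquiv.apply_symm_apply]

/-- The root of an element of a power of an ideal. -/
theorem root_mem {n : ℕ} (u : Fin (n + 1) → B) (k : ℕ) {b : B} {J : ℕ}
    (hb : b ∈ span (Set.range u) ^ J) :
    root p k b ∈ span (Set.range fun l => root p k (u l)) ^ J := by
  have h := Ideal.mem_map_of_mem (root p k : B ≃+* B) hb
  rwa [Ideal.map_pow, Ideal.map_span, ← Set.range_comp] at h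

/-- Integrality over `(u) ^ E` gives membership in a slightly smaller power. -/
theorem mem_pow_of_pow_mem {n : ℕ} (hp : 1 < p) (u : Fin (n + 1) → B) {E N : ℕ} {s : B}
    (h : ∀ j, s ^ (N + j) ∈ (span (Set.range u) ^ E) ^ j) :
    s ∈ span (Set.range u) ^ (E - 1 - n) := by
  rcases Nat.lt_or_ge n E with hnE | hnE
  swap
  · rw [show E - 1 - n = 0 by omega, pow_zero, Ideal.one_eq_top]
    trivial
  obtain ⟨k, hk⟩ : ∃ k, E * N + N < p ^ k := ⟨_, Nat.lt_pow_self hp⟩
  have hNP : N ≤ p ^ k := by omega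
  have h1 := h (p ^ k - N)
  rw [Nat.add_sub_cancel' hNP, ← pow_mul] at h1
  have h2 := root_mem p u k h1
  rw [show root p k (s ^ p ^ k) = s by
    rw [map_pow, root_pow]] at h2
  have h3 := range_le_of_mul_le (fun l => root p k (u l)) (P := p ^ k) (e := E - 1 - n)
    (m := E * (p ^ k - N)) (by omega) (by
      rw [show E - 1 - n + n = E - 1 by omega, Nat.sub_mul, Nat.mul_sub, one_mul]
      omega) h2
  simpa [root_pow] using h3

end Perfect

end Vale.Agent.P202.Mixed2.Filt
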