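import Vale.Agent.P202.Char.Defs

/-!
P202, mixed characteristic: shared vocabulary of the files downstream of the cover.
-/

namespace Vale.Agent.P202.Mixed2

universe u

variable {T : Type u} [CommRing T] {n : ℕ}

/-- The ideal of the chosen elements. -/
abbrev aI (U : Fin (n + 1) → T) : Ideal T := Ideal.span (Set.range U)

/-- `U` is regular up to `β` and degree `L`: a form of degree `D < L` with value in the next power
of the ideal has coefficients which `β` moves into the ideal. -/
def RegUpTo (U : Fin (n + 1) → T) (β : T) (L : ℕ) : Prop :=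
  ∀ D < L, ∀ f : MvPolynomial (Fin (n + 1)) T, f.IsHomogeneous D →
    MvPolynomial.eval U f ∈ aI U ^ (D + 1) → ∀ a, β * f.coeff a ∈ aI U

/-- Degree zero tuples. -/
abbrev Deg0 (Q : Char.MCx T) : Submodule T (Q.β → T) := Q.degSub T 0

/-- The image of the differential in degree zero. -/
noncomputable def img0 (Q : Char.MCx T) : Submodule T (Deg0 Q) :=
  ((Q.degSub T 1).map (Q.dlin T)).comap (Deg0 Q).subtype

/-- The homology in degree zero. -/
abbrev H0 (Q : Char.MCx T) : Type u := Deg0 Q ⧸ img0 Q

end Vale.Agent.P202.Mixed2
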