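import Vale.Agent.P202.Mixed2.Filtration
import Vale.Agent.P202.Mixed2.Cover.Model

/-!
# Division with loss in the untilt of a perfect normal domain

`H` is approximated by `sharp b` at every point and `c` is the `P`-th root of `b`, `P = p ^ j`.  An
element which is at most `max (|c| ^ (P + 1), |p| ^ m)` at every point is, for `m` large, divisible by
`H` modulo a given power of `p`.
-/

namespace Vale.Agent.P202.Mixed2

open Ideal Vale.Agent.P202.Perf

universe u v

variable {p : ℕ} [hp : Fact p.Prime]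

section Basic

variable {B : Type u} [CommRing B] [CharP B p] {π : B} {Γ : Type v} [LinearOrderedCommGroupWithZero Γ]

/-- The valuations of the untilt used as test points. -/
structure IsPt (w : Valuation (Untilt p π) Γ) : Prop where
  le_one : ∀ y, w y ≤ 1
  p_ne_zero : w (p : Untilt p π) ≠ 0
  p_lt_one : w (p : Untilt p π) < 1

theorem IsPt.comap {C : Type u} [CommRing C] [CharP C p] (f : B →+* C)
    {w : Valuation (Untilt p (f π)) Γ} (hw : IsPt w) : IsPt (w.comap (mapUntilt f π)) :=
  ⟨fun y => hw.le_one _, by simpa using hw.p_ne_zero, by simpa using hw.p_lt_one⟩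

omit [CharP B p] in
theorem le_of_le_max_mul {r a X : Γ} (hr : r < 1) (h : a ≤ max X (r * a)) : a ≤ X := by
  rcases le_max_iff.1 h with h | h
  · exact h
  · rcases eq_or_ne a 0 with rfl | ha
    · exact zero_le
    · exact absurd h (not_le.2 (mul_lt_of_lt_one_left (pos_iff_ne_zero.2 ha) hr))

variable [PerfectRing B p]

/-- The defect of additivity of the Teichmüller map at a point. -/
theorem val_sharp_add_sub {w : Valuation (Untilt p π) Γ} (hw : IsPt w) (x y : B) (N : ℕ) :
    w (sharp π (x + y) - (sharp π x + sharp π y)) ≤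
      w (p : Untilt p π) * max (max (w (sharp π x)) (w (sharp π y))) (w (p : Untilt p π) ^ N) := by
  set x' := Filt.root p N x with hx'
  set y' := Filt.root p N y with hy'
  set a := sharp (p := p) π x' with ha
  set b := sharp (p := p) π y' with hb
  have hxa : sharp π x = a ^ p ^ N := by rw [ha, ← map_pow, hx', Filt.root_pow]
  have hyb : sharp π y = b ^ p ^ N := by rw [hb, ← map_pow, hy', Filt.root_pow]
  have hdvd : (p : Untilt p π) ^ (N + 1) ∣ sharp π (x + y) - (a + b) ^ p ^ N := by
    have h := dvd_sub_pow_of_dvd_sub (dvd_sharp_add_sub (p := p) π x' y') N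
    rwa [← map_pow, hx', hy', ← map_add, Filt.root_pow] at h
  let M := max (w a) (w b)
  let I : Ideal (Untilt p π) :=
    { carrier := {z | w z ≤ M}
      add_mem' := fun hz hz' => w.map_add_le hz hz'
      zero_mem' := by simp
      smul_mem' := fun c z hz => by
        show w (c • z) ≤ M
        rw [smul_eq_mul, map_mul]
        exact (mul_le_of_le_one_left' (hw.le_one c)).trans hz }
  have hI : ∀ (n : ℕ) z, z ∈ I ^ n → w z ≤ M ^ n := by
    intro n
    induction n with
    | zero => intro z _; rw [pow_zero]; exact hw.le_one z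
    | succ n ih =>
      intro z hz
      rw [pow_succ] at hz ⊢
      induction hz using Submodule.mul_induction_on' with
      | mem_mul_mem s hs t ht =>
        rw [map_mul]
        exact mul_le_mul' (ih s hs) ht
      | add s _ t _ hs ht => exact w.map_add_le hs ht
  have hmem := Filt.sum_pow_pow_mem hp.out (I := I) (Finset.univ : Finset (Fin 2)) ![a, b]
    (fun i _ => by
      fin_cases i
      · exact le_max_left (w a) (w b)
      · exact le_max_right (w a) (w b)) N
  simp only [Fin.sum_univ_two, Matrix.cons_val_zero, Matrix.cons_val_one] at hmem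
  obtain ⟨z, hz, hz'⟩ := Ideal.mem_span_singleton_mul.1 hmem
  have hMp : M ^ p ^ N = max (w (sharp π x)) (w (sharp π y)) := by
    rw [hxa, hyb, map_pow, map_pow]
    exact (pow_left_mono (p ^ N)).map_max
  rw [hxa, hyb, show sharp π (x + y) - (a ^ p ^ N + b ^ p ^ N) =
    (sharp π (x + y) - (a + b) ^ p ^ N) + (p : Untilt p π) * z by rw [hz']; ring, ← hxa, ← hyb]
  refine w.map_add_le ((val_le_of_dvd w hw.le_one hdvd).trans ?_) ?_
  · rw [map_pow, pow_succ']
    exact mul_le_mul_right (le_max_right _ _) _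
  · rw [map_mul, ← hMp]
    exact mul_le_mul_right ((hI _ _ hz).trans (le_max_left _ _)) _

/-- The Teichmüller map is nonarchimedean at a point. -/
theorem val_sharp_add {w : Valuation (Untilt p π) Γ} (hw : IsPt w) (x y : B) (N : ℕ) :
    w (sharp π (x + y)) ≤
      max (max (w (sharp π x)) (w (sharp π y))) (w (p : Untilt p π) ^ N) := by
  rw [show sharp π (x + y) = (sharp π (x + y) - (sharp π x + sharp π y)) + (sharp (p := p) π x + sharp π y)
    by ring]
  refine w.map_add_le ?_ ?_
  · exact (val_sharp_add_sub hw x y N).trans (mul_le_of_le_one_left' (hw.le_one _))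
  · exact le_max_of_le_left (w.map_add_le (le_max_left _ _) (le_max_right _ _))

theorem val_sharp_neg {w : Valuation (Untilt p π) Γ} (hw : IsPt w) (x : B) :
    w (sharp π (-x)) = w (sharp π x) := by
  have h : ∀ y : B, w (sharp π (-y)) ≤ w (sharp π y) := fun y => by
    rw [← neg_one_mul y, map_mul, map_mul]
    exact mul_le_of_le_one_left' (hw.le_one _)
  exact le_antisymm (h x) (by simpa using h (-x))

end Basic

section Divide

variable {B : Type u} [CommRing B] [CharP B p] [PerfectRing B p] [IsDomain B] [IsIntegrallyClosed B]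
variable {K : Type u} [Field K] [Algebra B K] [IsFractionRing B K] [CharP K p] [PerfectRing K p]
variable {π : B} [Fact (π ≠ 0)] [Fact ¬IsUnit π]

/-- The precision needed for `t` steps. -/
def divPrec (P : ℕ) : ℕ → ℕ
  | 0 => 0
  | t + 1 => 2 * (P + 1) * (divPrec P t + 1)

omit [IsIntegrallyClosed B] in
include K in
/-- An element bounded by `c ^ (P + 1)` and a power of `π` lies in `(c ^ P, π ^ m)`. -/
theorem mem_span_of_bound (j m : ℕ) {c s : B}
    (h : ∀ V : ValuationSubring K, (∀ b, algebraMap B K b ∈ V) →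
      V.valuation (algebraMap B K π) < 1 →
      V.valuation (algebraMap B K s) ≤ V.valuation (algebraMap B K c) ^ (p ^ j + 1) ∨
        V.valuation (algebraMap B K s) ≤ V.valuation (algebraMap B K π) ^ (2 * (p ^ j + 1) * m)) :
    ∃ g e, s = c ^ p ^ j * g + π ^ m * e := by
  set P := p ^ j with hP
  set m₁ := 2 * (P + 1) * m with hm₁
  obtain ⟨i, hi⟩ : ∃ i, 4 * (P + 1) < p ^ i := ⟨_, Nat.lt_pow_self hp.out.one_lt⟩
  set q := p ^ i with hq
  set u : Fin 2 → B := ![Filt.root p i c ^ (P + 1), Filt.root p i π ^ m₁] with hu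
  have hu0 : u 0 ^ q = c ^ (P + 1) := by
    simp only [hu, hq, Matrix.cons_val_zero]
    rw [pow_right_comm, Filt.root_pow]
  have hu1 : u 1 ^ q = π ^ m₁ := by
    simp only [hu, hq, Matrix.cons_val_one, Matrix.cons_val_zero]
    rw [pow_right_comm, Filt.root_pow]
  have hq0 : ∀ l, u l ^ q ∈ span (Set.range u) ^ q := fun l =>
    Ideal.pow_mem_pow (Ideal.mem_span_range_self (x := l)) q
  obtain ⟨N, hN⟩ := exists_pow_succ_mem_of_le_valuation (K := K) (span (Set.range u) ^ q) s
    fun V hV => by
      rcases lt_or_eq_of_le ((V.valuation_le_one_iff _).2 (hV π)) with hlt | heq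
      · rcases h V hV hlt with hl | hl
        · exact ⟨u 0 ^ q, hq0 0, by rwa [hu0, map_pow, map_pow]⟩
        · exact ⟨u 1 ^ q, hq0 1, by rwa [hu1, map_pow, map_pow]⟩
      · refine ⟨u 1 ^ q, hq0 1, ?_⟩
        rw [hu1, map_pow, map_pow, heq, one_pow]
        exact (V.valuation_le_one_iff _).2 (hV s)
  have hs : s ∈ span (Set.range u) ^ (q - 1 - 1) :=
    Filt.mem_pow_of_pow_mem p hp.out.one_lt u (pow_add_mem_pow hN)
  have hle : span (Set.range u) ^ (q - 1 - 1) ≤ span {c ^ P, π ^ m} := by
    intro x hx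
    obtain ⟨t, d, ht, rfl⟩ := Filt.exists_terms hx
    refine Ideal.sum_mem _ fun a ha => Ideal.mul_mem_left _ _ ?_
    have hsum := ht a ha
    rw [Fin.sum_univ_two] at hsum
    rw [Fin.prod_univ_two]
    rcases le_or_gt (q * P) ((P + 1) * a 0) with h0 | h0
    · refine Ideal.mul_mem_right _ _ (Ideal.mem_span_pair.2 ⟨Filt.root p i c ^ ((P + 1) * a 0 - q * P), 0, ?_⟩)
      rw [zero_mul, add_zero, hu, Matrix.cons_val_zero, ← pow_mul]
      conv_rhs => rw [← Nat.sub_add_cancel h0]
      rw [pow_add, pow_mul _ q, hq, Filt.root_pow]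
    · have h1 : q * m ≤ m₁ * a 1 := by
        have hkey : q ≤ 2 * ((P + 1) * a 1) := by
          have e1 : (P + 1) * a 0 + (P + 1) * a 1 = (P + 1) * (q - 1 - 1) := by
            rw [← Nat.mul_add, hsum]
          have e2 : (P + 1) * (q - 1 - 1) + 2 * (P + 1) = (P + 1) * q := by
            rw [mul_comm 2, ← Nat.mul_add]
            congr 1
            omega
          have e3 : (P + 1) * q = q * P + q := by ring
          omega
        calc q * m ≤ 2 * ((P + 1) * a 1) * m := Nat.mul_le_mul_right m hkey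
          _ = m₁ * a 1 := by rw [hm₁]; ring
      refine Ideal.mul_mem_left _ _ (Ideal.mem_span_pair.2 ⟨0, Filt.root p i π ^ (m₁ * a 1 - q * m), ?_⟩)
      rw [zero_mul, zero_add, hu, Matrix.cons_val_one, Matrix.cons_val_zero, ← pow_mul]
      conv_rhs => rw [← Nat.sub_add_cancel h1]
      rw [pow_add, pow_mul _ q, hq, Filt.root_pow]
  obtain ⟨g, e, hge⟩ := Ideal.mem_span_pair.1 (hle hs)
  exact ⟨g, e, by rw [← hge]; ring⟩

include K in
/-- One step of the division. -/
theorem divide_step (j m : ℕ) {c : B} {H : Untilt p π} {M : ℕ}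
    (hH : ∀ (Γ : Type u) [LinearOrderedCommGroupWithZero Γ] (w : Valuation (Untilt p π) Γ), IsPt w →
      w (H - sharp π (c ^ p ^ j)) ≤
        w (p : Untilt p π) * max (w (sharp π (c ^ p ^ j))) (w (p : Untilt p π) ^ M))
    (hM : m ≤ M) {ψ : Untilt p π}
    (hψ : ∀ (Γ : Type u) [LinearOrderedCommGroupWithZero Γ] (w : Valuation (Untilt p π) Γ), IsPt w →
      w ψ ≤ max (w (sharp π c) ^ (p ^ j + 1))
        (w (p : Untilt p π) ^ (2 * (p ^ j + 1) * (m + 1)))) :
    ∃ g ψ', ψ = H * g + (p : Untilt p π) * ψ' ∧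
      ∀ (Γ : Type u) [LinearOrderedCommGroupWithZero Γ] (w : Valuation (Untilt p π) Γ), IsPt w →
        w ψ' ≤ max (w (sharp π c) ^ (p ^ j + 1)) (w (p : Untilt p π) ^ m) := by
  set P := p ^ j
  set m₁ := 2 * (P + 1) * (m + 1)
  obtain ⟨s, -, hs⟩ := exists_sharp_approx_dvd.{u, u} ψ m₁
  have hsb : ∀ (Γ : Type u) [LinearOrderedCommGroupWithZero Γ] (w : Valuation (Untilt p π) Γ), IsPt w →
      w (sharp π s) ≤ max (w (sharp π c) ^ (P + 1)) (w (p : Untilt p π) ^ m₁) := by
    intro Γ _ w hw
    refine le_of_le_max_mul hw.p_lt_one ?_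
    rw [show sharp π s = ψ - (ψ - sharp π s) by ring]
    refine w.map_sub_le (le_max_of_le_left (hψ Γ w hw)) ?_
    rw [show ψ - (ψ - sharp π s) = sharp π s by ring]
    refine (hs Γ w hw.le_one).trans ?_
    rcases le_total (w (sharp π s)) (w (p : Untilt p π) ^ m₁) with h | h
    · rw [max_eq_right h]
      exact le_max_of_le_left (le_max_of_le_right (mul_le_of_le_one_left' (hw.le_one _)))
    · rw [max_eq_left h]
      exact le_max_right _ _
  obtain ⟨g, e, hge⟩ := mem_span_of_bound (K := K) (π := π) (p := p) j (m + 1) (c := c) (s := s)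
    fun V hV hlt => by
      obtain ⟨Γ, _, w, h1, h0, h2, h3⟩ := exists_pointVal (p := p) V (algebraMap B K) hV π
        ((map_ne_zero_iff _ (IsFractionRing.injective B K)).2 Fact.out) hlt
      have h := hsb Γ w ⟨h1, h0, h2⟩
      simp only [← sharp_self (p := p) π, ← map_pow] at h
      rcases le_max_iff.1 h with h | h
      · rcases (h3 _ _).1 h with h | h
        · exact Or.inl (by rwa [map_pow, map_pow] at h)
        · exact Or.inr (h _)
      · rcases (h3 _ _).1 h with h | h
        · exact Or.inr (by rwa [map_pow, map_pow] at h)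
        · exact Or.inr (h _)
  set y := π ^ (m + 1) * e with hy
  have hy' : ∀ (Γ : Type u) [LinearOrderedCommGroupWithZero Γ] (w : Valuation (Untilt p π) Γ), IsPt w →
      w (sharp π y) ≤ w (p : Untilt p π) * w (p : Untilt p π) ^ m := by
    intro Γ _ w hw
    rw [hy, map_mul, map_mul, map_pow, map_pow, sharp_self, pow_succ']
    exact mul_le_of_le_one_right' (hw.le_one _)
  have hbound : ∀ (Γ : Type u) [LinearOrderedCommGroupWithZero Γ] (w : Valuation (Untilt p π) Γ),
      IsPt w → w (ψ - H * sharp π g) ≤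
        w (p : Untilt p π) * max (w (sharp π c) ^ (P + 1)) (w (p : Untilt p π) ^ m) := by
    intro Γ _ w hw
    set T := max (w (sharp π c) ^ (P + 1)) (w (p : Untilt p π) ^ m)
    have hmT : w (p : Untilt p π) ^ m₁ ≤ T := le_max_of_le_right
      (pow_le_pow_right_of_le_one' (hw.le_one _) ((Nat.le_succ m).trans (Nat.le_mul_of_pos_left _ (by positivity))))
    have hsT : w (sharp π s) ≤ T := (hsb Γ w hw).trans (max_le (le_max_left _ _) hmT)
    have hyT : w (sharp π y) ≤ T :=
      (hy' Γ w hw).trans ((mul_le_of_le_one_left' (hw.le_one _)).trans (le_max_right _ _))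
    have hbg : w (sharp π (c ^ P * g)) ≤ T := by
      rw [show c ^ P * g = s + -y by rw [hge]; ring]
      refine (val_sharp_add hw _ _ m).trans (max_le (max_le hsT ?_) (le_max_right _ _))
      rw [val_sharp_neg hw]
      exact hyT
    rw [show ψ - H * sharp π g = (ψ - sharp π s)
      + (sharp π (c ^ P * g + y) - (sharp π (c ^ P * g) + sharp π y)) + sharp π y
      + (-((H - sharp π (c ^ P)) * sharp π g)) by rw [← hge, map_mul]; ring]
    refine w.map_add_le (w.map_add_le (w.map_add_le ?_ ?_) ?_) ?_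
    · exact (hs Γ w hw.le_one).trans (mul_le_mul_right (max_le hsT hmT) _)
    · exact (val_sharp_add_sub hw _ _ m).trans
        (mul_le_mul_right (max_le (max_le hbg hyT) (le_max_right _ _)) _)
    · exact (hy' Γ w hw).trans (mul_le_mul_right (le_max_right _ _) _)
    · rw [Valuation.map_neg, map_mul]
      refine (mul_le_mul_left (hH Γ w hw) _).trans ?_
      rw [mul_assoc]
      refine mul_le_mul_right ?_ _
      rcases le_total (w (sharp π (c ^ P))) (w (p : Untilt p π) ^ M) with h | h
      · rw [max_eq_right h]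
        exact le_max_of_le_right ((mul_le_of_le_one_right' (hw.le_one _)).trans
          (pow_le_pow_right_of_le_one' (hw.le_one _) hM))
      · rw [max_eq_left h, ← map_mul, ← map_mul]
        exact hbg
  obtain ⟨ψ', hψ'⟩ : (p : Untilt p π) ∣ ψ - H * sharp π g := by
    have := pow_dvd_of_points (K := K) (p := p) (Fact.out : π ≠ 0) 1 (x := ψ - H * sharp π g)
      fun Γ _ w h1 h0 h2 => by
        rw [pow_one]
        exact (hbound Γ w ⟨h1, h0, h2⟩).trans (mul_le_of_le_one_right'
          (max_le (pow_le_one₀ zero_le (h1 _)) (pow_le_one₀ zero_le (h1 _))))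
    rwa [pow_one] at this
  refine ⟨sharp π g, ψ', by rw [← hψ']; ring, fun Γ _ w hw => ?_⟩
  have h := hbound Γ w hw
  rw [hψ', map_mul] at h
  exact le_of_mul_le_mul_left h (pos_iff_ne_zero.2 hw.p_ne_zero)

include K in
/-- Division by `H` modulo `p ^ t`. -/
theorem exists_divide (j t : ℕ) {c : B} {H : Untilt p π} {M : ℕ} (hM : divPrec (p ^ j) t ≤ M)
    (hH : ∀ (Γ : Type u) [LinearOrderedCommGroupWithZero Γ] (w : Valuation (Untilt p π) Γ), IsPt w →
      w (H - sharp π (c ^ p ^ j)) ≤
        w (p : Untilt p π) * max (w (sharp π (c ^ p ^ j))) (w (p : Untilt p π) ^ M))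
    {ψ : Untilt p π}
    (hψ : ∀ (Γ : Type u) [LinearOrderedCommGroupWithZero Γ] (w : Valuation (Untilt p π) Γ), IsPt w →
      w ψ ≤ max (w (sharp π c) ^ (p ^ j + 1)) (w (p : Untilt p π) ^ divPrec (p ^ j) t)) :
    ∃ g, (p : Untilt p π) ^ t ∣ ψ - H * g := by
  induction t generalizing ψ with
  | zero => exact ⟨0, by simp⟩
  | succ t ih =>
    simp only [divPrec] at hM hψ
    have hle : divPrec (p ^ j) t ≤ M := by
      have : divPrec (p ^ j) t + 1 ≤ 2 * (p ^ j + 1) * (divPrec (p ^ j) t + 1) :=
        Nat.le_mul_of_pos_left _ (by positivity)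
      omega
    obtain ⟨g, ψ', hdec, hψ'⟩ := divide_step (K := K) j (divPrec (p ^ j) t) hH hle hψ
    obtain ⟨g', z, hz⟩ := ih hle hψ'
    refine ⟨g + (p : Untilt p π) * g', z, ?_⟩
    rw [hdec, pow_succ]
    linear_combination (p : Untilt p π) * hz

end Divide

end Vale.Agent.P202.Mixed2
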