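import Vale.Agent.P202.Ext.Setting
import Vale.Agent.P202.Lech

/-!
P202 mixed characteristic: along a flat local map whose closed fibre is a power series ring over a
field the multiplicity does not decrease.
-/

namespace Vale.Agent.P202.Mixed2.FibreMult

open IsLocalRing Filter Topology Vale.Agent.P202.Char Vale.Agent.P202.Zero
open scoped TensorProduct

set_option linter.unusedSectionVars false

universe u

/-- Splitting a length at an intermediate submodule. -/
theorem length_split_at {A : Type u} [CommRing A] {a b : Ideal A} (h : a ≤ b) :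
    Module.length A (A ⧸ a) =
      Module.length A (Submodule.map a.mkQ b) + Module.length A (A ⧸ b) := by
  refine Module.length_eq_add_of_exact (Submodule.map a.mkQ b).subtype
    (Submodule.factor h) Subtype.val_injective (Submodule.factor_surjective h) ?_
  intro y
  obtain ⟨y, rfl⟩ := Submodule.mkQ_surjective a y
  simp only [Submodule.mkQ_apply, Submodule.mapQ_apply, LinearMap.id_coe, id_eq,
    Submodule.Quotient.mk_eq_zero, Submodule.coe_subtype, Subtype.range_coe_subtype,
    Set.mem_ofPred_eq]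
  refine ⟨fun hy => ⟨y, hy, rfl⟩, ?_⟩
  rintro ⟨z, hz, hzy⟩
  rw [Submodule.mkQ_apply, Submodule.Quotient.eq] at hzy
  have := sub_mem hz (h hzy)
  rwa [sub_sub_cancel] at this

/-- Lengths and the modular inequality. -/
theorem toNat_le {A : Type u} [CommRing A] {a b i : Ideal A} (hab : a ≤ b) (hai : a ≤ i)
    (hfin : Module.length A (A ⧸ a) ≠ ⊤) :
    (Module.length A (A ⧸ b)).toNat + (Module.length A (A ⧸ i)).toNat ≤
      (Module.length A (A ⧸ a)).toNat + (Module.length A (A ⧸ (b ⊔ i))).toNat := by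
  have h1 := length_split_at hab
  have h2 := length_split_at (le_sup_right : i ≤ b ⊔ i)
  have h3 : Module.length A (Submodule.map i.mkQ (b ⊔ i)) ≤
      Module.length A (Submodule.map a.mkQ b) := by
    have hmap : Submodule.map (Submodule.factor hai) (Submodule.map a.mkQ b) =
        Submodule.map i.mkQ (b ⊔ i) := by
      rw [Submodule.map_sup, ← Submodule.map_comp]
      have h0 : Submodule.map i.mkQ i = ⊥ := Submodule.mkQ_map_self i
      rw [h0, sup_bot_eq]
      exact congrArg (fun f => Submodule.map f b) (LinearMap.ext fun x => rfl)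
    rw [← hmap]
    exact Module.length_le_of_surjective ((Submodule.factor hai).submoduleMap _)
      (LinearMap.submoduleMap_surjective _ _)
  have hib : Module.length A (A ⧸ (b ⊔ i)) ≠ ⊤ :=
    ne_top_of_le_ne_top hfin (length_quotient_mono (hab.trans le_sup_left))
  have hb : Module.length A (A ⧸ b) ≠ ⊤ := ne_top_of_le_ne_top hfin (length_quotient_mono hab)
  have hm : Module.length A (Submodule.map a.mkQ b) ≠ ⊤ :=
    ne_top_of_le_ne_top hfin (le_self_add.trans h1.ge)
  rw [h1, h2, ENat.toNat_add hm hb, ENat.toNat_add (ne_top_of_le_ne_top hm h3) hib]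
  have := ENat.toNat_le_toNat h3 hm
  omega

theorem length_quotient_add {d h N : ℕ} :
    (PSLen.lowSet (d + h) N).card = ∑ a ∈ PSLen.lowSet h N,
      (PSLen.lowSet d (N - a.degree)).card := by
  classical
  rw [← Finset.card_sigma]
  refine Finset.card_nbij'
    (fun γ => ⟨Finsupp.equivFunOnFinite.symm fun j => γ (Fin.natAdd d j),
      Finsupp.equivFunOnFinite.symm fun i => γ (Fin.castAdd h i)⟩)
    (fun x => Finsupp.equivFunOnFinite.symm (Fin.append x.2 x.1)) ?_ ?_ ?_ ?_
  · intro γ hγ
    simp only [Finset.mem_coe, Finset.mem_sigma, PSLen.mem_lowSet, Finsupp.degree_eq_sum,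
      Finsupp.equivFunOnFinite_symm_apply_apply] at hγ ⊢
    rw [Fin.sum_univ_add] at hγ
    omega
  · intro x hx
    simp only [Finset.mem_coe, Finset.mem_sigma, PSLen.mem_lowSet, Finsupp.degree_eq_sum,
      Finsupp.equivFunOnFinite_symm_apply_apply, Fin.sum_univ_add, Fin.append_left,
      Fin.append_right] at hx ⊢
    omega
  · intro γ _
    ext i
    induction i using Fin.addCases with
    | left i => simp
    | right j => simp
  · rintro ⟨a, b⟩ _
    refine Sigma.ext ?_ (heq_of_eq ?_)
    · ext j; simp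
    · ext i; simp

theorem sup_pow_le' {A : Type u} [CommRing A] (Z J : Ideal A) :
    ∀ n m, (Z ⊔ J) ^ (n + m) ≤ Z ^ (n + 1) ⊔ J ^ m := by
  intro n m
  induction m generalizing n with
  | zero => simp
  | succ m ihm =>
    induction n with
    | zero =>
      have h0 := ihm 0
      rw [zero_add, zero_add, pow_one] at h0
      rw [zero_add, zero_add, pow_one, pow_succ', Ideal.sup_mul]
      refine sup_le (le_sup_of_le_left (Ideal.mul_le_left (J := (Z ⊔ J) ^ m))) ?_
      refine (Ideal.mul_mono le_rfl h0).trans ?_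
      rw [Ideal.mul_sup, pow_succ' J m]
      exact sup_le_sup_right (Ideal.mul_le_right (J := Z)) _
    | succ n ihn =>
      rw [show n + 1 + (m + 1) = (n + 1 + m) + 1 by ring, pow_succ', Ideal.sup_mul]
      refine sup_le ?_ ?_
      · rw [show n + 1 + m = n + (m + 1) by ring]
        refine (Ideal.mul_mono le_rfl ihn).trans ?_
        rw [Ideal.mul_sup, ← pow_succ']
        exact sup_le_sup_left (Ideal.mul_le_right (J := J ^ (m + 1))) _
      · refine (Ideal.mul_mono le_rfl (ihm (n + 1))).trans ?_
        rw [Ideal.mul_sup, ← pow_succ']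
        exact sup_le_sup_right (Ideal.mul_le_right (J := Z ^ (n + 1 + 1))) _

variable {R T : Type u} [CommRing R] [CommRing T] [IsLocalRing R] [IsLocalRing T]
  [IsNoetherianRing R] [IsNoetherianRing T] [Algebra R T] [IsLocalHom (algebraMap R T)]
  [Module.Flat R T] {K : Type u} [Field K] {h : ℕ} (π : T →+* PS K h)
  (hπ : Function.Surjective π) (hker : RingHom.ker π = (maximalIdeal R).map (algebraMap R T))
  (Z : Fin h → T) (hZ : ∀ i, π (Z i) = MvPowerSeries.X i)

include hπ hZ in
theorem map_span : (Ideal.span (Set.range Z)).map π = zI K h := by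
  rw [Ideal.map_span, ← Set.range_comp, zI]
  exact congrArg _ (congrArg Set.range (funext hZ))

include hπ hker hZ in
theorem maximalIdeal_eq :
    maximalIdeal T = (maximalIdeal R).map (algebraMap R T) ⊔ Ideal.span (Set.range Z) := by
  have hloc : IsLocalHom π := IsLocalHom.of_surjective π hπ
  have h1 : (maximalIdeal (PS K h)).comap π = maximalIdeal T :=
    ((IsLocalRing.local_hom_TFAE π).out 0 4).1 hloc
  rw [← h1, Ext.Setting.maximalIdeal_eq, ← map_span π hπ Z hZ, Ideal.comap_map_of_surjective π hπ,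
    ← RingHom.ker_eq_comap_bot, hker, sup_comm]

include hπ hker hZ in
/-- One step towards the purity of the powers of the ideal of the variables. -/
theorem step {k : ℕ} {x : T} (hx : x ∈ Ideal.span (Set.range Z) ^ k)
    (hxJ : x ∈ (maximalIdeal R).map (algebraMap R T)) :
    x ∈ (maximalIdeal R).map (algebraMap R T) * Ideal.span (Set.range Z) ^ k ⊔
      Ideal.span (Set.range Z) ^ (k + 1) := by
  classical
  set J := (maximalIdeal R).map (algebraMap R T)
  set Zi := Ideal.span (Set.range Z)
  let ev : MvPolynomial (Fin h) T →+* T := (MvPolynomial.aeval Z).toRingHom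
  have hev : Function.Surjective ev := fun t => ⟨MvPolynomial.C t, by simp [ev]⟩
  have hvars : ∀ j, (MvPolynomial.idealOfVars (Fin h) T ^ j).map ev = Zi ^ j := fun j => by
    rw [Ideal.map_pow, MvPolynomial.idealOfVars, Ideal.map_span, ← Set.range_comp]
    exact congrArg (· ^ j) (congrArg _ (congrArg Set.range (funext fun i => by simp [ev])))
  rw [← hvars, Ideal.mem_map_iff_of_surjective ev hev] at hx
  obtain ⟨f, hf, rfl⟩ := hx
  rw [MvPolynomial.mem_pow_idealOfVars_iff'] at hf
  have hcoeff : ∀ β : Fin h →₀ ℕ, β.degree = k → f.coeff β ∈ maximalIdeal T := by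
    intro β hβ
    have h0 : π (ev f) = 0 := RingHom.mem_ker.1 (hker ▸ hxJ)
    have h1 : π (ev f) = ∑ a ∈ f.support, π (f.coeff a) * MvPowerSeries.monomial a 1 := by
      conv_lhs => rw [f.as_sum]
      rw [map_sum, map_sum]
      refine Finset.sum_congr rfl fun a _ => ?_
      simp only [ev, AlgHom.toRingHom_eq_coe, RingHom.coe_coe, MvPolynomial.aeval_monomial,
        Algebra.algebraMap_self, RingHom.id_apply, map_mul, map_finsuppProd, map_pow, hZ]
      rw [MvPowerSeries.monomial_one_eq]
    have h2 := congrArg (MvPowerSeries.coeff β) (h1.symm.trans h0)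
    rw [map_sum, map_zero, Finset.sum_eq_single β] at h2
    · rw [MvPowerSeries.coeff_mul_monomial, if_pos le_rfl, tsub_self, mul_one] at h2
      have hc : (maximalIdeal (PS K h)).comap π = maximalIdeal T :=
        ((IsLocalRing.local_hom_TFAE π).out 0 4).1 (IsLocalHom.of_surjective π hπ)
      rw [← hc, Ideal.mem_comap, mem_maximalIdeal, mem_nonunits_iff,
        MvPowerSeries.isUnit_iff_constantCoeff,
        ← MvPowerSeries.coeff_zero_eq_constantCoeff_apply, h2]
      exact not_isUnit_zero
    · intro a ha hne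
      rw [MvPowerSeries.coeff_mul_monomial, if_neg]
      intro hle
      refine hne (le_antisymm hle ?_)
      intro i
      by_contra hlt
      have hdeg : a.degree < β.degree := by
        rw [Finsupp.degree_eq_sum, Finsupp.degree_eq_sum]
        exact Finset.sum_lt_sum (fun j _ => hle j) ⟨i, Finset.mem_univ _, not_le.1 hlt⟩
      exact MvPolynomial.mem_support_iff.1 ha (hf a (hβ ▸ hdeg))
    · intro hnot
      rw [MvPolynomial.notMem_support_iff.1 hnot, map_zero, zero_mul, map_zero]
  rw [f.as_sum, map_sum]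
  refine sum_mem fun a ha => ?_
  have hk : k ≤ a.degree := by
    by_contra hlt
    exact MvPolynomial.mem_support_iff.1 ha (hf a (not_le.1 hlt))
  have hmono : ∀ c : T, ev (MvPolynomial.monomial a c) = c * ev (MvPolynomial.monomial a 1) :=
    fun c => by rw [← mul_one c, ← MvPolynomial.C_mul_monomial, map_mul]; simp [ev]
  have hmem : ∀ j ≤ a.degree, ev (MvPolynomial.monomial a 1) ∈ Zi ^ j := fun j hj => by
    rw [← hvars]
    refine Ideal.mem_map_of_mem ev ((MvPolynomial.mem_pow_idealOfVars_iff' ..).2 fun b hb => ?_)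
    rw [MvPolynomial.coeff_monomial, if_neg]
    rintro rfl
    omega
  rw [hmono]
  rcases eq_or_lt_of_le hk with hka | hka
  · obtain ⟨u, hu, v, hv, huv⟩ := Submodule.mem_sup.1
      ((maximalIdeal_eq π hπ hker Z hZ).le (hcoeff a hka.symm))
    rw [← huv, add_mul]
    refine Submodule.add_mem_sup (Ideal.mul_mem_mul hu (hmem k hk)) ?_
    rw [pow_succ']
    exact Ideal.mul_mem_mul hv (hmem k hk)
  · exact Ideal.mem_sup_right (Ideal.mul_mem_left _ _ (hmem (k + 1) hka))

include hπ hker hZ in
/-- The powers of the ideal of the variables are pure. -/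
theorem pow_inf_le (j : ℕ) :
    Ideal.span (Set.range Z) ^ j ⊓ (maximalIdeal R).map (algebraMap R T) ≤
      (maximalIdeal R).map (algebraMap R T) * Ideal.span (Set.range Z) ^ j := by
  set J := (maximalIdeal R).map (algebraMap R T)
  set Zi := Ideal.span (Set.range Z)
  rintro x ⟨hx, hxJ⟩
  have key : ∀ l, x ∈ J * Zi ^ j ⊔ (Zi ^ (j + l) ⊓ J) := by
    intro l
    induction l with
    | zero => exact Ideal.mem_sup_right ⟨hx, hxJ⟩
    | succ l ih =>
      obtain ⟨a, ha, b, ⟨hb, hbJ⟩, rfl⟩ := Submodule.mem_sup.1 ih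
      obtain ⟨c, hc, e, he, rfl⟩ := Submodule.mem_sup.1 (step π hπ hker Z hZ hb hbJ)
      have hcJ : c ∈ J := (Ideal.mul_le_left : J * Zi ^ (j + l) ≤ J) hc
      have heJ : e ∈ J := by
        rw [show e = c + e - c by rw [add_sub_cancel_left]]
        exact sub_mem hbJ hcJ
      have hc' : c ∈ J * Zi ^ j :=
        (Ideal.mul_mono le_rfl (Ideal.pow_le_pow_right (Nat.le_add_right j l)) :
          J * Zi ^ (j + l) ≤ J * Zi ^ j) hc
      have he' : e ∈ Zi ^ (j + (l + 1)) ⊓ J := ⟨he, heJ⟩
      exact (add_assoc a c e) ▸ Submodule.add_mem_sup (add_mem ha hc') he'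
  have hZm : Zi ≤ maximalIdeal T := (maximalIdeal_eq π hπ hker Z hZ).ge.trans' le_sup_right
  rw [← Ideal.Quotient.eq_zero_iff_mem]
  have h1 : Ideal.Quotient.mk (J * Zi ^ j) x ∈
      (⨅ n, maximalIdeal T ^ n • (⊤ : Submodule T (T ⧸ (J * Zi ^ j)))) := by
    refine (Submodule.mem_iInf _).2 fun n => ?_
    rw [Ideal.smul_top_eq_map]
    change Ideal.Quotient.mk (J * Zi ^ j) x ∈
      (maximalIdeal T ^ n).map (algebraMap T (T ⧸ (J * Zi ^ j)))
    rw [Ideal.Quotient.algebraMap_eq]
    have h2 := Ideal.mem_map_of_mem (Ideal.Quotient.mk (J * Zi ^ j)) (key n)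
    rw [Ideal.map_sup, Ideal.map_quotient_self, bot_sup_eq] at h2
    refine Ideal.map_mono ?_ h2
    exact inf_le_left.trans ((Ideal.pow_le_pow_right (Nat.le_add_left n j)).trans
      (Ideal.pow_right_mono hZm n))
  rwa [Ideal.iInf_pow_smul_eq_bot_of_isLocalRing _ (maximalIdeal.isMaximal T).ne_top,
    Submodule.mem_bot] at h1

include hπ hker hZ in
/-- Flatness of the truncations. -/
theorem flat_quotient {j : ℕ} (hj : 0 < j) :
    Module.Flat R (T ⧸ Ideal.span (Set.range Z) ^ j) := by
  classical
  set J := (maximalIdeal R).map (algebraMap R T)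
  set W := Ideal.span (Set.range Z) ^ j
  have hWm : W ≤ maximalIdeal T := (Ideal.pow_le_self (by omega)).trans
    ((maximalIdeal_eq π hπ hker Z hZ).ge.trans' le_sup_right)
  have : Nontrivial (T ⧸ W) := Ideal.Quotient.nontrivial_iff.2
    (ne_top_of_le_ne_top (maximalIdeal.isMaximal T).ne_top hWm)
  have : IsLocalRing (T ⧸ W) :=
    IsLocalRing.of_surjective' (Ideal.Quotient.mk W) Ideal.Quotient.mk_surjective
  have : IsLocalHom (Ideal.Quotient.mk W) := IsLocalHom.of_surjective _ Ideal.Quotient.mk_surjective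
  have : IsLocalHom (algebraMap R (T ⧸ W)) := ⟨fun a ha => (isUnit_map_iff (algebraMap R T) a).1
    ((isUnit_map_iff (Ideal.Quotient.mk W) _).1 ha)⟩
  refine flat_of_act_injective ?_
  rw [← LinearMap.ker_eq_bot, Submodule.eq_bot_iff]
  intro t ht
  rw [LinearMap.mem_ker] at ht
  let q : T →ₗ[R] T ⧸ W := (Ideal.Quotient.mkₐ R W).toLinearMap
  obtain ⟨t, rfl⟩ := LinearMap.lTensor_surjective (maximalIdeal R)
    (show Function.Surjective q from Ideal.Quotient.mk_surjective) t
  have hact : ∀ s, FlatCrit.act (maximalIdeal R) (T ⧸ W) (q.lTensor _ s) =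
      q (FlatCrit.act (maximalIdeal R) T s) := fun s => by
    induction s using TensorProduct.induction_on with
    | zero => simp
    | tmul a b => rw [LinearMap.lTensor_tmul, FlatCrit.act_tmul, FlatCrit.act_tmul, map_smul]
    | add a b ha hb => simp [ha, hb]
  rw [hact] at ht
  have hW : FlatCrit.act (maximalIdeal R) T t ∈ W := Ideal.Quotient.eq_zero_iff_mem.1 ht
  have hJm : ∀ s, FlatCrit.act (maximalIdeal R) T s ∈ J := fun s => by
    induction s using TensorProduct.induction_on with
    | zero => simp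
    | tmul a b =>
      rw [FlatCrit.act_tmul, Algebra.smul_def]
      exact Ideal.mul_mem_right _ _ (Ideal.mem_map_of_mem _ a.2)
    | add a b ha hb => rw [map_add]; exact add_mem ha hb
  have h1 := pow_inf_le π hπ hker Z hZ j ⟨hW, hJm t⟩
  have hsub : ∀ x ∈ J * W, ∃ s : maximalIdeal R ⊗[R] T,
      q.lTensor (maximalIdeal R) s = 0 ∧ FlatCrit.act (maximalIdeal R) T s = x := by
    intro x hx
    refine Submodule.mul_induction_on hx (fun a ha b hb => ?_) (fun x y hx hy => ?_)
    · induction ha using Submodule.span_induction generalizing b with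
      | mem a ha =>
        obtain ⟨r, hr, rfl⟩ := ha
        refine ⟨⟨r, hr⟩ ⊗ₜ b, ?_, ?_⟩
        · rw [LinearMap.lTensor_tmul, show q b = 0 from Ideal.Quotient.eq_zero_iff_mem.2 hb,
            TensorProduct.tmul_zero]
        · rw [FlatCrit.act_tmul, Algebra.smul_def]
      | zero => exact ⟨0, map_zero _, by rw [map_zero, zero_mul]⟩
      | add a a' _ _ iha iha' =>
        obtain ⟨s, hs, hs'⟩ := iha b hb
        obtain ⟨s', hs₁, hs₁'⟩ := iha' b hb
        exact ⟨s + s', by rw [map_add, hs, hs₁, add_zero], by rw [map_add, hs', hs₁', add_mul]⟩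
      | smul c a _ iha =>
        obtain ⟨s, hs, hs'⟩ := iha (c * b) (W.mul_mem_left c hb)
        exact ⟨s, hs, by rw [hs', smul_eq_mul]; ring⟩
    · obtain ⟨s, hs, hs'⟩ := hx
      obtain ⟨s', hs₁, hs₁'⟩ := hy
      exact ⟨s + s', by rw [map_add, hs, hs₁, add_zero], by rw [map_add, hs', hs₁']⟩
  obtain ⟨s, hs, hs'⟩ := hsub _ h1
  have hinj : Function.Injective (FlatCrit.act (maximalIdeal R) T) :=
    (TensorProduct.lid R T).injective.comp (Module.Flat.rTensor_preserves_injective_linearMap _
      (Submodule.injective_subtype _))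
  rw [← hinj hs', hs]

include hπ hker hZ in
/-- The length of a truncation. -/
theorem length_trunc {j : ℕ} (hj : 0 < j) (l : ℕ) :
    Module.length T (T ⧸ (Ideal.span (Set.range Z) ^ j ⊔
        (maximalIdeal R).map (algebraMap R T) ^ l)) =
      Module.length R (R ⧸ maximalIdeal R ^ l) * (PSLen.lowSet h j).card := by
  classical
  set J := (maximalIdeal R).map (algebraMap R T)
  set W := Ideal.span (Set.range Z) ^ j
  have := flat_quotient π hπ hker Z hZ hj
  have hWm : W ≤ maximalIdeal T := (Ideal.pow_le_self (by omega)).trans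
    ((maximalIdeal_eq π hπ hker Z hZ).ge.trans' le_sup_right)
  have : Nontrivial (T ⧸ W) := Ideal.Quotient.nontrivial_iff.2
    (ne_top_of_le_ne_top (maximalIdeal.isMaximal T).ne_top hWm)
  have : IsLocalRing (T ⧸ W) :=
    IsLocalRing.of_surjective' (Ideal.Quotient.mk W) Ideal.Quotient.mk_surjective
  have : IsLocalHom (Ideal.Quotient.mk W) := IsLocalHom.of_surjective _ Ideal.Quotient.mk_surjective
  have : IsLocalHom (algebraMap R (T ⧸ W)) := ⟨fun a ha => (isUnit_map_iff (algebraMap R T) a).1
    ((isUnit_map_iff (Ideal.Quotient.mk W) _).1 ha)⟩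
  have hJ : (maximalIdeal R).map (algebraMap R (T ⧸ W)) = J.map (Ideal.Quotient.mk W) := by
    rw [Ideal.map_map]
    rfl
  have hflip : ∀ I : Ideal T, Module.length T ((T ⧸ W) ⧸ I.map (Ideal.Quotient.mk W)) =
      Module.length (T ⧸ W) ((T ⧸ W) ⧸ I.map (Ideal.Quotient.mk W)) := fun I =>
    Module.length_eq_of_surjective Ideal.Quotient.mk_surjective
  have hq : ∀ I : Ideal T, Module.length T ((T ⧸ W) ⧸ I.map (Ideal.Quotient.mk W)) =
      Module.length T (T ⧸ (W ⊔ I)) := fun I =>
    (DoubleQuot.quotQuotEquivQuotSupₐ T W I).toLinearEquiv.length_eq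
  have h1 := length_map (R := R) (S := T ⧸ W) l
  rw [hJ, ← Ideal.map_pow, ← hflip, ← hflip, hq, hq] at h1
  rw [h1]
  congr 1
  let : Algebra T (PS K h) := π.toAlgebra
  have hWJ : W ⊔ J = (zI K h ^ j).comap π := by
    rw [← map_span π hπ Z hZ, ← Ideal.map_pow, Ideal.comap_map_of_surjective π hπ,
      ← RingHom.ker_eq_comap_bot, hker]
  have hlen : Module.length T (T ⧸ (W ⊔ J)) = Module.length T (PS K h ⧸ zI K h ^ j) := by
    let f : T →ₗ[T] PS K h ⧸ zI K h ^ j :=
      (Ideal.Quotient.mkₐ T (zI K h ^ j)).toLinearMap.comp (Algebra.linearMap T (PS K h))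
    have hf : Function.Surjective f := fun y => by
      obtain ⟨y, rfl⟩ := Ideal.Quotient.mk_surjective y
      obtain ⟨x, rfl⟩ := hπ y
      exact ⟨x, rfl⟩
    have hfk : LinearMap.ker f = W ⊔ J := by
      ext x
      rw [hWJ, Ideal.mem_comap]
      exact Ideal.Quotient.eq_zero_iff_mem
    exact ((Submodule.quotEquivOfEq _ _ hfk.symm).trans
      (f.quotKerEquivOfSurjective hf)).length_eq
  rw [hlen, Module.length_eq_of_surjective (R := PS K h) hπ,
    length_eq_residue (k := K) (fun y => ?_)]
  · obtain ⟨hf, hr⟩ := PSLen.quot_zI (k := K) (d := h) j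
    rw [Module.length_eq_finrank, hr]
  · obtain ⟨f, rfl⟩ := residue_surjective y
    refine ⟨MvPowerSeries.constantCoeff f, ?_⟩
    rw [← sub_eq_zero, ← map_sub, residue_eq_zero_iff, mem_maximalIdeal, mem_nonunits_iff,
      MvPowerSeries.isUnit_iff_constantCoeff]
    simp [MvPowerSeries.algebraMap_apply]

include hπ hker hZ in
/-- The lower bound for the lengths upstairs. -/
theorem le_length (N : ℕ) :
    ∑ a ∈ PSLen.lowSet h N, (Module.length R (R ⧸ maximalIdeal R ^ (N - a.degree))).toNat ≤
      (Module.length T (T ⧸ maximalIdeal T ^ N)).toNat := by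
  classical
  set J := (maximalIdeal R).map (algebraMap R T)
  set Zi := Ideal.span (Set.range Z)
  set Q := maximalIdeal T ^ N
  let g : ℕ → ℕ := fun l => (Module.length R (R ⧸ maximalIdeal R ^ l)).toNat
  have key : ∀ j ≤ N, ∑ a ∈ PSLen.lowSet h j, g (N - a.degree) ≤
      (Module.length T (T ⧸ (Zi ^ j ⊔ Q))).toNat := by
    intro j hjN
    induction j with
    | zero => simp [PSLen.lowSet]
    | succ j ih =>
      have hsub : PSLen.lowSet h j ⊆ PSLen.lowSet h (j + 1) := fun a ha =>
        PSLen.mem_lowSet.2 ((PSLen.mem_lowSet.1 ha).trans (Nat.lt_succ_self j))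
      rw [← Finset.sum_sdiff hsub]
      have hval : ∀ a ∈ PSLen.lowSet h (j + 1) \ PSLen.lowSet h j, g (N - a.degree) = g (N - j) :=
        fun a ha => by
          rw [Finset.mem_sdiff, PSLen.mem_lowSet, PSLen.mem_lowSet] at ha
          rw [show a.degree = j by omega]
      rw [Finset.sum_congr rfl hval, Finset.sum_const, smul_eq_mul, Finset.card_sdiff_of_subset hsub]
      set I := Zi ^ (j + 1) ⊔ J ^ (N - j)
      have hQI : Q ≤ I := by
        simp only [Q, I, maximalIdeal_eq π hπ hker Z hZ]
        rw [sup_comm J]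
        calc (Zi ⊔ J) ^ N = (Zi ⊔ J) ^ (j + (N - j)) := by rw [show j + (N - j) = N by omega]
          _ ≤ _ := sup_pow_le' Zi J j (N - j)
      have hA : Module.length T (T ⧸ (Zi ^ (j + 1) ⊔ Q)) ≠ ⊤ :=
        length_quotient_ne_top _ N le_sup_right
      have hmono : Zi ^ (j + 1) ≤ Zi ^ j := Ideal.pow_le_pow_right j.le_succ
      have hAB : Zi ^ (j + 1) ⊔ Q ≤ Zi ^ j ⊔ Q := sup_le_sup_right hmono Q
      have hmod := toNat_le hAB (sup_le le_sup_left hQI : Zi ^ (j + 1) ⊔ Q ≤ I) hA
      have hsup : Zi ^ j ⊔ Q ⊔ I = Zi ^ j ⊔ J ^ (N - j) :=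
        le_antisymm (sup_le (sup_le le_sup_left (hQI.trans (sup_le_sup_right hmono _)))
          (sup_le_sup_right hmono _)) (sup_le (le_sup_left.trans le_sup_left)
            (le_sup_right.trans (le_sup_right (a := Zi ^ j ⊔ Q))))
      have hI : (Module.length T (T ⧸ I)).toNat = g (N - j) * (PSLen.lowSet h (j + 1)).card := by
        rw [length_trunc π hπ hker Z hZ j.succ_pos, ENat.toNat_mul, ENat.toNat_natCast]
      have hJ : (Module.length T (T ⧸ (Zi ^ j ⊔ Q ⊔ I))).toNat =
          g (N - j) * (PSLen.lowSet h j).card := by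
        rw [hsup]
        rcases Nat.eq_zero_or_pos j with rfl | hj
        · simp [PSLen.lowSet, Ideal.one_eq_top, Submodule.Quotient.subsingleton_iff]
        · rw [length_trunc π hπ hker Z hZ hj, ENat.toNat_mul, ENat.toNat_natCast]
      have hcard := PSLen.lowSet_mono h j.le_succ
      have hih := ih (Nat.le_of_succ_le hjN)
      rw [hI, hJ] at hmod
      have hp := Nat.mul_le_mul_left (g (N - j)) hcard
      rw [Nat.sub_mul, mul_comm _ (g (N - j)), mul_comm _ (g (N - j))]
      generalize hX : g (N - j) * (PSLen.lowSet h (j + 1)).card = X at *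
      generalize hY : g (N - j) * (PSLen.lowSet h j).card = Y at *
      omega
  refine (key N le_rfl).trans (ENat.toNat_le_toNat (length_quotient_mono le_sup_right) ?_)
  exact length_quotient_ne_top _ _ le_rfl

include hπ hker in
/-- The multiplicity does not decrease. -/
theorem le_mult {d : ℕ} (hd : 0 < d) {e eT : ℝ} (he : IsMultiplicity R d e)
    (heT : IsMultiplicity T (d + h) eT) : e ≤ eT := by
  classical
  choose Z hZ using fun i => hπ (MvPowerSeries.X i)
  let g : ℕ → ℕ := fun l => (Module.length R (R ⧸ maximalIdeal R ^ l)).toNat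
  let B : ℕ → ℕ → ℕ := fun a l => (PSLen.lowSet a l).card
  refine le_of_forall_pos_le_add fun ε hε => ?_
  -- a lower bound for all levels
  have hlim := (PSLen.choose_limit d 0).const_mul (e - ε)
  rw [mul_one] at hlim
  have hev : ∀ᶠ l : ℕ in atTop, (e - ε) * (B d l : ℝ) ≤ (g l : ℝ) := by
    filter_upwards [hlim.eventually_le_const (show e - ε < e - ε / 2 by linarith),
      he.eventually_const_le (show e - ε / 2 < e by linarith), eventually_gt_atTop 0]
      with l h1 h2 hl
    have hl' : (0 : ℝ) < (l : ℝ) ^ d := by positivity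
    have hd : (0 : ℝ) < (d.factorial : ℝ) := by positivity
    rw [Nat.sub_zero, ← mul_div_assoc, div_le_iff₀ hl'] at h1
    rw [le_div_iff₀ hl'] at h2
    refine le_of_mul_le_mul_left ?_ hd
    calc (d.factorial : ℝ) * ((e - ε) * (B d l : ℝ))
        = (e - ε) * ((d.factorial : ℝ) * (B d l : ℝ)) := by ring
      _ ≤ _ := h1.trans h2
  obtain ⟨l₀, hl₀⟩ := eventually_atTop.1 hev
  set M : ℝ := |e - ε| * (B d l₀ : ℝ) with hM
  have hall : ∀ l, (e - ε) * (B d l : ℝ) - M ≤ (g l : ℝ) := fun l => by
    rcases le_total l₀ l with hl | hl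
    · have := hl₀ l hl
      have : 0 ≤ M := by positivity
      linarith
    · have h1 : (B d l : ℝ) ≤ B d l₀ := by exact_mod_cast PSLen.lowSet_mono d hl
      have h2 : (e - ε) * (B d l : ℝ) ≤ M :=
        (mul_le_mul_of_nonneg_right (le_abs_self _) (Nat.cast_nonneg _)).trans
          (mul_le_mul_of_nonneg_left h1 (abs_nonneg _))
      have : (0 : ℝ) ≤ g l := Nat.cast_nonneg _
      linarith
  have hN : ∀ N, (e - ε) * (B (d + h) N : ℝ) - M * (B h N : ℝ) ≤
      ((Module.length T (T ⧸ maximalIdeal T ^ N)).toNat : ℝ) := fun N => by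
    refine le_trans ?_ (Nat.cast_le.2 (le_length π hπ hker Z hZ N))
    show (e - ε) * ((PSLen.lowSet (d + h) N).card : ℝ) - M * ((PSLen.lowSet h N).card : ℝ) ≤ _
    rw [length_quotient_add, Nat.cast_sum, Nat.cast_sum, Finset.mul_sum, mul_comm M,
      ← nsmul_eq_mul, ← Finset.sum_const, ← Finset.sum_sub_distrib]
    exact Finset.sum_le_sum fun a _ => hall _
  have hgrowh : Tendsto (fun N : ℕ => ((d + h).factorial : ℝ) * (M * (B h N : ℝ)) /
      (N : ℝ) ^ (d + h)) atTop (𝓝 0) := by
    have h1 := ((PSLen.choose_limit h 0).const_mul (((d + h).factorial : ℝ) * M /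
      (h.factorial : ℝ))).mul ((tendsto_const_div_atTop_nhds_zero_nat (1 : ℝ)).pow d)
    rw [zero_pow hd.ne', mul_zero] at h1
    refine h1.congr' ?_
    filter_upwards [eventually_gt_atTop 0] with N hN
    simp only [B, Nat.sub_zero]
    have hN' : (N : ℝ) ≠ 0 := by exact_mod_cast hN.ne'
    have hh : (h.factorial : ℝ) ≠ 0 := by positivity
    rw [div_pow, one_pow, pow_add]
    field_simp
  have h1 := ((PSLen.choose_limit (d + h) 0).const_mul (e - ε)).sub hgrowh
  rw [sub_zero, mul_one] at h1
  have := le_of_tendsto_of_tendsto' h1 heT fun N => by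
    simp only [Nat.sub_zero, B, ← mul_div_assoc, ← sub_div]
    refine div_le_div_of_nonneg_right ?_ (by positivity)
    refine le_trans (le_of_eq ?_) (mul_le_mul_of_nonneg_left (hN N) (Nat.cast_nonneg _))
    simp only [B]
    ring
  linarith

end Vale.Agent.P202.Mixed2.FibreMult
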