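import Vale.Agent.P202.Mixed2.Measure

/-!
# The loss of the regularity is small

If `T` is almost free over the base and `bs j` divides the almost unit `β j`, then `T` modulo
`bs j` and any ideal containing `I T` has normalised length tending to zero.
-/

open scoped ENNReal
open Filter Topology

namespace Vale.Agent.P202.Mixed2.Filt

open Lambda

variable {A₀ B : Type*} [CommRing A₀] [CommRing B] [Algebra A₀ B] [IsNoetherianRing A₀]
variable {A : ℕ → Subalgebra A₀ B} {c : ℕ}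
variable {T : Type*} [CommRing T] [Algebra A₀ T] [Algebra B T] [IsScalarTower A₀ B T]

/-- The quotient by `bs` and `a` is at most `nT` times the quotient of the base by `β` and `I`. -/
theorem lam_loss_le (h : IsTower A c) (hU : ∀ b, ∃ n, b ∈ A n) (I : Ideal A₀)
    (hI : Module.length A₀ (A₀ ⧸ I) ≠ ⊤) (γ : ℕ → B) (hγ : AlmostUnit A c I γ) (nT : ℕ)
    (f : ℕ → (Fin nT → B ⧸ extI B I) →ₗ[B] T ⧸ I.map (algebraMap A₀ T))
    (g : ℕ → (T ⧸ I.map (algebraMap A₀ T)) →ₗ[B] Fin nT → B ⧸ extI B I)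
    (hfg : ∀ P x, f P (g P x) = γ P • x) (β : B) (bs : T) (hbs : bs ∣ algebraMap B T β)
    (a : Ideal T) (ha : I.map (algebraMap A₀ T) ≤ a) :
    lam A c (T ⧸ (Ideal.span {bs} ⊔ a)) ≤
      (nT : ℝ≥0∞) * lam A c (B ⧸ (Ideal.span {β} ⊔ extI B I)) := by
  set R : Submodule B (T ⧸ (I.map (algebraMap A₀ T))) := LinearMap.range (LinearMap.lsmul B (T ⧸ (I.map (algebraMap A₀ T))) (β))
  set K := Ideal.span {β} ⊔ extI B I
  let red : (Fin nT → B ⧸ extI B I) →ₗ[B] (Fin nT → B ⧸ K) :=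
    LinearMap.pi fun i => (Ideal.Quotient.factorₐ B (le_sup_right : extI B I ≤ K)).toLinearMap ∘ₗ
      LinearMap.proj i
  have hred : ∀ v, red v = 0 → ∃ w, v = β • w := by
    intro v hv
    have hv' : ∀ i, ∃ w : B ⧸ extI B I, v i = β • w := by
      intro i
      obtain ⟨x, hx⟩ := Ideal.Quotient.mk_surjective (v i)
      have h0 : red v i = 0 := by rw [hv]; rfl
      have hxK : x ∈ K := by
        rw [← Ideal.Quotient.eq_zero_iff_mem, ← h0]
        show _ = Ideal.Quotient.factor (le_sup_right : extI B I ≤ K) (v i)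
        rw [← hx]
        rfl
      obtain ⟨u, hu, y, hy, rfl⟩ := Submodule.mem_sup.1 hxK
      obtain ⟨w, rfl⟩ := Ideal.mem_span_singleton.1 hu
      refine ⟨Ideal.Quotient.mk _ w, ?_⟩
      rw [← hx, map_add, Ideal.Quotient.eq_zero_iff_mem.2 hy, add_zero]
      rfl
    choose w hw using hv'
    exact ⟨w, funext hw⟩
  have hle : ∀ P, R ≤ LinearMap.ker (red ∘ₗ g P) := by
    rintro P _ ⟨x, rfl⟩
    rw [LinearMap.mem_ker, LinearMap.lsmul_apply, map_smul]
    funext i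
    obtain ⟨y, hy⟩ := Ideal.Quotient.mk_surjective ((red ∘ₗ g P) x i)
    rw [Pi.smul_apply, ← hy, Pi.zero_apply]
    exact Ideal.Quotient.eq_zero_iff_mem.2
      (Ideal.mul_mem_right _ _ (Submodule.mem_sup_left (Ideal.mem_span_singleton_self _)))
  have h1 : lam A c ((T ⧸ (I.map (algebraMap A₀ T))) ⧸ R) ≤ lam A c (Fin nT → B ⧸ K) := by
    refine lam_le_of_almost_injective h hU I hI ?_ γ hγ (fun P => R.liftQ _ (hle P)) ?_
    · intro r hr x
      obtain ⟨y, rfl⟩ := Submodule.Quotient.mk_surjective R x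
      obtain ⟨t, rfl⟩ := Ideal.Quotient.mk_surjective y
      rw [← Submodule.Quotient.mk_smul, Algebra.smul_def, ← Ideal.Quotient.mk_algebraMap,
        ← map_mul, Ideal.Quotient.eq_zero_iff_mem.2
          (Ideal.mul_mem_right _ _ (Ideal.mem_map_of_mem _ hr)), Submodule.Quotient.mk_zero]
    · intro P x hx
      obtain ⟨y, rfl⟩ := Submodule.Quotient.mk_surjective R x
      obtain ⟨w, hw⟩ := hred (g P y) (by simpa using hx)
      rw [← Submodule.Quotient.mk_smul, Submodule.Quotient.mk_eq_zero, ← hfg, hw, map_smul]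
      exact ⟨f P w, rfl⟩
  have hJa : (I.map (algebraMap A₀ T)) ≤ Ideal.span {bs} ⊔ a := ha.trans le_sup_right
  let π : (T ⧸ (I.map (algebraMap A₀ T))) →ₗ[B] T ⧸ (Ideal.span {bs} ⊔ a) := (Ideal.Quotient.factorₐ B hJa).toLinearMap
  have hπR : R ≤ LinearMap.ker π := by
    rintro _ ⟨x, rfl⟩
    obtain ⟨t, rfl⟩ := Ideal.Quotient.mk_surjective x
    rw [LinearMap.mem_ker, LinearMap.lsmul_apply, map_smul, Algebra.smul_def,
      ← Ideal.Quotient.mk_algebraMap]
    show Ideal.Quotient.mk _ _ * Ideal.Quotient.mk _ t = 0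
    rw [← map_mul, Ideal.Quotient.eq_zero_iff_mem]
    obtain ⟨s, hs⟩ := hbs
    rw [hs, mul_assoc]
    exact Submodule.mem_sup_left (Ideal.mul_mem_right _ _ (Ideal.mem_span_singleton_self _))
  have h2 : lam A c (T ⧸ (Ideal.span {bs} ⊔ a)) ≤ lam A c ((T ⧸ (I.map (algebraMap A₀ T))) ⧸ R) := by
    refine lam_le_of_surjective (R.liftQ π hπR) fun z => ?_
    obtain ⟨y, rfl⟩ := Ideal.Quotient.factor_surjective hJa z
    exact ⟨Submodule.Quotient.mk y, Submodule.liftQ_apply _ _ _⟩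
  rw [← lam_pi h]
  exact h2.trans h1

/-- (F3) The quotients by `bs j` and `a` are eventually small. -/
theorem lam_loss_tendsto (h : IsTower A c) (hU : ∀ b, ∃ n, b ∈ A n) (I : Ideal A₀)
    (hI : Module.length A₀ (A₀ ⧸ I) ≠ ⊤) (γ : ℕ → B) (hγ : AlmostUnit A c I γ) (nT : ℕ)
    (f : ℕ → (Fin nT → B ⧸ extI B I) →ₗ[B] T ⧸ I.map (algebraMap A₀ T))
    (g : ℕ → (T ⧸ I.map (algebraMap A₀ T)) →ₗ[B] Fin nT → B ⧸ extI B I)
    (hfg : ∀ P x, f P (g P x) = γ P • x) (β : ℕ → B) (hβ : AlmostUnit A c I β) (bs : ℕ → T)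
    (hbs : ∀ j, bs j ∣ algebraMap B T (β j)) (a : Ideal T) (ha : I.map (algebraMap A₀ T) ≤ a) :
    Tendsto (fun j => lam A c (T ⧸ (Ideal.span {bs j} ⊔ a))) atTop (𝓝 0) := by
  have hbound : ∀ j, lam A c (T ⧸ (Ideal.span {bs j} ⊔ a)) ≤
      (nT : ℝ≥0∞) * lam A c (B ⧸ (Ideal.span {β j} ⊔ extI B I)) :=
    fun j => lam_loss_le h hU I hI γ hγ nT f g hfg (β j) (bs j) (hbs j) a ha
  have hlim : Tendsto (fun j => (nT : ℝ≥0∞) * lam A c (B ⧸ (Ideal.span {β j} ⊔ extI B I))) atTop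
      (𝓝 ((nT : ℝ≥0∞) * 0)) :=
    ENNReal.Tendsto.const_mul hβ (Or.inr (ENNReal.natCast_ne_top nT))
  rw [mul_zero] at hlim
  exact tendsto_of_tendsto_of_tendsto_of_le_of_le tendsto_const_nhds hlim (fun _ => zero_le)
    hbound

end Vale.Agent.P202.Mixed2.Filt
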