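import Vale.Agent.P202.Mixed2.BaseFlat
import Vale.Agent.P202.Zero.Complete

/-!
P202 mixed characteristic: gonflement of a complete local ring along a map of its coefficient ring
into the Witt vectors of a perfect field.
-/

namespace Vale.Agent.P202.Mixed2.Gonfle

open IsLocalRing Vale.Agent.P202.Char

set_option linter.unusedSectionVars false

universe u

variable {p : ℕ} [hp : Fact p.Prime]

/-- Ring maps on power series are determined by constants and variables. -/
theorem hom_ext {V : Type u} [CommRing V] {n : ℕ} {E : Type u} [CommRing E] (N : Ideal E)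
    [IsHausdorff N E] (f g : MvPowerSeries (Fin n) V →+* E)
    (hC : ∀ a, f (MvPowerSeries.C a) = g (MvPowerSeries.C a))
    (hX : ∀ i, f (MvPowerSeries.X i) = g (MvPowerSeries.X i))
    (hN : ∀ i, f (MvPowerSeries.X i) ∈ N) : f = g := by
  refine RingHom.ext fun x => sub_eq_zero.1 (IsHausdorff.haus' (I := N) _ fun m => ?_)
  rw [SModEq.zero, smul_eq_mul, Ideal.mul_top]
  induction m generalizing x with
  | zero => simp
  | succ m ih =>
    have h1 : x - MvPowerSeries.C (MvPowerSeries.constantCoeff x) ∈
        Ideal.span (Set.range (MvPowerSeries.X : Fin n → MvPowerSeries (Fin n) V)) := by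
      rw [← pow_one (Ideal.span _)]
      refine Perf.Base.mem_pow_span_X fun a ha => ?_
      rw [(Finsupp.degree_eq_zero_iff a).1 (Nat.lt_one_iff.1 ha), map_sub,
        MvPowerSeries.coeff_zero_C, MvPowerSeries.coeff_zero_eq_constantCoeff_apply, sub_self]
    obtain ⟨q, hq⟩ := Ideal.mem_span_range_iff_exists_fun.1 h1
    rw [← add_sub_cancel (MvPowerSeries.C (MvPowerSeries.constantCoeff x)) x, ← hq, map_add,
      map_add, hC, add_sub_add_left_eq_sub, map_sum, map_sum, ← Finset.sum_sub_distrib]
    refine Ideal.sum_mem _ fun i _ => ?_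
    rw [map_mul, map_mul, ← hX i, ← sub_mul, pow_succ]
    exact Ideal.mul_mem_mul (ih _) (hN i)

variable {S : Type u} [CommRing S] [IsLocalRing S] [IsNoetherianRing S]
  [IsAdicComplete (maximalIdeal S) S] [CharP (ResidueField S) p]

/-- A complete local ring is a quotient of power series over its coefficient ring. -/
theorem exists_surjective {V : Type u} [CommRing V] [IsDomain V] [IsDiscreteValuationRing V]
    [IsAdicComplete (maximalIdeal V) V] (hV : Irreducible (p : V)) (f : V →+* S)
    (hf : Function.Surjective fun w => residue S (f w)) {h : ℕ} (z : Fin h → S)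
    (hz : Ideal.span (Set.range z) = maximalIdeal S) :
    ∃ ψ : MvPowerSeries (Fin h) V →+* S, Function.Surjective ψ ∧
      (∀ w, ψ (MvPowerSeries.C w) = f w) ∧ ∀ i, ψ (MvPowerSeries.X i) = z i := by
  have hzm : ∀ i, z i ∈ maximalIdeal S := fun i => hz ▸ Ideal.subset_span ⟨i, rfl⟩
  let A := MvPowerSeries (Fin h) V
  let ψ : A →+* S := EvalPS.eval f z hzm
  have hC : ∀ w, ψ (MvPowerSeries.C w) = f w := fun w => EvalPS.eval_C f z hzm w
  have hX : ∀ i, ψ (MvPowerSeries.X i) = z i := fun i => EvalPS.eval_X f z hzm i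
  refine ⟨ψ, ?_, hC, hX⟩
  let : Algebra A S := ψ.toAlgebra
  have : Module.Finite A S := Choices.finite_base (p := p) hV f hf hzm (c := 1)
    (by rw [pow_one, hz]; exact le_sup_right)
  let M : Submodule A S := LinearMap.range (Algebra.linearMap A S)
  have hle : (⊤ : Submodule A S) ≤ M ⊔ maximalIdeal A • ⊤ := by
    intro s _
    obtain ⟨w, hw⟩ := hf (residue S s)
    have hs : s - f w ∈ Ideal.span (Set.range z) := by
      rw [hz, ← residue_eq_zero_iff, map_sub, show residue S (f w) = residue S s from hw, sub_self]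
    obtain ⟨a, ha⟩ := Ideal.mem_span_range_iff_exists_fun.1 hs
    rw [← add_sub_cancel (f w) s, ← ha]
    refine Submodule.add_mem_sup ⟨MvPowerSeries.C w, hC w⟩ (Submodule.sum_mem _ fun j _ => ?_)
    rw [mul_comm, ← hX j]
    refine Submodule.smul_mem_smul (r := (MvPowerSeries.X j : A)) ?_ trivial
    rw [PSComplete.maximalIdeal_eq]
    exact Ideal.mem_sup_right (Ideal.subset_span ⟨j, rfl⟩)
  have hM := Submodule.le_of_le_smul_of_le_jacobson_bot Module.Finite.fg_top
    (IsLocalRing.maximalIdeal_le_jacobson _) hle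
  exact fun s => hM (trivial : s ∈ (⊤ : Submodule A S))

/-- Witt vectors of a perfect field, as a complete discrete valuation ring. -/
theorem isAdicComplete_witt (K : Type u) [Field K] [CharP K p] [PerfectRing K p] :
    IsAdicComplete (maximalIdeal (WittVector p K)) (WittVector p K) :=
  (Choices.maximalIdeal_coeff (WittVector.irreducible (k := K) p)).symm ▸ inferInstance

/-- Gonflement along a map of the coefficient ring into Witt vectors, with its extension
property. -/
theorem exists_gonfle {V : Type u} [CommRing V] [IsDomain V] [IsDiscreteValuationRing V]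
    [IsAdicComplete (maximalIdeal V) V] (hV : Irreducible (p : V)) (f : V →+* S)
    (hf : Function.Surjective fun w => residue S (f w)) (K : Type u) [Field K] [CharP K p]
    [PerfectRing K p] (j : V →+* WittVector p K) :
    ∃ (S' : Type u) (_ : CommRing S') (_ : IsLocalRing S') (_ : IsNoetherianRing S')
      (_ : IsAdicComplete (maximalIdeal S') S') (_ : Algebra S S') (_ : Module.Flat S S')
      (_ : IsLocalHom (algebraMap S S')),
      (maximalIdeal S).map (algebraMap S S') = maximalIdeal S' ∧
      Nonempty (K ≃+* ResidueField S') ∧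
      ∀ (E : Type u) [CommRing E] [IsLocalRing E] [IsAdicComplete (maximalIdeal E) E]
        (g : S →+* E) (_ : IsLocalHom g) (w : WittVector p K →+* E),
        (∀ a, w (j a) = g (f a)) →
          ∃ g' : S' →+* E, IsLocalHom g' ∧ g'.comp (algebraMap S S') = g := by
  classical
  obtain ⟨h, z, hz⟩ := Submodule.fg_iff_exists_fin_generating_family.1
    (maximalIdeal S).fg_of_isNoetherianRing
  obtain ⟨ψ, hψ, hψC, hψX⟩ := exists_surjective hV f hf z hz
  have := isAdicComplete_witt (p := p) K
  have hW : Irreducible (p : WittVector p K) := WittVector.irreducible p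
  let A := MvPowerSeries (Fin h) V
  let B := MvPowerSeries (Fin h) (WittVector p K)
  have : IsAdicComplete (maximalIdeal B) B := PSComplete.isAdicComplete
  let ι : A →+* B := MvPowerSeries.map j
  have hιX : ∀ i, ι (MvPowerSeries.X i) = MvPowerSeries.X i := fun i => MvPowerSeries.map_X j i
  have hιC : ∀ a, ι (MvPowerSeries.C a) = MvPowerSeries.C (j a) := fun a => MvPowerSeries.map_C j a
  let _ : Algebra A B := ι.toAlgebra
  have : Module.Flat A B := BaseFlat.flat hW hV ι id Function.injective_id hιX
  have hmA : (maximalIdeal A).map ι = maximalIdeal B := by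
    refine le_antisymm (Ideal.map_le_iff_le_comap.2 ?_) ?_
    · refine (Choices.maximalIdeal_base_le hV).trans (Ideal.span_le.2 ?_)
      rintro _ ⟨_ | i, rfl⟩ <;>
        rw [SetLike.mem_coe, Ideal.mem_comap, mem_maximalIdeal, mem_nonunits_iff,
          MvPowerSeries.isUnit_iff_constantCoeff] <;>
        simp [hιX, hW.not_isUnit]
    · refine (Choices.maximalIdeal_base_le hW).trans (Ideal.span_le.2 ?_)
      rintro _ ⟨_ | i, rfl⟩
      · refine (map_natCast ι p).symm ▸ Ideal.mem_map_of_mem ι ?_
        rw [mem_maximalIdeal, mem_nonunits_iff, MvPowerSeries.isUnit_iff_constantCoeff]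
        simp [hV.not_isUnit]
      · change MvPowerSeries.X i ∈ _
        rw [← hιX i]
        refine Ideal.mem_map_of_mem ι ?_
        rw [mem_maximalIdeal, mem_nonunits_iff, MvPowerSeries.isUnit_iff_constantCoeff]
        simp
  set J := RingHom.ker ψ
  let J' : Ideal B := J.map (algebraMap A B)
  have hJm : J ≤ maximalIdeal A := le_maximalIdeal (RingHom.ker_ne_top ψ)
  have hJ' : J' ≤ maximalIdeal B := (Ideal.map_mono hJm).trans hmA.le
  let S' := B ⧸ J'
  have : Nontrivial S' :=
    Ideal.Quotient.nontrivial_iff.2 (ne_top_of_le_ne_top (maximalIdeal.isMaximal B).ne_top hJ')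
  have : IsLocalRing S' :=
    IsLocalRing.of_surjective' (Ideal.Quotient.mk J') Ideal.Quotient.mk_surjective
  have : IsLocalHom (Ideal.Quotient.mk J') :=
    IsLocalHom.of_surjective _ Ideal.Quotient.mk_surjective
  have : IsLocalHom (algebraMap B S') := this
  have : IsAdicComplete (maximalIdeal S') S' := Zero.adicComplete_finite B S'
  let e : A ⧸ J ≃+* S := RingHom.quotientKerEquivOfSurjective hψ
  let α : S →+* S' := (algebraMap (A ⧸ J) S').comp e.symm.toRingHom
  let _ : Algebra S S' := α.toAlgebra
  have hα : ∀ a, α (ψ a) = Ideal.Quotient.mk J' (ι a) := fun a => by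
    have h1 : e.symm (ψ a) = Ideal.Quotient.mk J a := e.symm_apply_apply (Ideal.Quotient.mk J a)
    simp only [α, RingHom.comp_apply, RingEquiv.toRingHom_eq_coe, RingEquiv.coe_toRingHom, h1]
    rfl
  have hflat : Module.Flat S S' := by
    have : Module.Flat (A ⧸ J) (B ⧸ J') := Module.Flat.of_linearEquiv
      (Algebra.TensorProduct.quotIdealMapEquivQuotTensor B J).toLinearEquiv
    exact RingHom.Flat.comp (RingHom.Flat.of_bijective (f := e.symm.toRingHom) e.symm.bijective)
      ((RingHom.flat_algebraMap_iff (R := A ⧸ J) (S := B ⧸ J')).2 this)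
  have hmax : (maximalIdeal S).map α = maximalIdeal S' := by
    have hsurjψ : (maximalIdeal A).map ψ = maximalIdeal S :=
      IsLocalRing.eq_maximalIdeal (Ideal.IsMaximal.map_of_surjective_of_ker_le hψ hJm)
    have hmB : (maximalIdeal B).map (Ideal.Quotient.mk J') = maximalIdeal S' :=
      IsLocalRing.eq_maximalIdeal (Ideal.IsMaximal.map_of_surjective_of_ker_le
        Ideal.Quotient.mk_surjective (Ideal.mk_ker.trans_le hJ'))
    rw [← hsurjψ, Ideal.map_map, show α.comp ψ = (Ideal.Quotient.mk J').comp ι from
      RingHom.ext hα, ← Ideal.map_map, hmA, hmB]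
  have hloc : IsLocalHom (algebraMap S S') := ((local_hom_TFAE _).out 0 2).mpr hmax.le
  refine ⟨S', inferInstance, inferInstance, inferInstance, inferInstance, inferInstance, hflat,
    hloc, hmax, ?_, ?_⟩
  · let ρ : B →+* K := WittVector.constantCoeff.comp MvPowerSeries.constantCoeff
    have hρ : Function.Surjective ρ := fun a => by
      obtain ⟨w, hw⟩ := WittVector.constantCoeff_surjective (p := p) a
      exact ⟨MvPowerSeries.C w, (congrArg WittVector.constantCoeff
        (MvPowerSeries.constantCoeff_C w)).trans hw⟩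
    let ρ' : B →+* ResidueField S' := (residue S').comp (Ideal.Quotient.mk J')
    have hρ' : Function.Surjective ρ' := residue_surjective.comp Ideal.Quotient.mk_surjective
    have h1 : RingHom.ker ρ = maximalIdeal B :=
      IsLocalRing.eq_maximalIdeal (RingHom.ker_isMaximal_of_surjective ρ hρ)
    have h2 : RingHom.ker ρ' = maximalIdeal B :=
      IsLocalRing.eq_maximalIdeal (RingHom.ker_isMaximal_of_surjective ρ' hρ')
    exact ⟨((RingHom.quotientKerEquivOfSurjective hρ).symm.trans
      (Ideal.quotEquivOfEq (h1.trans h2.symm))).trans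
      (RingHom.quotientKerEquivOfSurjective hρ')⟩
  · intro E _ _ _ g hg w hw
    have hzm : ∀ i, g (z i) ∈ maximalIdeal E := fun i =>
      ((mem_maximalIdeal _).2 fun hu => (mem_maximalIdeal _).1
        (hz ▸ Ideal.subset_span ⟨i, rfl⟩ : z i ∈ maximalIdeal S) ((isUnit_map_iff g _).1 hu))
    let G : B →+* E := EvalPS.eval w (fun i => g (z i)) hzm
    have hG : g.comp ψ = G.comp ι := by
      refine hom_ext (maximalIdeal E) _ _ (fun a => ?_) (fun i => ?_) (fun i => ?_)
      · rw [RingHom.comp_apply, RingHom.comp_apply, hψC, hιC, EvalPS.eval_C, hw]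
      · rw [RingHom.comp_apply, RingHom.comp_apply, hψX, hιX, EvalPS.eval_X]
      · rw [RingHom.comp_apply, hψX]
        exact hzm i
    have hGJ : ∀ b ∈ J', G b = 0 := fun b hb => by
      refine RingHom.mem_ker.1 ((Ideal.map_le_iff_le_comap.2 fun a ha => ?_ :
        J' ≤ RingHom.ker G) hb)
      rw [Ideal.mem_comap, RingHom.mem_ker]
      change (G.comp ι) a = 0
      rw [← hG, RingHom.comp_apply, RingHom.mem_ker.1 ha, map_zero]
    let g' : S' →+* E := Ideal.Quotient.lift J' G hGJ
    have hcomp : g'.comp α = g := RingHom.ext fun s => by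
      obtain ⟨a, rfl⟩ := hψ s
      rw [RingHom.comp_apply, hα, Ideal.Quotient.lift_mk, ← RingHom.comp_apply, ← hG]
      rfl
    refine ⟨g', ((local_hom_TFAE _).out 0 2).mpr ?_, hcomp⟩
    rw [← hmax, Ideal.map_map, hcomp]
    exact ((local_hom_TFAE g).out 0 2).mp hg

/-- Maps out of Witt vectors of a perfect field agree as soon as they agree on residues. -/
theorem witt_hom_ext {k : Type u} [Field k] [CharP k p] [PerfectRing k p] {E : Type u}
    [CommRing E] [IsLocalRing E] [IsHausdorff (maximalIdeal E) E] (hpE : (p : E) ∈ maximalIdeal E)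
    (g₁ g₂ : WittVector p k →+* E) (h : ∀ x, residue E (g₁ x) = residue E (g₂ x)) : g₁ = g₂ := by
  refine RingHom.ext fun x => sub_eq_zero.1 (IsHausdorff.haus' (I := maximalIdeal E) _ fun n => ?_)
  rw [SModEq.zero, smul_eq_mul, Ideal.mul_top]
  have hpow : ∀ (i : ℕ) (a b : E), a - b ∈ maximalIdeal E →
      a ^ p ^ i - b ^ p ^ i ∈ maximalIdeal E ^ (i + 1) := by
    intro i a b hab
    induction i with
    | zero => simpa using hab
    | succ i ih =>
      rw [pow_succ p i, pow_mul, pow_mul, ← geom_sum₂_mul, pow_succ' (maximalIdeal E) (i + 1)]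
      refine Ideal.mul_mem_mul ?_ ih
      rw [← residue_eq_zero_iff, map_sum]
      simp only [map_mul, map_pow]
      rw [show residue E a = residue E b by rwa [← sub_eq_zero, ← map_sub, residue_eq_zero_iff]]
      rw [Finset.sum_congr rfl fun j hj => by
        rw [← pow_add, Nat.add_sub_cancel' (Nat.le_sub_one_of_lt (Finset.mem_range.1 hj))],
        Finset.sum_const, Finset.card_range, nsmul_eq_mul, ← map_natCast (residue E),
        (residue_eq_zero_iff _).2 hpE, zero_mul]
  rw [← Ideal.Quotient.eq_zero_iff_mem, map_sub, sub_eq_zero]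
  have h2 : (Ideal.Quotient.mk (maximalIdeal E ^ n)).comp g₁ =
      (Ideal.Quotient.mk (maximalIdeal E ^ n)).comp g₂ := by
    refine WittVector.eq_of_apply_teichmuller_eq _ _ ⟨n, ?_⟩ fun a => ?_
    · rw [← map_natCast (Ideal.Quotient.mk (maximalIdeal E ^ n)), ← map_pow,
        Ideal.Quotient.eq_zero_iff_mem]
      exact Ideal.pow_mem_pow hpE n
    · rw [RingHom.comp_apply, RingHom.comp_apply, Ideal.Quotient.eq]
      obtain ⟨b, rfl⟩ : ∃ b, b ^ p ^ n = a :=
        (iterateFrobeniusEquiv k p n).surjective a
      rw [map_pow, map_pow, map_pow]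
      refine Ideal.pow_le_pow_right n.le_succ (hpow n _ _ ?_)
      rw [← residue_eq_zero_iff, map_sub, h, sub_self]
  exact RingHom.congr_fun h2 x

end Vale.Agent.P202.Mixed2.Gonfle
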