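import Vale.Agent.P202.Mixed2.WinMeas
import Vale.Agent.P202.Lambda.Exact

/-!
P202, mixed characteristic: the normalised length along a tower is a measure (`Meas`) on the
modules over any algebra over the tower.
-/

open scoped ENNReal

namespace Vale.Agent.P202.Mixed2

open Lambda

universe u v w

variable {A₀ : Type v} {B : Type w} {T : Type u} [CommRing A₀] [CommRing B] [CommRing T]
  [Algebra A₀ B] [Algebra A₀ T] [Algebra B T] [IsScalarTower A₀ B T]

/-- Normalised length of a `T`-module, seen over the tower. -/
noncomputable def lamT (A : ℕ → Subalgebra A₀ B) (c : ℕ) (M : Type u) [AddCommGroup M]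
    [Module T M] : ℝ≥0∞ :=
  letI := Module.compHom M (algebraMap A₀ T)
  letI := Module.compHom M (algebraMap B T)
  haveI : IsScalarTower A₀ B M := ⟨fun a b m => by
    show algebraMap B T (a • b) • m = algebraMap A₀ T a • algebraMap B T b • m
    rw [smul_smul, Algebra.smul_def, map_mul, ← IsScalarTower.algebraMap_apply]⟩
  lam A c M

theorem lamT_eq (A : ℕ → Subalgebra A₀ B) (c : ℕ) (M : Type u) [AddCommGroup M] [Module T M]
    [m₀ : Module A₀ M] [m₁ : Module B M] [IsScalarTower A₀ B M] [IsScalarTower A₀ T M]
    [IsScalarTower B T M] : lamT (T := T) A c M = lam A c M := by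
  have e0 : Module.compHom M (algebraMap A₀ T) = m₀ :=
    Module.ext' _ _ fun a m => algebraMap_smul T a m
  have e1 : Module.compHom M (algebraMap B T) = m₁ :=
    Module.ext' _ _ fun b m => algebraMap_smul T b m
  subst e0 e1
  rfl

variable (T) in
/-- The measure given by the normalised length. -/
noncomputable def lamMeas [IsNoetherianRing A₀] {A : ℕ → Subalgebra A₀ B} {c : ℕ}
    (h : IsTower A c) : Meas T where
  val M _ _ := lamT (T := T) A c M
  zero M _ _ hM := by
    let := Module.compHom M (algebraMap A₀ T)
    let := Module.compHom M (algebraMap B T)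
    have : IsScalarTower A₀ T M := IsScalarTower.of_algebraMap_smul fun _ _ => rfl
    have : IsScalarTower B T M := IsScalarTower.of_algebraMap_smul fun _ _ => rfl
    have : IsScalarTower A₀ B M := IsScalarTower.to₁₂₄ A₀ B T M
    rw [lamT_eq]
    exact lam_of_subsingleton
  add {M' M M''} _ _ _ _ _ _ i π hi hπ hex := by
    let := Module.compHom M' (algebraMap A₀ T)
    let := Module.compHom M' (algebraMap B T)
    let := Module.compHom M (algebraMap A₀ T)
    let := Module.compHom M (algebraMap B T)
    let := Module.compHom M'' (algebraMap A₀ T)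
    let := Module.compHom M'' (algebraMap B T)
    have : IsScalarTower A₀ T M' := IsScalarTower.of_algebraMap_smul fun _ _ => rfl
    have : IsScalarTower B T M' := IsScalarTower.of_algebraMap_smul fun _ _ => rfl
    have : IsScalarTower A₀ B M' := IsScalarTower.to₁₂₄ A₀ B T M'
    have : IsScalarTower A₀ T M := IsScalarTower.of_algebraMap_smul fun _ _ => rfl
    have : IsScalarTower B T M := IsScalarTower.of_algebraMap_smul fun _ _ => rfl
    have : IsScalarTower A₀ B M := IsScalarTower.to₁₂₄ A₀ B T M
    have : IsScalarTower A₀ T M'' := IsScalarTower.of_algebraMap_smul fun _ _ => rfl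
    have : IsScalarTower B T M'' := IsScalarTower.of_algebraMap_smul fun _ _ => rfl
    have : IsScalarTower A₀ B M'' := IsScalarTower.to₁₂₄ A₀ B T M''
    rw [lamT_eq, lamT_eq, lamT_eq]
    exact lam_eq_add h (i.restrictScalars B) (π.restrictScalars B) hi hπ hex
  le_of_fg {M} _ _ d hS := by
    classical
    let := Module.compHom M (algebraMap A₀ T)
    let := Module.compHom M (algebraMap B T)
    have : IsScalarTower A₀ T M := IsScalarTower.of_algebraMap_smul fun _ _ => rfl
    have : IsScalarTower B T M := IsScalarTower.of_algebraMap_smul fun _ _ => rfl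
    have : IsScalarTower A₀ B M := IsScalarTower.to₁₂₄ A₀ B T M
    rw [lamT_eq]
    refine iSup_le fun S => ?_
    set N := Submodule.span T (S : Set M)
    refine le_trans ?_ ((lamT_eq A c N).symm.le.trans (hS N (Submodule.fg_span S.finite_toSet)))
    refine le_trans (le_iInf fun n => (iInf_le _ n).trans ?_)
      (le_iSup (fun S : Finset N => ⨅ n, rat A c n S)
        (S.attach.image fun s : S => (⟨(s : M), Submodule.subset_span s.2⟩ : N)))
    refine ENNReal.div_le_div_right (ENat.toENNReal_mono ?_) _
    set S₁ := S.attach.image fun s : S => (⟨(s : M), Submodule.subset_span s.2⟩ : N)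
    have himg : S₁.image (N.subtype.restrictScalars B) = S := by
      ext x
      simp only [S₁, Finset.image_image]
      simp only [Finset.mem_image, Finset.mem_attach, true_and, Subtype.exists, Function.comp]
      exact ⟨fun ⟨_, ha, he⟩ => he ▸ ha, fun hx => ⟨x, hx, rfl⟩⟩
    conv_lhs => rw [← himg, ← map_lev]
    exact Module.length_le_of_surjective _
      (((N.subtype.restrictScalars B).restrictScalars A₀).submoduleMap_surjective _)

theorem lamMeas_val [IsNoetherianRing A₀] {A : ℕ → Subalgebra A₀ B} {c : ℕ} (h : IsTower A c)
    (M : Type u) [AddCommGroup M] [Module T M] [Module A₀ M] [Module B M] [IsScalarTower A₀ B M]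
    [IsScalarTower A₀ T M] [IsScalarTower B T M] : (lamMeas T h).val M = lam A c M :=
  lamT_eq A c M

end Vale.Agent.P202.Mixed2
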