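import Vale.Agent.P202.TopComp.Assoc
import Vale.Agent.P202.Zero.ParamBound
import Vale.Agent.P202.Zero.PSLength
import Vale.Agent.P202.Char.Stage2Dim
import Vale.Agent.P202.Mixed2.PSComplete
import Mathlib.RingTheory.MvPolynomial.Homogeneous

/-!
P202 mixed characteristic, for the localisation inequality: multiplicities of quotients by one
element are bounded by the order from above in a local ring with few generators of the maximal
ideal, and from below in power series over a discrete valuation ring.
-/

namespace Vale.Agent.P202.Mixed2.Localisation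

open IsLocalRing Filter Topology Vale.Agent.P202.Char Vale.Agent.P202.TopComp Vale.Agent.P202.Zero

universe u v

section General

variable {B : Type u} [CommRing B] [IsLocalRing B] [IsNoetherianRing B]

theorem exists_dim : ∃ d : ℕ, ringKrullDim B = d := by
  obtain ⟨d, e, hd, -, -⟩ := exists_multiplicity B
  exact ⟨d, hd⟩

theorem hasMult_nonneg {M : Type v} [AddCommGroup M] [Module B M] {d : ℕ} {a : ℝ}
    (h : HasMult B M d a) : 0 ≤ a :=
  ge_of_tendsto h (Eventually.of_forall fun _ => by positivity)

/-- A quotient of dimension at most `D` has a multiplicity in degree `D`. -/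
theorem exists_hasMult_quot (I : Ideal B) [IsLocalRing (B ⧸ I)] {D : ℕ}
    (h : ringKrullDim (B ⧸ I) ≤ D) : ∃ a, HasMult B (B ⧸ I) D a := by
  obtain ⟨d, e, hd, -, he⟩ := exists_multiplicity (B ⧸ I)
  rw [hd] at h
  rcases (show d ≤ D by exact_mod_cast h).lt_or_eq with hlt | rfl
  · exact ⟨0, hasMult_zero_of_lt I hd hlt⟩
  · exact ⟨e, (hasMult_quotient_iff I _ e).2 he⟩

/-- Proper nonzero primes lower the dimension. -/
theorem dim_quot_le [IsDomain B] (P : Ideal B) [P.IsPrime] (hP : P ≠ ⊥) {n : ℕ}
    (hdim : ringKrullDim B ≤ (n + 1 : ℕ)) : ringKrullDim (B ⧸ P) ≤ n := by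
  obtain ⟨x, hxP, hx⟩ := Submodule.exists_mem_ne_zero_of_ne_bot hP
  have h1 : ringKrullDim (B ⧸ P) + 1 ≤ (n + 1 : ℕ) :=
    (ringKrullDim_succ_le_of_surjective (Ideal.Quotient.mk P) Ideal.Quotient.mk_surjective
      (mem_nonZeroDivisors_of_ne_zero hx) (Ideal.Quotient.eq_zero_iff_mem.2 hxP)).trans hdim
  have : Nontrivial (B ⧸ P) := Ideal.Quotient.nontrivial_iff.2 Ideal.IsPrime.ne_top'
  have : IsLocalRing (B ⧸ P) :=
    IsLocalRing.of_surjective' (Ideal.Quotient.mk P) Ideal.Quotient.mk_surjective
  obtain ⟨d, hd⟩ := exists_dim (B := B ⧸ P)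
  rw [hd] at h1 ⊢
  have : d + 1 ≤ n + 1 := by exact_mod_cast h1
  exact_mod_cast (show d ≤ n by omega)

/-- Two steps of primes lower the dimension twice. -/
theorem dim_quot_lt [IsDomain B] (P₁ P : Ideal B) [P₁.IsPrime] [P.IsPrime] (h₁ : P₁ ≠ ⊥)
    (hlt : P₁ < P) {n : ℕ} (hdim : ringKrullDim B ≤ (n + 1 : ℕ)) :
    ∃ d : ℕ, ringKrullDim (B ⧸ P) = d ∧ d < n := by
  have : Nontrivial (B ⧸ P) := Ideal.Quotient.nontrivial_iff.2 Ideal.IsPrime.ne_top'
  have : IsLocalRing (B ⧸ P) :=
    IsLocalRing.of_surjective' (Ideal.Quotient.mk P) Ideal.Quotient.mk_surjective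
  obtain ⟨d, hd⟩ := exists_dim (B := B ⧸ P)
  refine ⟨d, hd, ?_⟩
  have h1 := dim_quot_le P₁ h₁ hdim
  obtain ⟨y, hy, hy'⟩ := SetLike.exists_of_lt hlt
  have h2 : ringKrullDim (B ⧸ P) + 1 ≤ (n : ℕ) :=
    (ringKrullDim_succ_le_of_surjective (Ideal.Quotient.factor hlt.le)
      (Ideal.Quotient.factor_surjective hlt.le)
      (r := Ideal.Quotient.mk P₁ y)
      (mem_nonZeroDivisors_of_ne_zero fun h => hy' (Ideal.Quotient.eq_zero_iff_mem.1 h))
      (by rw [Ideal.Quotient.factor_mk]; exact Ideal.Quotient.eq_zero_iff_mem.2 hy)).trans h1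
  rw [hd] at h2
  have : d + 1 ≤ n := by exact_mod_cast h2
  omega

/-- With `n + 1` generators of the maximal ideal and an infinite residue field, the multiplicity
in degree `n` of the quotient by one element is at most its order. -/
theorem principal_upper [Infinite (ResidueField B)] {n : ℕ} (t : Fin (n + 1) → B)
    (ht : maximalIdeal B = Ideal.span (Set.range t)) {f : B} {o : ℕ} (ho : 0 < o)
    (hfo : f ∈ maximalIdeal B ^ o) (hf : f ∉ maximalIdeal B ^ (o + 1))
    [IsLocalRing (B ⧸ Ideal.span {f})] {b : ℝ}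
    (hb : IsMultiplicity (B ⧸ Ideal.span {f}) n b) : b ≤ o := by
  classical
  set T := B ⧸ Ideal.span {f}
  set π : B →+* T := Ideal.Quotient.mk _
  obtain ⟨G, hG, hGf⟩ : ∃ G : MvPolynomial (Fin (n + 1)) B,
      G.IsHomogeneous o ∧ G.eval t = f := by
    rw [ht] at hfo
    exact (Ideal.mem_span_pow_iff_exists_isHomogeneous t f).1 hfo
  have htm : ∀ i, t i ∈ maximalIdeal B := fun i => ht ▸ Ideal.subset_span ⟨i, rfl⟩
  -- the reduced form is nonzero
  set H := MvPolynomial.map (residue B) G with hHdef
  have hH : H ≠ 0 := by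
    intro h0
    refine hf ?_
    rw [← hGf, MvPolynomial.eval_eq']
    refine Ideal.sum_mem _ fun e he => ?_
    have hc : G.coeff e ∈ maximalIdeal B := by
      rw [← residue_eq_zero_iff, ← MvPolynomial.coeff_map, ← hHdef, h0, MvPolynomial.coeff_zero]
    have hdeg : e.degree = o := by
      by_contra hne
      exact (MvPolynomial.mem_support_iff.1 he) (hG.coeff_eq_zero hne)
    rw [pow_succ']
    refine Ideal.mul_mem_mul hc ?_
    rw [← hdeg, Finsupp.degree_eq_sum, ← Finset.prod_pow_eq_pow_sum]
    exact Ideal.prod_mem_prod fun i _ => Ideal.pow_mem_pow (htm i) _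
  obtain ⟨w, hw⟩ : ∃ w : Fin (n + 1) → ResidueField B,
      MvPolynomial.eval w (H * MvPolynomial.X 0) ≠ 0 := by
    by_contra h
    push Not at h
    exact mul_ne_zero hH (MvPolynomial.X_ne_zero _)
      (((hG.map _).mul (MvPolynomial.isHomogeneous_X _ _)).eq_zero_of_forall_eval_eq_zero h)
  rw [map_mul, MvPolynomial.eval_X, mul_ne_zero_iff] at hw
  choose μ hμ using fun i => residue_surjective (w i)
  have hu : IsUnit (μ 0) := (residue_ne_zero_iff_isUnit _).1 (by rw [hμ]; exact hw.2)
  have hGu : IsUnit (MvPolynomial.eval μ G) := by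
    rw [← residue_ne_zero_iff_isUnit]
    intro h0
    refine hw.1 ?_
    rw [hHdef, MvPolynomial.eval_map, ← show residue B ∘ μ = w from funext hμ]
    exact (MvPolynomial.eval₂_comp _ _ _).symm.trans h0
  -- the elements cutting out the line through `μ`
  set ν : Fin (n + 1) → B := fun i => ↑hu.unit⁻¹ * μ i with hν
  have hν0 : ν 0 = 1 := hu.val_inv_mul
  set xB : Fin n → B := fun i => t i.succ - ν i.succ * t 0
  set x : Fin n → T := π ∘ xB
  set J : Ideal T := Ideal.span (Set.range x)
  set t₀ : T := π (t 0)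
  set m := maximalIdeal T
  have hlocal : IsLocalHom π := IsLocalHom.of_surjective _ Ideal.Quotient.mk_surjective
  have hm : m = J ⊔ Ideal.span {t₀} := by
    refine le_antisymm ?_ (sup_le (Ideal.span_le.2 ?_) (Ideal.span_le.2 ?_))
    · have h1 : (maximalIdeal B).map π = m :=
        IsLocalRing.eq_maximalIdeal (Ideal.IsMaximal.map_of_surjective_of_ker_le
          Ideal.Quotient.mk_surjective (le_maximalIdeal (RingHom.ker_ne_top _)))
      rw [← h1, ht, Ideal.map_span, Ideal.span_le]
      rintro _ ⟨_, ⟨i, rfl⟩, rfl⟩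
      induction i using Fin.cases with
      | zero => exact Ideal.mem_sup_right (Ideal.mem_span_singleton_self _)
      | succ i =>
        have : π (t i.succ) = x i + π (ν i.succ) * t₀ := by
          simp only [x, xB, t₀, Function.comp_apply, map_sub, map_mul]
          ring
        rw [this]
        exact Submodule.add_mem_sup (Ideal.subset_span ⟨i, rfl⟩)
          (Ideal.mul_mem_left _ _ (Ideal.mem_span_singleton_self _))
    · rintro _ ⟨i, rfl⟩
      exact map_nonunit π _ (sub_mem (htm _) (Ideal.mul_mem_left _ _ (htm 0)))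
    · rintro _ rfl
      exact map_nonunit π _ (htm 0)
  have hmk : ∀ k, m ^ (k + 1) ≤ J * m ^ k ⊔ Ideal.span {t₀ ^ (k + 1)} := by
    intro k
    induction k with
    | zero => simpa using hm.le
    | succ k ih =>
      rw [pow_succ]
      refine (Ideal.mul_mono_left ih).trans ?_
      rw [Ideal.sup_mul, mul_assoc, ← pow_succ]
      refine sup_le le_sup_left ?_
      refine (Ideal.mul_mono_right hm.le).trans ?_
      rw [Ideal.mul_sup, Ideal.span_singleton_mul_span_singleton, ← pow_succ, mul_comm]
      refine sup_le_sup (Ideal.mul_mono_right ?_) le_rfl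
      rw [Ideal.span_singleton_le_iff_mem]
      exact Ideal.pow_mem_pow (hm ▸ Ideal.mem_sup_right (Ideal.mem_span_singleton_self _)) _
  obtain ⟨o', rfl⟩ := Nat.exists_eq_add_of_le' ho
  -- the power of `t₀` is killed
  have ht0m : t₀ ∈ m := hm ▸ Ideal.mem_sup_right (Ideal.mem_span_singleton_self _)
  have ht₀ : t₀ ^ (o' + 1) ∈ J * m ^ o' := by
    set K : Ideal T := J * m ^ o'
    have hdiff : ∀ e : Fin (n + 1) →₀ ℕ, e.degree = o' + 1 →
        (∏ i, π (t i) ^ e i) - (∏ i, π (ν i) ^ e i) * t₀ ^ (o' + 1) ∈ K := by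
      have key : ∀ k, ∀ e : Fin (n + 1) →₀ ℕ, e.degree = k + 1 →
          (∏ i, π (t i) ^ e i) - (∏ i, π (ν i) ^ e i) * t₀ ^ (k + 1) ∈ J * m ^ k := by
        intro k
        induction k with
        | zero =>
          intro e he
          obtain ⟨i, rfl⟩ : ∃ i, e = Finsupp.single i 1 := by
            obtain ⟨i, hi⟩ : ∃ i, e i ≠ 0 := by
              by_contra hne
              push Not at hne
              rw [show e = 0 from Finsupp.ext hne, map_zero] at he
              omega
            have hle : Finsupp.single i 1 ≤ e :=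
              Finsupp.single_le_iff.2 (Nat.one_le_iff_ne_zero.2 hi)
            have h := congrArg Finsupp.degree (add_tsub_cancel_of_le hle)
            rw [map_add, Finsupp.degree_single, he] at h
            have h0 : e - Finsupp.single i 1 = 0 :=
              (Finsupp.degree_eq_zero_iff _).1 (by omega)
            exact ⟨i, le_antisymm (tsub_eq_zero_iff_le.1 h0) hle⟩
          rw [Fintype.prod_eq_single i (fun j hj => by simp [Ne.symm hj]),
            Fintype.prod_eq_single i (fun j hj => by simp [Ne.symm hj]), Finsupp.single_eq_same,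
            pow_one, pow_one, pow_one, pow_zero, mul_one]
          induction i using Fin.cases with
          | zero => simp [hν0, t₀]
          | succ i =>
            refine Ideal.subset_span ⟨i, ?_⟩
            simp [x, xB, t₀]
        | succ k ih =>
          intro e he
          obtain ⟨i, hi⟩ : ∃ i, e i ≠ 0 := by
            by_contra hne
            push Not at hne
            rw [show e = 0 from Finsupp.ext hne, map_zero] at he
            omega
          have hle : Finsupp.single i 1 ≤ e := Finsupp.single_le_iff.2 (Nat.one_le_iff_ne_zero.2 hi)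
          set e' := e - Finsupp.single i 1
          have he' : Finsupp.single i 1 + e' = e := add_tsub_cancel_of_le hle
          have hdeg : e'.degree = k + 1 := by
            have := congrArg Finsupp.degree he'
            rw [map_add, Finsupp.degree_single, he] at this
            omega
          have hsplit : ∀ g : Fin (n + 1) → T, (∏ j, g j ^ e j) = g i * ∏ j, g j ^ e' j := by
            intro g
            rw [← he']
            simp only [Finsupp.add_apply, pow_add, Finset.prod_mul_distrib]
            rw [Fintype.prod_eq_single i (fun j hj => by simp [Ne.symm hj]), Finsupp.single_eq_same,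
              pow_one]
          rw [hsplit, hsplit, show π (t i) * (∏ j, π (t j) ^ e' j) -
              π (ν i) * (∏ j, π (ν j) ^ e' j) * t₀ ^ (k + 1 + 1) =
            π (t i) * ((∏ j, π (t j) ^ e' j) - (∏ j, π (ν j) ^ e' j) * t₀ ^ (k + 1)) +
              (π (t i) - π (ν i) * t₀) * ((∏ j, π (ν j) ^ e' j) * t₀ ^ (k + 1)) by ring]
          refine add_mem ?_ (Ideal.mul_mem_mul ?_ (Ideal.mul_mem_left _ _ (Ideal.pow_mem_pow ht0m _)))
          · rw [pow_succ' m, mul_left_comm]
            exact Ideal.mul_mem_mul (map_nonunit π _ (htm i)) (ih e' hdeg)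
          · induction i using Fin.cases with
            | zero => simp [hν0, t₀]
            | succ i =>
              refine Ideal.subset_span ⟨i, ?_⟩
              simp [x, xB, t₀]
      exact fun e he => key o' e he
    have hGν : IsUnit (π (MvPolynomial.eval ν G)) := by
      refine IsUnit.map π ?_
      rw [show MvPolynomial.eval ν G = (↑hu.unit⁻¹ : B) ^ (o' + 1) * MvPolynomial.eval μ G from ?_]
      · exact (IsUnit.pow _ (Units.isUnit _)).mul hGu
      · rw [MvPolynomial.eval_eq', MvPolynomial.eval_eq', Finset.mul_sum]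
        refine Finset.sum_congr rfl fun e he => ?_
        have hdeg : e.degree = o' + 1 := by
          by_contra hne
          exact (MvPolynomial.mem_support_iff.1 he) (hG.coeff_eq_zero hne)
        simp only [hν, mul_pow, Finset.prod_mul_distrib, Finset.prod_pow_eq_pow_sum]
        rw [← Finsupp.degree_eq_sum, hdeg]
        ring
    refine (Ideal.unit_mul_mem_iff_mem _ hGν).1 ?_
    have h0 : π (MvPolynomial.eval t G) = 0 := by
      rw [hGf]
      exact Ideal.Quotient.eq_zero_iff_mem.2 (Ideal.mem_span_singleton_self f)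
    have h1 : π (MvPolynomial.eval t G) - π (MvPolynomial.eval ν G) * t₀ ^ (o' + 1) ∈ K := by
      simp only [MvPolynomial.eval_eq', map_sum, map_mul, map_prod, map_pow, Finset.sum_mul]
      rw [← Finset.sum_sub_distrib]
      refine sum_mem fun e he => ?_
      rw [mul_assoc, ← mul_sub]
      refine Ideal.mul_mem_left _ _ (hdiff e ?_)
      by_contra hne
      exact (MvPolynomial.mem_support_iff.1 he) (hG.coeff_eq_zero hne)
    rw [h0, zero_sub] at h1
    exact neg_mem_iff.1 h1
  have hred : m ^ (o' + 1) ≤ J * m ^ o' :=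
    (hmk o').trans (sup_le le_rfl ((Ideal.span_singleton_le_iff_mem _).2 ht₀))
  have hxm : ∀ i, x i ∈ m := fun i =>
    hm ▸ Ideal.mem_sup_left (Ideal.subset_span ⟨i, rfl⟩)
  have h1 := mult_mul_pow_le hb x hxm hred 1 one_pos
  rw [Nat.cast_one, one_pow, mul_one, show (fun i => x i ^ 1) = x from funext fun i => pow_one _]
    at h1
  refine h1.trans ?_
  have hsimple : Module.length T (T ⧸ (J ⊔ Ideal.span {t₀})) = 1 := by
    rw [← hm, Module.length_eq_one_iff, isSimpleModule_iff_quot_maximal]
    exact ⟨m, maximalIdeal.isMaximal _, ⟨LinearEquiv.refl _ _⟩⟩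
  have h2 := Exist.length_pow_singleton J t₀ (o' + 1)
  rw [hsimple, mul_one, sup_eq_left.2 ((Ideal.span_singleton_le_iff_mem _).2
    (Ideal.mul_le_left ht₀))] at h2
  have h3 := ENat.toNat_le_toNat h2 (ENat.natCast_ne_top _)
  rw [ENat.toNat_natCast] at h3
  show ((len T (T ⧸ J) : ℕ) : ℝ) ≤ _
  exact_mod_cast h3

end General

section Lower

variable {V : Type u} [CommRing V] [IsDomain V] [IsDiscreteValuationRing V] {D : ℕ}

/-- The layers of the filtration by the maximal ideal are large. -/
theorem card_le_length_layer (j : ℕ) :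
    ((PSLen.lowSet D (j + 1)).card : ℕ∞) + Module.length (MvPowerSeries (Fin D) V) ((MvPowerSeries (Fin D) V) ⧸ maximalIdeal (MvPowerSeries (Fin D) V) ^ j) ≤
      Module.length (MvPowerSeries (Fin D) V) ((MvPowerSeries (Fin D) V) ⧸ maximalIdeal (MvPowerSeries (Fin D) V) ^ (j + 1)) := by
  classical
  obtain ⟨ϖ, hϖ⟩ := IsDiscreteValuationRing.exists_irreducible V
  have hmax := hϖ.maximalIdeal_eq
  set I := maximalIdeal (MvPowerSeries (Fin D) V) ^ (j + 1)
  have hϖA : MvPowerSeries.C ϖ ∈ maximalIdeal (MvPowerSeries (Fin D) V) := by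
    rw [mem_maximalIdeal, mem_nonunits_iff, MvPowerSeries.isUnit_iff_constantCoeff,
      MvPowerSeries.constantCoeff_C]
    exact hϖ.not_isUnit
  let g : {α // α ∈ PSLen.lowSet D (j + 1)} → (MvPowerSeries (Fin D) V) := fun α =>
    MvPowerSeries.monomial α.1 (ϖ ^ (j - α.1.degree))
  have hg : ∀ α, g α ∈ maximalIdeal (MvPowerSeries (Fin D) V) ^ j := fun α => by
    refine PSComplete.mem_pow_of_coeff_mem fun e _ => ?_
    rw [MvPowerSeries.coeff_monomial]
    split_ifs with he
    · rw [hmax, Ideal.span_singleton_pow, he]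
      exact Ideal.mem_span_singleton_self _
    · exact zero_mem _
  have hle : maximalIdeal (MvPowerSeries (Fin D) V) ^ (j + 1) ≤ maximalIdeal (MvPowerSeries (Fin D) V) ^ j := Ideal.pow_le_pow_right j.le_succ
  let q := Submodule.factor hle
  let L : ({α // α ∈ PSLen.lowSet D (j + 1)} → (MvPowerSeries (Fin D) V)) →ₗ[(MvPowerSeries (Fin D) V)] LinearMap.ker q :=
    (Fintype.linearCombination (MvPowerSeries (Fin D) V) fun α => (Submodule.Quotient.mk (g α) : (MvPowerSeries (Fin D) V) ⧸ I)).codRestrict _
      fun c => by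
        rw [Fintype.linearCombination_apply, LinearMap.mem_ker, map_sum]
        refine Finset.sum_eq_zero fun α _ => ?_
        rw [map_smul]
        exact (congrArg (c α • ·) ((Submodule.Quotient.mk_eq_zero _).2 (hg α))).trans (smul_zero _)
  let R := LinearMap.range L
  have hker : LinearMap.ker L ≤
      Submodule.pi Set.univ fun _ : {α // α ∈ PSLen.lowSet D (j + 1)} => maximalIdeal (MvPowerSeries (Fin D) V) := by
    intro c hc γ _
    have h0 : ∑ α, c α * g α ∈ I := by
      have h := congrArg Subtype.val hc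
      simp only [L, LinearMap.codRestrict_apply, Fintype.linearCombination_apply] at h
      refine (Submodule.Quotient.mk_eq_zero _).1 ((?_ : I.mkQ (∑ α, c α * g α) = _).trans h)
      rw [map_sum]
      exact Finset.sum_congr rfl fun α _ => map_smul I.mkQ (c α) (g α)
    have hγ : γ.1.degree ≤ j := Nat.lt_succ_iff.1 (PSLen.mem_lowSet.1 γ.2)
    have h1 := PSComplete.coeff_mem_of_mem_pow h0 γ.1
    rw [hmax, Ideal.span_singleton_pow, Ideal.mem_span_singleton, map_sum] at h1
    have hrest : ∀ α ∈ (Finset.univ : Finset {α // α ∈ PSLen.lowSet D (j + 1)}).erase γ,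
        ϖ ^ (j + 1 - γ.1.degree) ∣ MvPowerSeries.coeff γ.1 (c α * g α) := by
      intro α hα
      rw [MvPowerSeries.coeff_mul_monomial]
      split_ifs with hle'
      · have hne : α.1 ≠ γ.1 := fun h => (Finset.mem_erase.1 hα).1 (Subtype.ext h)
        have hlt : α.1.degree < γ.1.degree := by
          have h2 := congrArg Finsupp.degree (add_tsub_cancel_of_le hle')
          rw [map_add] at h2
          have h3 : (γ.1 - α.1).degree ≠ 0 := fun h => hne
            (le_antisymm hle' (tsub_eq_zero_iff_le.1 ((Finsupp.degree_eq_zero_iff _).1 h)))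
          omega
        exact dvd_mul_of_dvd_right (pow_dvd_pow _ (by omega)) _
      · exact dvd_zero _
    rw [← Finset.add_sum_erase _ _ (Finset.mem_univ γ), dvd_add_left (Finset.dvd_sum hrest),
      MvPowerSeries.coeff_mul_monomial, if_pos le_rfl, tsub_self,
      show j + 1 - γ.1.degree = 1 + (j - γ.1.degree) by omega, pow_add, pow_one,
      MvPowerSeries.coeff_zero_eq_constantCoeff_apply,
      mul_dvd_mul_iff_right (pow_ne_zero _ hϖ.ne_zero)] at h1
    show c γ ∈ maximalIdeal (MvPowerSeries (Fin D) V)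
    rw [mem_maximalIdeal, mem_nonunits_iff, MvPowerSeries.isUnit_iff_constantCoeff,
      ← mem_nonunits_iff, ← mem_maximalIdeal, hmax, Ideal.mem_span_singleton]
    exact h1
  rw [Module.length_eq_add_of_exact (LinearMap.ker q).subtype q Subtype.val_injective
    (Submodule.factor_surjective _) (LinearMap.exact_subtype_ker_map q)]
  refine add_le_add ?_ le_rfl
  have hR : Module.length (MvPowerSeries (Fin D) V) R ≤ Module.length (MvPowerSeries (Fin D) V) (LinearMap.ker q) :=
    Module.length_le_of_injective R.subtype R.injective_subtype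
  refine le_trans ?_ hR
  rw [← L.quotKerEquivRange.length_eq]
  refine le_trans ?_ (Module.length_le_of_surjective
    (Submodule.factor hker) (Submodule.factor_surjective hker))
  refine le_of_eq ?_
  have _i : Fintype {α // α ∈ PSLen.lowSet D (j + 1)} := Finset.fintypeCoeSort _
  have E := Submodule.quotientPi (R := (MvPowerSeries (Fin D) V)) (Ms := fun _ : {α // α ∈ PSLen.lowSet D (j + 1)} => (MvPowerSeries (Fin D) V))
    (fun _ => maximalIdeal (MvPowerSeries (Fin D) V))
  refine Eq.trans ?_ E.length_eq.symm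
  rw [Module.length_pi_of_fintype]
  have hs : Module.length (MvPowerSeries (Fin D) V) ((MvPowerSeries (Fin D) V) ⧸ maximalIdeal (MvPowerSeries (Fin D) V)) = 1 := by
    rw [Module.length_eq_one_iff, isSimpleModule_iff_quot_maximal]
    exact ⟨_, maximalIdeal.isMaximal _, ⟨LinearEquiv.refl _ _⟩⟩
  simp [hs]

/-- The multiplicity of a quotient by an element is at least any power of the maximal ideal
containing the element. -/
theorem principal_lower [IsNoetherianRing (MvPowerSeries (Fin D) V)] {f : (MvPowerSeries (Fin D) V)} {o : ℕ} (ho : 0 < o)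
    (hf : f ∈ maximalIdeal (MvPowerSeries (Fin D) V) ^ o) {a : ℝ} (ha : HasMult (MvPowerSeries (Fin D) V) ((MvPowerSeries (Fin D) V) ⧸ Ideal.span {f}) D a) :
    (o : ℝ) ≤ a := by
  obtain ⟨o', rfl⟩ := Nat.exists_eq_add_of_le' ho
  set m := maximalIdeal (MvPowerSeries (Fin D) V)
  have hfin : ∀ N, Module.length (MvPowerSeries (Fin D) V) ((MvPowerSeries (Fin D) V) ⧸ m ^ N) ≠ ⊤ := fun N =>
    length_quotient_ne_top _ N le_rfl
  let H := fun N => (Module.length (MvPowerSeries (Fin D) V) ((MvPowerSeries (Fin D) V) ⧸ m ^ N)).toNat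
  have hH : ∀ j, (PSLen.lowSet D (j + 1)).card + H j ≤ H (j + 1) := fun j => by
    have h := ENat.toNat_le_toNat (card_le_length_layer (V := V) (D := D) j) (hfin _)
    rwa [ENat.toNat_add (ENat.natCast_ne_top _) (hfin _), ENat.toNat_natCast] at h
  have hH' : ∀ j i, i * (PSLen.lowSet D (j + 1)).card + H j ≤ H (j + i) := by
    intro j i
    induction i with
    | zero => simp
    | succ i ih =>
      have h1 := hH (j + i)
      have h2 := PSLen.lowSet_mono D (show j + 1 ≤ j + i + 1 by omega)
      rw [Nat.succ_mul, ← Nat.add_assoc j i 1]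
      omega
  have key : ∀ N, o' + 1 ≤ N → ((o' + 1) * (PSLen.lowSet D (N - o')).card : ℕ) ≤
      (Module.length (MvPowerSeries (Fin D) V) (((MvPowerSeries (Fin D) V) ⧸ Ideal.span {f}) ⧸
        (m ^ N • ⊤ : Submodule (MvPowerSeries (Fin D) V) ((MvPowerSeries (Fin D) V) ⧸ Ideal.span {f})))).toNat := by
    intro N hN
    set I := Ideal.span {f} ⊔ m ^ N
    have hsub : (m ^ N • ⊤ : Submodule (MvPowerSeries (Fin D) V) ((MvPowerSeries (Fin D) V) ⧸ Ideal.span {f})) ≤
        LinearMap.ker (Submodule.factor (le_sup_left : Ideal.span {f} ≤ I)) := by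
      rw [Submodule.smul_le]
      intro r hr y _
      obtain ⟨y, rfl⟩ := Submodule.mkQ_surjective _ y
      rw [LinearMap.mem_ker, map_smul]
      show r • (Submodule.Quotient.mk y : (MvPowerSeries (Fin D) V) ⧸ I) = 0
      rw [← Submodule.Quotient.mk_smul, Submodule.Quotient.mk_eq_zero]
      exact Ideal.mem_sup_right (Ideal.mul_mem_right _ _ hr)
    have hfinI : Module.length (MvPowerSeries (Fin D) V) (((MvPowerSeries (Fin D) V) ⧸ Ideal.span {f}) ⧸
        (m ^ N • ⊤ : Submodule (MvPowerSeries (Fin D) V) ((MvPowerSeries (Fin D) V) ⧸ Ideal.span {f}))) ≠ ⊤ :=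
      length_ne_top_of_killed (N := N) fun r hr y => by
        obtain ⟨y, rfl⟩ := Submodule.mkQ_surjective _ y
        rw [← map_smul, Submodule.mkQ_apply, Submodule.Quotient.mk_eq_zero]
        exact Submodule.smul_mem_smul hr trivial
    refine le_trans ?_ (ENat.toNat_le_toNat (Module.length_le_of_surjective
      (Submodule.liftQ _ _ hsub) ?_) hfinI)
    swap
    · intro y
      obtain ⟨y, rfl⟩ := Submodule.mkQ_surjective _ y
      exact ⟨Submodule.Quotient.mk (Submodule.Quotient.mk y), rfl⟩
    -- multiplication by `f`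
    set j := N - (o' + 1)
    have hj : j + (o' + 1) = N := by omega
    have hmul : (m ^ j : Submodule (MvPowerSeries (Fin D) V) (MvPowerSeries (Fin D) V)) ≤ Submodule.comap (LinearMap.mulLeft (MvPowerSeries (Fin D) V) f) (m ^ N) := fun y hy => by
      rw [Submodule.mem_comap, LinearMap.mulLeft_apply, ← hj, pow_add, mul_comm f y]
      exact Ideal.mul_mem_mul hy hf
    have hIN : m ^ N ≤ I := le_sup_right
    let q := Submodule.factor hIN
    let μ : ((MvPowerSeries (Fin D) V) ⧸ m ^ j) →ₗ[(MvPowerSeries (Fin D) V)] ((MvPowerSeries (Fin D) V) ⧸ m ^ N) := Submodule.mapQ _ _ (LinearMap.mulLeft (MvPowerSeries (Fin D) V) f) hmul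
    have hkq : LinearMap.ker q ≤ LinearMap.range μ := by
      intro y hy
      obtain ⟨y, rfl⟩ := Submodule.mkQ_surjective _ y
      obtain ⟨b, hb, c, hc, rfl⟩ :=
        Submodule.mem_sup.1 ((Submodule.Quotient.mk_eq_zero _).1 hy)
      obtain ⟨r, rfl⟩ := Ideal.mem_span_singleton.1 hb
      refine ⟨Submodule.Quotient.mk r, (Submodule.Quotient.eq _).2 ?_⟩
      rw [LinearMap.mulLeft_apply, sub_add_cancel_left]
      exact neg_mem hc
    have h1 : Module.length (MvPowerSeries (Fin D) V) ((MvPowerSeries (Fin D) V) ⧸ m ^ N) ≤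
        Module.length (MvPowerSeries (Fin D) V) ((MvPowerSeries (Fin D) V) ⧸ m ^ j) + Module.length (MvPowerSeries (Fin D) V) ((MvPowerSeries (Fin D) V) ⧸ I) := by
      rw [Module.length_eq_add_of_exact (LinearMap.ker q).subtype q Subtype.val_injective
        (Submodule.factor_surjective _) (LinearMap.exact_subtype_ker_map q)]
      refine add_le_add ((Module.length_le_of_injective (Submodule.inclusion hkq)
        (Submodule.inclusion_injective hkq)).trans
          (Module.length_le_of_surjective μ.rangeRestrict μ.surjective_rangeRestrict)) le_rfl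
    have hfinI' : Module.length (MvPowerSeries (Fin D) V) ((MvPowerSeries (Fin D) V) ⧸ I) ≠ ⊤ := length_quotient_ne_top _ N le_sup_right
    have h2 := ENat.toNat_le_toNat h1 (WithTop.add_ne_top.2 ⟨hfin j, hfinI'⟩)
    rw [ENat.toNat_add (hfin j) hfinI'] at h2
    have h3 := hH' j (o' + 1)
    rw [hj, show j + 1 = N - o' by omega] at h3
    show _ ≤ (Module.length (MvPowerSeries (Fin D) V) ((MvPowerSeries (Fin D) V) ⧸ I)).toNat
    simp only [H] at h3
    omega
  have hlim : Tendsto (fun N : ℕ => ((o' + 1 : ℕ) : ℝ) *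
      ((D.factorial : ℝ) * ((PSLen.lowSet D (N - o')).card : ℝ) / (N : ℝ) ^ D)) atTop
      (𝓝 ((o' + 1 : ℕ) : ℝ)) := by
    simpa using (PSLen.choose_limit D o').const_mul ((o' + 1 : ℕ) : ℝ)
  refine le_of_tendsto_of_tendsto hlim ha ?_
  filter_upwards [eventually_ge_atTop (o' + 1)] with N hN
  have hk : (((o' + 1) * (PSLen.lowSet D (N - o')).card : ℕ) : ℝ) ≤ _ := Nat.cast_le.2 (key N hN)
  rw [Nat.cast_mul] at hk
  rw [← mul_div_assoc, mul_left_comm]
  gcongr

end Lower

end Vale.Agent.P202.Mixed2.Localisation
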