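import Vale.Agent.P202.Char.EvalPS
import Vale.Agent.P202.Char.PSBase
import Vale.Agent.P202.Mixed2.PSComplete

/-!
P202 mixed characteristic: power series over a complete discrete valuation ring with infinite
residue field form a unique factorisation domain (Weierstrass preparation), so their primes of
height one are principal.
-/

namespace Vale.Agent.P202.Mixed2.PSFactorial

open IsLocalRing Vale.Agent.P202.Char

universe u v

variable {V : Type u} [CommRing V]

section Auto

variable {σ : Type} [Finite σ]

theorem sub_truncTotal_mem (f : MvPowerSeries σ V) (k : ℕ) :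
    f - (MvPowerSeries.truncTotal k f : MvPowerSeries σ V) ∈
      Ideal.span (Set.range (MvPowerSeries.X : σ → MvPowerSeries σ V)) ^ k := by
  refine Perf.Base.mem_pow_span_X fun a ha => ?_
  rw [map_sub, MvPolynomial.coeff_coe, MvPowerSeries.coeff_truncTotal _ ha, sub_self]

/-- Ring maps which agree on constants and variables and respect the ideal of variables agree. -/
theorem hom_ext {B : Type v} [CommRing B] {N : Ideal B} [IsHausdorff N B]
    {F G : MvPowerSeries σ V →+* B}
    (hC : ∀ c, F (MvPowerSeries.C c) = G (MvPowerSeries.C c))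
    (hX : ∀ i, F (MvPowerSeries.X i) = G (MvPowerSeries.X i))
    (hN : ∀ i, F (MvPowerSeries.X i) ∈ N) : F = G := by
  have hpoly : F.comp (MvPolynomial.coeToMvPowerSeries.ringHom) =
      G.comp (MvPolynomial.coeToMvPowerSeries.ringHom) := by
    refine MvPolynomial.ringHom_ext (fun c => ?_) (fun i => ?_)
    · simpa using hC c
    · simpa using hX i
  have hmap : ∀ H : MvPowerSeries σ V →+* B, (∀ i, H (MvPowerSeries.X i) ∈ N) →
      ∀ k, ∀ g ∈ Ideal.span (Set.range (MvPowerSeries.X : σ → MvPowerSeries σ V)) ^ k,
        H g ∈ N ^ k := fun H hH k g hg => by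
    refine Ideal.pow_right_mono ?_ k (Ideal.map_pow H _ k ▸ Ideal.mem_map_of_mem H hg)
    rw [Ideal.map_span, Ideal.span_le]
    rintro _ ⟨_, ⟨i, rfl⟩, rfl⟩
    exact hH i
  refine RingHom.ext fun f => sub_eq_zero.1 (IsHausdorff.haus' (I := N) _ fun k => ?_)
  rw [SModEq.zero, smul_eq_mul, Ideal.mul_top]
  set t : MvPolynomial σ V := MvPowerSeries.truncTotal k f
  have ht : F (t : MvPowerSeries σ V) = G t := RingHom.congr_fun hpoly t
  have h1 := hmap F hN k _ (sub_truncTotal_mem f k)
  have h2 := hmap G (fun i => hX i ▸ hN i) k _ (sub_truncTotal_mem f k)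
  rw [map_sub] at h1 h2
  rw [← ht] at h2
  have := sub_mem h1 h2
  rwa [sub_sub_sub_cancel_right] at this

end Auto

variable [IsLocalRing V] {n : ℕ}

/-- The images of the variables under a linear change of coordinates. -/
noncomputable def shift (a : V) (c : Fin n → V) : Fin (n + 1) → MvPowerSeries (Fin (n + 1)) V :=
  Fin.cons (MvPowerSeries.C a * MvPowerSeries.X 0)
    fun j => MvPowerSeries.X j.succ + MvPowerSeries.C (c j) * MvPowerSeries.X 0

theorem shift_mem (a : V) (c : Fin n → V) (i : Fin (n + 1)) :
    shift a c i ∈ Ideal.span (Set.range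
      (MvPowerSeries.X : Fin (n + 1) → MvPowerSeries (Fin (n + 1)) V)) := by
  induction i using Fin.cases with
  | zero => exact Ideal.mul_mem_left _ _ (Ideal.subset_span ⟨0, rfl⟩)
  | succ j =>
    exact add_mem (Ideal.subset_span ⟨j.succ, rfl⟩)
      (Ideal.mul_mem_left _ _ (Ideal.subset_span ⟨0, rfl⟩))

/-- A linear change of coordinates. -/
noncomputable def change (a : V) (c : Fin n → V) :
    MvPowerSeries (Fin (n + 1)) V →+* MvPowerSeries (Fin (n + 1)) V :=
  EvalPS.eval MvPowerSeries.C (shift a c) (shift_mem a c)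

theorem change_C (a : V) (c : Fin n → V) (r : V) :
    change a c (MvPowerSeries.C r) = MvPowerSeries.C r := EvalPS.eval_C _ _ _ r

theorem change_X (a : V) (c : Fin n → V) (i : Fin (n + 1)) :
    change a c (MvPowerSeries.X i) = shift a c i := EvalPS.eval_X _ _ _ i

theorem change_comp (a b : V) (c d : Fin n → V) (hab : a * b = 1)
    (hcd : ∀ j, c j + d j * a = 0) :
    (change a c).comp (change b d) = RingHom.id _ := by
  refine hom_ext (N := Ideal.span (Set.range MvPowerSeries.X)) (fun r => ?_) (fun i => ?_)
    (fun i => ?_)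
  · rw [RingHom.comp_apply, change_C, change_C, RingHom.id_apply]
  · rw [RingHom.comp_apply, change_X, RingHom.id_apply]
    induction i using Fin.cases with
    | zero =>
      rw [shift, Fin.cons_zero, map_mul, change_C, change_X, shift, Fin.cons_zero, ← mul_assoc,
        ← map_mul, mul_comm b a, hab, map_one, one_mul]
    | succ j =>
      rw [shift, Fin.cons_succ, map_add, map_mul, change_C, change_X, change_X, shift,
        Fin.cons_succ, Fin.cons_zero, add_assoc, ← mul_assoc, ← map_mul, ← add_mul, ← map_add,
        hcd, map_zero, zero_mul, add_zero]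
  · rw [RingHom.comp_apply, change_X]
    have : Ideal.span (Set.range (MvPowerSeries.X : Fin (n + 1) → MvPowerSeries (Fin (n + 1)) V)) ≤
        Ideal.comap (change a c) (Ideal.span (Set.range MvPowerSeries.X)) := by
      rw [Ideal.span_le]
      rintro _ ⟨l, rfl⟩
      rw [SetLike.mem_coe, Ideal.mem_comap, change_X]
      exact shift_mem a c l
    exact this (shift_mem b d i)

/-- The invertible change of coordinates with first column `(a, c)`. -/
noncomputable def changeEquiv (a : Vˣ) (c : Fin n → V) :
    MvPowerSeries (Fin (n + 1)) V ≃+* MvPowerSeries (Fin (n + 1)) V :=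
  RingEquiv.ofRingHom (change (a : V) c) (change (↑a⁻¹ : V) fun j => -(c j * (↑a⁻¹ : V)))
    (change_comp _ _ _ _ a.mul_inv fun j => by
      rw [neg_mul, mul_assoc, Units.inv_mul, mul_one, add_neg_cancel])
    (change_comp _ _ _ _ a.inv_mul fun j => by rw [neg_add_cancel])

/-- The coefficients along the first axis. -/
noncomputable def axis : MvPowerSeries (Fin (n + 1)) V →+* PowerSeries V :=
  (PowerSeries.map MvPowerSeries.constantCoeff).comp
    (MvPowerSeries.finSuccEquiv V n).toRingEquiv.toRingHom

theorem axis_C (r : V) : axis (n := n) (MvPowerSeries.C r) = PowerSeries.C r := by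
  simp [axis, MvPowerSeries.finSuccEquiv_C]

theorem axis_change_X (a : V) (c : Fin n → V) (i : Fin (n + 1)) :
    axis (change a c (MvPowerSeries.X i)) =
      PowerSeries.C ((Fin.cons a c : Fin (n + 1) → V) i) * PowerSeries.X := by
  rw [change_X]
  induction i using Fin.cases with
  | zero =>
    rw [shift, Fin.cons_zero, Fin.cons_zero, map_mul, axis_C]
    simp [axis, MvPowerSeries.finSuccEquiv_X_zero]
  | succ j =>
    rw [shift, Fin.cons_succ, Fin.cons_succ, map_add, map_mul, axis_C]
    simp [axis, MvPowerSeries.finSuccEquiv_X_zero, MvPowerSeries.finSuccEquiv_X_succ]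

/-- The coefficient along the axis after the change of coordinates. -/
theorem coeff_axis_change (a : V) (c : Fin n → V) (f : MvPowerSeries (Fin (n + 1)) V) (s : ℕ) :
    PowerSeries.coeff s (axis (change a c f)) =
      MvPolynomial.eval (Fin.cons a c : Fin (n + 1) → V)
        (MvPolynomial.homogeneousComponent s (MvPowerSeries.truncTotal (s + 1) f)) := by
  classical
  set t : MvPolynomial (Fin (n + 1)) V := MvPowerSeries.truncTotal (s + 1) f
  set v : Fin (n + 1) → V := Fin.cons a c
  set Ψ := axis.comp (change a c)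
  have htail : PowerSeries.coeff s (Ψ (f - (t : MvPowerSeries (Fin (n + 1)) V))) = 0 := by
    have h1 := Ideal.mem_map_of_mem Ψ (sub_truncTotal_mem f (s + 1))
    rw [Ideal.map_pow, Ideal.map_span, ← Set.range_comp] at h1
    have h2 : Ideal.span (Set.range (Ψ ∘ MvPowerSeries.X)) ≤ Ideal.span {PowerSeries.X} := by
      rw [Ideal.span_le]
      rintro _ ⟨i, rfl⟩
      rw [SetLike.mem_coe, Ideal.mem_span_singleton, Function.comp_apply, RingHom.comp_apply,
        axis_change_X]
      exact dvd_mul_left _ _
    have h3 := Ideal.pow_right_mono h2 (s + 1) h1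
    rw [Ideal.span_singleton_pow, Ideal.mem_span_singleton, PowerSeries.X_pow_dvd_iff] at h3
    exact h3 s s.lt_succ_self
  rw [map_sub, map_sub, sub_eq_zero] at htail
  rw [show axis (change a c f) = Ψ f from rfl, htail]
  have hpoly : ∀ q : MvPolynomial (Fin (n + 1)) V, PowerSeries.coeff s (Ψ q) =
      MvPolynomial.eval v (MvPolynomial.homogeneousComponent s q) := by
    intro q
    induction q using MvPolynomial.induction_on' with
    | monomial e r =>
      have hm : Ψ ((MvPolynomial.monomial e r : MvPolynomial (Fin (n + 1)) V) :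
          MvPowerSeries (Fin (n + 1)) V) =
          PowerSeries.C (r * ∏ i, v i ^ e i) * PowerSeries.X ^ e.degree := by
        rw [MvPolynomial.monomial_eq, MvPolynomial.coe_mul, MvPolynomial.coe_C, map_mul,
          Finsupp.prod_fintype _ _ (fun i => pow_zero _)]
        simp only [← MvPolynomial.coeToMvPowerSeries.ringHom_apply, map_prod, map_pow]
        simp only [MvPolynomial.coeToMvPowerSeries.ringHom_apply, MvPolynomial.coe_X]
        rw [show Ψ (MvPowerSeries.C r) = PowerSeries.C r by
          rw [RingHom.comp_apply, change_C, axis_C]]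
        simp only [Ψ, RingHom.comp_apply, axis_change_X, mul_pow]
        rw [Finset.prod_mul_distrib, map_mul, map_prod, mul_assoc]
        congr 2
        · exact Finset.prod_congr rfl fun i _ => (map_pow _ _ _).symm
        · rw [Finset.prod_pow_eq_pow_sum, Finsupp.degree_eq_sum]
      rw [hm, PowerSeries.coeff_C_mul, PowerSeries.coeff_X_pow]
      by_cases he : e.degree = s
      · rw [if_pos he.symm, mul_one,
          MvPolynomial.homogeneousComponent_of_mem (MvPolynomial.isHomogeneous_monomial r he),
          if_pos rfl, MvPolynomial.eval_monomial, Finsupp.prod_fintype _ _ (fun i => pow_zero _)]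
      · rw [if_neg (Ne.symm he), mul_zero,
          MvPolynomial.homogeneousComponent_of_mem (MvPolynomial.isHomogeneous_monomial r rfl),
          if_neg (Ne.symm he), map_zero]
    | add p q hp hq =>
      rw [MvPolynomial.coe_add, map_add, map_add, hp, hq, map_add, map_add]
  exact hpoly t

variable [Infinite (ResidueField V)]

/-- Some change of coordinates makes a series with a unit coefficient regular in the first
variable. -/
theorem exists_regular {f : MvPowerSeries (Fin (n + 1)) V}
    (hf : ∃ e, IsUnit (MvPowerSeries.coeff e f)) :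
    ∃ (a : Vˣ) (c : Fin n → V) (s : ℕ), IsUnit (PowerSeries.coeff s (axis (change (a : V) c f))) := by
  classical
  have hex : ∃ s, ∃ e : Fin (n + 1) →₀ ℕ, e.degree = s ∧ IsUnit (MvPowerSeries.coeff e f) := by
    obtain ⟨e, he⟩ := hf
    exact ⟨_, e, rfl, he⟩
  obtain ⟨e, hes, he⟩ := Nat.find_spec hex
  set s := Nat.find hex
  set G := MvPolynomial.map (residue V)
    (MvPolynomial.homogeneousComponent s (MvPowerSeries.truncTotal (s + 1) f)) with hG
  have hGne : G ≠ 0 := by
    intro h
    have := congrArg (MvPolynomial.coeff e) h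
    rw [hG, MvPolynomial.coeff_map, MvPolynomial.coeff_homogeneousComponent, if_pos hes,
      MvPowerSeries.coeff_truncTotal _ (by omega), MvPolynomial.coeff_zero] at this
    exact (residue_ne_zero_iff_isUnit _).2 he this
  have hGh : G.IsHomogeneous s := (MvPolynomial.homogeneousComponent_isHomogeneous _ _).map _
  obtain ⟨w, hw⟩ : ∃ w : Fin (n + 1) → ResidueField V,
      MvPolynomial.eval w (G * MvPolynomial.X 0) ≠ 0 := by
    by_contra h
    push Not at h
    exact mul_ne_zero hGne (MvPolynomial.X_ne_zero _)
      ((hGh.mul (MvPolynomial.isHomogeneous_X _ _)).eq_zero_of_forall_eval_eq_zero h)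
  rw [map_mul, MvPolynomial.eval_X, mul_ne_zero_iff] at hw
  choose μ hμ using fun i => residue_surjective (w i)
  have hu : IsUnit (μ 0) := (residue_ne_zero_iff_isUnit _).1 (by rw [hμ]; exact hw.2)
  refine ⟨hu.unit, fun j => μ j.succ, s, ?_⟩
  have hμ' : (Fin.cons (hu.unit : V) fun j => μ j.succ : Fin (n + 1) → V) = μ := by
    funext i
    induction i using Fin.cases <;> simp
  rw [coeff_axis_change, hμ', ← residue_ne_zero_iff_isUnit]
  intro h0
  apply hw.1
  rw [hG, MvPolynomial.eval_map, ← show residue V ∘ μ = w from funext hμ]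
  exact (MvPolynomial.eval₂_comp _ _ _).symm.trans h0

section Factorial

variable {B : Type u} [CommRing B] [IsDomain B] [IsLocalRing B] [UniqueFactorizationMonoid B]
  [IsAdicComplete (maximalIdeal B) B]

open Polynomial in
/-- A prime of `B[[T]]` containing a series regular in `T` contains a prime element. -/
theorem exists_prime_of_regular {Q : Ideal (PowerSeries B)} [hQ : Q.IsPrime] {h : PowerSeries B}
    (hh : h ∈ Q) (hreg : h.map (residue B) ≠ 0) : ∃ x ∈ Q, Prime x := by
  classical
  obtain ⟨w, u, H⟩ := PowerSeries.exists_isWeierstrassFactorization hreg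
  have hwQ : (w : PowerSeries B) ∈ Q :=
    (hQ.mem_or_mem (H.eq_mul ▸ hh)).resolve_right fun hu =>
      hQ.ne_top (Ideal.eq_top_of_isUnit_mem _ hu H.isUnit)
  have hw0 : w ≠ 0 := H.isDistinguishedAt.monic.ne_zero
  set P := Q.comap (Polynomial.coeToPowerSeries.ringHom (R := B))
  have hP : P.IsPrime := hQ.comap _
  obtain ⟨uw, huw⟩ := UniqueFactorizationMonoid.factors_prod hw0
  have hmem : (UniqueFactorizationMonoid.factors w).prod ∈ P := by
    rcases hP.mem_or_mem (show (UniqueFactorizationMonoid.factors w).prod * uw ∈ P from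
      huw.symm ▸ hwQ) with h1 | h1
    · exact h1
    · exact absurd (Ideal.eq_top_of_isUnit_mem _ h1 uw.isUnit) hP.ne_top
  obtain ⟨q, hqw, hqP⟩ := (hP.multiset_prod_mem_iff_exists_mem _).1 hmem
  have hqprime := UniqueFactorizationMonoid.prime_of_factor q hqw
  have hqdvd : q ∣ w := UniqueFactorizationMonoid.dvd_of_mem_factors hqw
  have hlu : IsUnit q.leadingCoeff := by
    obtain ⟨r, hr⟩ := hqdvd
    have := congrArg leadingCoeff hr
    rw [H.isDistinguishedAt.monic.leadingCoeff, leadingCoeff_mul] at this
    exact IsUnit.of_mul_eq_one _ this.symm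
  set q' := Polynomial.C (↑hlu.unit⁻¹ : B) * q with hq'
  have hCu : IsUnit (Polynomial.C (↑hlu.unit⁻¹ : B)) :=
    Polynomial.isUnit_C.2 (Units.isUnit _)
  have hassoc : Associated q q' := (associated_unit_mul_left q _ hCu).symm
  have hqm : q'.Monic := by
    rw [Monic, hq', leadingCoeff_mul, leadingCoeff_C, IsUnit.val_inv_mul]
  have hq'P : q' ∈ P := P.mul_mem_left _ hqP
  have hdist : q'.IsDistinguishedAt (maximalIdeal B) := by
    refine ⟨⟨fun {i} hi => ?_⟩, hqm⟩
    have h1 : q'.map (residue B) ∣ Polynomial.X ^ w.natDegree := by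
      have h2 : w.map (residue B) = Polynomial.X ^ w.natDegree := by
        refine Polynomial.ext fun l => ?_
        rw [coeff_map, coeff_X_pow]
        split_ifs with hl
        · rw [hl, H.isDistinguishedAt.monic.coeff_natDegree, map_one]
        · rcases lt_or_gt_of_ne hl with hlt | hgt
          · exact (residue_eq_zero_iff _).2 (H.isDistinguishedAt.mem hlt)
          · rw [coeff_eq_zero_of_natDegree_lt hgt, map_zero]
      exact h2 ▸ Polynomial.map_dvd _ (hassoc.dvd_iff_dvd_left.1 hqdvd)
    obtain ⟨l, -, hl⟩ := (dvd_prime_pow Polynomial.prime_X _).1 h1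
    have hl' := eq_of_monic_of_associated (hqm.map _) (monic_X_pow l) hl
    have hdeg : l = q'.natDegree := by
      have := congrArg natDegree hl'
      rwa [hqm.natDegree_map, natDegree_X_pow, eq_comm] at this
    rw [← residue_eq_zero_iff, ← coeff_map, hl', coeff_X_pow, if_neg]
    omega
  refine ⟨(q' : PowerSeries B), hq'P, ?_⟩
  have hne : (q' : PowerSeries B) ≠ 0 := by
    rw [Ne, Polynomial.coe_eq_zero_iff]
    exact hqm.ne_zero
  rw [← Ideal.span_singleton_prime hne, ← Ideal.Quotient.isDomain_iff_prime]
  have : (Ideal.span {q'}).IsPrime :=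
    (Ideal.span_singleton_prime hqm.ne_zero).2 (hassoc.prime hqprime)
  exact MulEquiv.isDomain _ hdist.algEquivQuotient.symm.toMulEquiv

end Factorial

variable [IsDomain V] [IsDiscreteValuationRing V] [IsAdicComplete (maximalIdeal V) V]

/-- Power series over a complete discrete valuation ring with infinite residue field are
factorial. -/
theorem uniqueFactorizationMonoid (m : ℕ) :
    UniqueFactorizationMonoid (MvPowerSeries (Fin m) V) := by
  induction m with
  | zero =>
    exact (MvPowerSeries.isEmptyEquiv (σ := Fin 0) (R := V)).symm.toMulEquiv.uniqueFactorizationMonoid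
      inferInstance
  | succ m ih =>
    have : IsDomain (MvPowerSeries (Fin m) V) := NoZeroDivisors.to_isDomain _
    have : IsDomain (MvPowerSeries (Fin (m + 1)) V) := NoZeroDivisors.to_isDomain _
    have : IsAdicComplete (maximalIdeal (MvPowerSeries (Fin m) V)) (MvPowerSeries (Fin m) V) :=
      PSComplete.isAdicComplete
    rw [UniqueFactorizationMonoid.iff_exists_prime_mem_of_isPrime]
    intro Q hQ0 hQ
    obtain ⟨ϖ, hϖ⟩ := IsDiscreteValuationRing.exists_irreducible V
    set π : MvPowerSeries (Fin (m + 1)) V := MvPowerSeries.C ϖ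
    have hπ0 : π ≠ 0 := fun h => hϖ.ne_zero (by
      simpa [π] using congrArg MvPowerSeries.constantCoeff h)
    have hspan : (maximalIdeal V).map (MvPowerSeries.C : V →+* MvPowerSeries (Fin (m + 1)) V) =
        Ideal.span {π} := by
      rw [hϖ.maximalIdeal_eq, Ideal.map_span, Set.image_singleton]
    have hπp : Prime π := by
      rw [← Ideal.span_singleton_prime hπ0, ← hspan]
      exact PSBase.isPrime_map_maximalIdeal (IsNoetherian.noetherian _)
    by_cases hπQ : π ∈ Q
    · exact ⟨π, hπQ, hπp⟩
    obtain ⟨f, hfQ, hf0⟩ := Submodule.exists_mem_ne_zero_of_ne_bot hQ0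
    obtain ⟨v, g, hg, rfl⟩ := WfDvdMonoid.max_power_factor hf0 hπp.irreducible
    have hgQ : g ∈ Q :=
      (hQ.mem_or_mem hfQ).resolve_left fun h => hπQ (hQ.mem_of_pow_mem v h)
    have hunit : ∃ e, IsUnit (MvPowerSeries.coeff e g) := by
      by_contra hne
      push Not at hne
      refine hg ?_
      rw [← Ideal.mem_span_singleton, ← hspan, PSBase.mem_map_C_iff (IsNoetherian.noetherian _)]
      exact fun e => (mem_maximalIdeal _).2 (hne e)
    obtain ⟨a, c, s, hs⟩ := exists_regular hunit
    set E : MvPowerSeries (Fin (m + 1)) V ≃+* PowerSeries (MvPowerSeries (Fin m) V) :=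
      (changeEquiv a c).trans (MvPowerSeries.finSuccEquiv V m).toRingEquiv
    have hQ' : (Q.map E).IsPrime := Ideal.map_isPrime_of_equiv E
    have hreg : (E g).map (residue (MvPowerSeries (Fin m) V)) ≠ 0 := by
      intro h0
      have h1 : PowerSeries.coeff s (E g) ∈ maximalIdeal (MvPowerSeries (Fin m) V) := by
        rw [← residue_eq_zero_iff, ← PowerSeries.coeff_map, h0, map_zero]
      rw [mem_maximalIdeal, mem_nonunits_iff, MvPowerSeries.isUnit_iff_constantCoeff,
        ← PowerSeries.coeff_map] at h1
      exact h1 hs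
    obtain ⟨x, hx, hxp⟩ := exists_prime_of_regular (hQ := hQ') (Ideal.mem_map_of_mem E hgQ) hreg
    obtain ⟨y, hy, rfl⟩ := (Ideal.mem_map_iff_of_surjective _ E.surjective).1 hx
    exact ⟨y, hy, (MulEquiv.prime_iff E.toMulEquiv).1 hxp⟩

/-- Primes of height at most one are principal. -/
theorem exists_eq_span {m : ℕ} (P : Ideal (MvPowerSeries (Fin m) V)) [hP : P.IsPrime]
    (h : P.height ≤ 1) (h0 : P ≠ ⊥) :
    ∃ x, Prime x ∧ P = Ideal.span {x} := by
  have : IsDomain (MvPowerSeries (Fin m) V) := NoZeroDivisors.to_isDomain _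
  have := uniqueFactorizationMonoid (V := V) m
  obtain ⟨x, hx, hxp⟩ := Ideal.IsPrime.exists_mem_prime_of_ne_bot hP h0
  refine ⟨x, hxp, ((Ideal.span_singleton_le_iff_mem _).2 hx).eq_or_lt.resolve_right
    (fun hlt => ?_) |>.symm⟩
  have hxP : (Ideal.span {x}).IsPrime := (Ideal.span_singleton_prime hxp.ne_zero).2 hxp
  have h1 := Ideal.height_strict_mono_of_isPrime hlt
  have h2 : (⊥ : Ideal (MvPowerSeries (Fin m) V)).height < (Ideal.span {x}).height :=
    Ideal.height_strict_mono_of_isPrime (bot_lt_iff_ne_bot.2 (by simpa using hxp.ne_zero))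
  have h3 : 1 ≤ (Ideal.span {x}).height := Order.one_le_iff_pos.2 (bot_le.trans_lt h2)
  exact not_lt.2 (h.trans h3) h1

end Vale.Agent.P202.Mixed2.PSFactorial
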