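import Vale.Agent.P202.Char.EvalPS
import Vale.Agent.P202.Char.PSBase
import Vale.Agent.P202.Mixed2.PSComplete
import Vale.Agent.P202.Mixed2.PSFactorial

/-!
P202 mixed characteristic: upper semicontinuity of the order on `W(k)[[Y]]` at the primes
containing `p`. Symbolic powers of such a prime are contained in the powers of the maximal ideal
(Taylor expansion, and the `p`-derivation `(φ x - x ^ p) / p`).
-/

namespace Vale.Agent.P202.Mixed2.SemiCont

open IsLocalRing Vale.Agent.P202.Char

universe u

set_option linter.unusedSectionVars false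

section Sym

variable {A : Type u} [CommRing A] (q : Ideal A) [q.IsPrime]

/-- The symbolic power. -/
noncomputable def symPow (j : ℕ) : Ideal A :=
  ((q ^ j).map (algebraMap A (Localization.AtPrime q))).comap
    (algebraMap A (Localization.AtPrime q))

theorem mem_symPow {j : ℕ} {f : A} : f ∈ symPow q j ↔ ∃ s ∉ q, s * f ∈ q ^ j := by
  rw [symPow, Ideal.mem_comap,
    IsLocalization.algebraMap_mem_map_algebraMap_iff q.primeCompl (Localization.AtPrime q)]
  rfl

theorem pow_le_symPow (j : ℕ) : q ^ j ≤ symPow q j := Ideal.le_comap_map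

theorem symPow_anti {i j : ℕ} (h : i ≤ j) : symPow q j ≤ symPow q i :=
  Ideal.comap_mono (Ideal.map_mono (Ideal.pow_le_pow_right h))

theorem symPow_zero : symPow q 0 = ⊤ := top_le_iff.1 (by simpa using pow_le_symPow q 0)

theorem symPow_one : symPow q 1 = q := by
  refine le_antisymm (fun f hf => ?_) (by simpa using pow_le_symPow q 1)
  obtain ⟨s, hs, hsf⟩ := (mem_symPow q).1 hf
  rw [pow_one] at hsf
  exact (Ideal.IsPrime.mem_or_mem ‹_› hsf).resolve_left hs

theorem mem_symPow_of_mul_mem {j : ℕ} {s f : A} (hs : s ∉ q) (h : s * f ∈ symPow q j) :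
    f ∈ symPow q j := by
  obtain ⟨t, ht, htf⟩ := (mem_symPow q).1 h
  exact (mem_symPow q).2 ⟨t * s, fun h' =>
    ((Ideal.IsPrime.mem_or_mem ‹_› h').elim ht hs), by rwa [mul_assoc]⟩

end Sym

section Delta

variable {A : Type u} [CommRing A] [IsDomain A] {p : ℕ} (φ : A →+* A)
  (hφ : ∀ x, (p : A) ∣ φ x - x ^ p)

/-- The `p`-derivation of a lift of Frobenius. -/
noncomputable def delta (x : A) : A := (hφ x).choose

theorem p_mul_delta (x : A) : φ x - x ^ p = (p : A) * delta φ hφ x := (hφ x).choose_spec

variable (hp : (p : A) ≠ 0)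
include hp

theorem delta_mul (a b : A) :
    delta φ hφ (a * b) = a ^ p * delta φ hφ b + b ^ p * delta φ hφ a
      + (p : A) * (delta φ hφ a * delta φ hφ b) := by
  refine mul_left_cancel₀ hp ?_
  rw [← p_mul_delta φ hφ, map_mul, mul_pow]
  linear_combination (φ b) * p_mul_delta φ hφ a + a ^ p * p_mul_delta φ hφ b
    + (p : A) * delta φ hφ a * p_mul_delta φ hφ b

variable [hpp : Fact p.Prime]

theorem delta_add_mem {I : Ideal A} {a b : A} (ha : a ∈ I) (hb : b ∈ I) :
    delta φ hφ (a + b) - (delta φ hφ a + delta φ hφ b) ∈ I := by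
  have h : ∃ c ∈ I, (a + b) ^ p = a ^ p + b ^ p + (p : A) * c := by
    refine ⟨a * b * ∑ i ∈ Finset.Ioo 0 p,
      a ^ (i - 1) * b ^ (p - i - 1) * ((p.choose i / p : ℕ) : A),
      I.mul_mem_right _ (I.mul_mem_right b ha), ?_⟩
    rw [add_pow_prime_eq hpp.out a b]
    ring
  obtain ⟨c, hc, he⟩ := h
  rw [show delta φ hφ (a + b) - (delta φ hφ a + delta φ hφ b) = -c from ?_]
  · exact neg_mem hc
  refine mul_left_cancel₀ hp ?_
  rw [mul_sub, mul_add, ← p_mul_delta φ hφ, ← p_mul_delta φ hφ, ← p_mul_delta φ hφ, map_add, he]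
  ring

theorem delta_mem_pow {q : Ideal A} (hpq : (p : A) ∈ q) (j : ℕ) {x : A} (hx : x ∈ q ^ j) :
    delta φ hφ x ∈ q ^ (j - 1) := by
  induction j generalizing x with
  | zero => simp
  | succ j ih =>
    rw [Nat.add_sub_cancel]
    suffices h : x ∈ q ^ (j + 1) ∧ delta φ hφ x ∈ q ^ j from h.2
    rw [pow_succ'] at hx
    refine Submodule.mul_induction_on hx (fun a ha b hb => ?_) (fun a b ha hb => ?_)
    · refine ⟨by rw [pow_succ']; exact Ideal.mul_mem_mul ha hb, ?_⟩
      have hap : a ^ p ∈ q := Ideal.pow_mem_of_mem q ha p hpp.out.pos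
      have hδb : delta φ hφ b ∈ q ^ (j - 1) := ih hb
      have hle : q * q ^ (j - 1) ≤ q ^ j := by
        rw [← pow_succ']
        exact Ideal.pow_le_pow_right (by omega)
      rw [delta_mul φ hφ hp]
      refine add_mem (add_mem (hle (Ideal.mul_mem_mul hap hδb))
        (Ideal.mul_mem_right _ _ (Ideal.pow_mem_of_mem _ hb p hpp.out.pos)))
        (hle (Ideal.mul_mem_mul hpq (Ideal.mul_mem_left _ _ hδb)))
    · refine ⟨add_mem ha.1 hb.1, ?_⟩
      have h := delta_add_mem φ hφ hp ha.1 hb.1
      have h' := Ideal.pow_le_pow_right (I := q) j.le_succ h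
      simpa using add_mem h' (add_mem ha.2 hb.2)

theorem delta_mem_symPow {q : Ideal A} [q.IsPrime] (hpq : (p : A) ∈ q) (j : ℕ) {x : A}
    (hx : x ∈ symPow q j) : delta φ hφ x ∈ symPow q (j - 1) := by
  obtain ⟨s, hs, hsx⟩ := (mem_symPow q).1 hx
  have h1 := pow_le_symPow q _ (delta_mem_pow φ hφ hp hpq j hsx)
  rw [delta_mul φ hφ hp] at h1
  have hxp : x ^ p * delta φ hφ s ∈ symPow q (j - 1) :=
    Ideal.mul_mem_right _ _
      (symPow_anti q (Nat.sub_le j 1) (Ideal.pow_mem_of_mem _ hx p hpp.out.pos))
  refine mem_symPow_of_mul_mem q (s := s ^ p + (p : A) * delta φ hφ s) (fun h => ?_) ?_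
  · refine hs (Ideal.IsPrime.mem_of_pow_mem ‹_› p ?_)
    simpa using sub_mem h (q.mul_mem_right (delta φ hφ s) hpq)
  · convert sub_mem h1 hxp using 1
    ring

end Delta

variable (p : ℕ) [hp : Fact p.Prime] (k : Type u) [Field k] [CharP k p] [PerfectRing k p] (n : ℕ)

/-- The lift of Frobenius. -/
noncomputable def frob :
    MvPowerSeries (Fin n) (WittVector p k) →+* MvPowerSeries (Fin n) (WittVector p k) :=
  (MvPowerSeries.expand p hp.out.ne_zero).toRingHom.comp (MvPowerSeries.map WittVector.frobenius)

theorem dvd_frob_sub (f : MvPowerSeries (Fin n) (WittVector p k)) :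
    (p : MvPowerSeries (Fin n) (WittVector p k)) ∣ frob p k n f - f ^ p := by
  rw [← Ideal.mem_span_singleton, ← map_natCast (MvPowerSeries.C (σ := Fin n)),
    ← Set.image_singleton, ← Ideal.map_span, ← WittVector.ker_constantCoeff,
    ← PSBase.ker_map _ (IsNoetherian.noetherian _), RingHom.mem_ker, map_sub, map_pow, sub_eq_zero]
  show MvPowerSeries.map WittVector.constantCoeff
    (MvPowerSeries.expand p hp.out.ne_zero (MvPowerSeries.map WittVector.frobenius f)) = _
  have hq := MvPowerSeries.map_frobenius_expand (R := k) p hp.out.ne_zero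
    (f := MvPowerSeries.map WittVector.constantCoeff f)
  rw [← hq, MvPowerSeries.map_expand, MvPowerSeries.map_expand]
  refine congrArg _ (MvPowerSeries.ext fun a => ?_)
  simp only [MvPowerSeries.coeff_map]
  show (WittVector.frobenius (MvPowerSeries.coeff a f)).coeff 0 = _
  rw [WittVector.coeff_frobenius_charP]
  rfl

variable {p k n}

theorem base_p_ne_zero : (p : MvPowerSeries (Fin n) (WittVector p k)) ≠ 0 := fun h => by
  have := congrArg MvPowerSeries.constantCoeff h
  rw [map_natCast, map_zero] at this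
  exact WittVector.p_nonzero p k this

theorem constantCoeff_frob (f : MvPowerSeries (Fin n) (WittVector p k)) :
    MvPowerSeries.constantCoeff (frob p k n f) =
      WittVector.frobenius (MvPowerSeries.constantCoeff f) := by
  show MvPowerSeries.constantCoeff
    (MvPowerSeries.expand p hp.out.ne_zero (MvPowerSeries.map WittVector.frobenius f)) = _
  rw [MvPowerSeries.constantCoeff_expand, MvPowerSeries.constantCoeff_map]

/-- The constant term of an element of a symbolic power is divisible by that power of `p`. -/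
theorem constantCoeff_mem {q : Ideal (MvPowerSeries (Fin n) (WittVector p k))} [hq : q.IsPrime]
    (hpq : (p : MvPowerSeries (Fin n) (WittVector p k)) ∈ q) (i : ℕ)
    {g : MvPowerSeries (Fin n) (WittVector p k)} (hg : g ∈ symPow q i) :
    (p : WittVector p k) ^ i ∣ MvPowerSeries.constantCoeff g := by
  have : IsDomain (MvPowerSeries (Fin n) (WittVector p k)) := NoZeroDivisors.to_isDomain _
  induction i generalizing g with
  | zero => simp
  | succ i ih =>
    have h1 := symPow_one q ▸ symPow_anti q (Nat.le_add_left 1 i) hg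
    set c := MvPowerSeries.constantCoeff g with hc
    have hm : (p : WittVector p k) ∣ c := by
      rw [← Ideal.mem_span_singleton, ← (WittVector.irreducible p).maximalIdeal_eq, mem_maximalIdeal,
        mem_nonunits_iff, hc, ← MvPowerSeries.isUnit_iff_constantCoeff]
      exact fun hu => hq.ne_top (Ideal.eq_top_of_isUnit_mem _ h1 hu)
    set δ := delta (frob p k n) (dvd_frob_sub p k n) g
    have hi : (p : WittVector p k) ^ i ∣ MvPowerSeries.constantCoeff δ :=
      ih (by simpa using delta_mem_symPow (frob p k n) (dvd_frob_sub p k n) base_p_ne_zero hpq _ hg)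
    have hδ : WittVector.frobenius c - c ^ p =
        (p : WittVector p k) * MvPowerSeries.constantCoeff δ := by
      have h := congrArg MvPowerSeries.constantCoeff
        (p_mul_delta (frob p k n) (dvd_frob_sub p k n) g)
      rwa [map_sub, map_pow, constantCoeff_frob, map_mul, map_natCast] at h
    by_contra hne
    -- write `c = p ^ v u` with `0 < v ≤ i` and `u` a unit
    have hc0 : c ≠ 0 := fun h => hne (h ▸ dvd_zero _)
    obtain ⟨v, u, hu, huc⟩ := WfDvdMonoid.max_power_factor hc0 (WittVector.irreducible p)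
    have hv : v ≤ i := by
      by_contra hlt
      exact hne (huc ▸ dvd_mul_of_dvd_left (pow_dvd_pow _ (not_le.1 hlt)) _)
    have hv0 : 0 < v := Nat.pos_of_ne_zero fun h => hu (by simpa [huc, h] using hm)
    have h2 : (p : WittVector p k) ^ (v + 1) ∣ WittVector.frobenius c - c ^ p := by
      rw [hδ, pow_succ']
      exact mul_dvd_mul_left _ ((pow_dvd_pow _ hv).trans hi)
    have h3 : (p : WittVector p k) ^ (v + 1) ∣ c ^ p := by
      rw [huc, mul_pow, ← pow_mul]
      refine dvd_mul_of_dvd_left (pow_dvd_pow _ ?_) _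
      have := hp.out.two_le
      nlinarith
    have h4 : (p : WittVector p k) ^ (v + 1) ∣ WittVector.frobenius c := by
      simpa using dvd_add h2 h3
    rw [huc, map_mul, map_pow, map_natCast, pow_succ,
      mul_dvd_mul_iff_left (pow_ne_zero _ (WittVector.p_nonzero p k))] at h4
    refine hu ?_
    rw [← Ideal.mem_span_singleton, ← WittVector.ker_constantCoeff, RingHom.mem_ker] at h4 ⊢
    have h5 : (WittVector.frobenius u).coeff 0 = 0 := h4
    rw [WittVector.coeff_frobenius_charP] at h5
    exact pow_eq_zero_iff hp.out.ne_zero |>.1 h5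

section Taylor

variable {V : Type u} [CommRing V] [IsLocalRing V] [IsNoetherianRing V]
  [IsAdicComplete (maximalIdeal V) V] {m : ℕ}

theorem taylor_mem (i : Fin m) :
    MvPowerSeries.C (MvPowerSeries.X i) + MvPowerSeries.X i ∈
      maximalIdeal (MvPowerSeries (Fin m) (MvPowerSeries (Fin m) V)) := by
  rw [PSComplete.maximalIdeal_eq]
  refine Submodule.add_mem_sup (Ideal.mem_map_of_mem _ ?_) (Ideal.subset_span ⟨i, rfl⟩)
  rw [mem_maximalIdeal, mem_nonunits_iff, MvPowerSeries.isUnit_iff_constantCoeff,
    MvPowerSeries.constantCoeff_X]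
  exact not_isUnit_zero

variable (V m) in
/-- The Taylor expansion. -/
noncomputable def taylor :
    MvPowerSeries (Fin m) V →+* MvPowerSeries (Fin m) (MvPowerSeries (Fin m) V) :=
  have : IsAdicComplete (maximalIdeal (MvPowerSeries (Fin m) V)) (MvPowerSeries (Fin m) V) :=
    PSComplete.isAdicComplete
  have : IsAdicComplete (maximalIdeal (MvPowerSeries (Fin m) (MvPowerSeries (Fin m) V)))
      (MvPowerSeries (Fin m) (MvPowerSeries (Fin m) V)) :=
    PSComplete.isAdicComplete
  EvalPS.eval ((MvPowerSeries.C).comp MvPowerSeries.C)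
    (fun i => MvPowerSeries.C (MvPowerSeries.X i) + MvPowerSeries.X i) taylor_mem

theorem taylor_C (c : V) :
    taylor V m (MvPowerSeries.C c) = MvPowerSeries.C (MvPowerSeries.C c) := by
  have : IsAdicComplete (maximalIdeal (MvPowerSeries (Fin m) V)) (MvPowerSeries (Fin m) V) :=
    PSComplete.isAdicComplete
  have : IsAdicComplete (maximalIdeal (MvPowerSeries (Fin m) (MvPowerSeries (Fin m) V)))
      (MvPowerSeries (Fin m) (MvPowerSeries (Fin m) V)) :=
    PSComplete.isAdicComplete
  exact EvalPS.eval_C _ _ taylor_mem c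

theorem taylor_X (i : Fin m) :
    taylor V m (MvPowerSeries.X i) =
      MvPowerSeries.C (MvPowerSeries.X i) + MvPowerSeries.X i := by
  have : IsAdicComplete (maximalIdeal (MvPowerSeries (Fin m) V)) (MvPowerSeries (Fin m) V) :=
    PSComplete.isAdicComplete
  have : IsAdicComplete (maximalIdeal (MvPowerSeries (Fin m) (MvPowerSeries (Fin m) V)))
      (MvPowerSeries (Fin m) (MvPowerSeries (Fin m) V)) :=
    PSComplete.isAdicComplete
  exact EvalPS.eval_X _ _ taylor_mem i

theorem constantCoeff_taylor (f : MvPowerSeries (Fin m) V) :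
    MvPowerSeries.constantCoeff (taylor V m f) = f := by
  refine RingHom.congr_fun (PSFactorial.hom_ext
    (N := Ideal.span (Set.range (MvPowerSeries.X : Fin m → MvPowerSeries (Fin m) V)))
    (F := MvPowerSeries.constantCoeff.comp (taylor V m)) (G := RingHom.id _)
    (fun c => ?_) (fun i => ?_) (fun i => ?_)) f
  · rw [RingHom.comp_apply, taylor_C, MvPowerSeries.constantCoeff_C, RingHom.id_apply]
  · rw [RingHom.comp_apply, taylor_X, map_add, MvPowerSeries.constantCoeff_C,
      MvPowerSeries.constantCoeff_X, add_zero, RingHom.id_apply]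
  · rw [RingHom.comp_apply, taylor_X, map_add, MvPowerSeries.constantCoeff_C,
      MvPowerSeries.constantCoeff_X, add_zero]
    exact Ideal.subset_span ⟨i, rfl⟩

theorem map_taylor (f : MvPowerSeries (Fin m) V) :
    MvPowerSeries.map MvPowerSeries.constantCoeff (taylor V m f) = f := by
  refine RingHom.congr_fun (PSFactorial.hom_ext
    (N := Ideal.span (Set.range (MvPowerSeries.X : Fin m → MvPowerSeries (Fin m) V)))
    (F := (MvPowerSeries.map MvPowerSeries.constantCoeff).comp (taylor V m))
    (G := RingHom.id _) (fun c => ?_) (fun i => ?_) (fun i => ?_)) f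
  · rw [RingHom.comp_apply, taylor_C, MvPowerSeries.map_C, MvPowerSeries.constantCoeff_C,
      RingHom.id_apply]
  · rw [RingHom.comp_apply, taylor_X, map_add, MvPowerSeries.map_C, MvPowerSeries.map_X,
      MvPowerSeries.constantCoeff_X, map_zero, zero_add, RingHom.id_apply]
  · rw [RingHom.comp_apply, taylor_X, map_add, MvPowerSeries.map_C, MvPowerSeries.map_X,
      MvPowerSeries.constantCoeff_X, map_zero, zero_add]
    exact Ideal.subset_span ⟨i, rfl⟩

omit [IsLocalRing V] [IsNoetherianRing V] [IsAdicComplete (maximalIdeal V) V] in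
theorem coeff_mem_of_mem_comap_pow (q : Ideal V) {s : ℕ} {f : MvPowerSeries (Fin m) V}
    (hf : f ∈ (q.comap MvPowerSeries.constantCoeff) ^ s) (a : Fin m →₀ ℕ) :
    MvPowerSeries.coeff a f ∈ q ^ (s - a.degree) := by
  classical
  induction s generalizing f a with
  | zero => simp
  | succ s ih =>
    rw [pow_succ] at hf
    refine Submodule.mul_induction_on hf (fun g hg h hh => ?_) (fun g h hg hh => ?_)
    · rw [MvPowerSeries.coeff_mul]
      refine sum_mem fun e he => ?_
      have hdeg : a.degree = e.1.degree + e.2.degree := by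
        rw [← Finset.HasAntidiagonal.mem_antidiagonal.1 he, map_add]
      have h2 : MvPowerSeries.coeff e.2 h ∈ q ^ (1 - e.2.degree) := by
        rcases Nat.eq_zero_or_pos e.2.degree with h0 | h0
        · rw [h0, Nat.sub_zero, pow_one, (Finsupp.degree_eq_zero_iff _).1 h0,
            MvPowerSeries.coeff_zero_eq_constantCoeff_apply]
          exact hh
        · rw [Nat.sub_eq_zero_of_le h0, pow_zero, Ideal.one_eq_top]
          trivial
      refine Ideal.pow_le_pow_right (m := s + 1 - a.degree)
        (n := (s - e.1.degree) + (1 - e.2.degree)) (by omega) ?_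
      rw [pow_add]
      exact Ideal.mul_mem_mul (ih hg e.1) h2
    · rw [map_add]
      exact add_mem hg hh

/-- The Taylor coefficients of an element of a symbolic power. -/
theorem coeff_taylor_mem {q : Ideal (MvPowerSeries (Fin m) V)} [q.IsPrime] {j : ℕ}
    {f : MvPowerSeries (Fin m) V} (hf : f ∈ symPow q j) (a : Fin m →₀ ℕ) :
    MvPowerSeries.coeff a (taylor V m f) ∈ symPow q (j - a.degree) := by
  classical
  obtain ⟨s, hs, hsf⟩ := (mem_symPow q).1 hf
  have hmem : taylor V m (s * f) ∈ (q.comap MvPowerSeries.constantCoeff) ^ j := by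
    have hle : q.map (taylor V m) ≤ q.comap MvPowerSeries.constantCoeff :=
      Ideal.map_le_iff_le_comap.2 fun x hx => by
        rw [Ideal.mem_comap, Ideal.mem_comap, constantCoeff_taylor]
        exact hx
    exact Ideal.pow_right_mono hle j (Ideal.map_pow (taylor V m) q j ▸ Ideal.mem_map_of_mem _ hsf)
  induction hd : a.degree using Nat.strong_induction_on generalizing a with
  | _ d ih =>
    subst hd
    have h1 := pow_le_symPow q _ (coeff_mem_of_mem_comap_pow q hmem a)
    rw [map_mul, MvPowerSeries.coeff_mul, ← Finset.add_sum_erase _ _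
      (Finset.HasAntidiagonal.mem_antidiagonal.2 (zero_add a) : ((0 : Fin m →₀ ℕ), a) ∈ _)] at h1
    rw [MvPowerSeries.coeff_zero_eq_constantCoeff_apply, constantCoeff_taylor] at h1
    refine mem_symPow_of_mul_mem q hs ?_
    refine (Submodule.add_mem_iff_left _ (sum_mem fun e he => ?_)).1 h1
    obtain ⟨hne, he'⟩ := Finset.mem_erase.1 he
    have hsum := Finset.HasAntidiagonal.mem_antidiagonal.1 he'
    have h0 : e.1 ≠ 0 := fun h => hne (Prod.ext h (by simpa [h] using hsum))
    have hlt : e.2.degree < a.degree := by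
      rw [← hsum, map_add]
      have := (Finsupp.degree_eq_zero_iff e.1).not.2 h0
      omega
    exact Ideal.mul_mem_left _ _ (symPow_anti q (by omega) (ih _ hlt e.2 rfl))

end Taylor

/-- At a prime containing `p` the order is at most the order at the maximal ideal. -/
theorem symPow_le_pow {q : Ideal (MvPowerSeries (Fin n) (WittVector p k))} [q.IsPrime]
    (hpq : (p : MvPowerSeries (Fin n) (WittVector p k)) ∈ q) (j : ℕ) :
    symPow q j ≤ maximalIdeal (MvPowerSeries (Fin n) (WittVector p k)) ^ j := by
  intro f hf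
  have hmax : maximalIdeal (WittVector p k) = Ideal.span {(p : WittVector p k)} :=
    (WittVector.irreducible p).maximalIdeal_eq
  have : IsAdicComplete (maximalIdeal (WittVector p k)) (WittVector p k) :=
    hmax.symm ▸ inferInstance
  refine PSComplete.mem_pow_of_coeff_mem fun a _ => ?_
  rw [hmax, Ideal.span_singleton_pow, Ideal.mem_span_singleton]
  have h := congrArg (MvPowerSeries.coeff a) (map_taylor f)
  rw [MvPowerSeries.coeff_map] at h
  rw [← h]
  exact constantCoeff_mem hpq _ (coeff_taylor_mem hf a)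

end Vale.Agent.P202.Mixed2.SemiCont
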