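import Vale.Agent.P202.Char.Stage2Main
import Vale.Agent.P202.Char.Generators
import Vale.Agent.P202.Mixed2.Choices
import Vale.Agent.P202.Mixed2.SemiCont
import Vale.Agent.P202.Mixed2.PSFactorial
import Vale.Agent.P202.Mixed2.LocalisationAux
import Vale.Agent.P202.Mixed2.Cover.Dim
import Vale.Agent.P202.Lambda.Frob

/-!
P202 mixed characteristic: the localisation inequality `e(S_Q) ≤ e(S)` for complete local rings
with perfect infinite residue field and primes containing the residue characteristic, by the
associativity formula over `W(K)[[Y]]` and semicontinuity of the order there.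
-/

namespace Vale.Agent.P202.Mixed2.Localisation

open IsLocalRing Filter Topology Vale.Agent.P202.Char Vale.Agent.P202.TopComp
open Vale.Agent.P202.Char.Stage2
open scoped TensorProduct

universe u

theorem dim_le_of_integral {A R : Type u} [CommRing A] [CommRing R] [Algebra A R]
    [Algebra.IsIntegral A R] (h : Function.Injective (algebraMap A R)) :
    ringKrullDim A ≤ ringKrullDim R := by
  refine iSup_le fun l => ?_
  obtain ⟨P, -, hP, hPl⟩ := Ideal.exists_ideal_over_prime_of_isIntegral l.head.asIdeal (⊥ : Ideal R)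
    (by
      rw [show Ideal.comap (algebraMap A R) ⊥ = RingHom.ker (algebraMap A R) from rfl,
        (RingHom.injective_iff_ker_eq_bot _).1 h]
      exact bot_le)
  have : P.LiesOver l.head.asIdeal := ⟨hPl.symm⟩
  obtain ⟨L, hL, -, -⟩ := Ideal.exists_ltSeries_of_hasGoingUp l P
  exact le_iSup_of_le L (by rw [hL])

variable (p : ℕ) [hp : Fact p.Prime] (K : Type u) [Field K] [CharP K p] [PerfectRing K p]
  [Infinite K] (D : ℕ)

theorem witt_complete : IsAdicComplete (maximalIdeal (WittVector p K)) (WittVector p K) :=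
  (WittVector.irreducible (k := K) p).maximalIdeal_eq.symm ▸ inferInstance

theorem infinite_witt_residue : Infinite (ResidueField (WittVector p K)) := by
  have hker : RingHom.ker (WittVector.constantCoeff (p := p) (R := K)) =
      maximalIdeal (WittVector p K) :=
    (WittVector.ker_constantCoeff (p := p) (k := K)).trans
      (WittVector.irreducible p).maximalIdeal_eq.symm
  obtain ⟨s, hs⟩ := (WittVector.constantCoeff_surjective (p := p) (R := K)).hasRightInverse
  refine Infinite.of_injective (fun x : K => residue _ (s x)) fun x y h => ?_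
  have h1 : s x - s y ∈ maximalIdeal (WittVector p K) := by
    rw [← residue_eq_zero_iff, map_sub, sub_eq_zero]
    exact h
  rw [← hker, RingHom.mem_ker, map_sub, hs, hs, sub_eq_zero] at h1
  exact h1

/-- The two multiplicities at a prime. -/
theorem prime_case (q : Ideal (Base p K D)) [q.IsPrime] (hpq : (p : Base p K D) ∈ q) {h : ℕ}
    (t : Fin (h + 1) → Localization.AtPrime q)
    (ht : maximalIdeal (Localization.AtPrime q) = Ideal.span (Set.range t))
    [Infinite (ResidueField (Localization.AtPrime q))] (P : Ideal (Base p K D)) [P.IsPrime]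
    (hP0 : P ≠ ⊥) :
    ∃ a b, HasMult (Base p K D) (Base p K D ⧸ P) D a ∧
      HasMult (Localization.AtPrime q)
        (Localization.AtPrime q ⊗[Base p K D] (Base p K D ⧸ P)) h b ∧ b ≤ a := by
  classical
  have : IsDomain (Base p K D) := NoZeroDivisors.to_isDomain _
  have := witt_complete p K
  have := infinite_witt_residue p K
  have : IsDomain (Localization.AtPrime q) :=
    IsLocalization.isDomain_localization q.primeCompl_le_nonZeroDivisors
  have hinj : Function.Injective (algebraMap (Base p K D) (Localization.AtPrime q)) :=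
    IsLocalization.injective (Localization.AtPrime q) q.primeCompl_le_nonZeroDivisors
  have hdimA : ringKrullDim (Base p K D) ≤ (D + 1 : ℕ) := Choices.dim_base_le (WittVector.irreducible p)
  have hdimq : ringKrullDim (Localization.AtPrime q) ≤ (h + 1 : ℕ) := by
    refine (ringKrullDim_le_spanFinrank_maximalIdeal _).trans ?_
    rw [ht]
    have h1 : (Set.range t).ncard ≤ h + 1 := by
      rw [← Set.image_univ]
      exact (Set.ncard_image_le (Set.toFinite _)).trans (by simp [Set.ncard_univ])
    exact_mod_cast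
      (Submodule.spanFinrank_span_le_ncard_of_finite (R := (Localization.AtPrime q)) (Set.finite_range t)).trans h1
  have : Nontrivial ((Base p K D) ⧸ P) := Ideal.Quotient.nontrivial_iff.2 Ideal.IsPrime.ne_top'
  have : IsLocalRing ((Base p K D) ⧸ P) :=
    IsLocalRing.of_surjective' (Ideal.Quotient.mk P) Ideal.Quotient.mk_surjective
  obtain ⟨a, ha⟩ := exists_hasMult_quot P (dim_quot_le P hP0 hdimA)
  obtain ⟨E⟩ := exists_tensor_quotient (R := (Base p K D)) (Localization.AtPrime q) P
  by_cases hPq : P ≤ q
  swap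
  · obtain ⟨s, hsP, hsq⟩ := SetLike.not_le_iff_exists.1 hPq
    have : Subsingleton ((Localization.AtPrime q) ⧸ P.map (algebraMap (Base p K D) (Localization.AtPrime q))) := Ideal.Quotient.subsingleton_iff.2
      (Ideal.eq_top_of_isUnit_mem _ (Ideal.mem_map_of_mem _ hsP)
        (IsLocalization.map_units (Localization.AtPrime q) (⟨s, hsq⟩ : q.primeCompl)))
    exact ⟨a, 0, ha, (hasMult_of_subsingleton _ h).congr E, hasMult_nonneg ha⟩
  have hprime : ∀ I : Ideal (Base p K D), I.IsPrime → I ≤ q → (I.map (algebraMap (Base p K D) (Localization.AtPrime q))).IsPrime ∧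
      (I.map (algebraMap (Base p K D) (Localization.AtPrime q))).comap (algebraMap (Base p K D) (Localization.AtPrime q)) = I := fun I hI hIq => by
    have hd : Disjoint (q.primeCompl : Set (Base p K D)) (I : Set (Base p K D)) :=
      Set.disjoint_left.2 fun x hx hxI => hx (hIq hxI)
    exact ⟨IsLocalization.isPrime_of_isPrime_disjoint q.primeCompl (Localization.AtPrime q) I hI hd,
      IsLocalization.under_map_of_isPrime_disjoint q.primeCompl (Localization.AtPrime q) hI hd⟩
  obtain ⟨hPp, hPc⟩ := hprime P ‹_› hPq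
  by_cases hht : P.height ≤ 1
  · obtain ⟨f, hf, rfl⟩ := PSFactorial.exists_eq_span P hht hP0
    set f' := algebraMap (Base p K D) (Localization.AtPrime q) f with hf'
    have hf'0 : f' ≠ 0 := fun h0 => hf.ne_zero (hinj (h0.trans (map_zero _).symm))
    have hfq : f ∈ q := hPq (Ideal.mem_span_singleton_self f)
    have hfm : f' ∈ maximalIdeal (Localization.AtPrime q) :=
      (IsLocalization.AtPrime.to_map_mem_maximal_iff (Localization.AtPrime q) q f).2 hfq
    have hex : ∃ j, f' ∉ maximalIdeal (Localization.AtPrime q) ^ (j + 1) := by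
      by_contra hne
      push Not at hne
      refine hf'0 ((Submodule.mem_bot (Localization.AtPrime q)).1 ?_)
      rw [← Ideal.iInf_pow_eq_bot_of_isLocalRing (maximalIdeal (Localization.AtPrime q))
        (maximalIdeal.isMaximal (Localization.AtPrime q)).ne_top, Submodule.mem_iInf]
      intro j
      exact Ideal.pow_le_pow_right j.le_succ (hne j)
    set o := Nat.find hex
    have hfo1 : f' ∉ maximalIdeal (Localization.AtPrime q) ^ (o + 1) := Nat.find_spec hex
    have ho : 0 < o := Nat.pos_of_ne_zero fun h0 => hfo1 (by rwa [h0, zero_add, pow_one])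
    have hfo : f' ∈ maximalIdeal (Localization.AtPrime q) ^ o := by
      have := Nat.find_min hex (show o - 1 < o by omega)
      rw [not_not, Nat.sub_add_cancel ho] at this
      exact this
    have hfA : f ∈ maximalIdeal (Base p K D) ^ o := by
      refine SemiCont.symPow_le_pow hpq o ?_
      rw [SemiCont.symPow, Ideal.mem_comap, Ideal.map_pow, Localization.AtPrime.map_eq_maximalIdeal]
      exact hfo
    have hle : (o : ℝ) ≤ a := principal_lower ho hfA ha
    have hmap : Ideal.span {f'} = (Ideal.span {f}).map (algebraMap (Base p K D) (Localization.AtPrime q)) := by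
      rw [Ideal.map_span, Set.image_singleton]
    have hI0 : Ideal.span {f'} ≠ ⊥ := by simpa using hf'0
    have : (Ideal.span {f'}).IsPrime := hmap ▸ hPp
    have : Nontrivial ((Localization.AtPrime q) ⧸ Ideal.span {f'}) :=
      Ideal.Quotient.nontrivial_iff.2 Ideal.IsPrime.ne_top'
    have : IsLocalRing ((Localization.AtPrime q) ⧸ Ideal.span {f'}) :=
      IsLocalRing.of_surjective' (Ideal.Quotient.mk _) Ideal.Quotient.mk_surjective
    obtain ⟨b, hb⟩ := exists_hasMult_quot (Ideal.span {f'}) (dim_quot_le _ hI0 hdimq)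
    refine ⟨a, b, ha, hb.congr ((Submodule.quotEquivOfEq _ _ hmap).trans E), ?_⟩
    exact (principal_upper t ht ho hfo hfo1 ((hasMult_quotient_iff _ h b).1 hb)).trans hle
  · obtain ⟨P₁, hP₁, hlt, hh⟩ : ∃ P₁ : Ideal (Base p K D), P₁.IsPrime ∧ P₁ < P ∧ P₁ ≠ ⊥ := by
      by_contra hne
      push Not at hne
      refine hht (Ideal.height_le_iff.2 fun I hI hlt => ?_)
      rw [hne I hI hlt]
      simp
    obtain ⟨hP₁p, hP₁c⟩ := hprime P₁ hP₁ (hlt.le.trans hPq)
    have hlt' : P₁.map (algebraMap (Base p K D) (Localization.AtPrime q)) < P.map (algebraMap (Base p K D) (Localization.AtPrime q)) :=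
      lt_of_le_of_ne (Ideal.map_mono hlt.le) fun heq => hlt.ne (by rw [← hP₁c, heq, hPc])
    have h0 : P₁.map (algebraMap (Base p K D) (Localization.AtPrime q)) ≠ ⊥ :=
      fun h0 => hh ((Ideal.map_eq_bot_iff_of_injective hinj).1 h0)
    obtain ⟨d, hd, hdh⟩ := dim_quot_lt _ _ h0 hlt' hdimq
    have : Nontrivial ((Localization.AtPrime q) ⧸ P.map (algebraMap (Base p K D) (Localization.AtPrime q))) :=
      Ideal.Quotient.nontrivial_iff.2 hPp.ne_top
    have : IsLocalRing ((Localization.AtPrime q) ⧸ P.map (algebraMap (Base p K D) (Localization.AtPrime q))) :=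
      IsLocalRing.of_surjective' (Ideal.Quotient.mk _) Ideal.Quotient.mk_surjective
    exact ⟨a, 0, ha, (hasMult_zero_of_lt _ hd hdh).congr E, hasMult_nonneg ha⟩

/-- The comparison for modules killed by a nonzero element. -/
theorem module_case (q : Ideal (Base p K D)) [q.IsPrime] (hpq : (p : Base p K D) ∈ q) {h : ℕ}
    (t : Fin (h + 1) → Localization.AtPrime q)
    (ht : maximalIdeal (Localization.AtPrime q) = Ideal.span (Set.range t))
    [Infinite (ResidueField (Localization.AtPrime q))] (M : Type u) [AddCommGroup M]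
    [Module (Base p K D) M] [Module.Finite (Base p K D) M]
    (hM : ∃ c : Base p K D, c ≠ 0 ∧ ∀ m : M, c • m = 0) :
    ∃ a b, HasMult (Base p K D) M D a ∧
      HasMult (Localization.AtPrime q) (Localization.AtPrime q ⊗[Base p K D] M) h b ∧ b ≤ a := by
  have : Module.Flat (Base p K D) (Localization.AtPrime q) := IsLocalization.flat (Localization.AtPrime q) q.primeCompl
  revert hM
  refine IsNoetherianRing.induction_on_isQuotientEquivQuotientPrime (A := Base p K D) (M := M) ‹_›
    (motive := fun M _ _ _ => (∃ c : (Base p K D), c ≠ 0 ∧ ∀ m : M, c • m = 0) →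
      ∃ a b, HasMult (Base p K D) M D a ∧ HasMult (Localization.AtPrime q) ((Localization.AtPrime q) ⊗[(Base p K D)] M) h b ∧ b ≤ a) ?_ ?_ ?_
  · intro M _ _ _ _ _
    exact ⟨0, 0, hasMult_of_subsingleton M D, hasMult_of_subsingleton _ h, le_rfl⟩
  · intro M _ _ _ P e hM
    obtain ⟨c, hc, hcM⟩ := hM
    have hP : P.1 ≠ ⊥ := by
      intro hbot
      have h1 : c • (1 : (Base p K D) ⧸ P.1) = 0 := e.symm.injective (by rw [map_smul, hcM, map_zero])
      rw [Algebra.smul_def, mul_one, Ideal.Quotient.algebraMap_eq,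
        Ideal.Quotient.eq_zero_iff_mem, hbot, Ideal.mem_bot] at h1
      exact hc h1
    obtain ⟨a, b, ha, hb, hle⟩ := prime_case p K D q hpq t ht P.1 hP
    exact ⟨a, b, ha.congr e.symm, hb.congr (e.symm.baseChange (Base p K D) (Localization.AtPrime q)), hle⟩
  · intro M₁ _ _ _ M₂ _ _ _ M₃ _ _ _ f g hf hg hfg ih₁ ih₃ hM
    obtain ⟨c, hc, hcM⟩ := hM
    obtain ⟨a₁, b₁, ha₁, hb₁, hle₁⟩ := ih₁ ⟨c, hc, fun m => hf (by rw [map_smul, hcM, map_zero])⟩
    obtain ⟨a₃, b₃, ha₃, hb₃, hle₃⟩ := ih₃ ⟨c, hc, fun m => by
      obtain ⟨m, rfl⟩ := hg m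
      rw [← map_smul, hcM, map_zero]⟩
    exact ⟨a₁ + a₃, b₁ + b₃, ha₁.of_exact f g hf hg hfg ha₃,
      hb₁.of_exact (f.baseChange (Localization.AtPrime q)) (g.baseChange (Localization.AtPrime q))
        (Module.Flat.lTensor_preserves_injective_linearMap f hf) (LinearMap.lTensor_surjective (Localization.AtPrime q) hg)
        (lTensor_exact (Localization.AtPrime q) hfg hg) hb₃, add_le_add hle₁ hle₃⟩

variable {p K D}

/-- Localisations of finite algebras are bounded by the localised module. -/
theorem eQ_le {A S : Type u} [CommRing A] [IsNoetherianRing A] [CommRing S] [IsNoetherianRing S]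
    [Algebra A S] [Module.Finite A S] (q : Ideal A) [q.IsPrime] (Q : Ideal S) [Q.IsPrime]
    (hQ : Q.comap (algebraMap A S) = q) {h : ℕ} {b eQ : ℝ}
    (hb : HasMult (Localization.AtPrime q) (Localization.AtPrime q ⊗[A] S) h b)
    (heQ : IsMultiplicity (Localization.AtPrime Q) h eQ) : eQ ≤ b := by
  classical
  set Aq := Localization.AtPrime q
  set SQ := Localization.AtPrime Q
  let φ : Aq →+* SQ := Localization.localRingHom q Q (algebraMap A S) hQ.symm
  let : Algebra Aq SQ := φ.toAlgebra
  have : IsScalarTower A Aq SQ := IsScalarTower.of_algebraMap_eq fun c => by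
    rw [IsScalarTower.algebraMap_apply A S SQ]
    exact (Localization.localRingHom_to_map q Q _ hQ.symm c).symm
  have hloc : IsLocalHom φ := Localization.isLocalHom_localRingHom q Q _ hQ.symm
  set m := maximalIdeal Aq
  set n := maximalIdeal SQ
  have hmn : m.map φ ≤ n := IsLocalRing.map_maximalIdeal_le φ
  refine le_of_tendsto_of_tendsto' heQ hb fun N => ?_
  suffices hN : (Module.length SQ (SQ ⧸ n ^ N)).toNat ≤
      (Module.length Aq ((Aq ⊗[A] S) ⧸ (m ^ N • ⊤ : Submodule Aq (Aq ⊗[A] S)))).toNat by
    gcongr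
  have hfin : Module.length Aq ((Aq ⊗[A] S) ⧸ (m ^ N • ⊤ : Submodule Aq (Aq ⊗[A] S))) ≠ ⊤ :=
    length_ne_top_of_killed (N := N) fun r hr y => by
      obtain ⟨y, rfl⟩ := Submodule.mkQ_surjective _ y
      rw [← map_smul, Submodule.mkQ_apply, Submodule.Quotient.mk_eq_zero]
      exact Submodule.smul_mem_smul hr trivial
  refine ENat.toNat_le_toNat ((RankAlt.length_le_restrictScalars (A := Aq) (B := SQ) _).trans ?_) hfin
  let ι : S →ₗ[A] SQ ⧸ n ^ N :=
    ((Ideal.Quotient.mkₐ A (n ^ N)).comp (IsScalarTower.toAlgHom A S SQ)).toLinearMap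
  let l : Aq ⊗[A] S →ₗ[Aq] SQ ⧸ n ^ N := LinearMap.liftBaseChange Aq ι
  have hkill : ∀ r ∈ m ^ N, ∀ x : SQ ⧸ n ^ N, r • x = 0 := fun r hr x => by
    obtain ⟨x, rfl⟩ := Submodule.mkQ_surjective _ x
    rw [Submodule.mkQ_apply, ← Submodule.Quotient.mk_smul, Submodule.Quotient.mk_eq_zero,
      Algebra.smul_def]
    refine Ideal.mul_mem_right _ _ (Ideal.pow_right_mono hmn N ?_)
    rw [← Ideal.map_pow]
    exact Ideal.mem_map_of_mem φ hr
  have hker : (m ^ N • ⊤ : Submodule Aq (Aq ⊗[A] S)) ≤ LinearMap.ker l :=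
    Submodule.smul_le.2 fun r hr y _ => by rw [LinearMap.mem_ker, map_smul, hkill r hr]
  refine Module.length_le_of_surjective (Submodule.liftQ _ l hker) ?_
  rw [← LinearMap.range_eq_top, Submodule.range_liftQ]
  refine eq_top_iff.2 fun x _ => ?_
  obtain ⟨x, rfl⟩ := Submodule.mkQ_surjective _ x
  obtain ⟨⟨a, s⟩, rfl⟩ := IsLocalization.mk'_surjective Q.primeCompl x
  set W := LinearMap.range l
  have hι : ∀ z, ι z ∈ W := fun z => ⟨1 ⊗ₜ z, by simp [l]⟩
  let T : (SQ ⧸ n ^ N) →ₗ[Aq] (SQ ⧸ n ^ N) :=
    (LinearMap.lsmul SQ (SQ ⧸ n ^ N) (algebraMap S SQ (s : S))).restrictScalars _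
  have hT : ∀ w ∈ W, T w ∈ W := by
    rintro _ ⟨z, rfl⟩
    induction z with
    | zero => simp
    | add x y hx hy => rw [map_add, map_add]; exact add_mem hx hy
    | tmul c z =>
      simp only [l, LinearMap.liftBaseChange_tmul, map_smul]
      refine Submodule.smul_mem _ _ ?_
      have : T (ι z) = ι ((s : S) * z) := by
        show algebraMap S SQ (s : S) • Ideal.Quotient.mk (n ^ N) (algebraMap S SQ z) =
          Ideal.Quotient.mk (n ^ N) (algebraMap S SQ ((s : S) * z))
        rw [map_mul]
        rfl
      rw [this]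
      exact hι _
  have : Module.Finite Aq W := Module.Finite.range l
  have hWlen : Module.length Aq W ≠ ⊤ :=
    length_ne_top_of_killed (N := N) fun r hr x => Subtype.ext (hkill r hr x)
  have : IsArtinian Aq W :=
    (isFiniteLength_iff_isNoetherian_isArtinian.1 (Module.length_ne_top_iff.1 hWlen)).2
  have hu : IsUnit (algebraMap S SQ (s : S)) := IsLocalization.map_units _ s
  have hinj : Function.Injective (T.restrict hT) := fun y z hyz => by
    have h1 := congrArg Subtype.val hyz
    simp only [LinearMap.coe_restrict_apply, T, LinearMap.restrictScalars_apply,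
      LinearMap.lsmul_apply] at h1
    exact Subtype.ext (hu.smul_left_cancel.1 h1)
  obtain ⟨⟨y, hy⟩, hyx⟩ :=
    IsArtinian.surjective_of_injective_endomorphism (T.restrict hT) hinj ⟨ι a, hι a⟩
  have h2 : algebraMap S SQ (s : S) • y = ι a := congrArg Subtype.val hyx
  have h3 : algebraMap S SQ (s : S) • (Submodule.mkQ (n ^ N) (IsLocalization.mk' SQ a s)) = ι a := by
    rw [← map_smul, smul_eq_mul, IsLocalization.mk'_spec']
    rfl
  rw [← hu.smul_left_cancel.1 (h2.trans h3.symm)]
  exact hy

/-- The multiplicity over a regular base is at most the multiplicity. -/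
theorem hasMult_le {A S : Type u} [CommRing A] [IsLocalRing A] [CommRing S] [IsLocalRing S]
    [IsNoetherianRing S] [Algebra A S] [IsLocalHom (algebraMap A S)]
    (hres : Function.Surjective fun a : A => residue S (algebraMap A S a)) {c : ℕ}
    (hc : ∀ N, maximalIdeal S ^ (N + c) ≤ ((maximalIdeal A).map (algebraMap A S)) ^ N) {D : ℕ}
    {a e : ℝ} (ha : HasMult A S D a) (he : IsMultiplicity S D e) : a ≤ e := by
  have hlim : Tendsto (fun N : ℕ => (D.factorial : ℝ) *
      ((Module.length S (S ⧸ maximalIdeal S ^ (N + c))).toNat : ℝ) / (N : ℝ) ^ D) atTop (𝓝 e) := by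
    have h1 := (he.comp (tendsto_add_atTop_nat c))
    have h2 : Tendsto (fun N : ℕ => (((N : ℝ) + c) / N) ^ D) atTop (𝓝 1) := by
      have h3 := ((tendsto_const_nhds (x := (1 : ℝ))).add
        (tendsto_const_div_atTop_nhds_zero_nat (c : ℝ))).pow D
      rw [add_zero, one_pow] at h3
      refine h3.congr' ?_
      filter_upwards [eventually_gt_atTop 0] with N hN
      have : (0 : ℝ) < N := by exact_mod_cast hN
      field_simp
    have h4 := h1.mul h2
    rw [mul_one] at h4
    refine h4.congr' ?_
    filter_upwards [eventually_gt_atTop 0] with N hN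
    have : (0 : ℝ) < N := by exact_mod_cast hN
    simp only [Function.comp_apply, Nat.cast_add, div_pow]
    field_simp
  refine le_of_tendsto_of_tendsto' ha hlim fun N => ?_
  suffices hN : (Module.length A (S ⧸ (maximalIdeal A ^ N • ⊤ : Submodule A S))).toNat ≤
      (Module.length S (S ⧸ maximalIdeal S ^ (N + c))).toNat by
    gcongr
  refine ENat.toNat_le_toNat ?_ (length_quotient_ne_top _ _ le_rfl)
  rw [Ideal.smul_top_eq_map, ← (Submodule.Quotient.restrictScalarsEquiv A _).symm.length_eq,
    Lambda.length_eq_of_residue A S _ hres, Ideal.map_pow]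
  exact Module.length_le_of_surjective (Submodule.factor (hc N)) (Submodule.factor_surjective _)

variable (p) in
/-- The localisation inequality for complete rings with perfect infinite residue field and primes
containing the residue characteristic. -/
theorem localisation_le (S : Type u) [CommRing S] [IsLocalRing S] [IsNoetherianRing S]
    [IsAdicComplete (maximalIdeal S) S] [CharP (ResidueField S) p]
    [PerfectRing (ResidueField S) p] [Infinite (ResidueField S)] (Q : Ideal S) [hQp : Q.IsPrime]
    (hpQ : (p : S) ∈ Q) {r h : ℕ} (hQr : ringKrullDim (S ⧸ Q) = r)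
    (hQh : ringKrullDim (Localization.AtPrime Q) = h)
    (hD : ringKrullDim S = (r + h : ℕ)) (e' : ℝ) (he' : IsMultiplicity S (r + h) e') :
    ∃ eQ : ℝ, IsMultiplicity (Localization.AtPrime Q) h eQ ∧ eQ ≤ e' := by
  classical
  have hQn : Q ≤ maximalIdeal S := le_maximalIdeal hQp.ne_top
  obtain ⟨z, hzm, c₀, hc₀⟩ := exists_red_dim hD
  obtain ⟨h', y, hrh, hspan, c, hc⟩ :=
    exists_params S z ⟨c₀ + 1, hc₀.trans Ideal.mul_le_left⟩ hzm Q hQr
  obtain rfl : h = h' := by omega
  have hym : ∀ i, y i ∈ maximalIdeal S := fun i => by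
    have : Ideal.span (Set.range y) ≤ maximalIdeal S :=
      hspan ▸ Ideal.span_le.2 (by rintro _ ⟨j, rfl⟩; exact hzm j)
    exact this (Ideal.subset_span ⟨i, rfl⟩)
  -- the base
  let K := ResidueField S
  let A := Base p K (r + h)
  have := witt_complete p K
  have : IsDomain A := NoZeroDivisors.to_isDomain _
  let χ : A →+* S := EvalPS.eval (WittMap.wittMap p S) y hym
  have hιres : Function.Surjective fun w => residue S (WittMap.wittMap p S w) := fun x => by
    obtain ⟨w, hw⟩ := WittVector.constantCoeff_surjective (p := p) x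
    exact ⟨w, (WittMap.residue_wittMap p w).trans hw⟩
  have hχ : χ.Finite :=
    Choices.finite_base (p := p) (WittVector.irreducible p) (WittMap.wittMap p S) hιres hym
      (c := c₀ + 1) (((hc₀.trans Ideal.mul_le_left).trans hspan.ge).trans le_sup_right)
  let : Algebra A S := χ.toAlgebra
  have : Module.Finite A S := hχ
  have hres : Function.Surjective fun a : A => residue S (χ a) := fun x => by
    obtain ⟨w, hw⟩ := hιres x
    refine ⟨MvPowerSeries.C w, ?_⟩
    show residue S (χ (MvPowerSeries.C w)) = x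
    rw [show χ (MvPowerSeries.C w) = _ from EvalPS.eval_C ..]
    exact hw
  have hloc : IsLocalHom (algebraMap A S) := by
    refine ((local_hom_TFAE _).out 0 2).mpr ?_
    refine Ideal.map_le_iff_le_comap.2 ((Choices.maximalIdeal_base_le
      (WittVector.irreducible p)).trans ?_)
    rw [Ideal.span_le]
    rintro _ ⟨_ | i, rfl⟩
    · show χ (p : A) ∈ maximalIdeal S
      rw [map_natCast]
      exact WittMap.natCast_mem p
    · show χ (MvPowerSeries.X i) ∈ maximalIdeal S
      rw [show χ (MvPowerSeries.X i) = _ from EvalPS.eval_X ..]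
      exact hym i
  -- reduction modulo `p`
  let C := MvPowerSeries (Fin (r + h)) K
  have : IsAdicComplete (maximalIdeal C) C :=
    maximalIdeal_ps (L := K) (r := r + h) ▸ inferInstance
  let π : A →+* C := MvPowerSeries.map WittVector.constantCoeff
  have hπsurj : Function.Surjective π := fun f => by
    choose w hw using fun d => WittVector.constantCoeff_surjective (p := p) (MvPowerSeries.coeff d f)
    refine ⟨(fun d => w d : A), MvPowerSeries.ext fun d => ?_⟩
    show MvPowerSeries.coeff d (MvPowerSeries.map (WittVector.constantCoeff (p := p) (R := K)) _) = _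
    exact (MvPowerSeries.coeff_map (WittVector.constantCoeff (p := p) (R := K)) d (fun d => w d : A)).trans (hw d)
  have hπC : ∀ w, π (MvPowerSeries.C w) = MvPowerSeries.C (WittVector.constantCoeff w) :=
    fun w => MvPowerSeries.map_C _ _
  have hπker : RingHom.ker π = Ideal.span {(p : A)} := by
    rw [PSBase.ker_map _ (IsNoetherian.noetherian _), WittVector.ker_constantCoeff, Ideal.map_span,
      Set.image_singleton, map_natCast]
  have : Nontrivial (S ⧸ Q) := Ideal.Quotient.nontrivial_iff.2 hQp.ne_top
  have : IsLocalRing (S ⧸ Q) :=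
    IsLocalRing.of_surjective' (Ideal.Quotient.mk Q) Ideal.Quotient.mk_surjective
  have : IsLocalHom (Ideal.Quotient.mk Q) :=
    IsLocalHom.of_surjective _ Ideal.Quotient.mk_surjective
  have hmaxQ : (maximalIdeal S).map (Ideal.Quotient.mk Q) = maximalIdeal (S ⧸ Q) :=
    IsLocalRing.eq_maximalIdeal (Ideal.IsMaximal.map_of_surjective_of_ker_le
      Ideal.Quotient.mk_surjective (Ideal.mk_ker.trans_le hQn))
  set q := Q.comap (algebraMap A S) with hq
  have : q.IsPrime := hQp.comap _
  have hpq : (p : A) ∈ q := by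
    rw [hq, Ideal.mem_comap, map_natCast]
    exact hpQ
  have hkerρ : RingHom.ker π ≤ RingHom.ker ((Ideal.Quotient.mk Q).comp χ) := by
    rw [hπker, Ideal.span_le, Set.singleton_subset_iff, SetLike.mem_coe, RingHom.mem_ker,
      RingHom.comp_apply, map_natCast, Ideal.Quotient.eq_zero_iff_mem]
    exact hpQ
  let ρ : C →+* S ⧸ Q := π.liftOfSurjective hπsurj ⟨_, hkerρ⟩
  have hρ : ∀ x, ρ (π x) = Ideal.Quotient.mk Q (χ x) := fun x =>
    RingHom.congr_fun (π.liftOfSurjective_comp hπsurj ⟨_, hkerρ⟩) x
  set q' := RingHom.ker ρ with hq'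
  have : q'.IsPrime := RingHom.ker_isPrime ρ
  have hqq' : q = q'.comap π := by
    refine Ideal.ext fun x => ?_
    rw [hq, Ideal.mem_comap, Ideal.mem_comap, hq', RingHom.mem_ker, hρ,
      Ideal.Quotient.eq_zero_iff_mem]
    rfl
  let ι : MvPowerSeries (Fin r) K →+* C :=
    EvalPS.eval (N := maximalIdeal C) MvPowerSeries.C (fun i => MvPowerSeries.X (Fin.castAdd h i))
      fun i => by
        rw [maximalIdeal_ps]
        exact Ideal.subset_span ⟨_, rfl⟩
  have hιX : ∀ i, ι (MvPowerSeries.X i) = MvPowerSeries.X (Fin.castAdd h i) :=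
    fun i => EvalPS.eval_X ..
  have hιC : ∀ a, ι (MvPowerSeries.C a) = MvPowerSeries.C a := fun a => EvalPS.eval_C ..
  let fK : MvPowerSeries (Fin r) K →+* S ⧸ Q := ρ.comp ι
  have hfKX : ∀ i, fK (MvPowerSeries.X i) = Ideal.Quotient.mk Q (y (Fin.castAdd h i)) := fun i => by
    rw [show fK (MvPowerSeries.X i) = ρ (MvPowerSeries.X (Fin.castAdd h i)) from
      congrArg ρ (hιX i), ← MvPowerSeries.map_X (WittVector.constantCoeff (p := p) (R := K)),
      show MvPowerSeries.map _ (MvPowerSeries.X (Fin.castAdd h i)) = π _ from rfl, hρ]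
    exact congrArg _ (EvalPS.eval_X ..)
  have hfK : fK.Finite := by
    refine finite_of_param (c := c) fK (fun i => ?_) ?_ ?_
    · rw [hfKX, ← hmaxQ]
      exact Ideal.mem_map_of_mem _ (hym _)
    · refine RingHom.Finite.of_surjective _ fun x => ?_
      obtain ⟨x, rfl⟩ := residue_surjective x
      obtain ⟨s, rfl⟩ := Ideal.Quotient.mk_surjective x
      obtain ⟨w, hw⟩ := hιres (residue S s)
      refine ⟨WittVector.constantCoeff w, ?_⟩
      show residue (S ⧸ Q) (ρ (ι (MvPowerSeries.C (WittVector.constantCoeff w)))) = _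
      rw [hιC, ← hπC, hρ, show χ (MvPowerSeries.C w) = _ from EvalPS.eval_C ..]
      exact congrArg (ResidueField.map (Ideal.Quotient.mk Q)) hw
    · simp only [hfKX]
      rw [← hmaxQ, ← Ideal.map_pow]
      refine (Ideal.map_mono hc).trans (le_of_eq ?_)
      rw [Ideal.map_sup, Ideal.map_quotient_self, bot_sup_eq, Ideal.map_span, ← Set.range_comp]
      rfl
  have hinj' : q'.comap ι = ⊥ := by
    rw [hq', RingHom.comap_ker]
    exact (RingHom.injective_iff_ker_eq_bot _).1 (injective_of_dim fK hfK hQr)
  have hfin' : ((Ideal.Quotient.mk q').comp ι).Finite := by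
    let : Algebra (MvPowerSeries (Fin r) K) (C ⧸ q') := ((Ideal.Quotient.mk q').comp ι).toAlgebra
    let : Algebra (MvPowerSeries (Fin r) K) (S ⧸ Q) := fK.toAlgebra
    have : Module.Finite (MvPowerSeries (Fin r) K) (S ⧸ Q) := hfK
    let l : C ⧸ q' →ₐ[MvPowerSeries (Fin r) K] S ⧸ Q :=
      { RingHom.kerLift ρ with commutes' := fun _ => rfl }
    exact Module.Finite.of_injective l.toLinearMap (RingHom.kerLift_injective ρ)
  obtain ⟨g, hg⟩ := exists_prime_generators K r h q' ι hιX hιC hfin' hinj'
  -- generators of the maximal ideal above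
  let ψ : Localization.AtPrime q →+* Localization.AtPrime q' :=
    Localization.localRingHom q q' π hqq'
  have hψ : ∀ x, ψ (algebraMap A _ x) = algebraMap C _ (π x) := fun x =>
    Localization.localRingHom_to_map q q' π hqq' x
  have hψsurj : Function.Surjective ψ := by
    intro x
    obtain ⟨⟨a, s⟩, rfl⟩ := IsLocalization.mk'_surjective q'.primeCompl x
    obtain ⟨a₀, rfl⟩ := hπsurj a
    obtain ⟨s₀, hs₀⟩ := hπsurj (s : C)
    have hs : s₀ ∈ q.primeCompl := by
      show s₀ ∉ q
      rw [hqq', Ideal.mem_comap, hs₀]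
      exact s.2
    refine ⟨IsLocalization.mk' _ a₀ (⟨s₀, hs⟩ : q.primeCompl), ?_⟩
    rw [Localization.localRingHom_mk']
    exact congrArg (IsLocalization.mk' _ (π a₀)) (Subtype.ext hs₀)
  have hψloc : IsLocalHom ψ := Localization.isLocalHom_localRingHom q q' π hqq'
  choose T hT using fun i => hψsurj (g i)
  set t : Fin (h + 1) → Localization.AtPrime q := Fin.cons (algebraMap A _ (p : A)) T with htdef
  have ht : maximalIdeal (Localization.AtPrime q) = Ideal.span (Set.range t) := by
    refine le_antisymm (fun x hx => ?_) (Ideal.span_le.2 ?_)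
    · have h1 : ψ x ∈ Ideal.span (Set.range g) := hg ▸ map_nonunit ψ x hx
      rw [← show ψ ∘ T = g from funext hT, Set.range_comp, ← Ideal.map_span] at h1
      obtain ⟨w, hw, hwx⟩ := (Ideal.mem_map_iff_of_surjective ψ hψsurj).1 h1
      have hsub : Ideal.span (Set.range T) ≤ Ideal.span (Set.range t) :=
        Ideal.span_mono (by rintro _ ⟨i, rfl⟩; exact ⟨i.succ, by simp [htdef]⟩)
      refine (Submodule.sub_mem_iff_left _ (hsub hw)).1 ?_
      obtain ⟨⟨a, s⟩, he⟩ := IsLocalization.surj q.primeCompl (x - w)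
      have h2 : ψ (algebraMap A _ a) = 0 := by
        rw [← he, map_mul, map_sub, hwx, sub_self, zero_mul]
      rw [hψ, IsLocalization.to_map_eq_zero_iff _ q'.primeCompl_le_nonZeroDivisors,
        ← RingHom.mem_ker, hπker, Ideal.mem_span_singleton'] at h2
      obtain ⟨b, rfl⟩ := h2
      refine (Ideal.mul_unit_mem_iff_mem _ (IsLocalization.map_units _ s)).1 ?_
      rw [he, map_mul]
      exact Ideal.mul_mem_left _ _ (Ideal.subset_span ⟨0, by simp [htdef]⟩)
    · rintro _ ⟨i, rfl⟩
      induction i using Fin.cases with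
      | zero =>
        rw [htdef, Fin.cons_zero]
        exact (IsLocalization.AtPrime.to_map_mem_maximal_iff _ q _).2 hpq
      | succ i =>
        rw [htdef, Fin.cons_succ, SetLike.mem_coe, mem_maximalIdeal, mem_nonunits_iff]
        intro hu
        have h1 : g i ∈ maximalIdeal (Localization.AtPrime q') :=
          hg ▸ Ideal.subset_span ⟨i, rfl⟩
        exact (mem_maximalIdeal _).1 h1 (hT i ▸ hu.map ψ)
  have : Infinite (ResidueField (Localization.AtPrime q)) := by
    choose w hw using fun x => WittVector.constantCoeff_surjective (p := p) (R := K) x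
    refine Infinite.of_injective (fun x : K =>
      residue _ (algebraMap A (Localization.AtPrime q) (MvPowerSeries.C (w x)))) fun x x' hxx => ?_
    have h1 : MvPowerSeries.C (w x) - MvPowerSeries.C (w x') ∈ q := by
      rw [← IsLocalization.AtPrime.to_map_mem_maximal_iff (Localization.AtPrime q) q, map_sub,
        ← residue_eq_zero_iff, map_sub, sub_eq_zero]
      exact hxx
    rw [hq, Ideal.mem_comap] at h1
    have h2 := hQn h1
    rw [← residue_eq_zero_iff, map_sub, map_sub, sub_eq_zero] at h2
    have h3 : ∀ z, residue S (χ (MvPowerSeries.C (w z))) = z := fun z => by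
      rw [show χ (MvPowerSeries.C (w z)) = _ from EvalPS.eval_C .., WittMap.residue_wittMap]
      exact hw z
    exact (h3 x).symm.trans (h2.trans (h3 x'))
  -- a nonzero element kills `S`
  have hker : ∃ c : A, c ≠ 0 ∧ ∀ m : S, c • m = 0 := by
    by_contra hne
    push Not at hne
    have hχinj : Function.Injective χ := (injective_iff_map_eq_zero χ).2 fun x hx => by
      by_contra hx0
      obtain ⟨m, hm⟩ := hne x hx0
      exact hm (by rw [Algebra.smul_def, RingHom.algebraMap_toAlgebra, hx, zero_mul])
    have h1 : ringKrullDim A ≤ ringKrullDim S := by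
      have : Algebra.IsIntegral A S := Algebra.IsIntegral.of_finite A S
      exact dim_le_of_integral hχinj
    have h2 : ringKrullDim C + 1 ≤ ringKrullDim A :=
      ringKrullDim_succ_le_of_surjective π hπsurj
        (mem_nonZeroDivisors_of_ne_zero SemiCont.base_p_ne_zero)
        (by rw [map_natCast, ← map_natCast (MvPowerSeries.C (σ := Fin (r + h)) (R := K)),
          CharP.cast_eq_zero, map_zero])
    have h3 := (add_le_add_left (le_ringKrullDim_ps (k := K) (r + h)) 1).trans (h2.trans h1)
    rw [hD] at h3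
    have : r + h + 1 ≤ r + h := by exact_mod_cast h3
    omega
  obtain ⟨a, b, ha, hb, hle⟩ := module_case p K (r + h) q hpq t ht S hker
  obtain ⟨eQ, -, heQ⟩ := exists_multiplicity_of_dim (Localization.AtPrime Q) hQh
  refine ⟨eQ, heQ, (eQ_le q Q rfl hb heQ).trans (hle.trans ?_)⟩
  refine hasMult_le hres (c := c₀) (fun N => ?_) ha he'
  have h1 : maximalIdeal S ^ (c₀ + N) ≤ Ideal.span (Set.range z) ^ N :=
    (Red.IsRed.pow_le hc₀ N).trans Ideal.mul_le_left
  rw [add_comm N]
  refine h1.trans (Ideal.pow_right_mono ?_ N)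
  rw [← hspan, Ideal.span_le]
  rintro _ ⟨i, rfl⟩
  rw [show y i = algebraMap A S (MvPowerSeries.X i) from (EvalPS.eval_X ..).symm]
  refine Ideal.mem_map_of_mem _ ((mem_maximalIdeal _).2 ?_)
  rw [mem_nonunits_iff, MvPowerSeries.isUnit_iff_constantCoeff, MvPowerSeries.constantCoeff_X]
  exact not_isUnit_zero

end Vale.Agent.P202.Mixed2.Localisation
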