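import Vale.Agent.P202.Mixed2.SetupMain
import Vale.Agent.P202.Mixed.Lech
import Vale.Agent.P202.Ext.Localise
import Vale.Agent.P202.Mixed2.Localisation

/-!
P202 mixed characteristic: Lech's inequality for all flat local maps, from the core.
-/

namespace Vale.Agent.P202.Mixed2

open IsLocalRing AdicCompletion Vale.Agent.P202.Char

universe u

namespace Reductions

set_option linter.unusedSectionVars false

/-- A complete extension with algebraically closed residue field and maximal ideal extended. -/
theorem exists_closed (p : ℕ) [Fact p.Prime] (S : Type u) [CommRing S] [IsLocalRing S]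
    [IsNoetherianRing S] [CharP (ResidueField S) p] :
    ∃ (T : Type u) (_ : CommRing T) (_ : IsLocalRing T) (_ : IsNoetherianRing T)
      (_ : IsAdicComplete (maximalIdeal T) T) (_ : CharP (ResidueField T) p)
      (_ : IsAlgClosed (ResidueField T)) (_ : Algebra S T) (_ : Module.Flat S T)
      (_ : IsLocalHom (algebraMap S T)),
      (maximalIdeal S).map (algebraMap S T) = maximalIdeal T := by
  set m := maximalIdeal S
  let S₁ := AdicCompletion m S
  have : IsNoetherianRing S₁ := Compl.isNoetherianRing m
  have : IsAdicComplete (maximalIdeal S₁) S₁ :=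
    maximalIdeal_eq_map (R := S) ▸ isAdicComplete_self m m.fg_of_isNoetherianRing
  have : CharP (ResidueField S₁) p :=
    charP_of_injective_ringHom (ResidueField.map (algebraMap S S₁)).injective p
  obtain ⟨C, _, _, _, hC, res, incl, hres, hker, hπ, -, -⟩ :=
    Cohen.exists_cohen (p := p) (k := ResidueField S₁)
  have : IsAdicComplete (maximalIdeal C) C := hπ.maximalIdeal_eq.symm ▸ hC
  obtain ⟨f, hf⟩ := Cohen.exists_lift (E := S₁) res hres hker
    (fun a ha => (mul_eq_zero.1 ha).resolve_left hπ.ne_zero) (WittMap.natCast_mem p)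
    (J := maximalIdeal S₁) le_rfl res
  have hf' : Function.Surjective fun w => residue S₁ (f w) := fun x => by
    obtain ⟨v, hv⟩ := hres x
    exact ⟨v, (RingHom.congr_fun hf v).trans hv⟩
  obtain ⟨T, _, _, _, _, _, _, _, hmax, ⟨κ⟩, -⟩ := Gonfle.exists_gonfle (p := p) hπ f hf'
    (AlgebraicClosure (ResidueField S₁)) incl
  have : IsAlgClosed (ResidueField T) := IsAlgClosed.of_ringEquiv _ _ κ
  have : CharP (ResidueField T) p :=
    charP_of_injective_ringHom (ResidueField.map (algebraMap S₁ T)).injective p
  let _ : Algebra S T := ((algebraMap S₁ T).comp (algebraMap S S₁)).toAlgebra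
  have : IsScalarTower S S₁ T := IsScalarTower.of_algebraMap_eq fun _ => rfl
  have : IsLocalHom (algebraMap S T) :=
    ⟨fun a ha => (isUnit_map_iff (algebraMap S S₁) a).1 ((isUnit_map_iff (algebraMap S₁ T) _).1
      (IsScalarTower.algebraMap_apply S S₁ T a ▸ ha))⟩
  refine ⟨T, inferInstance, inferInstance, inferInstance, inferInstance, inferInstance,
    inferInstance, inferInstance, Module.Flat.trans S S₁ T, inferInstance, ?_⟩
  rw [IsScalarTower.algebraMap_eq S S₁ T, ← Ideal.map_map, ← maximalIdeal_eq_map, hmax]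

/-- Quotients of complete rings are complete. -/
theorem complete_quotient (A : Type u) [CommRing A] [IsLocalRing A] [IsNoetherianRing A]
    [IsAdicComplete (maximalIdeal A) A] (I : Ideal A) [IsLocalRing (A ⧸ I)] :
    IsAdicComplete (maximalIdeal (A ⧸ I)) (A ⧸ I) :=
  have : IsLocalHom (algebraMap A (A ⧸ I)) :=
    IsLocalHom.of_surjective _ Ideal.Quotient.mk_surjective
  Zero.adicComplete_finite A (A ⧸ I)

/-- Artinian fibres, complete rings, infinite residue field below. -/
theorem lech_complete (core : CoreAll.{u}) (p : ℕ) [Fact p.Prime] (R S : Type u) [CommRing R]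
    [CommRing S] [IsLocalRing R] [IsLocalRing S] [IsNoetherianRing R] [IsNoetherianRing S]
    [Algebra R S] [IsLocalHom (algebraMap R S)] [Module.Flat R S]
    [IsAdicComplete (maximalIdeal R) R] [IsAdicComplete (maximalIdeal S) S]
    [CharP (ResidueField R) p] [Infinite (ResidueField R)] [IsAlgClosed (ResidueField S)]
    (hfib : ∃ c, maximalIdeal S ^ c ≤ (maximalIdeal R).map (algebraMap R S))
    (d : ℕ) (hd : ringKrullDim R = d) (e e' : ℝ) (he : IsMultiplicity R d e)
    (he' : IsMultiplicity S d e') : e ≤ e' := by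
  have hdS := SetupMain.dim_of_artinian R S hfib hd
  refine Mixed.lech_of_components hd hdS (fun P _ _ _ _ _ hP a b ha hb => ?_) he he'
  set PS := P.map (algebraMap R S)
  have : IsLocalHom (Ideal.Quotient.mk P) :=
    IsLocalHom.of_surjective _ Ideal.Quotient.mk_surjective
  have : IsLocalHom (Ideal.Quotient.mk PS) :=
    IsLocalHom.of_surjective _ Ideal.Quotient.mk_surjective
  have : CharP (ResidueField (R ⧸ P)) p :=
    charP_of_injective_ringHom (ResidueField.map (Ideal.Quotient.mk P)).injective p
  by_cases hp : (p : R ⧸ P) = 0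
  · exact Mixed.lech_equal (R ⧸ P) (S ⧸ PS) (by rwa [ringChar.eq (ResidueField (R ⧸ P)) p]) d d hP
      (Mixed.dim_quotient hd hdS P hP) a b ha hb
  have := complete_quotient R P
  have := complete_quotient S PS
  have : Infinite (ResidueField (R ⧸ P)) :=
    Infinite.of_injective _ (ResidueField.map (Ideal.Quotient.mk P)).injective
  have : IsAlgClosed (ResidueField (S ⧸ PS)) := by
    let f := ResidueField.map (Ideal.Quotient.mk PS)
    have hf : Function.Bijective f := ⟨f.injective, fun y => by
      obtain ⟨y, rfl⟩ := residue_surjective y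
      obtain ⟨s, rfl⟩ := Ideal.Quotient.mk_surjective y
      exact ⟨residue S s, IsLocalRing.ResidueField.map_residue _ s⟩⟩
    exact IsAlgClosed.of_ringEquiv _ _ (RingEquiv.ofBijective f hf)
  refine lech_artinian core p (R ⧸ P) (S ⧸ PS) hp ?_ d hP a b ha hb
  obtain ⟨c, hc⟩ := hfib
  refine ⟨c, ?_⟩
  have hmS : (maximalIdeal S).map (Ideal.Quotient.mk PS) = maximalIdeal (S ⧸ PS) :=
    IsLocalRing.eq_maximalIdeal (Ideal.IsMaximal.map_of_surjective_of_ker_le
      Ideal.Quotient.mk_surjective (le_maximalIdeal (RingHom.ker_ne_top _)))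
  have hmR : (maximalIdeal R).map (Ideal.Quotient.mk P) = maximalIdeal (R ⧸ P) :=
    IsLocalRing.eq_maximalIdeal (Ideal.IsMaximal.map_of_surjective_of_ker_le
      Ideal.Quotient.mk_surjective (le_maximalIdeal (RingHom.ker_ne_top _)))
  rw [← hmS, ← hmR, ← Ideal.map_pow, Ideal.map_map,
    show (algebraMap (R ⧸ P) (S ⧸ PS)).comp (Ideal.Quotient.mk P) =
      (Ideal.Quotient.mk PS).comp (algebraMap R S) from RingHom.ext fun _ => rfl, ← Ideal.map_map]
  exact Ideal.map_mono hc

/-- Artinian fibres. -/
theorem lech_artinian_fibre (core : CoreAll.{u}) (p : ℕ) [Fact p.Prime] (R S : Type u)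
    [CommRing R] [CommRing S] [IsLocalRing R] [IsLocalRing S] [IsNoetherianRing R]
    [IsNoetherianRing S] [Algebra R S] [IsLocalHom (algebraMap R S)] [Module.Flat R S]
    [CharP (ResidueField R) p]
    (hfib : ∃ c, maximalIdeal S ^ c ≤ (maximalIdeal R).map (algebraMap R S))
    (d : ℕ) (hd : ringKrullDim R = d) (e e' : ℝ) (he : IsMultiplicity R d e)
    (he' : IsMultiplicity S d e') : e ≤ e' := by
  have : CharP (ResidueField S) p :=
    charP_of_injective_ringHom (ResidueField.map (algebraMap R S)).injective p
  obtain ⟨T, _, _, _, _, _, _, _, _, _, hmT⟩ := exists_closed p S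
  let _ : Algebra R T := ((algebraMap S T).comp (algebraMap R S)).toAlgebra
  have : IsScalarTower R S T := IsScalarTower.of_algebraMap_eq fun _ => rfl
  have : IsLocalHom (algebraMap R T) :=
    ⟨fun a ha => (isUnit_map_iff (algebraMap R S) a).1 ((isUnit_map_iff (algebraMap S T) _).1
      (IsScalarTower.algebraMap_apply R S T a ▸ ha))⟩
  have : Module.Flat R T := Module.Flat.trans R S T
  -- completion below
  set m := maximalIdeal R
  let R₁ := AdicCompletion m R
  have : IsNoetherianRing R₁ := Compl.isNoetherianRing m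
  have : IsAdicComplete (maximalIdeal R₁) R₁ :=
    maximalIdeal_eq_map (R := R) ▸ isAdicComplete_self m m.fg_of_isNoetherianRing
  have : CharP (ResidueField R₁) p :=
    charP_of_injective_ringHom (ResidueField.map (algebraMap R R₁)).injective p
  have hle : m.map (algebraMap R T) ≤ maximalIdeal T :=
    le_maximalIdeal (map_maximalIdeal_lt_top (algebraMap R T)).ne
  let φ : R₁ →+* T := (ofAlgEquiv (maximalIdeal T)).symm.toRingEquiv.toRingHom.comp
    (Compl.compMap (algebraMap R T) (I := m) (J := maximalIdeal T) hle)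
  let _ : Algebra R₁ T := φ.toAlgebra
  have : IsScalarTower R R₁ T := IsScalarTower.of_algebraMap_eq fun r => by
    have h1 := Compl.compMap_algebraMap (algebraMap R T) (I := m) (J := maximalIdeal T) hle r
    change algebraMap R T r = (ofAlgEquiv (maximalIdeal T)).symm _
    rw [h1]
    exact ((ofAlgEquiv (maximalIdeal T)).symm.commutes (algebraMap R T r)).symm
  have hm₁ : (maximalIdeal R).map (algebraMap R R₁) = maximalIdeal R₁ := maximalIdeal_eq_map.symm
  have : IsLocalHom (algebraMap R₁ T) := by
    refine ((local_hom_TFAE _).out 0 2).mpr ?_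
    rw [← hm₁, Ideal.map_map, ← IsScalarTower.algebraMap_eq]
    exact hle
  have : Module.Flat R₁ T := flat_tower (R := R) hm₁
  have hfib₁ : ∃ c, maximalIdeal T ^ c ≤ (maximalIdeal R₁).map (algebraMap R₁ T) := by
    obtain ⟨c, hc⟩ := hfib
    refine ⟨c, ?_⟩
    rw [← hm₁, Ideal.map_map, ← IsScalarTower.algebraMap_eq, IsScalarTower.algebraMap_eq R S T,
      ← Ideal.map_map, ← hmT, ← Ideal.map_pow]
    exact Ideal.map_mono hc
  have he₁ := (InfRes.isMultiplicity_iff hm₁ d e).1 he
  have he₁' := (InfRes.isMultiplicity_iff hmT d e').1 he'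
  have hd₁ : ringKrullDim R₁ = d := by
    rw [dim_eq (R := R) (S := R₁) (hm₁.symm ▸ Ideal.pow_le_self two_ne_zero), hd]
  rcases finite_or_infinite (ResidueField R₁) with hk | hk
  · -- gonflement of the base to the residue field of `T`
    have : PerfectRing (ResidueField R₁) p := inferInstance
    let K := ResidueField T
    have := Gonfle.isAdicComplete_witt (p := p) (ResidueField R₁)
    obtain ⟨R₂, _, _, _, _, _, _, _, hm₂, ⟨κ⟩, hext⟩ := Gonfle.exists_gonfle (p := p)
      (WittVector.irreducible (k := ResidueField R₁) p) (WittMap.wittMap p R₁)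
      (fun x => by
        obtain ⟨w, hw⟩ := WittVector.constantCoeff_surjective p x
        exact ⟨w, (WittMap.residue_wittMap p w).trans hw⟩)
      K (WittVector.map (ResidueField.map (algebraMap R₁ T)))
    obtain ⟨g, hg, hgc⟩ := hext T (algebraMap R₁ T) inferInstance (WittMap.wittMap p T) fun a => by
      refine RingHom.congr_fun (Gonfle.witt_hom_ext (p := p) (WittMap.natCast_mem p)
        ((WittMap.wittMap p T).comp (WittVector.map (ResidueField.map (algebraMap R₁ T))))
        ((algebraMap R₁ T).comp (WittMap.wittMap p R₁)) fun x => ?_) a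
      rw [RingHom.comp_apply, RingHom.comp_apply, WittMap.residue_wittMap,
        ← IsLocalRing.ResidueField.map_residue, WittMap.residue_wittMap]
      exact WittVector.map_coeff (ResidueField.map (algebraMap R₁ T)) x 0
    let _ : Algebra R₂ T := g.toAlgebra
    have : IsLocalHom (algebraMap R₂ T) := hg
    have : IsScalarTower R₁ R₂ T := IsScalarTower.of_algebraMap_eq fun r =>
      (RingHom.congr_fun hgc r).symm
    have : Module.Flat R₂ T := flat_tower (R := R₁) hm₂
    have : CharP (ResidueField R₂) p :=
      charP_of_injective_ringHom (ResidueField.map (algebraMap R₁ R₂)).injective p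
    have : Infinite (ResidueField R₂) := Infinite.of_injective _ κ.injective
    refine lech_complete core p R₂ T ?_ d ?_ e e' ((InfRes.isMultiplicity_iff hm₂ d e).1 he₁) he₁'
    · obtain ⟨c, hc⟩ := hfib₁
      refine ⟨c, hc.trans ?_⟩
      rw [IsScalarTower.algebraMap_eq R₁ R₂ T, ← Ideal.map_map, hm₂]
    · rw [dim_eq (R := R₁) (S := R₂) (hm₂.symm ▸ Ideal.pow_le_self two_ne_zero), hd₁]
  · exact lech_complete core p R₁ T hfib₁ d hd₁ e e' he₁ he₁'

end Reductions

open Reductions Char.Stage2 in
/-- Lech's inequality for all flat local maps of Noetherian local rings, from the core. -/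
theorem lech_of_core (core : CoreAll.{u}) (R S : Type u) [CommRing R]
    [CommRing S] [IsLocalRing R] [IsLocalRing S] [IsNoetherianRing R] [IsNoetherianRing S]
    [Algebra R S] [IsLocalHom (algebraMap R S)] [Module.Flat R S] (d D : ℕ)
    (hd : ringKrullDim R = d) (hD : ringKrullDim S = D) (e e' : ℝ)
    (he : IsMultiplicity R d e) (he' : IsMultiplicity S D e') : e ≤ e' := by
  rcases CharP.char_is_prime_or_zero (ResidueField R) (ringChar (ResidueField R)) with hp | hp
  swap
  · exact Mixed.lech_equal R S (by rw [hp, Nat.cast_zero]) d D hd hD e e' he he'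
  set p := ringChar (ResidueField R)
  have : Fact p.Prime := ⟨hp⟩
  have : CharP (ResidueField R) p := ringChar.charP _
  have : CharP (ResidueField S) p :=
    charP_of_injective_ringHom (ResidueField.map (algebraMap R S)).injective p
  obtain ⟨T, _, _, _, _, _, _, _, _, _, hmT⟩ := exists_closed p S
  let _ : Algebra R T := ((algebraMap S T).comp (algebraMap R S)).toAlgebra
  have : IsScalarTower R S T := IsScalarTower.of_algebraMap_eq fun _ => rfl
  have : IsLocalHom (algebraMap R T) :=
    ⟨fun a ha => (isUnit_map_iff (algebraMap R S) a).1 ((isUnit_map_iff (algebraMap S T) _).1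
      (IsScalarTower.algebraMap_apply R S T a ▸ ha))⟩
  have : Module.Flat R T := Module.Flat.trans R S T
  have hdimT : ringKrullDim T = D := by
    rw [dim_eq (R := S) (S := T) (hmT.symm ▸ Ideal.pow_le_self two_ne_zero), hD]
  have heT := (InfRes.isMultiplicity_iff hmT D e').1 he'
  obtain ⟨Q, r, hmin, hQr, hJr⟩ := exists_minimalPrime_dim
    (I := (maximalIdeal R).map (algebraMap R T)) (map_maximalIdeal_lt_top (algebraMap R T)).ne
  have hQp : Q.IsPrime := hmin.1.1
  obtain rfl : D = r + d := (dim_eq_add hd hdimT hJr).trans (add_comm d r)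
  have hpQ : (p : T) ∈ Q := hmin.1.2 (by
    rw [← map_natCast (algebraMap R T)]
    exact Ideal.mem_map_of_mem _ (WittMap.natCast_mem p))
  obtain ⟨eQ, heQ, hle⟩ :=
    Localisation.localisation_le p T Q hpQ hQr (dim_localization hd Q hmin) hdimT e' heT
  refine le_trans ?_ hle
  let TQ := Localization.AtPrime Q
  have : Module.Flat T TQ := IsLocalization.flat _ Q.primeCompl
  have : Module.Flat R TQ := Module.Flat.trans R T TQ
  have hnil : ∀ a ∈ maximalIdeal R, algebraMap R TQ a ∈ maximalIdeal TQ := fun a ha => by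
    rw [IsScalarTower.algebraMap_apply R T TQ, IsLocalization.AtPrime.to_map_mem_maximal_iff _ Q]
    exact hmin.1.2 (Ideal.mem_map_of_mem _ ha)
  have : IsLocalHom (algebraMap R TQ) :=
    ⟨fun a ha => by
      by_contra h
      exact (mem_maximalIdeal _).1 (hnil a ((mem_maximalIdeal a).2 h)) ha⟩
  refine lech_artinian_fibre core p R TQ ?_ d hd e eQ he heQ
  refine Ideal.exists_pow_le_of_le_radical_of_fg ?_ (IsNoetherian.noetherian _)
  rw [Ideal.radical_eq_sInf]
  refine le_sInf ?_
  rintro Q' ⟨hQ', hQp'⟩
  have hle' : Q'.comap (algebraMap T TQ) ≤ Q := fun s hs =>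
    (IsLocalization.AtPrime.to_map_mem_maximal_iff TQ Q s).1
      (IsLocalRing.le_maximalIdeal hQp'.ne_top hs)
  have hge := hmin.2 ⟨hQp'.comap _, by
    rw [Ideal.map_le_iff_le_comap, Ideal.comap_comap, ← IsScalarTower.algebraMap_eq,
      ← Ideal.map_le_iff_le_comap]
    exact hQ'⟩ hle'
  refine Localization.AtPrime.map_eq_maximalIdeal.ge.trans ?_
  exact Ideal.map_le_iff_le_comap.2 hge

end Vale.Agent.P202.Mixed2
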