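import Vale.Agent.P202.Mixed2.Main
import Vale.Agent.P202.Mixed2.Reductions

/-!
P202: Lech's inequality for all flat local maps of Noetherian local rings.
-/

namespace Vale.Agent.P202.Mixed2

universe u

open IsLocalRing Vale.Agent.P202.Char

/-- `e(R) ≤ e(S)` for every flat local map of Noetherian local rings. -/
theorem lech_all (R S : Type u) [CommRing R] [CommRing S] [IsLocalRing R] [IsLocalRing S]
    [IsNoetherianRing R] [IsNoetherianRing S] [Algebra R S] [IsLocalHom (algebraMap R S)]
    [Module.Flat R S] {d D : ℕ} (hd : ringKrullDim R = d) (hD : ringKrullDim S = D) {e e' : ℝ}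
    (he : IsMultiplicity R d e) (he' : IsMultiplicity S D e') : e ≤ e' :=
  lech_of_core coreAll R S d D hd hD e e' he he'

end Vale.Agent.P202.Mixed2
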