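import Vale.Agent.P202.Mixed2.Scaling
import Vale.Agent.P202.Ext.Resolution
import Vale.Agent.P202.Ext.Killed
import Mathlib.RingTheory.Regular.RegularSequence

/-!
P202, mixed characteristic, main step: iterated cones (Koszul extensions) of a complex, their
homology in degree zero, minimal resolutions of modules with free syzygies and the null homotopies
of the iterated cones of a resolution.
-/

namespace Vale.Agent.P202.Mixed2.MainStep

open IsLocalRing Vale.Agent.P202.Char Vale.Agent.P202.Ext.Resolution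

universe u

variable {A : Type u} [CommRing A]

/-- The iterated cones of `P` along the elements of `l`: `P` tensor the Koszul complex of `l`. -/
noncomputable def kcx (l : List A) (P : MCx A) : MCx A := l.foldr cone P

@[simp] theorem kcx_nil (P : MCx A) : kcx [] P = P := rfl

@[simp] theorem kcx_cons (y : A) (l : List A) (P : MCx A) :
    kcx (y :: l) P = cone y (kcx l P) := rfl

theorem kcx_deg_le {P : MCx A} {h : ℕ} (hP : ∀ b, P.deg b ≤ h) :
    ∀ (l : List A) (b : (kcx l P).β), (kcx l P).deg b ≤ h + l.length := by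
  intro l
  induction l with
  | nil => exact hP
  | cons y l ih => exact fun b => cone_deg_le ih b

theorem kcx_card (P : MCx A) (l : List A) :
    Fintype.card (kcx l P).β = 2 ^ l.length * Fintype.card P.β := by
  induction l with
  | nil =>
    rw [List.length_nil, pow_zero, one_mul]
    rfl
  | cons y l ih =>
    have : Fintype.card (kcx (y :: l) P).β =
        Fintype.card (kcx l P).β + Fintype.card (kcx l P).β := Fintype.card_sum
    rw [this, ih, List.length_cons, pow_succ]
    ring

theorem cone_sum {M : Type*} [AddCommMonoid M] (y : A) (P : MCx A) (f : ℕ → M) :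
    ∑ b, f ((cone y P).deg b) = ∑ b, f (P.deg b) + ∑ b, f (P.deg b + 1) :=
  Fintype.sum_sum_type (α₁ := P.β) (α₂ := P.β) _

theorem kcx_rank_zero (P : MCx A) (l : List A) : (kcx l P).rank 0 = P.rank 0 := by
  induction l with
  | nil => rfl
  | cons y l ih =>
    simp only [MCx.rank, Finset.card_filter] at ih ⊢
    rw [show ∑ b, (if (kcx (y :: l) P).deg b = 0 then 1 else 0) = _ from
      cone_sum y (kcx l P) fun d => if d = 0 then 1 else 0]
    simpa using ih

theorem kcx_alt_zero (P : MCx A) {l : List A} (hl : l ≠ []) :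
    ∑ b, (-1 : ℤ) ^ (kcx l P).deg b = 0 := by
  cases l with
  | nil => exact absurd rfl hl
  | cons y l =>
    rw [show ∑ b, (-1 : ℤ) ^ (kcx (y :: l) P).deg b = _ from
      cone_sum y (kcx l P) fun d => (-1 : ℤ) ^ d]
    simp [pow_succ, Finset.sum_neg_distrib]

theorem kcx_entries {P : MCx A} {I : Ideal A} (hP : P.EntriesIn I) :
    ∀ (l : List A), (∀ y ∈ l, y ∈ I) → (kcx l P).EntriesIn I := by
  intro l
  induction l with
  | nil => exact fun _ => hP
  | cons y l ih =>
    intro hl
    have hQ := ih fun z hz => hl z (List.mem_cons_of_mem _ hz)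
    have hy := hl y List.mem_cons_self
    rintro (a | a) (b | b)
    · exact hQ a b
    · exact I.mul_mem_right _ hy
    · exact I.zero_mem
    · exact neg_mem (hQ a b)

/-! ### Null homotopies -/

theorem cone_null (y : A) {P : MCx A} {r : A} (hr : P.IsNullHtpic r) :
    (cone y P).IsNullHtpic r := by
  obtain ⟨η, hη, e⟩ := hr
  refine ⟨Matrix.fromBlocks η 0 0 (-η), ?_, ?_⟩
  · rintro (a | a) (b | b) h
    · exact hη a b h
    · simp at h
    · simp at h
    · exact congrArg (· + 1) (hη a b fun h0 => h (by simp [h0]))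
  · change Matrix.fromBlocks P.D (y • (1 : Matrix P.β P.β A)) 0 (-P.D) *
        Matrix.fromBlocks η 0 0 (-η) + Matrix.fromBlocks η 0 0 (-η) *
        Matrix.fromBlocks P.D (y • (1 : Matrix P.β P.β A)) 0 (-P.D) =
      r • (1 : Matrix (P.β ⊕ P.β) (P.β ⊕ P.β) A)
    simp only [Matrix.fromBlocks_multiply, Matrix.fromBlocks_add, Matrix.mul_zero, Matrix.zero_mul,
      add_zero, zero_add, neg_mul_neg, Matrix.mul_smul, Matrix.smul_mul, Matrix.one_mul,
      Matrix.mul_one, Matrix.mul_neg, e]
    rw [← Matrix.fromBlocks_one, Matrix.fromBlocks_smul, smul_zero]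
    simp
    exact e

theorem cone_null_self (y : A) (P : MCx A) : (cone y P).IsNullHtpic y := by
  refine ⟨Matrix.fromBlocks 0 0 (1 : Matrix P.β P.β A) 0, ?_, ?_⟩
  · rintro (a | a) (b | b) h
    · simp at h
    · simp at h
    · have : a = b := by
        by_contra hab
        simp [hab] at h
      subst this
      rfl
    · simp at h
  · change Matrix.fromBlocks P.D (y • (1 : Matrix P.β P.β A)) 0 (-P.D) *
        Matrix.fromBlocks 0 0 (1 : Matrix P.β P.β A) 0 +
        Matrix.fromBlocks 0 0 (1 : Matrix P.β P.β A) 0 *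
        Matrix.fromBlocks P.D (y • (1 : Matrix P.β P.β A)) 0 (-P.D) =
      y • (1 : Matrix (P.β ⊕ P.β) (P.β ⊕ P.β) A)
    rw [← Matrix.fromBlocks_one, Matrix.fromBlocks_smul]
    refine Eq.trans (congrArg₂ (· + ·) (Matrix.fromBlocks_multiply _ _ _ _ _ _ _ _)
      (Matrix.fromBlocks_multiply _ _ _ _ _ _ _ _)) ?_
    refine (Matrix.fromBlocks_add _ _ _ _ _ _ _ _).trans ?_
    simp

/-- The elements acting null-homotopically. -/
noncomputable def nullIdeal (P : MCx A) : Ideal A where
  carrier := {r | P.IsNullHtpic r}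
  add_mem' := Ext.null_add P
  zero_mem' := Ext.null_zero P
  smul_mem' c _ h := Ext.null_mul P c h

theorem le_nullIdeal_kcx {P : MCx A} {I : Ideal A} (hI : ∀ r ∈ I, P.IsNullHtpic r) :
    ∀ l : List A, I ⊔ Ideal.ofList l ≤ nullIdeal (kcx l P) := by
  intro l
  induction l with
  | nil => rw [Ideal.ofList_nil, sup_bot_eq]; exact hI
  | cons y l ih =>
    rw [Ideal.ofList_cons, sup_left_comm]
    refine sup_le ?_ fun r hr => cone_null y (ih hr)
    rw [Ideal.span_singleton_le_iff_mem]
    exact cone_null_self y _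

/-! ### Homology in degree zero -/

theorem mem_deg0 {P : MCx A} {x : P.β → A} : x ∈ Deg0 P ↔ Sup P 0 x := sup_mem

/-- The degree zero tuples of the cone are those of the complex. -/
noncomputable def coneDeg0 (y : A) (P : MCx A) : Deg0 (cone y P) ≃ₗ[A] Deg0 P where
  toFun v := ⟨fun b => v.1 (Sum.inl b),
    (MCx.mem_degSub A).2 fun b hb => (MCx.mem_degSub A).1 v.2 (Sum.inl b) hb⟩
  map_add' _ _ := rfl
  map_smul' _ _ := rfl
  invFun u := ⟨Sum.elim u.1 0, (MCx.mem_degSub A).2 fun b hb => by
    rcases b with b | b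
    · exact (MCx.mem_degSub A).1 u.2 b hb
    · rfl⟩
  left_inv v := by
    refine Subtype.ext (funext fun b => ?_)
    rcases b with b | b
    · rfl
    · exact ((MCx.mem_degSub A).1 v.2 (Sum.inr b)
        (by show ((P.deg b + 1 : ℕ) : ℤ) ≠ 0; omega)).symm
  right_inv _ := rfl

theorem map_img0_cone (y : A) (P : MCx A) :
    (img0 (cone y P)).map (coneDeg0 y P).toLinearMap =
      img0 P ⊔ Ideal.span {y} • (⊤ : Submodule A (Deg0 P)) := by
  rw [Submodule.ideal_span_singleton_smul]
  ext u
  constructor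
  · rintro ⟨v, hv, rfl⟩
    obtain ⟨x, hx, hxe⟩ := mem_img0.1 hv
    rw [MCx.mem_degSub] at hx
    let w : Deg0 P := ⟨fun b => x (Sum.inr b), (MCx.mem_degSub A).2 fun b hb =>
      hx (Sum.inr b) (by show ((P.deg b + 1 : ℕ) : ℤ) ≠ 1; omega)⟩
    have hx1 : (fun b => x (Sum.inl b)) ∈ P.degSub A 1 :=
      (MCx.mem_degSub A).2 fun b hb => hx (Sum.inl b) hb
    have hD : mlin A P.D (fun b => x (Sum.inl b)) ∈ Deg0 P :=
      (MCx.mlin_deg A P.D (-1) 1 (fun a b hab => by have := P.homog a b hab; omega) hx1 :)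
    refine Submodule.mem_sup.2 ⟨⟨_, hD⟩, mem_img0.2 ⟨_, hx1, rfl⟩, y • w,
      Submodule.smul_mem_pointwise_smul w y ⊤ trivial, Subtype.ext (funext fun a => ?_)⟩
    have h := congrFun hxe (Sum.inl a)
    rw [(cone_apply y P x a).1] at h
    exact h
  · intro hu
    obtain ⟨u₁, h₁, u₂, h₂, rfl⟩ := Submodule.mem_sup.1 hu
    obtain ⟨x, hx, hxe⟩ := mem_img0.1 h₁
    obtain ⟨w, -, rfl⟩ := (Submodule.mem_smul_pointwise_iff_exists _ _ _).1 h₂
    refine ⟨(coneDeg0 y P).symm (u₁ + y • w), mem_img0.2 ⟨Sum.elim x w.1,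
      (MCx.mem_degSub A).2 fun b hb => ?_, funext fun b => ?_⟩, (coneDeg0 y P).apply_symm_apply _⟩
    · rcases b with b | b
      · exact (MCx.mem_degSub A).1 hx b hb
      · exact (MCx.mem_degSub A).1 w.2 b fun h => hb (by
          show ((P.deg b + 1 : ℕ) : ℤ) = 1; omega)
    · rcases b with b | b
      · refine (cone_apply y P _ b).1.trans ?_
        exact congrArg (· + y * w.1 b) (congrFun hxe b)
      · refine (cone_apply y P _ b).2.trans ?_
        simp only [Sum.elim_inr]
        rw [dlin_deg0 P w.2]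
        exact neg_zero

theorem exists_deg0_equiv (P : MCx A) :
    ∀ l : List A, ∃ e : Deg0 (kcx l P) ≃ₗ[A] Deg0 P,
      (img0 (kcx l P)).map e.toLinearMap =
        img0 P ⊔ Ideal.ofList l • (⊤ : Submodule A (Deg0 P)) := by
  intro l
  induction l with
  | nil =>
    refine ⟨LinearEquiv.refl A _, ?_⟩
    simp only [Ideal.ofList_nil, Submodule.bot_smul, sup_bot_eq]
    exact Submodule.map_id _
  | cons y l ih =>
    obtain ⟨e, he⟩ := ih
    refine ⟨(coneDeg0 y (kcx l P)).trans e, ?_⟩
    refine (Submodule.map_comp (coneDeg0 y (kcx l P)).toLinearMap e.toLinearMap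
      (img0 (cone y (kcx l P)))).trans ?_
    refine (congrArg (Submodule.map e.toLinearMap) (map_img0_cone y (kcx l P))).trans ?_
    rw [Submodule.map_sup, he, Submodule.map_smul'', Submodule.map_top, LinearEquiv.range,
      Ideal.ofList_cons, Submodule.sup_smul]
    rw [sup_assoc, sup_comm (Ideal.ofList l • ⊤)]

/-- The homology in degree zero of the iterated cones. -/
theorem h0_kcx (l : List A) (P : MCx A) :
    Nonempty (H0 (kcx l P) ≃ₗ[A] H0 P ⧸ (Ideal.ofList l • ⊤ : Submodule A (H0 P))) := by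
  obtain ⟨e, he⟩ := exists_deg0_equiv P l
  let g : Deg0 P →ₗ[A] H0 P ⧸ (Ideal.ofList l • ⊤ : Submodule A (H0 P)) :=
    (Ideal.ofList l • ⊤ : Submodule A (H0 P)).mkQ ∘ₗ (img0 P).mkQ
  have hg : Function.Surjective g :=
    (Submodule.mkQ_surjective _).comp (Submodule.mkQ_surjective _)
  have hker : LinearMap.ker g = img0 P ⊔ Ideal.ofList l • (⊤ : Submodule A (Deg0 P)) := by
    rw [LinearMap.ker_comp, Submodule.ker_mkQ,
      show (Ideal.ofList l • ⊤ : Submodule A (H0 P)) =
        (Ideal.ofList l • (⊤ : Submodule A (Deg0 P))).map (img0 P).mkQ by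
          rw [Submodule.map_smul'', Submodule.map_top, Submodule.range_mkQ],
      Submodule.comap_map_mkQ]
  exact ⟨(Submodule.Quotient.equiv (img0 (kcx l P))
    (img0 P ⊔ Ideal.ofList l • (⊤ : Submodule A (Deg0 P))) e he).trans
    ((Submodule.quotEquivOfEq _ _ hker.symm).trans (g.quotKerEquivOfSurjective hg))⟩

section Res

variable {P : MCx A} {M : Type u} [AddCommGroup M] [Module A M] {ε : (P.β → A) →ₗ[A] M}

/-- The homology in degree zero of a resolution. -/
theorem h0_res (hP : IsRes P ε) : Nonempty (H0 P ≃ₗ[A] M) := by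
  let g : Deg0 P →ₗ[A] M := ε ∘ₗ (Deg0 P).subtype
  have hg : Function.Surjective g := fun m => by
    obtain ⟨x, hx, rfl⟩ := hP.surj m
    exact ⟨⟨x, mem_deg0.2 hx⟩, rfl⟩
  have hker : img0 P = LinearMap.ker g := by
    ext x
    refine ⟨fun hx => ?_, fun hx => ?_⟩
    · obtain ⟨y, -, he⟩ := mem_img0.1 hx
      exact (congrArg ε he.symm).trans (hP.aug y)
    · obtain ⟨y, hy, he⟩ := hP.exact_zero x.1 (mem_deg0.1 x.2) hx
      exact mem_img0.2 ⟨y, by simpa using sup_mem.2 hy, he⟩
  exact ⟨(Submodule.quotEquivOfEq _ _ hker).trans (g.quotKerEquivOfSurjective hg)⟩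

/-- The homology in degree zero of the iterated cones of a resolution. -/
theorem h0_kcx_res (hP : IsRes P ε) (l : List A) :
    Nonempty (H0 (kcx l P) ≃ₗ[A] M ⧸ (Ideal.ofList l • ⊤ : Submodule A M)) := by
  obtain ⟨e⟩ := h0_kcx l P
  obtain ⟨e₀⟩ := h0_res hP
  exact ⟨e.trans (Submodule.Quotient.equiv _ _ e₀ (by
    rw [Submodule.map_smul'', Submodule.map_top, LinearEquiv.range]))⟩

theorem rank_zero_pos (hP : IsRes P ε) [Nontrivial M] : 0 < P.rank 0 := by
  obtain ⟨m, hm⟩ := exists_ne (0 : M)
  obtain ⟨x, hx, rfl⟩ := hP.surj m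
  by_contra h0
  refine hm ?_
  rw [show x = 0 from funext fun b => hx b fun hb => h0 (Finset.card_pos.2 ⟨b, by simp [hb]⟩),
    map_zero]

end Res

/-! ### Minimal resolutions -/

section Local

variable {R : Type u} [CommRing R] [IsLocalRing R]

theorem exists_minimal_cover (M : Type u) [AddCommGroup M] [Module R M] [Module.Finite R M] :
    ∃ (r : ℕ) (f : (Fin r → R) →ₗ[R] M), Function.Surjective f ∧
      ∀ x, f x = 0 → ∀ i, x i ∈ maximalIdeal R := by
  classical
  have hex : ∃ r : ℕ, ∃ f : (Fin r → R) →ₗ[R] M, Function.Surjective f :=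
    Module.Finite.exists_fin' R M
  obtain ⟨f, hf⟩ := Nat.find_spec hex
  refine ⟨_, f, hf, fun x hx i => ?_⟩
  by_contra hxi
  obtain ⟨u, hu⟩ : IsUnit (x i) := by simpa using hxi
  obtain ⟨k, hk⟩ := Nat.exists_eq_add_one_of_ne_zero (fun h : Nat.find hex = 0 =>
    (Fin.cast h i).elim0)
  revert f x i
  rw [hk]
  intro f hf x hx i hxi hu
  let ins : (Fin k → R) →ₗ[R] (Fin (k + 1) → R) :=
    { toFun := fun v => Fin.insertNth i 0 v
      map_add' := fun v w => by
        refine funext fun j => ?_
        rcases Fin.eq_self_or_eq_succAbove i j with rfl | ⟨j, rfl⟩ <;> simp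
      map_smul' := fun c v => by
        refine funext fun j => ?_
        rcases Fin.eq_self_or_eq_succAbove i j with rfl | ⟨j, rfl⟩ <;> simp }
  have hsurj : Function.Surjective (f ∘ₗ ins) := fun m => by
    obtain ⟨v, rfl⟩ := hf m
    set w := v - (v i * ↑u⁻¹) • x with hw
    have hwi : w i = 0 := by simp [hw, ← hu, mul_assoc]
    refine ⟨fun j => w (i.succAbove j), ?_⟩
    have : ins (fun j => w (i.succAbove j)) = w := funext fun j => by
      rcases Fin.eq_self_or_eq_succAbove i j with rfl | ⟨j, rfl⟩ <;> simp [ins, hwi]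
    rw [LinearMap.comp_apply, this, hw, map_sub, map_smul, hx, smul_zero, sub_zero]
  exact Nat.find_min hex (by omega : k < Nat.find hex) ⟨_, hsurj⟩

/-- A minimal resolution of length `s`. -/
theorem exists_res [IsNoetherianRing R] : ∀ (s : ℕ) (M : Type u) [AddCommGroup M] [Module R M]
    [Module.Finite R M], Ext.SyzFree R s M →
      ∃ (P : MCx R) (ε : (P.β → R) →ₗ[R] M),
        (∀ b, P.deg b ≤ s) ∧ P.EntriesIn (maximalIdeal R) ∧ IsRes P ε := by
  intro s
  induction s with
  | zero =>
    intro M _ _ _ hfree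
    have : Module.Free R M := hfree
    let e := (Module.finBasis R M).equivFun.symm
    let P : MCx R :=
      { β := Fin (Module.finrank R M)
        deg := fun _ => 0
        D := 0
        sq := Matrix.mul_zero _
        homog := fun a b h => absurd rfl h }
    refine ⟨P, e.toLinearMap, fun b => le_rfl, fun a b => zero_mem _, ⟨fun b hb => absurd rfl hb,
      fun x => ?_, fun m => ⟨e.symm m, fun b hb => absurd rfl hb, e.apply_symm_apply m⟩,
      fun x _ hx => ⟨0, fun _ _ => rfl, ?_⟩, fun i x hx _ => ⟨0, fun _ _ => rfl, ?_⟩⟩⟩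
    · change e (mlin R (0 : Matrix P.β P.β R) x) = 0
      rw [show mlin R (0 : Matrix P.β P.β R) x = 0 from funext fun a => by simp [mlin_apply],
        map_zero]
    · rw [map_zero]
      exact (e.map_eq_zero_iff.1 hx).symm
    · rw [map_zero]
      exact funext fun b => (hx b (show 0 ≠ i + 1 by omega)).symm
  | succ s ih =>
    intro M _ _ _ hfree
    obtain ⟨r, f, hf, hmin⟩ := exists_minimal_cover (R := R) M
    obtain ⟨Q, ε, hdeg, hent, hQ⟩ := ih (LinearMap.ker f) (hfree r f hf)
    let E : Matrix (Fin r) Q.β R := fun i b => (ε (Pi.single b 1)).1 i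
    have hE : ∀ y, mlin R E y = (ε y).1 := fun y => funext fun i => by
      conv_rhs => rw [pi_eq_sum_univ' y, map_sum]
      rw [mlin_apply]
      simp [E, mul_comm]
    have hED : E * Q.D = 0 := by
      refine Matrix.ext fun i c => ?_
      have h1 := congrFun (hE (mlin R Q.D (Pi.single c 1))) i
      rw [hQ.aug, ← mlin_mul] at h1
      simpa [mlin_apply, Pi.single_apply] using h1
    let P : MCx R :=
      { β := Fin r ⊕ Q.β
        deg := Sum.elim (fun _ => 0) fun b => Q.deg b + 1
        D := Matrix.fromBlocks 0 E 0 Q.D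
        sq := by simp [Matrix.fromBlocks_multiply, hED, Q.sq]
        homog := by
          rintro (i | a) (l | b) h
          · exact absurd rfl h
          · by_contra hne
            refine h ?_
            change (ε (Pi.single b 1)).1 i = 0
            rw [hQ.supp b fun h0 => hne (by simp [h0])]
            rfl
          · exact absurd rfl h
          · exact congrArg (· + 1) (Q.homog a b h) }
    have hDl : ∀ (x : P.β → R) i, mlin R P.D x (.inl i) = (ε (x ∘ Sum.inr)).1 i := fun x i => by
      rw [← hE, mlin_apply, mlin_apply]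
      simp [P, Fintype.sum_sum_type]
    have hDr : ∀ (x : P.β → R) a,
        mlin R P.D x (.inr a) = mlin R Q.D (x ∘ Sum.inr) a := fun x a => by
      rw [mlin_apply, mlin_apply]
      simp [P, Fintype.sum_sum_type]
    have hup : ∀ {n y}, Sup Q n y → Sup P (n + 1) (Sum.elim 0 y) := fun {n y} hy b hb => by
      rcases b with i | b
      · rfl
      · exact hy b fun h => hb (by simp [P, h])
    refine ⟨P, f ∘ₗ LinearMap.funLeft R R Sum.inl, ?_, ?_, ⟨?_, ?_, ?_, ?_, ?_⟩⟩
    · rintro (i | b)
      · exact Nat.zero_le _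
      · exact Nat.succ_le_succ (hdeg b)
    · rintro (i | a) (l | b)
      · exact zero_mem _
      · exact hmin _ (ε (Pi.single b 1)).2 i
      · exact zero_mem _
      · exact hent a b
    · rintro (i | b) hb
      · exact absurd rfl hb
      · rw [LinearMap.comp_apply, show LinearMap.funLeft R R Sum.inl
          (Pi.single (Sum.inr b : P.β) (1 : R)) = 0 from funext fun i => by
            change Pi.single (M := fun _ : P.β => R) (Sum.inr b : P.β) 1 (Sum.inl i) = 0
            exact Pi.single_eq_of_ne (fun h => Sum.inl_ne_inr h) _, map_zero]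
    · intro x
      rw [LinearMap.comp_apply, show LinearMap.funLeft R R Sum.inl (mlin R P.D x) =
        (ε (x ∘ Sum.inr)).1 from funext (hDl x)]
      exact (ε (x ∘ Sum.inr)).2
    · intro m
      obtain ⟨v, rfl⟩ := hf m
      refine ⟨Sum.elim v 0, ?_, rfl⟩
      rintro (i | b) hb
      · exact absurd rfl hb
      · rfl
    · intro x hx h0
      obtain ⟨y, hy, hy'⟩ := hQ.surj ⟨x ∘ Sum.inl, h0⟩
      refine ⟨Sum.elim 0 y, hup hy, funext ?_⟩
      rintro (i | a)
      · rw [hDl, Sum.elim_comp_inr, hy']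
        rfl
      · rw [hDr, Sum.elim_comp_inr, D_sup_zero hy, hx (.inr a) (Nat.succ_ne_zero _)]
        rfl
    · intro i x hx h0
      have hl : ∀ l, x (.inl l) = 0 := fun l => hx _ (Nat.succ_ne_zero i).symm
      have hxr : Sup Q i (x ∘ Sum.inr) := fun b hb => hx _ fun h => hb (Nat.succ_injective h)
      obtain ⟨y, hy, hy'⟩ : ∃ y, Sup Q (i + 1) y ∧ mlin R Q.D y = x ∘ Sum.inr := by
        rcases i with _ | i
        · exact hQ.exact_zero _ hxr (Subtype.ext (funext fun l =>
            (hDl x l).symm.trans (congrFun h0 _)))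
        · exact hQ.exact_pos i _ hxr (funext fun a => (hDr x a).symm.trans (congrFun h0 _))
      refine ⟨Sum.elim 0 y, hup hy, funext ?_⟩
      rintro (l | a)
      · rw [hDl, Sum.elim_comp_inr, hl]
        have h1 : ε y = 0 := by
          rw [pi_eq_sum_univ' y, map_sum]
          refine Finset.sum_eq_zero fun b _ => ?_
          by_cases hb : Q.deg b = i + 1
          · rw [map_smul, hQ.supp b (by omega), smul_zero]
          · rw [hy b hb, zero_smul, map_zero]
        rw [h1]
        rfl
      · rw [hDr, Sum.elim_comp_inr, hy']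
        rfl

/-- If a power of the maximal ideal sends the module into `J M` and `J` lies in the radical of
the ideal of `l`, powers of the elements of the maximal ideal act null-homotopically on the cones
of a resolution along `l`. -/
theorem kcx_null_list {P : MCx R} {M : Type u} [AddCommGroup M] [Module R M] [Module.Finite R M]
    {ε : (P.β → R) →ₗ[R] M} (hP : IsRes P ε) (J : Ideal R) {c : ℕ}
    (hc : (maximalIdeal R ^ c • ⊤ : Submodule R M) ≤ J • ⊤) (l : List R)
    (hl : J ≤ (Ideal.ofList l).radical)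
    {κ : Type*} [Fintype κ] (z : κ → R) (hz : ∀ i, z i ∈ maximalIdeal R) :
    ∃ N : ℕ, ∀ i, (kcx l P).IsNullHtpic (z i ^ N) := by
  set I := Module.annihilator R M ⊔ Ideal.ofList l
  have hJ : J ≤ I.radical := hl.trans (Ideal.radical_mono le_sup_right)
  have hrad : ∀ r ∈ maximalIdeal R, r ∈ I.radical := by
    intro r hr
    set f : Module.End R M := algebraMap R (Module.End R M) (r ^ c)
    obtain ⟨p, hp, -, hcoeff, hp0⟩ :=
      LinearMap.exists_monic_and_natDegree_eq_and_coeff_mem_pow_and_aeval_eq_zero R f J (by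
        rintro _ ⟨v, rfl⟩
        exact hc (Submodule.smul_mem_smul (Ideal.pow_mem_pow hr c) trivial))
    have hann : p.eval (r ^ c) ∈ Module.annihilator R M := Module.mem_annihilator.2 fun v => by
      have := LinearMap.congr_fun hp0 v
      rwa [Polynomial.aeval_algebraMap_apply_eq_algebraMap_eval] at this
    have hpow : (r ^ c) ^ p.natDegree ∈ I.radical := by
      have he := Polynomial.eval_eq_sum_range (p := p) (r ^ c)
      rw [Finset.sum_range_succ, hp.coeff_natDegree, one_mul] at he
      rw [show (r ^ c) ^ p.natDegree = p.eval (r ^ c) -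
        ∑ i ∈ Finset.range p.natDegree, p.coeff i * (r ^ c) ^ i by rw [he]; ring]
      refine sub_mem (Ideal.le_radical (Ideal.mem_sup_left hann)) (sum_mem fun i hi => ?_)
      exact Ideal.mul_mem_right _ _
        (hJ (Ideal.pow_le_self (by have := Finset.mem_range.1 hi; omega) (hcoeff i)))
    rw [← pow_mul] at hpow
    exact Ideal.radical_idem I ▸ ⟨_, hpow⟩
  choose N hN using fun i => hrad (z i) (hz i)
  refine ⟨∑ i, N i, fun i => le_nullIdeal_kcx
    (fun r hr => hP.null fun v => Module.mem_annihilator.1 hr v) _ ?_⟩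
  exact Ideal.pow_mem_of_pow_mem _ (hN i) (Finset.single_le_sum (fun _ _ => Nat.zero_le _)
    (Finset.mem_univ i))

/-- The null homotopies on the cones along powers of a tuple. -/
theorem kcx_null {P : MCx R} {M : Type u} [AddCommGroup M] [Module R M] [Module.Finite R M]
    {ε : (P.β → R) →ₗ[R] M} (hP : IsRes P ε) {m : ℕ} (x : Fin m → R) (a : Fin m → ℕ) {c : ℕ}
    (hc : (maximalIdeal R ^ c • ⊤ : Submodule R M) ≤ Ideal.span (Set.range x) • ⊤)
    {κ : Type*} [Fintype κ] (z : κ → R) (hz : ∀ i, z i ∈ maximalIdeal R) :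
    ∃ N : ℕ, ∀ i, (kcx (List.ofFn fun j => x j ^ a j) P).IsNullHtpic (z i ^ N) := by
  refine kcx_null_list hP _ hc _ ?_ z hz
  rw [Ideal.span_le]
  rintro _ ⟨j, rfl⟩
  exact ⟨a j, Ideal.subset_span (List.mem_ofFn.2 ⟨j, rfl⟩)⟩

end Local

end Vale.Agent.P202.Mixed2.MainStep
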