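import Vale.Agent.P202.Mixed2.WinSections

/-!
P202, mixed characteristic: the resolution of the sections is split in every degree, hence exact
after every change of the base.
-/

namespace Vale.Agent.P202.Mixed2

open MvPolynomial Vale.Agent.P202.Char

universe u v

variable {Z : Type u} [CommRing Z] {n : ℕ} {β : Type} [IsDomain Z] [IsPrincipalIdealRing Z]

section
omit [IsDomain Z] [IsPrincipalIdealRing Z]

variable {A : Type v} [CommRing A]

theorem augLin_dlin (G : MCx (MvPolynomial (Fin (n + 1)) Z)) (lam : Fin (n + 1) → Z)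
    (aug : G.β → Lau Z n) (h : ∀ b, ∑ c, rho lam (G.D c b) * aug c = 0)
    (y : G.β → MvPolynomial (Fin (n + 1)) Z) :
    augLin lam aug (G.dlin (MvPolynomial (Fin (n + 1)) Z) y) = 0 := by
  simp only [augLin_apply, MCx.dlin, LinearMap.pi_apply, LinearMap.coe_sum, Finset.sum_apply,
    LinearMap.smul_apply, LinearMap.proj_apply, smul_eq_mul, map_sum, map_mul, Finset.sum_mul]
  rw [Finset.sum_comm]
  refine Finset.sum_eq_zero fun b _ => ?_
  simp only [mul_comm (rho lam (G.D _ b)) (rho lam (y b)), mul_assoc]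
  rw [← Finset.mul_sum, h b, mul_zero]

/-- Tuples of degree `N` as a submodule. -/
noncomputable def homSub (A : Type v) [CommRing A] (n : ℕ) (sg : β → ℕ) (N : ℕ) :
    Submodule A (β → MvPolynomial (Fin (n + 1)) A) :=
  LinearMap.range (hc sg N)

theorem mem_homSub {sg : β → ℕ} {N : ℕ} {x : β → MvPolynomial (Fin (n + 1)) A} :
    x ∈ homSub A n sg N ↔ Hom sg N x :=
  ⟨fun ⟨_, hy⟩ => hy ▸ hom_hc _ _ _, fun h => ⟨x, hc_eq_self h⟩⟩

/-- Indices of the monomials of degree `N`. -/
noncomputable def idx [Fintype β] (n : ℕ) (sg : β → ℕ) (N : ℕ) :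
    Finset (Σ _ : β, Fin (n + 1) →₀ ℕ) :=
  Finset.univ.sigma fun b =>
    if sg b ≤ N then Finset.finsuppAntidiag Finset.univ (N - sg b) else ∅

/-- A monomial tuple. -/
noncomputable def eT (A : Type v) [CommRing A] [DecidableEq β]
    (t : Σ _ : β, Fin (n + 1) →₀ ℕ) : β → MvPolynomial (Fin (n + 1)) A :=
  Pi.single t.1 (monomial t.2 1)

theorem sum_eT [Fintype β] [DecidableEq β] {sg : β → ℕ} {N : ℕ}
    {x : β → MvPolynomial (Fin (n + 1)) A} (hx : Hom sg N x) :
    ∑ t ∈ idx n sg N, coeff t.2 (x t.1) • eT A t = x := by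
  classical
  funext b
  simp only [idx, Finset.sum_sigma, Finset.sum_apply, Pi.smul_apply, eT]
  rw [Finset.sum_eq_single b (fun b' _ hb' => Finset.sum_eq_zero fun γ _ => by simp [hb'.symm])
    (fun h => absurd (Finset.mem_univ b) h)]
  simp only [Pi.single_eq_same, smul_monomial, smul_eq_mul, mul_one]
  by_cases hb : sg b ≤ N
  · rw [if_pos hb]
    conv_rhs => rw [(x b).as_sum]
    refine (Finset.sum_subset (fun γ hγ => ?_) fun γ _ hγ => ?_).symm
    · rw [Finset.mem_finsuppAntidiag]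
      refine ⟨?_, Finset.subset_univ _⟩
      have h1 := (hx b).1 (mem_support_iff.1 hγ)
      rw [Finsupp.weight_apply, Finsupp.sum_fintype _ _ fun _ => by simp] at h1
      simpa using h1
    · rw [notMem_support_iff.1 hγ, monomial_zero]
  · rw [if_neg hb, Finset.sum_empty, (hx b).2 (not_le.1 hb)]

theorem eT_mem [Fintype β] [DecidableEq β] {sg : β → ℕ} {N : ℕ}
    {t : Σ _ : β, Fin (n + 1) →₀ ℕ} (ht : t ∈ idx n sg N) : Hom sg N (eT A t) := by
  classical
  obtain ⟨b, γ⟩ := t
  obtain ⟨-, hγ⟩ := Finset.mem_sigma.1 ht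
  by_cases hb : sg b ≤ N
  · rw [if_pos hb, Finset.mem_finsuppAntidiag] at hγ
    intro b'
    by_cases h : b' = b
    · subst h
      refine ⟨?_, fun h' => absurd h' (not_lt.2 hb)⟩
      rw [eT, Pi.single_eq_same]
      refine isHomogeneous_monomial 1 ?_
      rw [Finsupp.degree_eq_sum]
      exact hγ.1
    · simp [eT, h, isHomogeneous_zero]
  · rw [if_neg hb] at hγ
    exact absurd hγ (Finset.notMem_empty _)

end

/-- Splitting of the resolution in one degree. -/
theorem exists_split (G : MCx (MvPolynomial (Fin (n + 1)) Z)) (sg : G.β → ℕ)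
    (hD : ∀ b, Hom sg (sg b) fun c => G.D c b) (lam : Fin (n + 1) → Z) (a : Fin n → ℤ)
    (aug : G.β → Lau Z n) (hdeg : ∀ b, G.deg b ≠ 0 → aug b = 0)
    (haug : ∀ b, DegP a (sg b) (aug b)) (hvD : ∀ b, ∑ c, rho lam (G.D c b) * aug c = 0)
    (hsurj : ∀ e : Expo n, InPoly a e → 0 ≤ e.2 →
      ∃ x, augLin lam aug x = AddMonoidAlgebra.single e 1)
    (hexact : ∀ x, G.dlin (MvPolynomial (Fin (n + 1)) Z) x = 0 → augLin lam aug x = 0 →
      x ∈ LinearMap.range (G.dlin (MvPolynomial (Fin (n + 1)) Z))) (N : ℕ) :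
    ∃ (h : (G.β → MvPolynomial (Fin (n + 1)) Z) →ₗ[Z] (G.β → MvPolynomial (Fin (n + 1)) Z))
      (s : Expo n → G.β → MvPolynomial (Fin (n + 1)) Z),
      (∀ x, Hom sg N (h x)) ∧
      (∀ e ∈ expN a N, Hom sg N (s e) ∧ (∀ b, G.deg b ≠ 0 → s e b = 0) ∧
        augLin lam aug (s e) = AddMonoidAlgebra.single e 1) ∧
      ∀ x, Hom sg N x → G.dlin (MvPolynomial (Fin (n + 1)) Z) (h x) +
        h (G.dlin (MvPolynomial (Fin (n + 1)) Z) x) +
        ∑ e ∈ expN a N, (augLin lam aug x).coeff e • s e = x := by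
  classical
  let Dz : (G.β → MvPolynomial (Fin (n + 1)) Z) →ₗ[Z] (G.β → MvPolynomial (Fin (n + 1)) Z) :=
    (G.dlin (MvPolynomial (Fin (n + 1)) Z)).restrictScalars Z
  let V := augLin lam aug
  have hDD : ∀ x, Dz (Dz x) = 0 := by
    intro x
    funext b
    have hsq := fun c => congrFun (congrFun G.sq b) c
    simp only [Matrix.mul_apply, Matrix.zero_apply] at hsq
    simp only [Dz, LinearMap.coe_restrictScalars, MCx.dlin, LinearMap.pi_apply, LinearMap.coe_sum,
      Finset.sum_apply, LinearMap.smul_apply, LinearMap.proj_apply, smul_eq_mul, Finset.mul_sum,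
      Pi.zero_apply]
    rw [Finset.sum_comm]
    refine Finset.sum_eq_zero fun c _ => ?_
    simp only [← mul_assoc]
    rw [← Finset.sum_mul, hsq, zero_mul]
  have hVD : ∀ x, V (Dz x) = 0 := augLin_dlin G lam aug hvD
  have hcD : ∀ x, Dz (hc sg N x) = hc sg N (Dz x) := hom_dlin G sg hD N
  -- sections of the augmentation
  have hcV : ∀ x (e : Expo n), e.2 = (N : ℤ) → (V (hc sg N x)).coeff e = (V x).coeff e := by
    intro x e he
    obtain ⟨B, hB⟩ := exists_sum_hc sg x
    conv_rhs => rw [← hB (max B (N + 1)) (le_max_left _ _)]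
    simp only [map_sum, AddMonoidAlgebra.coeff_sum, Finsupp.finsetSum_apply]
    rw [Finset.sum_eq_single N]
    · intro N' _ hN'
      by_contra h0
      have h1 := (augLin_degP lam a sg aug haug (hom_hc sg N' x) e
        (Finsupp.mem_support_iff.2 h0)).2
      exact hN' (by omega)
    · exact fun h' => absurd (Finset.mem_range.2 (by omega)) h'
  have hs : ∀ e ∈ expN a N, ∃ x, Hom sg N x ∧ (∀ b, G.deg b ≠ 0 → x b = 0) ∧
      V x = AddMonoidAlgebra.single e 1 := by
    intro e he
    obtain ⟨he1, he2⟩ := mem_expN.1 he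
    obtain ⟨x, hx⟩ := hsurj e he1 (by omega)
    refine ⟨part G.deg 0 (hc sg N x), hom_part (hom_hc sg N x) 0, fun b hb => if_neg hb, ?_⟩
    have h1 : V (part G.deg 0 (hc sg N x)) = V (hc sg N x) := by
      simp only [V, augLin_apply]
      refine Finset.sum_congr rfl fun b _ => ?_
      by_cases hb : G.deg b = 0
      · rw [part, if_pos hb]
      · rw [hdeg b hb, mul_zero, mul_zero]
    rw [h1]
    refine AddMonoidAlgebra.ext (Finsupp.ext fun f => ?_)
    by_cases hf : f.2 = (N : ℤ)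
    · rw [hcV x f hf]
      exact congrArg (fun μ : Lau Z n => μ.coeff f) hx
    · rw [Finsupp.notMem_support_iff.1 fun h =>
        hf (augLin_degP lam a sg aug haug (hom_hc sg N x) f h).2, AddMonoidAlgebra.coeff_single,
        Finsupp.single_apply, if_neg (by rintro rfl; exact hf he2)]
  choose! s hsH hs0 hsV using hs
  let sv : (G.β → MvPolynomial (Fin (n + 1)) Z) →ₗ[Z] (G.β → MvPolynomial (Fin (n + 1)) Z) :=
    ∑ e ∈ expN a N, LinearMap.toSpanSingleton Z _ (s e) ∘ₗ Finsupp.lapply e ∘ₗ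
      (AddMonoidAlgebra.coeffLinearEquiv Z).toLinearMap ∘ₗ V
  have hsv : ∀ x, sv x = ∑ e ∈ expN a N, (V x).coeff e • s e := fun x => by
    simp [sv]
  have hsvH : ∀ x, sv x ∈ homSub Z n sg N := fun x => by
    rw [hsv]
    exact sum_mem fun e he => Submodule.smul_mem _ _ (mem_homSub.2 (hsH e he))
  have hDs : ∀ x, Dz (sv x) = 0 := by
    intro x
    rw [hsv, map_sum]
    refine Finset.sum_eq_zero fun e he => ?_
    rw [map_smul]
    convert smul_zero ((V x).coeff e)
    funext c
    simp only [Dz, LinearMap.coe_restrictScalars, MCx.dlin, LinearMap.pi_apply, LinearMap.coe_sum,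
      Finset.sum_apply, LinearMap.smul_apply, LinearMap.proj_apply, smul_eq_mul, Pi.zero_apply]
    refine Finset.sum_eq_zero fun b _ => ?_
    by_cases hb : G.deg b = 0
    · by_cases hcb : G.D c b = 0
      · rw [hcb, zero_mul]
      · exact absurd (G.homog c b hcb) (by omega)
    · rw [hs0 e he b hb, mul_zero]
  have hVs : ∀ x, Hom sg N x → V (sv x) = V x := by
    intro x hx
    rw [hsv, map_sum]
    conv_rhs => rw [← (augLin_degP lam a sg aug haug hx).sum_single]
    exact Finset.sum_congr rfl fun e he => by rw [map_smul, hsV e he]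
  -- the image of the differential is free
  set F := homSub Z n sg N
  set Rg := F.map Dz
  have hFfg : F.FG := by
    have : F = Submodule.span Z (((idx n sg N).image (eT Z) : Finset _) : Set _) := by
      refine le_antisymm (fun x hx => ?_) (Submodule.span_le.2 fun y hy => ?_)
      · rw [← sum_eT (mem_homSub.1 hx)]
        exact sum_mem fun t ht => Submodule.smul_mem _ _
          (Submodule.subset_span (Finset.mem_coe.2 (Finset.mem_image_of_mem _ ht)))
      · obtain ⟨t, ht, rfl⟩ := Finset.mem_image.1 hy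
        exact mem_homSub.2 (eT_mem ht)
    rw [this]
    exact ⟨_, rfl⟩
  have : Module.Finite Z Rg := Module.Finite.iff_fg.2 (hFfg.map Dz)
  have : Module.Free Z Rg := Module.free_of_finite_type_torsion_free'
  let Dr : F →ₗ[Z] Rg :=
    (Dz ∘ₗ F.subtype).codRestrict Rg fun x => Submodule.mem_map_of_mem x.2
  have hDr : Function.Surjective Dr := by
    rintro ⟨_, x, hx, rfl⟩
    exact ⟨⟨x, hx⟩, rfl⟩
  obtain ⟨σ₀, hσ₀⟩ := Module.projective_lifting_property Dr LinearMap.id hDr
  let σ : Rg →ₗ[Z] (G.β → MvPolynomial (Fin (n + 1)) Z) :=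
    F.subtype ∘ₗ σ₀ - sv ∘ₗ F.subtype ∘ₗ σ₀
  have hσ : ∀ r : Rg, σ r ∈ F ∧ Dz (σ r) = r ∧ V (σ r) = 0 := by
    intro r
    have hr : Dz (σ₀ r : G.β → MvPolynomial (Fin (n + 1)) Z) = r :=
      congrArg Subtype.val (LinearMap.congr_fun hσ₀ r)
    refine ⟨sub_mem (σ₀ r).2 (hsvH _), ?_, ?_⟩
    · simp only [σ, LinearMap.sub_apply, LinearMap.comp_apply, Submodule.coe_subtype, map_sub, hDs,
        hr, sub_zero]
    · simp only [σ, LinearMap.sub_apply, LinearMap.comp_apply, Submodule.coe_subtype, map_sub,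
        hVs _ (mem_homSub.1 (σ₀ r).2), sub_self]
  let Ar : (G.β → MvPolynomial (Fin (n + 1)) Z) →ₗ[Z] Rg :=
    (Dz ∘ₗ hc sg N).codRestrict Rg fun x =>
      Submodule.mem_map_of_mem (mem_homSub.2 (hom_hc sg N x))
  let P₀ : (G.β → MvPolynomial (Fin (n + 1)) Z) →ₗ[Z] (G.β → MvPolynomial (Fin (n + 1)) Z) :=
    hc sg N - sv ∘ₗ hc sg N - σ ∘ₗ Ar
  have hP : ∀ x, P₀ x ∈ Rg := by
    intro x
    have hH : P₀ x ∈ F := sub_mem (sub_mem (mem_homSub.2 (hom_hc sg N x)) (hsvH _)) (hσ _).1
    obtain ⟨y, hy⟩ := hexact (P₀ x)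
      (by
        change Dz (P₀ x) = 0
        simp only [P₀, LinearMap.sub_apply, LinearMap.comp_apply, map_sub, hDs, (hσ _).2.1]
        simp [Ar])
      (by
        change V (P₀ x) = 0
        simp only [P₀, LinearMap.sub_apply, LinearMap.comp_apply, map_sub,
          hVs _ (hom_hc sg N x), (hσ _).2.2, sub_self])
    refine ⟨hc sg N y, mem_homSub.2 (hom_hc sg N y), ?_⟩
    rw [hcD]
    exact (congrArg (hc sg N) hy).trans (hc_eq_self (mem_homSub.1 hH))
  let h := σ ∘ₗ P₀.codRestrict Rg hP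
  refine ⟨h, s, fun x => mem_homSub.1 (hσ _).1, fun e he => ⟨hsH e he, hs0 e he, hsV e he⟩,
    fun x hx => ?_⟩
  have h1 : Dz (h x) = P₀ x := (hσ _).2.1
  have h2 : h (Dz x) = σ (Ar x) := by
    have hA : Ar (Dz x) = 0 := Subtype.ext (by
      change Dz (hc sg N (Dz x)) = 0
      rw [hcD, hDD, map_zero])
    have hH : hc sg N (Dz x) = Dz x := by rw [← hcD, hc_eq_self hx]
    refine congrArg σ (Subtype.ext ?_)
    change P₀ (Dz x) = Dz (hc sg N x)
    simp only [P₀, LinearMap.sub_apply, LinearMap.comp_apply, hA, map_zero, sub_zero, hH,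
      hc_eq_self hx]
    rw [hsv, hVD]
    simp
  change Dz (h x) + h (Dz x) + _ = x
  rw [h1, h2, ← hsv]
  simp only [P₀, LinearMap.sub_apply, LinearMap.comp_apply, hc_eq_self hx]
  abel

/-- The augmentation after a change of the base. -/
noncomputable def aug1 {Z1 : Type v} [CommRing Z1] [Algebra Z Z1] [Fintype β]
    (lam : Fin (n + 1) → Z) (aug : β → Lau Z n) :
    (β → MvPolynomial (Fin (n + 1)) Z1) →ₗ[Z1] Lau Z1 n :=
  augLin (fun k => algebraMap Z Z1 (lam k))
    fun b => AddMonoidAlgebra.mapRingHom (Expo n) (algebraMap Z Z1) (aug b)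

/-- A finite free graded resolution of the sections of twist `a`, exact in every degree after
every change of the base. -/
structure WinRes (lam : Fin (n + 1) → Z) (a : Fin n → ℤ) where
  G : MCx (MvPolynomial (Fin (n + 1)) Z)
  sg : G.β → ℕ
  aug : G.β → Lau Z n
  N0 : ℕ
  deg_le : ∀ b, G.deg b ≤ N0
  D_homog : ∀ b, Hom sg (sg b) fun c => G.D c b
  aug_supp : ∀ b, DegP a (sg b) (aug b)
  aug_deg : ∀ b, G.deg b ≠ 0 → aug b = 0
  aug_D : ∀ b, ∑ c, rho lam (G.D c b) * aug c = 0
  aug1_supp : ∀ (Z1 : Type v) [CommRing Z1] [Algebra Z Z1] (N : ℕ)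
    (x : G.β → MvPolynomial (Fin (n + 1)) Z1), Hom sg N x → DegP a N (aug1 lam aug x)
  surj : ∀ (Z1 : Type v) [CommRing Z1] [Algebra Z Z1] (N : ℕ) (y : Lau Z1 n), DegP a N y →
    ∃ x : G.β → MvPolynomial (Fin (n + 1)) Z1,
      Hom sg N x ∧ (∀ b, G.deg b ≠ 0 → x b = 0) ∧ aug1 lam aug x = y
  exact : ∀ (Z1 : Type v) [CommRing Z1] [Algebra Z Z1] (N k : ℕ)
    (x : G.β → MvPolynomial (Fin (n + 1)) Z1), Hom sg N x → (∀ b, G.deg b ≠ k → x b = 0) →
    (G.map (MvPolynomial.map (algebraMap Z Z1))).dlin (MvPolynomial (Fin (n + 1)) Z1) x = 0 →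
    (k = 0 → aug1 lam aug x = 0) →
    ∃ y : G.β → MvPolynomial (Fin (n + 1)) Z1,
      Hom sg N y ∧ (∀ b, G.deg b ≠ k + 1 → y b = 0) ∧
        (G.map (MvPolynomial.map (algebraMap Z Z1))).dlin (MvPolynomial (Fin (n + 1)) Z1) y = x
  euler : ∑ b, (-1 : ℤ) ^ G.deg b = (n.factorial : ℤ)

/-- Coefficientwise change of the base of tuples. -/
noncomputable def mapT (Z1 : Type v) [CommRing Z1] [Algebra Z Z1] :
    (β → MvPolynomial (Fin (n + 1)) Z) →ₗ[Z] (β → MvPolynomial (Fin (n + 1)) Z1) :=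
  (MvPolynomial.mapAlgHom (Algebra.ofId Z Z1)).toLinearMap.compLeft β

omit [IsDomain Z] [IsPrincipalIdealRing Z] in
theorem mapT_apply (Z1 : Type v) [CommRing Z1] [Algebra Z Z1]
    (x : β → MvPolynomial (Fin (n + 1)) Z) (b : β) :
    mapT Z1 x b = MvPolynomial.map (algebraMap Z Z1) (x b) := rfl

omit [IsDomain Z] [IsPrincipalIdealRing Z] in
theorem hom_mapT {sg : β → ℕ} {N : ℕ} (Z1 : Type v) [CommRing Z1] [Algebra Z Z1]
    {x : β → MvPolynomial (Fin (n + 1)) Z} (hx : Hom sg N x) : Hom sg N (mapT Z1 x) :=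
  fun b => ⟨(hx b).1.map _, fun h => by rw [mapT_apply, (hx b).2 h, map_zero]⟩

omit [IsDomain Z] [IsPrincipalIdealRing Z] in
theorem aug1_mapT [Fintype β] (Z1 : Type v) [CommRing Z1] [Algebra Z Z1] (lam : Fin (n + 1) → Z)
    (aug : β → Lau Z n) (x : β → MvPolynomial (Fin (n + 1)) Z) :
    aug1 lam aug (mapT Z1 x) =
      AddMonoidAlgebra.mapRingHom (Expo n) (algebraMap Z Z1) (augLin lam aug x) := by
  have key : ∀ p : MvPolynomial (Fin (n + 1)) Z,
      rho (fun k => algebraMap Z Z1 (lam k)) (MvPolynomial.map (algebraMap Z Z1) p) =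
        AddMonoidAlgebra.mapRingHom (Expo n) (algebraMap Z Z1) (rho lam p) := by
    intro p
    induction p using MvPolynomial.induction_on with
    | C r =>
      rw [map_C, rho, rho, aeval_C, aeval_C, AddMonoidAlgebra.coe_algebraMap,
        AddMonoidAlgebra.coe_algebraMap]
      simp
    | add p q hp hq => simp only [map_add, hp, hq]
    | mul_X p k hp =>
      rw [map_mul, map_mul, map_mul, map_mul, hp, map_X]
      congr 1
      rw [rho, rho, aeval_X, aeval_X, yImg, yImg, map_mul, map_prod]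
      simp [AddMonoidAlgebra.mapRingHom_single]
  simp only [aug1, augLin_apply, map_sum, map_mul, mapT_apply, key]

omit [IsDomain Z] [IsPrincipalIdealRing Z] in
theorem dlin_mapT (G : MCx (MvPolynomial (Fin (n + 1)) Z)) (Z1 : Type v) [CommRing Z1]
    [Algebra Z Z1] (x : G.β → MvPolynomial (Fin (n + 1)) Z) :
    ((G.map (MvPolynomial.map (algebraMap Z Z1))).dlin (MvPolynomial (Fin (n + 1)) Z1) :
      (G.β → MvPolynomial (Fin (n + 1)) Z1) →ₗ[MvPolynomial (Fin (n + 1)) Z1]
        (G.β → MvPolynomial (Fin (n + 1)) Z1)) (mapT Z1 x) =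
      mapT Z1 (G.dlin (MvPolynomial (Fin (n + 1)) Z) x) := by
  refine funext fun (c : G.β) => ?_
  change (∑ b : G.β, MvPolynomial.map (algebraMap Z Z1) (G.D c b) •
    (LinearMap.proj b : (G.β → MvPolynomial (Fin (n + 1)) Z1)
      →ₗ[MvPolynomial (Fin (n + 1)) Z1] MvPolynomial (Fin (n + 1)) Z1)) (mapT Z1 x) = _
  simp [MCx.dlin, mapT_apply, map_sum]

theorem exists_winRes (lam : Fin (n + 1) → Z) (hlam : Sep lam) (a : Fin n → ℤ)
    (ha : ∀ j, 0 ≤ a j) : Nonempty (WinRes.{u, v} lam a) := by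
  classical
  obtain ⟨G, sg, aug, hdeg, haug, hD, hvD, hsurj, hexact, heuler⟩ :=
    exists_res_sections lam hlam a ha
  have hsupp : ∀ (Z1 : Type v) [CommRing Z1] [Algebra Z Z1] (b : G.β),
      DegP a (sg b) (AddMonoidAlgebra.mapRingHom (Expo n) (algebraMap Z Z1) (aug b)) := by
    intro Z1 _ _ b e he
    refine haug b e (Finsupp.mem_support_iff.2 fun h0 => Finsupp.mem_support_iff.1 he ?_)
    rw [AddMonoidAlgebra.coeff_mapRingHom, h0, map_zero]
  choose h s hhH hs hsplit using exists_split G sg hD lam a aug hdeg haug hvD hsurj hexact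
  refine ⟨{
    G := G, sg := sg, aug := aug
    N0 := Finset.univ.sup G.deg
    deg_le := fun b => Finset.le_sup (Finset.mem_univ b)
    D_homog := hD
    aug_supp := haug
    aug_deg := hdeg
    aug_D := hvD
    aug1_supp := fun Z1 _ _ N x hx => augLin_degP _ a sg _ (hsupp Z1) hx
    surj := ?_
    exact := ?_
    euler := heuler }⟩
  · intro Z1 _ _ N y hy
    refine ⟨∑ e ∈ expN a N, y.coeff e • mapT Z1 (s N e), mem_homSub.1 (sum_mem fun e he =>
      Submodule.smul_mem _ _ (mem_homSub.2 (hom_mapT Z1 (hs N e he).1))), fun b hb => ?_, ?_⟩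
    · rw [Finset.sum_apply]
      refine Finset.sum_eq_zero fun e he => ?_
      rw [Pi.smul_apply, mapT_apply, (hs N e he).2.1 b hb, map_zero, smul_zero]
    · rw [map_sum]
      conv_rhs => rw [← hy.sum_single]
      refine Finset.sum_congr rfl fun e he => ?_
      rw [map_smul, aug1_mapT, (hs N e he).2.2, AddMonoidAlgebra.mapRingHom_single, map_one]
  · intro Z1 _ _ N k x hx hxk hDx hk
    let D1 : (G.β → MvPolynomial (Fin (n + 1)) Z1) →ₗ[MvPolynomial (Fin (n + 1)) Z1]
        (G.β → MvPolynomial (Fin (n + 1)) Z1) :=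
      (G.map (MvPolynomial.map (algebraMap Z Z1))).dlin (MvPolynomial (Fin (n + 1)) Z1)
    have haug0 : aug1 lam aug x = 0 := by
      rcases Nat.eq_zero_or_pos k with rfl | hk0
      · exact hk rfl
      · rw [aug1, augLin_apply]
        refine Finset.sum_eq_zero fun b _ => ?_
        by_cases hb : G.deg b = k
        · rw [hdeg b (by omega), map_zero, mul_zero]
        · rw [hxk b hb, map_zero, zero_mul]
    -- the linear extension of the homotopy
    let E : (G.β → MvPolynomial (Fin (n + 1)) Z1) →ₗ[Z1] (G.β → MvPolynomial (Fin (n + 1)) Z1) :=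
      ∑ t ∈ idx n sg N, LinearMap.toSpanSingleton Z1 _ (mapT Z1 (h N (eT Z t))) ∘ₗ
        lcoeff Z1 t.2 ∘ₗ LinearMap.proj t.1
    have hE : ∀ z, E z = ∑ t ∈ idx n sg N, coeff t.2 (z t.1) • mapT Z1 (h N (eT Z t)) := fun z => by
      simp [E]
    have hEmap : ∀ z, Hom sg N z → E (mapT Z1 z) = mapT Z1 (h N z) := by
      intro z hz
      conv_rhs => rw [← sum_eT hz]
      simp only [hE, map_sum, map_smul, mapT_apply, coeff_map, algebraMap_smul]
    have hmapT : ∀ t : Σ _ : G.β, Fin (n + 1) →₀ ℕ, mapT Z1 (eT Z t) = eT Z1 t := fun t => by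
      funext b
      by_cases hb : b = t.1
      · subst hb
        simp [mapT_apply, eT]
      · simp [mapT_apply, eT, hb]
    have hEH : ∀ z, Hom sg N (E z) := fun z => mem_homSub.1 (by
      rw [hE]
      exact sum_mem fun t _ => Submodule.smul_mem _ _ (mem_homSub.2 (hom_mapT Z1 (hhH N _))))
    let D1z := D1.restrictScalars Z1
    have hD1 : ∀ z, D1z (mapT Z1 z) = mapT Z1 (G.dlin (MvPolynomial (Fin (n + 1)) Z) z) :=
      fun z => dlin_mapT G Z1 z
    have hx1 : x = ∑ t ∈ idx n sg N, coeff t.2 (x t.1) • mapT Z1 (eT Z t) := by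
      conv_lhs => rw [← sum_eT hx]
      simp only [hmapT]
    have hD1y : D1z (E x) = x := by
      have h1 : D1z (E x) + (∑ t ∈ idx n sg N,
          coeff t.2 (x t.1) • E (D1z (mapT Z1 (eT Z t)))) +
          (∑ t ∈ idx n sg N, coeff t.2 (x t.1) • ∑ e ∈ expN a N,
            (aug1 lam aug (mapT Z1 (eT Z t))).coeff e • mapT Z1 (s N e)) = x := by
        conv_rhs => rw [hx1]
        rw [hE, map_sum, ← Finset.sum_add_distrib, ← Finset.sum_add_distrib]
        refine Finset.sum_congr rfl fun t ht => ?_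
        rw [map_smul, ← smul_add, ← smul_add]
        congr 1
        have hH : Hom sg N (G.dlin (MvPolynomial (Fin (n + 1)) Z) (eT Z t)) := by
          rw [← hc_eq_self (eT_mem ht), hom_dlin G sg hD]
          exact hom_hc _ _ _
        conv_rhs => rw [← hsplit N (eT Z t) (eT_mem ht), map_add, map_add, map_sum]
        simp only [hD1, hEmap _ hH, map_smul, aug1_mapT, AddMonoidAlgebra.coeff_mapRingHom,
          algebraMap_smul]
      have h2 : (∑ t ∈ idx n sg N, coeff t.2 (x t.1) • E (D1z (mapT Z1 (eT Z t)))) = 0 := by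
        calc _ = E (D1z x) := by conv_rhs => rw [hx1]; simp only [map_sum, map_smul]
          _ = 0 := by rw [show D1z x = 0 from hDx, map_zero]
      have h3 : (∑ t ∈ idx n sg N, coeff t.2 (x t.1) • ∑ e ∈ expN a N,
            (aug1 lam aug (mapT Z1 (eT Z t))).coeff e • mapT Z1 (s N e)) = 0 := by
        simp only [Finset.smul_sum, smul_smul]
        rw [Finset.sum_comm]
        refine Finset.sum_eq_zero fun e _ => ?_
        rw [← Finset.sum_smul]
        convert zero_smul Z1 (mapT Z1 (s N e))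
        have h4 := congrArg (fun μ : Lau Z1 n => μ.coeff e) haug0
        rw [hx1] at h4
        simpa [map_sum, map_smul, AddMonoidAlgebra.coeff_sum] using h4
      rw [h2, h3, add_zero, add_zero] at h1
      exact h1
    refine ⟨part G.deg (k + 1) (E x), hom_part (hEH x) _, fun b hb => if_neg hb, ?_⟩
    refine (dlin_part (G.map (MvPolynomial.map (algebraMap Z Z1))) k (E x)).trans ?_
    rw [show (G.map (MvPolynomial.map (algebraMap Z Z1))).dlin (MvPolynomial (Fin (n + 1)) Z1)
      (E x) = x from hD1y]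
    funext b
    simp only [part]
    split_ifs with hb
    · rfl
    · exact (hxk b hb).symm

end Vale.Agent.P202.Mixed2
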