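import Vale.Agent.P202.Mixed2.WinTot
import Vale.Agent.P202.Mixed2.WinFlat

/-!
P202, mixed characteristic, windows: the part below the windows. `Lift.flat` is the complex
tensor the Cech complex of the slice `0` cut by powers of `u`; `Lift.res` is the complex tensor a
resolution of the sections, evaluated at `U`.
-/

open scoped ENNReal
open Filter Topology

namespace Vale.Agent.P202.Mixed2

universe u v

/-- The elements `b j` are almost units against the ideal of `U`, which is regular up to each of
them, and `T` modulo the ideal has finite measure. -/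
structure Almost {T : Type u} [CommRing T] {n : ℕ} (μ : Meas T) (U : Fin (n + 1) → T) where
  /-- The almost units. -/
  b : ℕ → T
  reg : ∀ j L, RegUpTo U (b j) L
  tendsto : Tendsto (fun j => μ.val (T ⧸ (Ideal.span {b j} ⊔ aI U))) atTop (𝓝 0)
  fin : μ.val (T ⧸ aI U) ≠ ∞

namespace Win

open Vale.Agent.P202.Char

variable {T : Type u} [CommRing T] {n : ℕ} {U : Fin (n + 1) → T} {β : T} {L J M : ℕ}
  (P : Lift U β L J M)

namespace Lift

/-- The complex over the quotient. -/
noncomputable def mcx : MCx (T ⧸ aI U ^ L) where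
  β := P.ι
  deg := P.deg
  D := P.D.map (Ideal.Quotient.mk _)
  sq := by
    ext a c
    rw [← Matrix.map_mul, Matrix.map_apply]
    exact Ideal.Quotient.eq_zero_iff_mem.2 (P.sq a c)
  homog a b h := by
    by_contra hd
    exact h (by rw [Matrix.map_apply, P.homog a b hd, map_zero])

theorem mcx_null (l : Fin (n + 1)) :
    P.mcx.IsNullHtpic (Ideal.Quotient.mk (aI U ^ L) (β * U l ^ M)) := by
  let hq : Matrix P.ι P.ι (T ⧸ aI U ^ L) := (P.h l).map (Ideal.Quotient.mk _)
  have h1 : ∀ a b : P.ι, hq a b ≠ 0 → P.deg a = P.deg b + 1 := fun a b hne => by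
    by_contra hd
    exact hne (by simp only [hq, Matrix.map_apply]; rw [P.h_deg l a b hd, map_zero])
  suffices h2 : P.D.map (Ideal.Quotient.mk (aI U ^ L)) * hq + hq * P.D.map (Ideal.Quotient.mk _) =
      Ideal.Quotient.mk (aI U ^ L) (β * U l ^ M) • (1 : Matrix P.ι P.ι (T ⧸ aI U ^ L)) from
    ⟨hq, h1, h2⟩
  · ext a c
    simp only [hq]
    rw [← Matrix.map_mul, ← Matrix.map_mul, Matrix.add_apply, Matrix.map_apply, Matrix.map_apply,
      ← map_add, Matrix.smul_apply, Matrix.one_apply, smul_eq_mul]
    have h := Ideal.Quotient.eq.2 (P.htpy l a c)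
    refine h.trans ?_
    split_ifs <;> simp

/-- Scalar action of the complex on tuples. -/
noncomputable def scal (V : Type v) [AddCommGroup V] [Module T V] :
    (P.ι → V) →ₗ[T] (P.ι → V) :=
  LinearMap.pi fun b => ∑ b', P.D b b' • LinearMap.proj b'

theorem scal_apply {V : Type v} [AddCommGroup V] [Module T V] (x : P.ι → V) (b : P.ι) :
    P.scal V x b = ∑ b', P.D b b' • x b' := by
  simp [scal]

theorem scal_scal {V : Type v} [AddCommGroup V] [Module T V] (x : P.ι → V) (b : P.ι) :
    P.scal V (P.scal V x) b = ∑ b'', (P.D * P.D) b b'' • x b'' := by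
  simp only [scal_apply, Finset.smul_sum, smul_smul, Matrix.mul_apply, Finset.sum_smul]
  rw [Finset.sum_comm]

/-- A second differential in every column, with the sign of the degree. -/
noncomputable def withCol {V : Type v} [AddCommGroup V] [Module T V] (d : V →ₗ[T] V) :
    (P.ι → V) →ₗ[T] (P.ι → V) :=
  P.scal V + LinearMap.pi fun b => ((-1 : T) ^ P.deg b) • (d ∘ₗ LinearMap.proj b)

theorem withCol_apply {V : Type v} [AddCommGroup V] [Module T V] (d : V →ₗ[T] V) (x : P.ι → V)
    (b : P.ι) : P.withCol d x b = (∑ b', P.D b b' • x b') + ((-1 : T) ^ P.deg b) • d (x b) := by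
  simp [withCol, scal_apply]

theorem withCol_sq {V : Type v} [AddCommGroup V] [Module T V] (d : V →ₗ[T] V)
    (hd : ∀ v, d (d v) = 0) (x : P.ι → V) (b : P.ι) :
    P.withCol d (P.withCol d x) b = ∑ b'', (P.D * P.D) b b'' • x b'' := by
  rw [withCol_apply]
  have h1 : d (P.withCol d x b) = ∑ b', P.D b b' • d (x b') := by
    rw [withCol_apply, map_add, map_sum, map_smul, hd, smul_zero, add_zero]
    simp only [map_smul]
  rw [h1]
  simp only [withCol_apply, smul_add, Finset.sum_add_distrib, Finset.smul_sum, smul_smul]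
  rw [add_assoc, ← Finset.sum_add_distrib, Finset.sum_eq_zero (f := fun b' =>
    (P.D b b' * (-1) ^ P.deg b') • d (x b') + ((-1) ^ P.deg b * P.D b b') • d (x b')), add_zero,
    Finset.sum_comm]
  · exact Finset.sum_congr rfl fun b'' _ => by rw [Matrix.mul_apply, Finset.sum_smul]
  · intro b' _
    rw [← add_smul]
    by_cases h : P.deg b' = P.deg b + 1
    · convert zero_smul T (d (x b'))
      rw [h, pow_succ]
      ring
    · simp [P.homog b b' h]

theorem withCol_deg {V : Type v} [AddCommGroup V] [Module T V] (d : V →ₗ[T] V)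
    (g : ℤ → Submodule T V) (hg : ∀ k, (g k).map d ≤ g (k - 1)) (k : ℤ) :
    (Submodule.pi Set.univ fun b => g (k - P.deg b)).map (P.withCol d) ≤
      Submodule.pi Set.univ fun b => g (k - 1 - P.deg b) := by
  rintro _ ⟨x, hx, rfl⟩ b -
  show P.withCol d x b ∈ g (k - 1 - P.deg b)
  rw [withCol_apply]
  refine add_mem (sum_mem fun b' _ => ?_) (Submodule.smul_mem _ _ ?_)
  · by_cases h : P.deg b' = P.deg b + 1
    · refine Submodule.smul_mem _ _ ?_
      have h1 := hx b' trivial
      simp only [SetLike.mem_coe] at h1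
      rwa [show k - (P.deg b' : ℤ) = k - 1 - P.deg b by rw [h]; push_cast; ring] at h1
    · rw [P.homog b b' h, zero_smul]
      exact zero_mem _
  · rw [show k - 1 - (P.deg b : ℤ) = k - P.deg b - 1 by ring]
    exact hg _ ⟨x b, hx b trivial, rfl⟩

variable (lam : Fin (n + 1) → T) (a : Fin n → ℤ)

/-- The cochains of the slice `0` cut by `u ^ i` in every column. -/
noncomputable def flatLev (i : ℕ) : Submodule T (P.ι → Chart n → Tot T n ℕ) :=
  Submodule.pi Set.univ fun _ => cut U lam a i 0

theorem smul_mem_cut {W : ℕ} (hW : W ≤ L) {c : T} (hc : c ∈ aI U ^ L)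
    {y : Chart n → Tot T n ℕ} (hy : y ∈ cut U lam a 0 0) : c • y ∈ cut U lam a W 0 := by
  refine (mem_cut lam).2 fun ε => ?_
  have h0 := (mem_cut lam).1 hy ε
  rw [cutS_zero] at h0
  have hA : Acts U ((0 : ℕ) : ℤ) c (upBy n c 0) := by
    simpa using acts_upBy (U := U) c 0
  have h := push_small lam hc (show W + 0 ≤ L by omega) hA h0
  rw [push_upBy_scalar, push_upBy_zero] at h
  simpa using h

theorem cech_sq_apply (v : Chart n → Tot T n ℕ) : cechD T (cechD T v) = 0 :=
  LinearMap.congr_fun cechD_sq v

/-- The complex tensor the Cech complex of the slice `0`, modulo `u ^ W`. -/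
noncomputable def flat {W : ℕ} (hW : W ≤ L) : Gd T (P.ι → Chart n → Tot T n ℕ) where
  D := P.withCol (cechD T)
  deg k := Submodule.pi Set.univ fun b => cechDeg T (Tot T n ℕ) (k - P.deg b)
  bot := P.flatLev lam a W
  top := P.flatLev lam a 0
  map_deg k := P.withCol_deg _ _ (cechGC T n (Tot T n ℕ)).map_deg k
  sq x hx b _ := by
    rw [SetLike.mem_coe, P.withCol_sq _ cech_sq_apply]
    exact sum_mem fun b'' _ => smul_mem_cut lam a hW (P.sq b b'') (hx b'' trivial)

variable {Z : Type v} [CommRing Z] [Algebra Z T] {lamZ : Fin (n + 1) → Z} (R : WinRes lamZ a)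

/-- Evaluation of the resolution at `U`. -/
noncomputable def resD : (R.G.β → T) →ₗ[T] (R.G.β → T) :=
  LinearMap.pi fun g => ∑ g', MvPolynomial.aeval U (R.G.D g g') • LinearMap.proj g'

/-- The tuples with `x g` in the power `A - sg g` of the ideal. -/
noncomputable def resLev (A : ℕ) : Submodule T (P.ι → R.G.β → T) :=
  Submodule.pi Set.univ fun _ => Submodule.pi Set.univ fun g => (aI U ^ (A - R.sg g) : Ideal T)

/-- The degree of a tuple on the resolution. -/
noncomputable def resDeg (k : ℤ) : Submodule T (R.G.β → T) :=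
  Submodule.pi Set.univ fun g => if (R.G.deg g : ℤ) = k then ⊤ else ⊥

theorem resD_sq (v : R.G.β → T) : resD (U := U) a R (resD (U := U) a R v) = 0 := by
  funext g
  simp only [resD, LinearMap.pi_apply, LinearMap.sum_apply, LinearMap.smul_apply,
    LinearMap.proj_apply, smul_eq_mul, Finset.mul_sum, Pi.zero_apply]
  rw [Finset.sum_comm]
  refine Finset.sum_eq_zero fun g'' _ => ?_
  simp only [← mul_assoc, ← map_mul, ← Finset.sum_mul, ← map_sum]
  have h := congrFun (congrFun R.G.sq g) g''
  rw [Matrix.mul_apply, Matrix.zero_apply] at h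
  rw [h, map_zero, zero_mul]

theorem resD_deg (k : ℤ) :
    (resDeg a R k : Submodule T _).map (resD (U := U) a R) ≤ resDeg a R (k - 1) := by
  rintro _ ⟨x, hx, rfl⟩ g -
  simp only [SetLike.mem_coe, resD, LinearMap.pi_apply, LinearMap.sum_apply,
    LinearMap.smul_apply, LinearMap.proj_apply]
  split_ifs with hg
  · trivial
  · refine (Submodule.mem_bot T).2 (Finset.sum_eq_zero fun g' _ => ?_)
    by_cases hD : R.G.D g g' = 0
    · rw [hD, map_zero, zero_smul]
    · have h1 := hx g' trivial
      simp only [SetLike.mem_coe] at h1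
      have h2 := R.G.homog g g' hD
      rw [if_neg (by omega), Submodule.mem_bot] at h1
      rw [h1, smul_zero]

omit [Algebra Z T] in
theorem resLev_zero : P.resLev a R 0 = ⊤ := by
  simp [resLev]

/-- The complex tensor the resolution of the sections evaluated at `U`, modulo the level `W`. -/
noncomputable def res {W : ℕ} (hW : W ≤ L) : Gd T (P.ι → R.G.β → T) where
  D := P.withCol (resD (U := U) a R)
  deg k := Submodule.pi Set.univ fun b => resDeg a R (k - P.deg b)
  bot := P.resLev a R W
  top := ⊤
  map_deg k := P.withCol_deg _ _ (resD_deg (U := U) a R) k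
  sq x _ := by
    intro b _
    show P.withCol (resD (U := U) a R) (P.withCol (resD (U := U) a R) x) b ∈ _
    rw [P.withCol_sq _ (resD_sq a R)]
    intro g _
    simp only [Finset.sum_apply, Pi.smul_apply, smul_eq_mul, SetLike.mem_coe]
    exact sum_mem fun b'' _ => Ideal.mul_mem_right _ _
      (Ideal.pow_le_pow_right ((Nat.sub_le W _).trans hW) (P.sq b b''))

/-- Degree zero tuples, the image of the differential and the power `B` of the ideal. -/
noncomputable def img0B (B : ℕ) : Submodule T (P.ι → T) :=
  (Submodule.pi Set.univ fun b => if P.deg b = 1 then ⊤ else ⊥).map (P.scal T) ⊔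
    Submodule.pi Set.univ fun _ => (aI U ^ B : Ideal T)

/-- Degree zero tuples. -/
noncomputable def deg0 : Submodule T (P.ι → T) :=
  Submodule.pi Set.univ fun b => if P.deg b = 0 then ⊤ else ⊥

/-- The homology in degree zero modulo the power `B` of the ideal. -/
abbrev h0B (B : ℕ) : Type u := ↥(P.deg0) ⧸ (P.img0B B).comap P.deg0.subtype

end Lift

end Win

end Vale.Agent.P202.Mixed2
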