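import Vale.Agent.P202.Mixed2.LamMeas
import Vale.Agent.P202.Mixed2.Core
import Vale.Agent.P202.Mixed2.WinFlatGd
import Vale.Agent.P202.Mixed2.Sums
import Vale.Agent.P202.Mixed2.Cover.Algebra

/-!
P202, mixed characteristic, main step: what the cover supplies to the inequalities, as one bundle.
The algebra `T` carries the windows; the root maps land in `T` modulo the power `L` of the ideals
of each sheet, where `σ i` is an additive and `β`-multiplicative extension of them to the ring.
-/

open scoped ENNReal TensorProduct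

namespace Vale.Agent.P202.Mixed2.MainStep

open IsLocalRing Lambda BaseTower Perf Perf.Base Polynomial

universe u

variable {p : ℕ} [Fact p.Prime] {R : Type u} [CommRing R] [IsLocalRing R]
  [CharP (ResidueField R) p] [PerfectRing (ResidueField R) p] {n : ℕ}

/-- The bottom level of the tower. -/
abbrev A0 (p : ℕ) [Fact p.Prime] (R : Type u) [CommRing R] [IsLocalRing R]
    [CharP (ResidueField R) p] [PerfectRing (ResidueField R) p] (n : ℕ) : Type u :=
  An p (ResidueField R) (Fin n) 0

/-- The union of the levels. -/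
abbrev A1 (p : ℕ) [Fact p.Prime] (R : Type u) [CommRing R] [IsLocalRing R]
    [CharP (ResidueField R) p] [PerfectRing (ResidueField R) p] (n : ℕ) : Type u :=
  Acol p (ResidueField R) (Fin n)

/-- The equation of `θ` over the bottom level. -/
noncomputable abbrev eqn (C : CoreData p R n) : (A0 p R n)[X] :=
  C.Φ.map (baseIso p (ResidueField R) n)

/-- The bottom level acting on the ring. -/
noncomputable def baseR (C : CoreData p R n) : A0 p R n →+* R :=
  C.φ.comp (RingEquiv.ofBijective _ (baseIso_bijective (p := p) (k := ResidueField R) (d := n))).symm.toRingHom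

theorem baseR_baseIso (C : CoreData p R n) (f : Base p (ResidueField R) n) :
    baseR C (baseIso p (ResidueField R) n f) = C.φ f := by
  show C.φ ((RingEquiv.ofBijective _ baseIso_bijective).symm (baseIso p (ResidueField R) n f)) = C.φ f
  exact congrArg C.φ ((RingEquiv.ofBijective _ baseIso_bijective).symm_apply_apply f)

/-- The ring generated by `θ`. -/
abbrev Sub (C : CoreData p R n) : Type u := AdjoinRoot (eqn C)

theorem eval_eqn (C : CoreData p R n) : (eqn C).eval₂ (baseR C) C.θ = 0 := by
  rw [Polynomial.eval₂_map, show (baseR C).comp (baseIso p (ResidueField R) n) = C.φ from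
    RingHom.ext (baseR_baseIso C), C.root]

/-- The subring mapped into the ring. -/
noncomputable def toR (C : CoreData p R n) : Sub C →+* R :=
  AdjoinRoot.lift (baseR C) C.θ (eval_eqn C)

/-- The reduction inside the subring. -/
noncomputable def zS (C : CoreData p R n) : Fin (n + 1) → Sub C :=
  Fin.cons (AdjoinRoot.root (eqn C))
    fun i => AdjoinRoot.of (eqn C) (baseIso p (ResidueField R) n (MvPowerSeries.X i))

/-- The normalised length of a module over an algebra over the tower, as a measure. -/
noncomputable abbrev meas (p : ℕ) [Fact p.Prime] (R : Type u) [CommRing R] [IsLocalRing R]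
    [CharP (ResidueField R) p] [PerfectRing (ResidueField R) p] (n : ℕ)
    [IsNoetherianRing (A0 p R n)] (T : Type u) [CommRing T] [Algebra (A0 p R n) T]
    [Algebra (A1 p R n) T] [IsScalarTower (A0 p R n) (A1 p R n) T] : Meas T :=
  lamMeas (T := T) (BaseTower.isTower p (ResidueField R) (Fin n))

/-- An algebra over a tower of two rings. -/
structure CovRing (A B : Type u) [CommRing A] [CommRing B] [Algebra A B] where
  /-- The ring. -/
  T : Type u
  [ringT : CommRing T]
  [algA : Algebra A T]
  [algB : Algebra B T]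
  [towerT : IsScalarTower A B T]

attribute [instance] CovRing.ringT CovRing.algA CovRing.algB CovRing.towerT

/-- The pushforwards along `φ` of a module killed by the power `c` of the maximal ideal are at
most `nT` times its length, up to the element `d`. -/
def SumLe {A B S X : Type u} [CommRing A] [CommRing B] [CommRing S] [CommRing X] [Algebra A B]
    [Algebra A S] [Algebra A X] [Algebra B X] [IsScalarTower A B X] [IsLocalRing A]
    (tw : ℕ → Subalgebra A B) (cw : ℕ) {r : ℕ} {I : Fin r → Ideal X}
    (φ : ∀ i, S →ₐ[A] X ⧸ I i) (d : A) (c nT : ℕ) : Prop :=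
  ∀ (Q : Type u) [AddCommGroup Q] [Module A Q] [Module S Q] [IsScalarTower A S Q]
    [Module.Finite A Q],
    (∀ a ∈ maximalIdeal A ^ c, ∀ x : Q, a • x = 0) →
    ∑ i, lam tw cw (Push (φ i) Q) ≤ (nT : ℝ≥0∞) * ((Module.length A Q : ℝ≥0∞) +
      r * (Module.length A (Q ⧸ LinearMap.range (LinearMap.lsmul A Q d)) : ℝ≥0∞))

/-- The sheets `U` fill `nT` copies of `S` modulo the power `N` of `z`. -/
def LeSum {A S X : Type u} [CommRing A] [CommRing S] [CommRing X] [Algebra A S] {r n : ℕ}
    (μ : Meas X) (U : Fin r → Fin (n + 1) → X) (z : Fin (n + 1) → S) (d : A) (q N nT : ℕ) : Prop :=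
  (nT : ℝ≥0∞) * (Module.length A (S ⧸ Ideal.span (Set.range z) ^ N) : ℝ≥0∞) ≤
    ∑ i, μ.val (X ⧸ aI (U i) ^ (q * (N + n + 1))) + (nT : ℝ≥0∞) *
      (Module.length A (S ⧸ (Ideal.span {algebraMap A S d} ⊔ Ideal.span (Set.range z) ^ N)) : ℝ≥0∞)

/-- Everything the inequalities use about the cover: `q` is the scale, `J` the order of the entries,
`N` and `c` bound the modules compared with lengths, `L` is the precision, `η` the loss. -/
structure Sheets [IsNoetherianRing (A0 p R n)] (C : CoreData p R n) (q J N c L : ℕ) (η : ℝ≥0∞) where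
  /-- The cover. -/
  X : CovRing (A0 p R n) (A1 p R n)
  /-- The rank of the cover. -/
  nT : ℕ
  nT_pos : 0 < nT
  /-- The sheet coordinates. -/
  U : Fin C.Φ.natDegree → Fin (n + 1) → X.T
  almost : ∀ i, Nonempty (Almost (meas p R n X.T) (U i))
  /-- The losses. -/
  β : Fin C.Φ.natDegree → X.T
  reg : ∀ i, RegUpTo (U i) (β i) L
  small : ∀ i, (meas p R n X.T).val (X.T ⧸ (Ideal.span {β i} ⊔ aI (U i))) ≤ (nT : ℝ≥0∞) * η
  /-- The root maps. -/
  φ : ∀ i, Sub C →ₐ[A0 p R n] X.T ⧸ aI (U i) ^ L
  φ_z : ∀ i l, φ i (zS C l) = Ideal.Quotient.mk _ (U i l ^ q)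
  /-- The extensions of the root maps. -/
  σ : ∀ i, R →+ X.T ⧸ aI (U i) ^ L
  σ_toR : ∀ i r x, σ i (toR C r * x) = φ i r * σ i x
  σ_one : ∀ i, σ i 1 = Ideal.Quotient.mk _ (β i)
  σ_mul : ∀ i x y, σ i x * σ i y = Ideal.Quotient.mk _ (β i) * σ i (x * y)
  σ_max : ∀ i, ∀ x ∈ maximalIdeal R, σ i x ∈ (aI (U i) ^ J).map (Ideal.Quotient.mk _)
  /-- The pushforwards of a module are at most `nT` times its length, up to the discriminant. -/
  sum_le : SumLe (lvl p (ResidueField R) (Fin n)) (cc p (Fin n)) φ
    (baseIso p (ResidueField R) n C.Φ.discr) c nT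
  /-- The sheets fill `nT` copies of the subring modulo the power `N` of the reduction. -/
  le_sum : LeSum (meas p R n X.T) U (zS C) (baseIso p (ResidueField R) n C.Φ.discr) q N nT

end Vale.Agent.P202.Mixed2.MainStep
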