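import Vale.Agent.P202.Mixed2.MainDefs
import Vale.Agent.P202.Mixed2.CoreBuild
import Vale.Agent.P202.Mixed2.Choices
import Vale.Agent.P202.Lambda.Frob

/-!
P202, mixed characteristic, main step: lengths over the bottom level.

The ring generated by `θ` fills the ring up to the denominator, so the quotients by the powers of
the reduction grow at least like the multiplicity; the discriminant only contributes to lower order.
-/

open scoped ENNReal

namespace Vale.Agent.P202.Mixed2.MainStep

open IsLocalRing Polynomial Filter Topology Vale.Agent.P202.Char Lambda BaseTower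

universe u v

set_option linter.unusedSectionVars false

section Aux

/-- A module killed by `J` with `r` generators has length at most `r` times that of `A/J`. -/
theorem length_le_gen {A : Type u} [CommRing A] {M : Type v} [AddCommGroup M] [Module A M]
    (J : Ideal A) (hJ : ∀ a ∈ J, ∀ x : M, a • x = 0) {r : ℕ} (v : Fin r → M)
    (hv : ⊤ ≤ Submodule.span A (Set.range v)) :
    Module.length A M ≤ r * Module.length A (A ⧸ J) := by
  let g : Fin r → (A ⧸ J →ₗ[A] M) := fun i =>
    Submodule.liftQ J (LinearMap.toSpanSingleton A M (v i)) fun a ha => hJ a ha (v i)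
  let f : (Fin r → A ⧸ J) →ₗ[A] M := ∑ i, g i ∘ₗ LinearMap.proj i
  have hf : Function.Surjective f := by
    rw [← LinearMap.range_eq_top, ← top_le_iff]
    refine hv.trans (Submodule.span_le.2 ?_)
    rintro _ ⟨i, rfl⟩
    refine ⟨Pi.single i (Submodule.Quotient.mk 1), ?_⟩
    simp only [f, LinearMap.coe_sum, Finset.sum_apply, LinearMap.comp_apply, LinearMap.proj_apply]
    rw [Finset.sum_eq_single i (fun j _ hj => by rw [Pi.single_eq_of_ne hj, map_zero])
      (fun h => absurd (Finset.mem_univ i) h), Pi.single_eq_same]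
    exact (LinearMap.toSpanSingleton_apply A M (v i) 1).trans (one_smul A (v i))
  refine (Module.length_le_of_surjective f hf).trans_eq ?_
  simp [Module.length_pi_of_fintype]

/-- Growth of smaller order is kept by a linear change of the index. -/
theorem tendsto_index (f : ℕ → ℝ) (hf : ∀ j, 0 ≤ f j) (d : ℕ)
    (h : Tendsto (fun j : ℕ => f j / (j : ℝ) ^ d) atTop (𝓝 0)) {w : ℕ} (hw : 0 < w) (c : ℕ) :
    Tendsto (fun N : ℕ => f (w * N + c) / (N : ℝ) ^ d) atTop (𝓝 0) := by
  have hg : Tendsto (fun N : ℕ => w * N + c) atTop atTop :=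
    tendsto_atTop_mono (fun N => (Nat.le_mul_of_pos_left N hw).trans (Nat.le_add_right _ c))
      tendsto_id
  have h1 : Tendsto (fun N : ℕ => ((w + c : ℕ) : ℝ) ^ d * (f (w * N + c) / ((w * N + c : ℕ) : ℝ) ^ d))
      atTop (𝓝 0) := by
    simpa using (h.comp hg).const_mul (((w + c : ℕ) : ℝ) ^ d)
  refine squeeze_zero' (Eventually.of_forall fun N => div_nonneg (hf _) (by positivity))
    ((eventually_ge_atTop 1).mono fun N hN => ?_) h1
  have hN' : (0 : ℝ) < N := Nat.cast_pos.2 hN
  have hk : (0 : ℝ) < ((w * N + c : ℕ) : ℝ) :=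
    Nat.cast_pos.2 ((Nat.mul_pos hw hN).trans_le (Nat.le_add_right _ c))
  have hle : ((w * N + c : ℕ) : ℝ) ≤ ((w + c : ℕ) : ℝ) * (N : ℝ) := by
    rw [← Nat.cast_mul]
    refine Nat.cast_le.2 ?_
    rw [add_mul]
    exact Nat.add_le_add_left (Nat.le_mul_of_pos_right c hN) _
  rw [mul_div_assoc', div_le_div_iff₀ (pow_pos hN' d) (pow_pos hk d)]
  calc f (w * N + c) * ((w * N + c : ℕ) : ℝ) ^ d
      ≤ f (w * N + c) * (((w + c : ℕ) : ℝ) * (N : ℝ)) ^ d :=
        mul_le_mul_of_nonneg_left (pow_le_pow_left₀ hk.le hle d) (hf _)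
    _ = ((w + c : ℕ) : ℝ) ^ d * f (w * N + c) * (N : ℝ) ^ d := by rw [mul_pow]; ring

end Aux

variable {p : ℕ} [Fact p.Prime] {R : Type u} [CommRing R] [IsLocalRing R]
  [CharP (ResidueField R) p] [PerfectRing (ResidueField R) p] {n : ℕ}

theorem baseIso_surjective :
    Function.Surjective (baseIso p (ResidueField R) n) := baseIso_bijective.2

/-- The elements of the maximal ideal of the bottom level act by nonunits. -/
theorem baseR_mem (C : CoreData p R n) {a : A0 p R n} (ha : a ∈ maximalIdeal (A0 p R n)) :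
    baseR C a ∈ maximalIdeal R := by
  obtain ⟨f, rfl⟩ := baseIso_surjective a
  have hf : f ∈ maximalIdeal (Base p (ResidueField R) n) := by
    rw [mem_maximalIdeal, mem_nonunits_iff] at ha ⊢
    exact fun hu => ha (hu.map _)
  rw [baseR_baseIso]
  refine Ideal.mem_comap.1 ((Choices.maximalIdeal_base_le (WittVector.irreducible p)).trans
    (Ideal.span_le.2 ?_) hf : f ∈ (maximalIdeal R).comap C.φ)
  rintro _ ⟨_ | i, rfl⟩
  · show C.φ (p : Base p (ResidueField R) n) ∈ maximalIdeal R
    rw [map_natCast, ← residue_eq_zero_iff, map_natCast]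
    exact CharP.cast_eq_zero _ p
  · exact C.φ_X_mem i

theorem baseR_local (C : CoreData p R n) : IsLocalHom (baseR C) :=
  ⟨fun a ha => by
    by_contra hn
    exact (mem_maximalIdeal (baseR C a)).1 (baseR_mem C ((mem_maximalIdeal a).2 hn)) ha⟩

theorem baseR_finite (C : CoreData p R n) : (baseR C).Finite :=
  C.φ_finite.comp (RingHom.Finite.of_surjective _ (RingEquiv.ofBijective _
    (baseIso_bijective (p := p) (k := ResidueField R) (d := n))).symm.surjective)

theorem baseR_residue (C : CoreData p R n) :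
    Function.Surjective fun a => residue R (baseR C a) := fun y => by
  refine ⟨baseIso p (ResidueField R) n (MvPowerSeries.C (WittVector.teichmuller p y)), ?_⟩
  show residue R (baseR C _) = y
  rw [baseR_baseIso, C.φ_C]
  exact WittVector.teichmuller_coeff_zero p y

/-- Lengths over the bottom level are lengths over the ring. -/
theorem length_eq (C : CoreData p R n) (Q : Type v) [AddCommGroup Q] [Module (A0 p R n) Q]
    [Module R Q] (hA : ∀ (a : A0 p R n) (x : Q), a • x = baseR C a • x) :
    Module.length (A0 p R n) Q = Module.length R Q := by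
  let := (baseR C).toAlgebra
  have : IsLocalHom (algebraMap (A0 p R n) R) := baseR_local C
  have : IsScalarTower (A0 p R n) R Q := IsScalarTower.of_algebraMap_smul fun a x => (hA a x).symm
  exact length_eq_of_residue (A0 p R n) R Q (baseR_residue C)

theorem finite_of_smul (C : CoreData p R n) (Q : Type v) [AddCommGroup Q] [Module (A0 p R n) Q]
    [Module R Q] [Module.Finite R Q] (hA : ∀ (a : A0 p R n) (x : Q), a • x = baseR C a • x) :
    Module.Finite (A0 p R n) Q := by
  let := (baseR C).toAlgebra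
  have : IsScalarTower (A0 p R n) R Q := IsScalarTower.of_algebraMap_smul fun a x => (hA a x).symm
  have : Module.Finite (A0 p R n) R := baseR_finite C
  exact Module.Finite.trans R Q

theorem killed (C : CoreData p R n) {Q : Type v} [AddCommGroup Q] [Module (A0 p R n) Q]
    [Module R Q] (hA : ∀ (a : A0 p R n) (x : Q), a • x = baseR C a • x) {c : ℕ}
    (hc : ∀ r ∈ maximalIdeal R ^ c, ∀ x : Q, r • x = 0) :
    ∀ a ∈ maximalIdeal (A0 p R n) ^ c, ∀ x : Q, a • x = 0 := fun a ha x => by
  rw [hA]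
  refine hc _ ?_ x
  have h : (maximalIdeal (A0 p R n)).map (baseR C) ≤ maximalIdeal R :=
    Ideal.map_le_iff_le_comap.2 fun b hb => baseR_mem C hb
  exact Ideal.pow_right_mono h c (Ideal.map_pow (baseR C) _ c ▸ Ideal.mem_map_of_mem _ ha)

theorem toR_of (C : CoreData p R n) (a : A0 p R n) :
    toR C (algebraMap (A0 p R n) (Sub C) a) = baseR C a := AdjoinRoot.lift_of _

theorem toR_zS (C : CoreData p R n) (l : Fin (n + 1)) : toR C (zS C l) =
    (Fin.cons C.θ (fun i => C.φ (MvPowerSeries.X i)) : Fin (n + 1) → R) l := by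
  induction l using Fin.cases with
  | zero =>
    simp only [zS, Fin.cons_zero]
    exact AdjoinRoot.lift_root _
  | succ i =>
    simp only [zS, Fin.cons_succ]
    exact (AdjoinRoot.lift_of _).trans (baseR_baseIso C _)

theorem map_z (C : CoreData p R n) : (Ideal.span (Set.range (zS C))).map (toR C) =
    Ideal.span (Set.range (Fin.cons C.θ fun i => C.φ (MvPowerSeries.X i) : Fin (n + 1) → R)) := by
  rw [Ideal.map_span, ← Set.range_comp]
  exact congrArg Ideal.span (congrArg Set.range (funext (toR_zS C)))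

theorem eqn_monic (C : CoreData p R n) : (eqn C).Monic := C.monic.map _

theorem toR_injective (C : CoreData p R n) : Function.Injective (toR C) := by
  rw [injective_iff_map_eq_zero]
  intro s hs
  obtain ⟨P, rfl⟩ := AdjoinRoot.mk_surjective s
  obtain ⟨Q, rfl⟩ := Polynomial.map_surjective (baseIso p (ResidueField R) n) baseIso_surjective P
  rw [toR, AdjoinRoot.lift_mk, Polynomial.eval₂_map, show (baseR C).comp (baseIso p (ResidueField R) n)
    = C.φ from RingHom.ext (baseR_baseIso C)] at hs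
  exact AdjoinRoot.mk_eq_zero.2 (Polynomial.map_dvd _ (C.dvd_of_root Q hs))

/-- The denominator carries the ring into the subring. -/
theorem exists_toR (C : CoreData p R n) (x : R) : ∃ s : Sub C, toR C s = C.φ C.h * x := by
  obtain ⟨Q, hQ⟩ := C.h_mul_mem x
  refine ⟨AdjoinRoot.mk _ (Q.map (baseIso p (ResidueField R) n)), ?_⟩
  rw [toR, AdjoinRoot.lift_mk, Polynomial.eval₂_map, show (baseR C).comp (baseIso p (ResidueField R) n)
    = C.φ from RingHom.ext (baseR_baseIso C), hQ]

theorem pow_le_z {c : ℕ} {z m : Ideal R} (hc : m ^ (c + 1) ≤ z * m ^ c) :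
    ∀ N, m ^ (c + N) ≤ z ^ N
  | 0 => by simp
  | N + 1 => by
    calc m ^ (c + (N + 1)) = m ^ (c + 1) * m ^ N := by rw [← pow_add]; congr 1; omega
      _ ≤ z * m ^ c * m ^ N := Ideal.mul_mono_left hc
      _ = z * m ^ (c + N) := by rw [mul_assoc, ← pow_add]
      _ ≤ z * z ^ N := Ideal.mul_mono_right (pow_le_z hc N)
      _ = z ^ (N + 1) := (pow_succ' z N).symm

/-- A power of the maximal ideal of the bottom level lies in the ideal of the reduction. -/
theorem exists_pow_le [IsNoetherianRing (A0 p R n)] (C : CoreData p R n) :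
    ∃ w, 0 < w ∧ (maximalIdeal (A0 p R n)).map (algebraMap (A0 p R n) (Sub C)) ^ w ≤
      Ideal.span (Set.range (zS C)) := by
  let algR : Algebra (Sub C) R := (toR C).toAlgebra
  have : Module.Finite (Sub C) R := by
    have h : ((toR C).comp (algebraMap (A0 p R n) (Sub C))).Finite := by
      rw [show (toR C).comp (algebraMap (A0 p R n) (Sub C)) = baseR C from RingHom.ext (toR_of C)]
      exact baseR_finite C
    exact RingHom.Finite.of_comp_finite h
  set Z := Ideal.span (Set.range (zS C))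
  obtain ⟨-, c, hc⟩ := C.isRed
  have hrad : (maximalIdeal (A0 p R n)).map (algebraMap (A0 p R n) (Sub C)) ≤ Z.radical := by
    rw [Ideal.map_le_iff_le_comap, Ideal.radical_eq_sInf]
    intro a ha
    rw [Ideal.mem_comap, Submodule.mem_sInf]
    rintro P ⟨hZP, hP⟩
    obtain ⟨Q, -, hQp, hQ⟩ := Ideal.exists_ideal_over_prime_of_isIntegral P (⊥ : Ideal R)
      (le_of_eq_of_le (Ideal.comap_bot_of_injective (algebraMap (Sub C) R) (toR_injective C)) bot_le)
    subst hQ
    have h1 : Ideal.span (Set.range (Fin.cons C.θ fun i => C.φ (MvPowerSeries.X i) :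
        Fin (n + 1) → R)) ≤ Q := by
      rw [← map_z C]
      exact Ideal.map_le_iff_le_comap.2 hZP
    have h2 : maximalIdeal R ≤ Q := fun r hr =>
      hQp.mem_of_pow_mem (c + 1) (h1 (Ideal.mul_le_left (hc (Ideal.pow_mem_pow hr (c + 1)))))
    exact h2 ((toR_of C a).symm ▸ baseR_mem C ha : toR C (algebraMap (A0 p R n) (Sub C) a) ∈
      maximalIdeal R)
  obtain ⟨w, hw⟩ := Ideal.exists_pow_le_of_le_radical_of_fg hrad
    ((maximalIdeal (A0 p R n)).fg_of_isNoetherianRing.map _)
  exact ⟨w + 1, w.succ_pos, (Ideal.pow_le_pow_right w.le_succ).trans hw⟩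

/-- A nonzero element of the bottom level cuts to lower order. -/
theorem grow_base [IsNoetherianRing (A0 p R n)] {D : A0 p R n} (hD : D ≠ 0) :
    Tendsto (fun j : ℕ => (len (A0 p R n) (A0 p R n ⧸ (Ideal.span {D} ⊔
      maximalIdeal (A0 p R n) ^ j)) : ℝ) / (j : ℝ) ^ (n + 1)) atTop (𝓝 0) := by
  have : IsDomain (Base p (ResidueField R) n) := NoZeroDivisors.to_isDomain _
  let e := RingEquiv.ofBijective _ (baseIso_bijective (p := p) (k := ResidueField R) (d := n))
  have : IsDomain (A0 p R n) := e.toMulEquiv.isDomain_iff.1 this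
  have hle : ringKrullDim (A0 p R n) ≤ (n + 1 : ℕ) := by
    rw [← ringKrullDim_eq_of_ringEquiv e]
    exact Choices.dim_base_le (WittVector.irreducible p)
  obtain ⟨d, hd, hdn⟩ : ∃ d : ℕ, ringKrullDim (A0 p R n) = (d : ℕ) ∧ d ≤ n + 1 := by
    obtain ⟨d, e0, hd, -, -⟩ := exists_multiplicity (A0 p R n)
    rw [hd] at hle
    exact ⟨d, hd, by exact_mod_cast hle⟩
  have h := CoreBuild.grow (A0 p R n) (A0 p R n) hd hD
  simp only [Algebra.algebraMap_self, RingHom.id_apply] at h
  refine squeeze_zero' (Eventually.of_forall fun j => div_nonneg (Nat.cast_nonneg _) (by positivity))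
    ((eventually_ge_atTop 1).mono fun j hj => ?_) h
  exact div_le_div_of_nonneg_left (Nat.cast_nonneg _) (by positivity)
    (pow_le_pow_right₀ (by exact_mod_cast hj) hdn)

/-- The quotients of the subring by the discriminant and the powers of the reduction are small. -/
theorem grow_sub [IsNoetherianRing (A0 p R n)] (C : CoreData p R n) {D : A0 p R n} (hD : D ≠ 0) :
    Tendsto (fun N : ℕ => (len (A0 p R n) (Sub C ⧸ (Ideal.span {algebraMap (A0 p R n) (Sub C) D} ⊔
      Ideal.span (Set.range (zS C)) ^ N)) : ℝ) / (N : ℝ) ^ (n + 1)) atTop (𝓝 0) := by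
  obtain ⟨w, hw0, hw⟩ := exists_pow_le C
  have := (eqn_monic C).finite_adjoinRoot
  obtain ⟨r, v, hv⟩ := Module.Finite.exists_fin (R := A0 p R n) (M := Sub C)
  have h := (tendsto_index (fun j => (len (A0 p R n) (A0 p R n ⧸ (Ideal.span {D} ⊔
    maximalIdeal (A0 p R n) ^ j)) : ℝ)) (fun j => Nat.cast_nonneg _) (n + 1) (grow_base hD) hw0
      0).const_mul (r : ℝ)
  rw [mul_zero] at h
  refine squeeze_zero (fun N => div_nonneg (Nat.cast_nonneg _) (by positivity)) (fun N => ?_) h
  set J := Ideal.span {algebraMap (A0 p R n) (Sub C) D} ⊔ Ideal.span (Set.range (zS C)) ^ N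
  set J₀ := Ideal.span {D} ⊔ maximalIdeal (A0 p R n) ^ (w * N + 0)
  have hJ : J₀.map (algebraMap (A0 p R n) (Sub C)) ≤ J := by
    rw [Ideal.map_sup, Ideal.map_pow, Ideal.map_span, Set.image_singleton, add_zero, pow_mul]
    exact sup_le_sup_left (Ideal.pow_right_mono hw N) _
  have hlen : Module.length (A0 p R n) (Sub C ⧸ J) ≤
      r * Module.length (A0 p R n) (A0 p R n ⧸ J₀) := by
    refine length_le_gen J₀ (fun a ha x => ?_) (fun i => Ideal.Quotient.mk J (v i)) ?_
    · obtain ⟨y, rfl⟩ := Ideal.Quotient.mk_surjective x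
      rw [← Ideal.Quotient.mkₐ_eq_mk (A0 p R n), ← map_smul, Ideal.Quotient.mkₐ_eq_mk,
        Ideal.Quotient.eq_zero_iff_mem, Algebra.smul_def]
      exact Ideal.mul_mem_right _ _ (hJ (Ideal.mem_map_of_mem _ ha))
    · rintro x -
      obtain ⟨y, rfl⟩ := Ideal.Quotient.mk_surjective x
      have hy := Submodule.apply_mem_span_image_of_mem_span
        (Ideal.Quotient.mkₐ (A0 p R n) J).toLinearMap
        (hv.symm ▸ Submodule.mem_top : y ∈ Submodule.span (A0 p R n) (Set.range v))
      rw [← Set.range_comp] at hy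
      exact hy
  have hfin : Module.length (A0 p R n) (A0 p R n ⧸ J₀) ≠ ⊤ :=
    ne_top_of_le_ne_top (length_quot_ne_top _) (length_quotient_mono le_sup_right)
  rw [← mul_div_assoc]
  refine div_le_div_of_nonneg_right ?_ (by positivity)
  rw [← Nat.cast_mul]
  refine Nat.cast_le.2 ((ENat.toNat_le_toNat hlen ?_).trans_eq ?_)
  · exact WithTop.mul_ne_top (ENat.natCast_ne_top r) hfin
  · rw [ENat.toNat_mul, ENat.toNat_natCast]
    rfl

/-- The quotient of the ring by a power of the reduction is that of the subring, up to the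
denominator. -/
theorem length_pow_le [IsNoetherianRing R] (C : CoreData p R n) {c : ℕ}
    (hc : maximalIdeal R ^ (c + 1) ≤
      Ideal.span (Set.range (Fin.cons C.θ fun i => C.φ (MvPowerSeries.X i) : Fin (n + 1) → R)) *
        maximalIdeal R ^ c) (N : ℕ) :
    Module.length R (R ⧸ maximalIdeal R ^ N) ≤
      Module.length (A0 p R n) (Sub C ⧸ Ideal.span (Set.range (zS C)) ^ N) +
        Module.length R (R ⧸ (Ideal.span {C.φ C.h} ⊔ maximalIdeal R ^ (c + N))) := by
  let algR : Algebra (A0 p R n) R := (baseR C).toAlgebra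
  have hA : ∀ (J : Ideal R) (a : A0 p R n) (x : R ⧸ J), a • x = baseR C a • x := fun J a x => by
    rw [← IsScalarTower.algebraMap_smul R a x]
    rfl
  choose g hg using exists_toR C
  let gm : R →ₗ[A0 p R n] Sub C :=
    { toFun := g
      map_add' := fun x y => toR_injective C (by rw [map_add, hg, hg, hg, mul_add])
      map_smul' := fun a x => toR_injective C (by
        rw [RingHom.id_apply, Algebra.smul_def a x, Algebra.smul_def a (g x), map_mul, toR_of, hg,
          hg]
        show C.φ C.h * (baseR C a * x) = _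
        ring) }
  set Z := Ideal.span (Set.range (zS C))
  set z := Ideal.span (Set.range (Fin.cons C.θ fun i => C.φ (MvPowerSeries.X i) : Fin (n + 1) → R))
  set I := z ^ N
  let G : R →ₗ[A0 p R n] Sub C ⧸ Z ^ N := (Ideal.Quotient.mkₐ (A0 p R n) (Z ^ N)).toLinearMap ∘ₗ gm
  let F : R →ₗ[A0 p R n] R ⧸ I :=
    (Ideal.Quotient.mkₐ (A0 p R n) I).toLinearMap ∘ₗ LinearMap.lsmul (A0 p R n) R (1 : A0 p R n)
      ∘ₗ LinearMap.mulLeft (A0 p R n) (C.φ C.h)
  have hF : ∀ x, F x = Ideal.Quotient.mk I (C.φ C.h * x) := fun x =>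
    congrArg (Ideal.Quotient.mk I) (one_smul (A0 p R n) _)
  have hker : LinearMap.ker G ≤ LinearMap.ker F := fun x hx => by
    have h1 : g x ∈ Z ^ N := Ideal.Quotient.eq_zero_iff_mem.1 hx
    have h2 := Ideal.mem_map_of_mem (toR C) h1
    rw [Ideal.map_pow, map_z, hg] at h2
    rw [LinearMap.mem_ker, hF]
    exact Ideal.Quotient.eq_zero_iff_mem.2 h2
  have h1 : Module.length (A0 p R n) (LinearMap.range F) ≤
      Module.length (A0 p R n) (Sub C ⧸ Z ^ N) := by
    refine le_trans ?_ (Module.length_le_of_injective (LinearMap.range G).subtype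
      (LinearMap.range G).injective_subtype)
    rw [← (LinearMap.quotKerEquivRange F).length_eq, ← (LinearMap.quotKerEquivRange G).length_eq]
    exact Module.length_le_of_surjective _ (Submodule.factor_surjective hker)
  have h2 : Module.length (A0 p R n) ((R ⧸ I) ⧸ LinearMap.range F) ≤
      Module.length (A0 p R n) (R ⧸ (Ideal.span {C.φ C.h} ⊔ maximalIdeal R ^ (c + N))) := by
    let π : R →ₗ[A0 p R n] (R ⧸ I) ⧸ LinearMap.range F :=
      (LinearMap.range F).mkQ ∘ₗ (Ideal.Quotient.mkₐ (A0 p R n) I).toLinearMap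
    have hπ : (Ideal.span {C.φ C.h} ⊔ maximalIdeal R ^ (c + N)).restrictScalars (A0 p R n) ≤
        LinearMap.ker π := fun x hx => by
      obtain ⟨u, hu, v, hv, rfl⟩ := Submodule.mem_sup.1 hx
      obtain ⟨y, rfl⟩ := Ideal.mem_span_singleton'.1 hu
      refine (Submodule.Quotient.mk_eq_zero _).2 ⟨y, ?_⟩
      rw [hF, mul_comm]
      show Ideal.Quotient.mk I (y * C.φ C.h) = Ideal.Quotient.mk I (y * C.φ C.h + v)
      rw [map_add, Ideal.Quotient.eq_zero_iff_mem.2 (pow_le_z hc N hv), add_zero]
    rw [← (Submodule.Quotient.restrictScalarsEquiv (A0 p R n)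
      (Ideal.span {C.φ C.h} ⊔ maximalIdeal R ^ (c + N))).length_eq]
    refine Module.length_le_of_surjective (Submodule.liftQ _ π hπ) fun y => ?_
    obtain ⟨y, rfl⟩ := Submodule.mkQ_surjective _ y
    obtain ⟨y, rfl⟩ := Ideal.Quotient.mk_surjective y
    exact ⟨Submodule.Quotient.mk y, rfl⟩
  have h3 := Module.length_eq_add_of_exact (LinearMap.range F).subtype (LinearMap.range F).mkQ
    (LinearMap.range F).injective_subtype (Submodule.mkQ_surjective _)
    (LinearMap.exact_subtype_mkQ _)
  have hz : z ≤ maximalIdeal R := Ideal.span_le.2 (by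
    rintro _ ⟨l, rfl⟩
    exact C.isRed.1 l)
  calc Module.length R (R ⧸ maximalIdeal R ^ N)
      ≤ Module.length R (R ⧸ I) := length_quotient_mono (Ideal.pow_right_mono hz N)
    _ = Module.length (A0 p R n) (R ⧸ I) := (length_eq C _ (hA I)).symm
    _ ≤ _ := by
      rw [h3, ← length_eq C _ (hA (Ideal.span {C.φ C.h} ⊔ maximalIdeal R ^ (c + N)))]
      exact add_le_add h1 h2

theorem length_sub_ne_top [IsNoetherianRing (A0 p R n)] (C : CoreData p R n) (N : ℕ) (J : Ideal (Sub C))
    (hJ : Ideal.span (Set.range (zS C)) ^ N ≤ J) :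
    Module.length (A0 p R n) (Sub C ⧸ J) ≠ ⊤ := by
  obtain ⟨w, -, hw⟩ := exists_pow_le C
  have := (eqn_monic C).finite_adjoinRoot
  obtain ⟨r, v, hv⟩ := Module.Finite.exists_fin (R := A0 p R n) (M := Sub C)
  refine ne_top_of_le_ne_top ?_ (length_le_gen (M := Sub C ⧸ J)
    (maximalIdeal (A0 p R n) ^ (w * N)) (fun a ha x => ?_)
    (fun i => Ideal.Quotient.mk J (v i)) ?_)
  · exact WithTop.mul_ne_top (ENat.natCast_ne_top r) (length_quot_ne_top _)
  · obtain ⟨y, rfl⟩ := Ideal.Quotient.mk_surjective x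
    rw [← Ideal.Quotient.mkₐ_eq_mk (A0 p R n), ← map_smul, Ideal.Quotient.mkₐ_eq_mk,
      Ideal.Quotient.eq_zero_iff_mem, Algebra.smul_def]
    refine Ideal.mul_mem_right _ _ (hJ (Ideal.pow_right_mono hw N ?_))
    rw [← pow_mul, ← Ideal.map_pow]
    exact Ideal.mem_map_of_mem _ ha
  · rintro x -
    obtain ⟨y, rfl⟩ := Ideal.Quotient.mk_surjective x
    have hy := Submodule.apply_mem_span_image_of_mem_span
      (Ideal.Quotient.mkₐ (A0 p R n) J).toLinearMap
      (hv.symm ▸ Submodule.mem_top : y ∈ Submodule.span (A0 p R n) (Set.range v))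
    rw [← Set.range_comp] at hy
    exact hy

/-- The lower growth of the subring modulo the powers of the reduction. -/
theorem lower [IsNoetherianRing (A0 p R n)] [IsNoetherianRing R] (C : CoreData p R n) {e : ℝ}
    (he : IsMultiplicity R (n + 1) e) {ε : ℝ} (hε : 0 < ε) :
    ∀ᶠ N : ℕ in atTop, (e - ε) * (N : ℝ) ^ (n + 1) / ((n + 1).factorial : ℝ) +
      (len (A0 p R n) (Sub C ⧸ (Ideal.span {algebraMap (A0 p R n) (Sub C)
        (baseIso p (ResidueField R) n C.Φ.discr)} ⊔ Ideal.span (Set.range (zS C)) ^ N)) : ℝ) ≤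
      (len (A0 p R n) (Sub C ⧸ Ideal.span (Set.range (zS C)) ^ N) : ℝ) := by
  obtain ⟨-, c, hc⟩ := C.isRed
  have hfac : (0 : ℝ) < ((n + 1).factorial : ℝ) := by positivity
  have hD : baseIso p (ResidueField R) n C.Φ.discr ≠ 0 :=
    (map_ne_zero_iff _ baseIso_bijective.1).2 C.discr_ne_zero
  have h1 := tendsto_index (fun j => (len R (R ⧸ (Ideal.span {C.φ C.h} ⊔ maximalIdeal R ^ j)) : ℝ))
    (fun j => Nat.cast_nonneg _) (n + 1) C.grow_h zero_lt_one c
  have h2 := grow_sub C hD
  have h3 := (h1.add h2).const_mul (((n + 1).factorial : ℝ))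
  rw [add_zero, mul_zero] at h3
  filter_upwards [he.eventually_const_le (show e - ε / 2 < e by linarith),
    h3.eventually_le_const (show (0 : ℝ) < ε / 2 by linarith), eventually_ge_atTop 1]
    with N hN1 hN2 hN
  have hNp : (0 : ℝ) < (N : ℝ) ^ (n + 1) := by
    have : (0 : ℝ) < N := Nat.cast_pos.2 hN
    positivity
  have hle := length_pow_le C hc N
  have hfin : Module.length R (R ⧸ (Ideal.span {C.φ C.h} ⊔ maximalIdeal R ^ (c + N))) ≠ ⊤ :=
    length_quotient_ne_top _ (c + N) le_sup_right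
  have hlen : (len R (R ⧸ maximalIdeal R ^ N) : ℝ) ≤
      (len (A0 p R n) (Sub C ⧸ Ideal.span (Set.range (zS C)) ^ N) : ℝ) +
        (len R (R ⧸ (Ideal.span {C.φ C.h} ⊔ maximalIdeal R ^ (1 * N + c))) : ℝ) := by
    rw [one_mul, add_comm N c, ← Nat.cast_add]
    refine Nat.cast_le.2 ?_
    have hs := length_sub_ne_top C N _ le_rfl
    rw [len, len, len, ← ENat.toNat_add hs hfin]
    exact ENat.toNat_le_toNat hle (WithTop.add_ne_top.2 ⟨hs, hfin⟩)
  rw [le_div_iff₀ hNp] at hN1
  rw [← add_div, ← mul_div_assoc, div_le_iff₀ hNp] at hN2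
  rw [div_add' _ _ _ hfac.ne', div_le_iff₀ hfac]
  change (e - ε / 2) * _ ≤ _ * (len R (R ⧸ maximalIdeal R ^ N) : ℝ) at hN1
  nlinarith [mul_le_mul_of_nonneg_left hlen hfac.le]

/-- The pushforwards of a module over the ring killed by the power `c` of the maximal ideal. -/
theorem sum_push_le [IsNoetherianRing (A0 p R n)] [IsNoetherianRing R] (C : CoreData p R n)
    {q J N c L : ℕ} {η : ℝ≥0∞} (S : Sheets C q J N c L η) (Q : Type u) [AddCommGroup Q]
    [Module R Q] [Module.Finite R Q] [Module (A0 p R n) Q] [Module (Sub C) Q]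
    [IsScalarTower (A0 p R n) (Sub C) Q] (hS : ∀ (s : Sub C) (x : Q), s • x = toR C s • x)
    (hc : ∀ r ∈ maximalIdeal R ^ c, ∀ x : Q, r • x = 0) :
    ∑ i, lam (lvl p (ResidueField R) (Fin n)) (cc p (Fin n)) (Push (S.φ i) Q) ≤
      (S.nT : ℝ≥0∞) * ((Module.length R Q : ℝ≥0∞) + C.Φ.natDegree *
        (Module.length R (Q ⧸ (Ideal.span {C.φ C.Φ.discr} • ⊤ : Submodule R Q)) : ℝ≥0∞)) := by
  have hA : ∀ (a : A0 p R n) (x : Q), a • x = baseR C a • x := fun a x => by
    rw [← IsScalarTower.algebraMap_smul (Sub C) a x, hS, toR_of]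
  have := finite_of_smul C Q hA
  refine (S.sum_le Q (killed C hA hc)).trans_eq ?_
  let _ : Algebra (A0 p R n) R := (baseR C).toAlgebra
  have : IsScalarTower (A0 p R n) R Q :=
    IsScalarTower.of_algebraMap_smul fun a x => (hA a x).symm
  set D := baseIso p (ResidueField R) n C.Φ.discr
  set W : Submodule R Q := Ideal.span {C.φ C.Φ.discr} • ⊤
  have hW : LinearMap.range (LinearMap.lsmul (A0 p R n) Q D) = W.restrictScalars (A0 p R n) := by
    ext x
    simp only [W]
    rw [Submodule.restrictScalars_mem, Submodule.ideal_span_singleton_smul,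
      Submodule.mem_smul_pointwise_iff_exists, LinearMap.mem_range]
    refine ⟨fun ⟨y, hy⟩ => ⟨y, Submodule.mem_top, ?_⟩, fun ⟨y, _, hy⟩ => ⟨y, ?_⟩⟩
    · rw [← hy, LinearMap.lsmul_apply, hA, baseR_baseIso]
    · rw [← hy, LinearMap.lsmul_apply, hA, baseR_baseIso]
  rw [length_eq C Q hA, (Submodule.quotEquivOfEq _ _ hW).length_eq,
    (Submodule.Quotient.restrictScalarsEquiv (A0 p R n) W).length_eq,
    length_eq C (Q ⧸ W) fun a x => (IsScalarTower.algebraMap_smul R a x).symm]

/-- Cutting a quotient once more. -/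
theorem length_quot_sup (M : Type v) [AddCommGroup M] [Module R M] (I : Ideal R) (a : R) :
    Module.length R ((M ⧸ (I • ⊤ : Submodule R M)) ⧸
        (Ideal.span {a} • ⊤ : Submodule R (M ⧸ (I • ⊤ : Submodule R M)))) =
      Module.length R (M ⧸ ((Ideal.span {a} ⊔ I) • ⊤ : Submodule R M)) := by
  set P : Submodule R M := I • ⊤
  have h1 : ((Ideal.span {a} ⊔ I) • ⊤ : Submodule R M) = P ⊔ Ideal.span {a} • ⊤ := by
    rw [Submodule.sup_smul, sup_comm]
  have h2 : (Ideal.span {a} • ⊤ : Submodule R (M ⧸ P)) =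
      ((P ⊔ Ideal.span {a} • ⊤ : Submodule R M)).map P.mkQ := by
    rw [Submodule.map_sup, Submodule.mkQ_map_self, bot_sup_eq, Submodule.map_smul'',
      Submodule.map_top, Submodule.range_mkQ]
  rw [h1, h2]
  exact (Submodule.quotientQuotientEquivQuotient P _ le_sup_left).length_eq

theorem killed_quot (M : Type v) [AddCommGroup M] [Module R M] {I : Ideal R} {c : ℕ}
    (hc : (maximalIdeal R ^ c • ⊤ : Submodule R M) ≤ I • ⊤) :
    ∀ r ∈ maximalIdeal R ^ c, ∀ x : M ⧸ (I • ⊤ : Submodule R M), r • x = 0 := fun r hr x => by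
  obtain ⟨y, rfl⟩ := Submodule.mkQ_surjective _ x
  rw [← map_smul]
  exact (Submodule.Quotient.mk_eq_zero _).2 (hc (Submodule.smul_mem_smul hr Submodule.mem_top))

/-- The powers of parameters still bound a power of the maximal ideal. -/
theorem exists_killed {M : Type v} [AddCommGroup M] [Module R M] {m : ℕ} (x : Fin m → R)
    (hc : ∃ c, (maximalIdeal R ^ c • ⊤ : Submodule R M) ≤ Ideal.span (Set.range x) • ⊤) (a : ℕ) :
    ∃ c, (maximalIdeal R ^ c • ⊤ : Submodule R M) ≤
      Ideal.span (Set.range fun i => x i ^ a) • ⊤ := by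
  obtain ⟨c, hc⟩ := hc
  have hrad : Ideal.span (Set.range x) ≤ (Ideal.span (Set.range fun i => x i ^ a)).radical :=
    Ideal.span_le.2 (by rintro _ ⟨i, rfl⟩; exact ⟨a, Ideal.subset_span ⟨i, rfl⟩⟩)
  obtain ⟨k, hk⟩ := Ideal.exists_pow_le_of_le_radical_of_fg hrad
    (Submodule.fg_span (Set.finite_range x))
  have h : ∀ j, (maximalIdeal R ^ (c * j) • ⊤ : Submodule R M) ≤
      Ideal.span (Set.range x) ^ j • ⊤ := by
    intro j
    induction j with
    | zero => simp
    | succ j ih =>
      calc (maximalIdeal R ^ (c * (j + 1)) • ⊤ : Submodule R M)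
          = maximalIdeal R ^ (c * j) • (maximalIdeal R ^ c • ⊤ : Submodule R M) := by
            rw [Nat.mul_succ, pow_add, mul_smul]
        _ ≤ maximalIdeal R ^ (c * j) • (Ideal.span (Set.range x) • ⊤ : Submodule R M) :=
            Submodule.smul_mono le_rfl hc
        _ = Ideal.span (Set.range x) • (maximalIdeal R ^ (c * j) • ⊤ : Submodule R M) := by
            rw [← mul_smul, ← mul_smul, mul_comm]
        _ ≤ Ideal.span (Set.range x) • (Ideal.span (Set.range x) ^ j • ⊤ : Submodule R M) :=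
            Submodule.smul_mono le_rfl ih
        _ = _ := by rw [← mul_smul, ← pow_succ']
  exact ⟨c * k, (h k).trans (Submodule.smul_mono_left hk)⟩

end Vale.Agent.P202.Mixed2.MainStep
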