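import Vale.Agent.P202.Mixed2.MainPush
import Vale.Agent.P202.Mixed2.MainDefs
import Vale.Agent.P202.Mixed2.MainCx
import Vale.Agent.P202.Mixed2.MainRing

/-!
P202, mixed characteristic, main step: the lifts on the sheets that one minimal resolution gives
at every scale and every exponent.
-/

open scoped ENNReal TensorProduct

namespace Vale.Agent.P202.Mixed2.MainStep

open IsLocalRing Lambda BaseTower Perf Perf.Base Vale.Agent.P202.Char Vale.Agent.P202.Ext.Resolution

universe u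

theorem radical_powers {A : Type u} [CommRing A] {m : ℕ} (x : Fin m → A) (e : Fin m → ℕ)
    {l : List (Fin m)} (hlen : l.length = m) (hnd : l.Nodup) :
    Ideal.span (Set.range x) ≤ (Ideal.ofList (l.map fun j => x j ^ e j)).radical := by
  have huniv : l.toFinset = Finset.univ :=
    Finset.eq_univ_of_card _ (by rw [List.toFinset_card_of_nodup hnd, hlen, Fintype.card_fin])
  refine Ideal.span_le.2 ?_
  rintro _ ⟨j, rfl⟩
  refine ⟨e j, Ideal.subset_span (List.mem_map.2 ⟨j, ?_, rfl⟩)⟩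
  exact List.mem_toFinset.1 (huniv ▸ Finset.mem_univ j)

theorem ofList_powers {A : Type u} [CommRing A] {m : ℕ} (x : Fin m → A) (a : ℕ) :
    Ideal.ofList ((List.finRange m).map fun j => x j ^ a) =
      Ideal.span (Set.range fun j => x j ^ a) := by
  refine congrArg Ideal.span ?_
  ext y
  simp

/-- Exponents for the null homotopies of the cones along the powers of a tuple. -/
theorem exists_null_exp {A : Type u} [CommRing A] [IsLocalRing A] {F : MCx A} {M : Type u}
    [AddCommGroup M] [Module A M] [Module.Finite A M] {ε : (F.β → A) →ₗ[A] M} (hF : IsRes F ε)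
    {m : ℕ} (x : Fin m → A) {c : ℕ}
    (hc : (maximalIdeal A ^ c • ⊤ : Submodule A M) ≤ Ideal.span (Set.range x) • ⊤)
    {ι : Type} [Fintype ι] (z : ι → A) (hz : ∀ k, z k ∈ maximalIdeal A) (a : ℕ) :
    ∃ N : ℕ, ∀ l : List (Fin m), l.length = m → l.Nodup → ∀ e : Fin m → ℕ,
      (∀ j, e j = 1 ∨ e j = a) → ∀ k,
        ((l.map fun j => x j ^ e j).foldr cone F).IsNullHtpic (z k ^ N) := by
  classical
  have hall : ∀ le : {l : List (Fin m) // l.Nodup} × (Fin m → Bool), ∃ N : ℕ,
      le.1.1.length = m → ∀ k,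
        (kcx (le.1.1.map fun j => x j ^ if le.2 j then 1 else a) F).IsNullHtpic (z k ^ N) := by
    intro le
    by_cases hl : le.1.1.length = m
    · obtain ⟨N, hN⟩ := kcx_null_list hF _ hc _
        (radical_powers x (fun j => if le.2 j then 1 else a) hl le.1.2) z hz
      exact ⟨N, fun _ => hN⟩
    · exact ⟨0, fun h => absurd h hl⟩
  choose Ne hNe using hall
  refine ⟨∑ le, Ne le, fun l hl hnd ev he k => ?_⟩
  let le : {l : List (Fin m) // l.Nodup} × (Fin m → Bool) :=
    (⟨l, hnd⟩, fun j => decide (ev j = 1))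
  have h1 := hNe le hl k
  have hev : (fun j => x j ^ if le.2 j then 1 else a) = fun j => x j ^ ev j := by
    funext j
    rcases he j with h | h <;> by_cases h' : ev j = 1 <;> simp_all [le]
  rw [hev] at h1
  have hle : Ne le ≤ ∑ le, Ne le :=
    Finset.single_le_sum (fun _ _ => Nat.zero_le _) (Finset.mem_univ _)
  have h2 := Ext.null_mul _ (z k ^ ((∑ le, Ne le) - Ne le)) h1
  rwa [← pow_add, Nat.sub_add_cancel hle] at h2

/-- A minimal resolution with the homotopies on its cones. -/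
theorem exists_resolution {A : Type u} [CommRing A] [IsLocalRing A] [IsNoetherianRing A]
    (M : Type u) [AddCommGroup M] [Module A M] [Module.Finite A M] [Nontrivial M] {s m : ℕ}
    (hS : Ext.SyzFree A s M) (x : Fin m → A)
    (hc : ∃ c, (maximalIdeal A ^ c • ⊤ : Submodule A M) ≤ Ideal.span (Set.range x) • ⊤)
    {ι : Type} [Fintype ι] (z : ι → A) (hz : ∀ k, z k ∈ maximalIdeal A) :
    ∃ (F : MCx A) (M₀ : ℕ), 0 < F.rank 0 ∧ (∀ b, F.deg b ≤ s) ∧
      (∀ a b, F.D a b ∈ maximalIdeal A) ∧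
      (∀ k, (((List.finRange m).map x).foldr cone F).IsNullHtpic (z k ^ M₀)) ∧
      (∀ a : ℕ, ∃ N : ℕ, ∀ l : List (Fin m), l.length = m → l.Nodup → ∀ e : Fin m → ℕ,
        (∀ j, e j = 1 ∨ e j = a) → ∀ k,
          ((l.map fun j => x j ^ e j).foldr cone F).IsNullHtpic (z k ^ N)) ∧
      ∀ a : ℕ, Nonempty (H0 (((List.finRange m).map fun j => x j ^ a).foldr cone F) ≃ₗ[A]
        M ⧸ (Ideal.span (Set.range fun j => x j ^ a) • ⊤ : Submodule A M)) := by
  obtain ⟨F, ε, hdeg, hent, hF⟩ := exists_res s M hS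
  obtain ⟨c, hc⟩ := hc
  have hrad := radical_powers x (fun _ => 1) (List.length_finRange (n := m)) (List.nodup_finRange m)
  simp only [pow_one] at hrad
  obtain ⟨M₀, hM₀⟩ := kcx_null_list hF _ hc ((List.finRange m).map x) hrad z hz
  refine ⟨F, M₀, rank_zero_pos hF, hdeg, hent, hM₀, exists_null_exp hF x hc z hz, fun a => ?_⟩
  obtain ⟨e⟩ := h0_kcx_res hF ((List.finRange m).map fun j => x j ^ a)
  exact ⟨e.trans (Submodule.quotEquivOfEq _ _ (by rw [ofList_powers]))⟩

variable {p : ℕ} [Fact p.Prime] {R : Type u} [CommRing R] [IsLocalRing R]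
  [CharP (ResidueField R) p] [PerfectRing (ResidueField R) p] {n : ℕ}

/-- On each sheet a lift with bounded size whose homology in degree zero, times the power of the
exponent, is at most the pushforward of the module modulo the powers of the parameters. -/
theorem exists_lifts [IsNoetherianRing (A0 p R n)] [IsNoetherianRing R] (C : CoreData p R n)
    (M : Type u) [AddCommGroup M] [Module R M] [Module.Finite R M] [Nontrivial M] {s m : ℕ}
    (hms : m + s = n + 1) (hm : 0 < m) (hS : Ext.SyzFree R s M) (x : Fin m → R)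
    (hx : ∀ i, x i ∈ maximalIdeal R)
    (hc : ∃ c, (maximalIdeal R ^ c • ⊤ : Submodule R M) ≤ Ideal.span (Set.range x) • ⊤) :
    ∃ b₀ r M₀ : ℕ, 0 < b₀ ∧ ∀ q a : ℕ, 0 < a → ∃ L₀ : ℕ, ∀ L, L₀ ≤ L → ∃ k K : ℕ,
      ∀ (N c : ℕ) (η : ℝ≥0∞) (S : Sheets C q (q - 2 * n - 2) N c L η)
        (Q : Type u) [AddCommGroup Q] [Module R Q] [Module (A0 p R n) Q] [Module (Sub C) Q]
        [IsScalarTower (A0 p R n) (Sub C) Q], (∀ (t : Sub C) (v : Q), t • v = toR C t • v) →
        (Q ≃ₗ[R] M ⧸ (Ideal.span (Set.range fun j => x j ^ a) • ⊤ : Submodule R M)) →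
        ∀ i, ∃ P : Win.Lift (S.U i) (S.β i ^ (k + 1)) L (q - 2 * n - 2) (q * M₀),
          Fintype.card P.ι ≤ r ∧
          (∑ b, if P.deg b = 0 then (1 : ℤ) else 0) = (b₀ : ℤ) ∧
          (∑ b, (-1 : ℤ) ^ P.deg b) = 0 ∧
          ∀ B, B ≤ L → (a : ℝ≥0∞) ^ m * (meas p R n S.X.T).val (P.h0B B) ≤
            lam (lvl p (ResidueField R) (Fin n)) (cc p (Fin n)) (Push (S.φ i) Q) +
              (K : ℝ≥0∞) * ((S.nT : ℝ≥0∞) * η) := by
  obtain ⟨F, M₀, hb₀, hdeg, hent, hM₀, hall, hiso⟩ := exists_resolution M hS x hc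
    (fun l => toR C (zS C l)) (fun l => (toR_zS C l).symm ▸ C.isRed.1 l)
  refine ⟨F.rank 0, 2 ^ m * Fintype.card F.β, M₀, hb₀, fun q a ha => ?_⟩
  refine (hall a).elim fun M₁ hM₁ => ?_
  refine ⟨(n + 1) * (q * M₁) * a, fun L hL => ⟨1, MainPush.pushK n L a m (F.rank 0),
    fun N c' η S Q _ _ _ _ _ hsub e i => ?_⟩⟩
  refine (S.almost i).elim fun al => (hiso a).elim fun e' => ?_
  let eQ := e'.trans e.symm
  have key := MainPush.exists_push_lift (S' := Sub C) (Q := Q) (U := S.U i) (β := S.β i) (L := L)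
    (J := q - 2 * n - 2) (BaseTower.isTower p (ResidueField R) (Fin n)) F x hm
    (fun b => by have := hdeg b; omega) (maximalIdeal R) hent hx (toR C) (zS C) (α := a)
    (M₀ := M₀) (M := M₁) (q := q) ha hM₀ hM₁
    (S.φ i) (S.φ_z i) (S.σ i) (S.σ_toR i) (S.σ_one i) (S.σ_mul i) (S.σ_max i) (S.reg i) al.fin
    hL (fun l => h0_kcx l _) eQ.toAddEquiv
    (fun t v => (map_smul eQ (toR C t) v).trans (hsub t (eQ v)).symm)
  refine key.elim fun P hP => ⟨P, hP.1.le, hP.2.1, hP.2.2.1, fun B hB => ?_⟩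
  exact (hP.2.2.2 B hB).trans (add_le_add le_rfl (mul_le_mul' le_rfl (S.small i)))

end Vale.Agent.P202.Mixed2.MainStep
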