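import Vale.Agent.P202.Mixed2.MainDefs
import Vale.Agent.P202.Mixed2.FiltLimit
import Vale.Agent.P202.Mixed2.Cover.AlmostFree
import Vale.Agent.P202.Mixed2.Cover.Nilpotent

/-!
P202, mixed characteristic, main step: the sheet coordinates of the cover are almost regular.

For parameters `y` of the cover and their roots `u`, the ideal of `U = sharp u` on the untilt contains
a power of the maximal ideal of the bottom level, its quotient has finite measure, and `U` is regular
up to elements whose quotients have measure tending to zero.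
-/

open scoped ENNReal
open Filter Topology

namespace Vale.Agent.P202.Mixed2

open Ideal IsLocalRing Lambda BaseTower Vale.Agent.P202.Perf.Base

universe u

namespace CoverExt

variable {p : ℕ} [hp : Fact p.Prime] {k : Type u} [Field k] [CharP k p] [PerfectRing k p] {d : ℕ}
variable (E : CoverExt p k (d + 1)) (y : Fin (d + 1) → E.B) (q₀ : ℕ)

/-- The roots of the parameters in the untilt. -/
noncomputable abbrev rootU : Fin (d + 1) → E.O :=
  Filt.US (p := p) (E.inB (cX 0)) fun l => Filt.root p q₀ (y l)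

variable {y}

/-- A power of the maximal ideal of the bottom level maps into the ideal of the roots. -/
theorem exists_pow_map_le (hX : ∀ l, ∃ N : ℕ, E.inB (cX l) ^ N ∈ span (Set.range y)) :
    ∃ L₀ : ℕ, (maximalIdeal (An p k (Fin d) 0) ^ L₀).map (algebraMap (An p k (Fin d) 0) E.O) ≤
      aI (E.rootU y q₀) := by
  have hroot : ∀ l, ∃ N : ℕ,
      E.inB (cX l) ^ N ∈ span (Set.range fun l => Filt.root p q₀ (y l)) ^ (d + 1) := fun l => by
    obtain ⟨N, hN⟩ := hX l
    refine ⟨N * (d + 1), ?_⟩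
    rw [pow_mul]
    refine Ideal.pow_mem_pow (Ideal.span_le.2 ?_ hN) _
    rintro _ ⟨i, rfl⟩
    rw [← Filt.root_pow p q₀ (y i)]
    exact Ideal.pow_mem_of_mem _ (Ideal.mem_span_range_self (x := i)) _ (pow_pos hp.out.pos q₀)
  have hrad : ∀ l, sharp (p := p) (E.inB (cX 0)) (E.inB (cX l)) ∈
      (aI (E.rootU y q₀)).radical := fun l => by
    obtain ⟨N₀, hN₀⟩ := hroot 0
    have hpN := Filt.p_pow_mem (p := p) (Fact.out : E.inB (cX (0 : Fin (d + 1))) ≠ 0) hN₀
    obtain ⟨N, hN⟩ := hroot l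
    refine ⟨N, ?_⟩
    have h := Filt.sharp_mem hpN hN
    rwa [Nat.add_sub_cancel_left, pow_one, map_pow] at h
  have hle : (maximalIdeal (An p k (Fin d) 0)).map (algebraMap (An p k (Fin d) 0) E.O) ≤
      (aI (E.rootU y q₀)).radical := by
    refine Ideal.map_le_iff_le_comap.2 fun f hf => ?_
    have h1 := Ideal.mem_map_of_mem (mapUntilt E.inB (cX (0 : Fin (d + 1)))) (colMap_maximal hf)
    refine (show (aI (baseU p k d)).map (mapUntilt E.inB (cX (0 : Fin (d + 1)))) ≤
      (aI (E.rootU y q₀)).radical from ?_) h1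
    rw [Ideal.map_span, Ideal.span_le]
    rintro _ ⟨_, ⟨l, rfl⟩, rfl⟩
    rw [baseU, Filt.US, mapUntilt_sharp]
    exact hrad l
  have : IsNoetherianRing (An p k (Fin d) 0) := inferInstance
  obtain ⟨L₀, hL₀⟩ := Ideal.exists_pow_le_of_le_radical_of_fg hle
    (Ideal.FG.map (IsNoetherian.noetherian _) _)
  exact ⟨L₀, by rwa [Ideal.map_pow]⟩

/-- A quotient of an almost free algebra has finite measure. -/
theorem lam_quot_ne_top_of_free {nT L : ℕ} {γ : ℕ → Acol p k (Fin d)}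
    (hγ : AlmostUnit (lvl p k (Fin d)) (cc p (Fin d)) (maximalIdeal (An p k (Fin d) 0) ^ L) γ)
    (hfree : AlmostFreeMod E.O (maximalIdeal (An p k (Fin d) 0) ^ L) nT γ) {a : Ideal E.O}
    (ha : (maximalIdeal (An p k (Fin d) 0) ^ L).map (algebraMap (An p k (Fin d) 0) E.O) ≤ a) :
    lam (lvl p k (Fin d)) (cc p (Fin d)) (E.O ⧸ a) ≠ ⊤ := by
  obtain ⟨f, g, -, hfg⟩ := hfree
  have h1 : lam (lvl p k (Fin d)) (cc p (Fin d)) (E.O ⧸ (maximalIdeal (An p k (Fin d) 0) ^ L).map (algebraMap (An p k (Fin d) 0) E.O)) ≤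
      lam (lvl p k (Fin d)) (cc p (Fin d))
        (Fin nT → Acol p k (Fin d) ⧸ extI (Acol p k (Fin d)) (maximalIdeal (An p k (Fin d) 0) ^ L)) := by
    refine lam_le_of_almost_injective (isTower p k (Fin d)) exists_mem _
      (length_quot_ne_top L) ?_ γ hγ g fun P x hx => by rw [← hfg, hx, map_zero]
    intro r hr x
    obtain ⟨t, rfl⟩ := Ideal.Quotient.mk_surjective x
    rw [← Ideal.Quotient.mkₐ_eq_mk (An p k (Fin d) 0), ← map_smul, Ideal.Quotient.mkₐ_eq_mk,
      Ideal.Quotient.eq_zero_iff_mem, Algebra.smul_def]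
    exact Ideal.mul_mem_right _ _ (Ideal.mem_map_of_mem _ hr)
  refine ne_top_of_le_ne_top ?_ ((lam_le_of_surjective
    (Ideal.Quotient.factorₐ (Acol p k (Fin d)) ha).toLinearMap
    (Ideal.Quotient.factor_surjective ha)).trans h1)
  rw [lam_pi (isTower p k (Fin d))]
  exact ENNReal.mul_ne_top (ENNReal.natCast_ne_top nT) (lam_quot_ne_top L)

/-- The quotient by the roots has finite measure. -/
theorem lam_quot_rootU_ne_top (hX : ∀ l, ∃ N : ℕ, E.inB (cX l) ^ N ∈ span (Set.range y)) :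
    lam (lvl p k (Fin d)) (cc p (Fin d)) (E.O ⧸ aI (E.rootU y q₀)) ≠ ⊤ := by
  obtain ⟨L₀, hL₀⟩ := E.exists_pow_map_le q₀ hX
  obtain ⟨nT, -, hfree⟩ := E.exists_almostFree
  obtain ⟨γ, hγ, hf, -⟩ := hfree L₀ _ le_rfl
  exact E.lam_quot_ne_top_of_free hγ hf hL₀

/-- Roots of a divisor of a nonzero element of the base are small losses. -/
theorem tendsto_lam_loss (hX : ∀ l, ∃ N : ℕ, E.inB (cX l) ^ N ∈ span (Set.range y))
    {a : Cinf p k (d + 1)} (ha : a ≠ 0) (bs : ℕ → E.O)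
    (hbs : ∀ j, bs j ∣ sharp (E.inB (cX 0)) (Filt.root p j (E.inB a))) :
    Tendsto (fun j => lam (lvl p k (Fin d)) (cc p (Fin d))
      (E.O ⧸ (span {bs j} ⊔ aI (E.rootU y q₀)))) atTop (𝓝 0) := by
  obtain ⟨L₀, hL₀⟩ := E.exists_pow_map_le q₀ hX
  obtain ⟨nT, -, hfree⟩ := E.exists_almostFree
  obtain ⟨γ, hγ, ⟨f, g, -, hfg⟩, -⟩ := hfree L₀ _ le_rfl
  obtain ⟨w, hw⟩ := almostUnit_approx (p := p) (k := k) (d := d) ha
  choose β hβ using fun j => colMap_surjective_mod (max L₀ w)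
    (sharp (cX (0 : Fin (d + 1))) (Filt.root p j a))
  have hlim := Filt.lam_loss_tendsto (isTower p k (Fin d)) exists_mem _ (length_quot_ne_top L₀) γ hγ
    nT f g hfg β (hw L₀ _ le_rfl β fun j => (pow_dvd_pow _ (le_max_right L₀ w)).trans (hβ j))
    (fun j => algebraMap (Acol p k (Fin d)) E.O (β j)) (fun j => dvd_rfl) (aI (E.rootU y q₀)) hL₀
  refine tendsto_of_tendsto_of_tendsto_of_le_of_le tendsto_const_nhds hlim (fun _ => zero_le)
    fun j => ?_
  have hle : span {algebraMap (Acol p k (Fin d)) E.O (β j)} ⊔ aI (E.rootU y q₀) ≤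
      span {bs j} ⊔ aI (E.rootU y q₀) := by
    refine sup_le ((span_singleton_le_iff_mem _).2 ?_) le_sup_right
    have h1 := map_dvd (mapUntilt E.inB (cX (0 : Fin (d + 1))))
      ((pow_dvd_pow _ (le_max_left L₀ w)).trans (hβ j))
    rw [map_pow, map_natCast, map_sub, mapUntilt_sharp, ← E.algebraMap_col] at h1
    have hroot : E.inB (Filt.root p j a) = Filt.root p j (E.inB a) :=
      iterateFrobenius_inj E.B p j (by
        rw [iterateFrobenius_def, iterateFrobenius_def, Filt.root_pow, ← map_pow, Filt.root_pow])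
    rw [hroot] at h1
    rw [show algebraMap (Acol p k (Fin d)) E.O (β j) =
      sharp (E.inB (cX 0)) (Filt.root p j (E.inB a)) +
        (algebraMap (Acol p k (Fin d)) E.O (β j) -
          sharp (E.inB (cX 0)) (Filt.root p j (E.inB a))) by ring]
    refine add_mem (Ideal.mem_sup_left (mem_span_singleton.2 (hbs j))) (Ideal.mem_sup_right ?_)
    refine Ideal.mem_of_dvd _ h1 (hL₀ ?_)
    rw [← map_natCast (algebraMap (An p k (Fin d) 0) E.O), ← map_pow]
    exact Ideal.mem_map_of_mem _ (Ideal.pow_mem_pow (by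
      rw [← pow_one (IsLocalRing.maximalIdeal _), ← le_ord_iff_mem_pow, ord_p, pow_zero]) L₀)
  exact lam_le_of_surjective
    (Ideal.Quotient.factorₐ (Acol p k (Fin d)) hle).toLinearMap
    (Ideal.Quotient.factor_surjective hle)

/-- The roots of the parameters are almost regular for the normalised length. -/
theorem exists_almost (hy : ∀ i, ∃ N : ℕ, y i ^ N ∈ span (Set.range fun l => E.inB (cX l)))
    (hX : ∀ l, ∃ N : ℕ, E.inB (cX l) ^ N ∈ span (Set.range y)) {J : ℕ} (hJ : 2 * d + 2 ≤ J)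
    (hpJ : (p : E.O) ∈ aI (E.rootU y q₀) ^ J) :
    Nonempty (Almost (lamMeas E.O (isTower p k (Fin d))) (E.rootU y q₀)) := by
  obtain ⟨δ, a, ha, hdvd, hreg⟩ := Side.exists_regUpTo E y hy hX
  refine ⟨⟨fun j => sharp (E.inB (cX 0)) (Filt.root p j δ), fun j L => hreg q₀ J hJ hpJ j L, ?_, ?_⟩⟩
  · simp only [lamMeas_val]
    exact E.tendsto_lam_loss q₀ hX ha _ hdvd
  · rw [lamMeas_val]
    exact E.lam_quot_rootU_ne_top q₀ hX

/-- A loss of the regularity as small as prescribed. -/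
theorem exists_reg_loss (hy : ∀ i, ∃ N : ℕ, y i ^ N ∈ span (Set.range fun l => E.inB (cX l)))
    (hX : ∀ l, ∃ N : ℕ, E.inB (cX l) ^ N ∈ span (Set.range y)) {J : ℕ} (hJ : 2 * d + 2 ≤ J)
    (hpJ : (p : E.O) ∈ aI (E.rootU y q₀) ^ J) {η : ℝ≥0∞} (hη : η ≠ 0) :
    ∃ b : E.O, (∀ L, RegUpTo (E.rootU y q₀) b L) ∧
      (lamMeas E.O (isTower p k (Fin d))).val (E.O ⧸ (span {b} ⊔ aI (E.rootU y q₀))) ≤ η := by
  obtain ⟨A⟩ := E.exists_almost q₀ hy hX hJ hpJ
  obtain ⟨j, hj⟩ := (A.tendsto.eventually (ge_mem_nhds (pos_iff_ne_zero.2 hη))).exists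
  exact ⟨A.b j, fun L => A.reg j L, hj⟩

end CoverExt

end Vale.Agent.P202.Mixed2
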