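import Vale.Agent.P202.Mixed2.Sigma

/-!
# Existence of the almost multiplicative maps

`σ x = c g` where `h g = c φ(x)` modulo a high power of `p`, `φ(x)` the value at the root of a
representative of `h x` and `c` a deep root of an approximation of `h`; `β = c ^ 2`.
-/

namespace Vale.Agent.P202.Mixed2

open Ideal IsLocalRing Polynomial Filter Vale.Agent.P202.Perf.Base BaseTower

universe u

section Cancel

variable {p : ℕ} [hp : Fact p.Prime] {B : Type u} [CommRing B] [CharP B p] [PerfectRing B p]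
  [IsDomain B] [IsIntegrallyClosed B]
variable {K : Type u} [Field K] [Algebra B K] [IsFractionRing B K] [CharP K p] [PerfectRing K p]
variable {π : B} [Fact (π ≠ 0)]

omit [PerfectRing B p] [IsDomain B] [IsIntegrallyClosed B] [Fact (π ≠ 0)] in
/-- Where `c` is not tiny, `H` is as large as `c ^ P`. -/
theorem lt_val_of_approx {Γ : Type u} [LinearOrderedCommGroupWithZero Γ] {w : Valuation (Untilt p π) Γ}
    (hw : IsPt w) (j : ℕ) {c : B} {H : Untilt p π} {M L : ℕ} (hM : L * p ^ j ≤ M)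
    (hH : w (H - sharp π (c ^ p ^ j)) ≤
        w (p : Untilt p π) * max (w (sharp π (c ^ p ^ j))) (w (p : Untilt p π) ^ M))
    (hc : w (p : Untilt p π) ^ L < w (sharp π c)) :
    w (p : Untilt p π) ^ (L * p ^ j) < w H := by
  have h1 : w (p : Untilt p π) ^ (L * p ^ j) < w (sharp π (c ^ p ^ j)) := by
    rw [map_pow, map_pow, pow_mul]
    exact pow_lt_pow_left₀ hc zero_le (pow_ne_zero _ hp.out.ne_zero)
  have h2 : w (H - sharp π (c ^ p ^ j)) < w (sharp π (c ^ p ^ j)) := by
    refine lt_of_le_of_lt (hH.trans (mul_le_mul_right (max_le le_rfl ?_) _))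
      (mul_lt_of_lt_one_left (lt_of_le_of_lt zero_le h1) hw.p_lt_one)
    exact (pow_le_pow_right_of_le_one' (hw.le_one _) hM).trans h1.le
  rw [show H = sharp π (c ^ p ^ j) + (H - sharp π (c ^ p ^ j)) by ring,
    w.map_add_eq_of_lt_left h2]
  exact h1

include K in
/-- Cancelling `H` costs the factor `sharp c`. -/
theorem dvd_cancel (j : ℕ) {c : B} {H : Untilt p π} {M L : ℕ} (hM : L * p ^ j ≤ M)
    (hH : ∀ (Γ : Type u) [LinearOrderedCommGroupWithZero Γ] (w : Valuation (Untilt p π) Γ), IsPt w →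
      w (H - sharp π (c ^ p ^ j)) ≤
        w (p : Untilt p π) * max (w (sharp π (c ^ p ^ j))) (w (p : Untilt p π) ^ M))
    {z : Untilt p π} (hz : (p : Untilt p π) ^ (L * (p ^ j + 1)) ∣ H * z) :
    (p : Untilt p π) ^ L ∣ sharp π c * z := by
  refine pow_dvd_of_points (K := K) (p := p) Fact.out L fun Γ _ w h1 h0 h2 => ?_
  rw [map_mul]
  rcases le_or_gt (w (sharp π c)) (w (p : Untilt p π) ^ L) with hc | hc
  · exact (mul_le_of_le_one_right' (h1 z)).trans hc
  · refine (mul_le_of_le_one_left' (h1 _)).trans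
      (le_of_mul_le_pow (lt_val_of_approx ⟨h1, h0, h2⟩ j hM (hH Γ w ⟨h1, h0, h2⟩) hc) ?_)
    rw [← map_mul, ← Nat.mul_succ, ← map_pow]
    exact Perf.val_le_of_dvd w h1 hz

end Cancel

namespace CoreData

variable {p : ℕ} [hp : Fact p.Prime] {R : Type u} [CommRing R] [IsLocalRing R] {n : ℕ}
variable (C : CoreData p R n) [CharP (ResidueField R) p] [PerfectRing (ResidueField R) p]

set_option linter.unusedSectionVars false in
/-- The map of one root, given the approximation and the precisions. -/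
theorem exists_sigmaMap {v : ℕ} {u : (WittVector p (ResidueField R))ˣ}
    (hv : MvPowerSeries.constantCoeff (C.Φ.coeff 0) = (p : WittVector p (ResidueField R)) ^ v * u)
    {D : ℕ}
    (hD : ∀ (E : CoverExt p (ResidueField R) (n + 1)) (t : E.B) (K K' : ℕ),
      C.IsRootAt E t K → D * K' + K' ≤ K →
      ∀ (Γ : Type u) [LinearOrderedCommGroupWithZero Γ] (w : Valuation E.O Γ), IsPt w →
        (∀ x, w (E.evQ t (C.qOf x)) ≤ max (w (E.baseToO C.h)) (w (p : E.O) ^ K')) ∧
          ∀ i, w (E.evQ t (C.qOf (C.gen i))) ≤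
            max (w (E.baseToO C.h) * E.sideVal t w) (w (p : E.O) ^ K'))
    (j L : ℕ) (hvL : v ≤ L) {M : ℕ} (hM1 : L * (p ^ j + 1) * p ^ j ≤ M)
    (hM2 : divPrec (p ^ j) (L * (p ^ j + 1) * (p ^ j + 1)) ≤ M)
    (hM3 : L * (p ^ j + 1) * (p ^ j + 1) ≤ M) (hMv : v < M)
    {b : Cinf p (ResidueField R) (n + 1)} (hb : Approximates C.h b M)
    {E : CoverExt p (ResidueField R) (n + 1)} {t : E.B} {K : ℕ}
    (hroot : C.IsRootAt E t K) (hK : D * M + M ≤ K) {β : E.O}
    (hβ : (p : E.O) ^ L ∣ β - sharp (E.inB (cX 0)) (E.inB (Filt.root p j b)) ^ 2) :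
    Nonempty (SigmaMap C E t L β) := by
  classical
  set P := p ^ j with hP
  set L1 := L * (P + 1) with hL1
  set L2 := L1 * (P + 1) with hL2
  set cB := E.inB (Filt.root p j b) with hcB
  set c := sharp (p := p) (E.inB (cX (0 : Fin (n + 1)))) cB with hc
  set H := E.baseToO C.h with hH
  have hcP : cB ^ p ^ j = E.inB b := by rw [hcB, ← map_pow, Filt.root_pow]
  have hMK : M ≤ K := (Nat.le_add_left _ _).trans hK
  have hL2M : L2 ≤ M := hM3
  have hLL1 : L ≤ L1 := Nat.le_mul_of_pos_right _ (by omega)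
  have hL12 : L1 ≤ L2 := Nat.le_mul_of_pos_right _ (by omega)
  have happ : ∀ (Γ : Type u) [LinearOrderedCommGroupWithZero Γ] (w : Valuation E.O Γ), IsPt w →
      w (H - sharp (E.inB (cX 0)) (cB ^ p ^ j)) ≤
        w (p : E.O) * max (w (sharp (E.inB (cX 0)) (cB ^ p ^ j))) (w (p : E.O) ^ M) := by
    intro Γ _ w hw
    rw [hcP]
    exact E.approximates_cover hb hw
  have hbound := hD E t K M hroot hK
  have hcancel : ∀ {Lc : ℕ}, Lc ≤ L1 → ∀ {z : E.O}, (p : E.O) ^ (Lc * (P + 1)) ∣ H * z →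
      (p : E.O) ^ Lc ∣ c * z := fun hLc _ hz =>
    dvd_cancel (K := E.L) j ((Nat.mul_le_mul_right _ hLc).trans hM1) happ hz
  -- the quotients
  have hdiv : ∀ x, ∃ g, (p : E.O) ^ L2 ∣ c * E.evQ t (C.qOf x) - H * g := by
    intro x
    refine exists_divide (K := E.L) j L2 (c := cB) hM2 happ fun Γ _ w hw => ?_
    rw [map_mul]
    have h1 := (hbound Γ w hw).1 x
    have hHb : w H ≤ max (w c ^ P) (w (p : E.O) ^ M) := by
      rw [show H = sharp (E.inB (cX 0)) (cB ^ p ^ j) + (H - sharp (E.inB (cX 0)) (cB ^ p ^ j)) by ring]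
      refine w.map_add_le ?_ ?_
      · rw [map_pow, map_pow]
        exact le_max_left _ _
      · refine (happ Γ w hw).trans ((mul_le_of_le_one_left' (hw.le_one _)).trans ?_)
        rw [map_pow, map_pow]
    refine (mul_le_mul_right (h1.trans (max_le hHb (le_max_right _ _))) _).trans ?_
    rcases le_total (w c ^ P) (w (p : E.O) ^ M) with h | h
    · rw [max_eq_right h]
      exact le_max_of_le_right ((mul_le_of_le_one_left' (hw.le_one _)).trans
        (pow_le_pow_right_of_le_one' (hw.le_one _) hM2))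
    · rw [max_eq_left h, ← pow_succ']
      exact le_max_left _ _
  choose g hg using hdiv
  let σ : R → E.O := fun x => c * g x
  have hcong : ∀ {P Q : (Base p (ResidueField R) n)[X]},
      P.eval₂ C.φ C.θ = Q.eval₂ C.φ C.θ → (p : E.O) ^ L2 ∣ E.evQ t P - E.evQ t Q := fun h =>
    (pow_dvd_pow _ (hL2M.trans hMK)).trans (C.evQ_congr hroot h)
  have hadd : ∀ x y, (p : E.O) ^ L ∣ σ (x + y) - (σ x + σ y) := by
    intro x y
    have h0 : (p : E.O) ^ L1 ∣ H * (g (x + y) - (g x + g y)) := by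
      refine (pow_dvd_pow _ hL12).trans ?_
      have h := hcong (P := C.qOf (x + y)) (Q := C.qOf x + C.qOf y) (by
        rw [C.qOf_spec, eval₂_add, C.qOf_spec, C.qOf_spec, mul_add])
      rw [map_add] at h
      rw [show H * (g (x + y) - (g x + g y)) = c * (E.evQ t (C.qOf (x + y)) -
        (E.evQ t (C.qOf x) + E.evQ t (C.qOf y))) - ((c * E.evQ t (C.qOf (x + y)) - H * g (x + y))
        - ((c * E.evQ t (C.qOf x) - H * g x) + (c * E.evQ t (C.qOf y) - H * g y))) by ring]
      exact dvd_sub (dvd_mul_of_dvd_right h _) (dvd_sub (hg _) (dvd_add (hg x) (hg y)))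
    rw [show σ (x + y) - (σ x + σ y) = c * (g (x + y) - (g x + g y)) by simp only [σ]; ring]
    exact hcancel hLL1 h0
  have hsmul : ∀ Q x, (p : E.O) ^ L ∣ σ (eval₂ C.φ C.θ Q * x) - E.evQ t Q * σ x := by
    intro Q x
    have h0 : (p : E.O) ^ L1 ∣ H * (g (eval₂ C.φ C.θ Q * x) - E.evQ t Q * g x) := by
      refine (pow_dvd_pow _ hL12).trans ?_
      have h := hcong (P := C.qOf (eval₂ C.φ C.θ Q * x)) (Q := Q * C.qOf x) (by
        rw [C.qOf_spec, eval₂_mul, C.qOf_spec]; ring)
      rw [map_mul] at h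
      rw [show H * (g (eval₂ C.φ C.θ Q * x) - E.evQ t Q * g x) =
        c * (E.evQ t (C.qOf (eval₂ C.φ C.θ Q * x)) - E.evQ t Q * E.evQ t (C.qOf x))
        - ((c * E.evQ t (C.qOf (eval₂ C.φ C.θ Q * x)) - H * g (eval₂ C.φ C.θ Q * x))
        - E.evQ t Q * (c * E.evQ t (C.qOf x) - H * g x)) by ring]
      exact dvd_sub (dvd_mul_of_dvd_right h _) (dvd_sub (hg _) (dvd_mul_of_dvd_right (hg x) _))
    rw [show σ (eval₂ C.φ C.θ Q * x) - E.evQ t Q * σ x =
      c * (g (eval₂ C.φ C.θ Q * x) - E.evQ t Q * g x) by simp only [σ]; ring]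
    exact hcancel hLL1 h0
  have hone : (p : E.O) ^ L ∣ σ 1 - β := by
    have h0 : (p : E.O) ^ L1 ∣ H * (g 1 - c) := by
      refine (pow_dvd_pow _ hL12).trans ?_
      have h := hcong (P := C.qOf 1) (Q := Polynomial.C C.h) (by rw [C.qOf_spec, eval₂_C, mul_one])
      rw [E.evQ_C] at h
      rw [show H * (g 1 - c) = c * (E.evQ t (C.qOf 1) - H) - (c * E.evQ t (C.qOf 1) - H * g 1) by ring]
      exact dvd_sub (dvd_mul_of_dvd_right h _) (hg 1)
    rw [show σ 1 - β = c * (g 1 - c) - (β - c ^ 2) by simp only [σ]; ring]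
    exact dvd_sub (hcancel hLL1 h0) hβ
  have hmul : ∀ x y, (p : E.O) ^ L ∣ σ x * σ y - β * σ (x * y) := by
    intro x y
    have h0 : (p : E.O) ^ L2 ∣ H * (H * (g x * g y - c * g (x * y))) := by
      have h := hcong (P := C.qOf x * C.qOf y) (Q := Polynomial.C C.h * C.qOf (x * y)) (by
        rw [eval₂_mul, eval₂_mul, eval₂_C, C.qOf_spec, C.qOf_spec, C.qOf_spec]; ring)
      rw [map_mul, map_mul, E.evQ_C] at h
      rw [show H * (H * (g x * g y - c * g (x * y))) =
        c * c * (E.evQ t (C.qOf x) * E.evQ t (C.qOf y) - H * E.evQ t (C.qOf (x * y)))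
        - ((c * E.evQ t (C.qOf x) - H * g x) * (c * E.evQ t (C.qOf y))
          + (c * E.evQ t (C.qOf y) - H * g y) * (H * g x))
        + (c * E.evQ t (C.qOf (x * y)) - H * g (x * y)) * (c * H) by ring]
      exact dvd_add (dvd_sub (dvd_mul_of_dvd_right h _)
        (dvd_add (dvd_mul_of_dvd_left (hg x) _) (dvd_mul_of_dvd_left (hg y) _)))
        (dvd_mul_of_dvd_left (hg _) _)
    have h1 := hcancel le_rfl h0
    rw [show c * (H * (g x * g y - c * g (x * y))) = H * (c * (g x * g y - c * g (x * y))) by ring] at h1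
    have h2 := hcancel hLL1 h1
    rw [show σ x * σ y - β * σ (x * y) =
      c * (c * (g x * g y - c * g (x * y))) - (β - c ^ 2) * σ (x * y) by simp only [σ]; ring]
    exact dvd_sub h2 (dvd_mul_of_dvd_left hβ _)
  -- the bounds
  have hside : (p : E.O) ^ v ∈ E.sideI t :=
    E.p_pow_mem_sideI t hv (lt_of_lt_of_le hMv hMK) hroot
  have hpv : ∀ (Γ : Type u) [LinearOrderedCommGroupWithZero Γ] (w : Valuation E.O Γ), IsPt w →
      ∀ z : E.O, (p : E.O) ^ L ∣ z → w z ≤ E.sideVal t w := fun Γ _ w hw z hz =>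
    (Perf.val_le_of_dvd w hw.le_one ((pow_dvd_pow _ hvL).trans hz)).trans
      (E.val_le_sideVal t hw.le_one hside)
  have hgenb : ∀ i, ∀ (Γ : Type u) [LinearOrderedCommGroupWithZero Γ] (w : Valuation E.O Γ), IsPt w →
      w (σ (C.gen i)) ≤ E.sideVal t w := by
    intro i Γ _ w hw
    have hLY : w (p : E.O) ^ L ≤ E.sideVal t w := by
      rw [← map_pow]
      exact hpv Γ w hw _ dvd_rfl
    show w (c * g (C.gen i)) ≤ _
    rw [map_mul]
    rcases le_or_gt (w c) (w (p : E.O) ^ L) with hcl | hcl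
    · exact (mul_le_of_le_one_right' (hw.le_one _)).trans (hcl.trans hLY)
    refine (mul_le_of_le_one_left' (hw.le_one _)).trans ?_
    have hHlow := lt_val_of_approx hw j ((Nat.mul_le_mul_right _ hLL1).trans hM1) (happ Γ w hw) hcl
    have hHg : w H * w (g (C.gen i)) ≤
        max (w H * E.sideVal t w) (w (p : E.O) ^ (L * P + L)) := by
      rw [← map_mul, show H * g (C.gen i) = c * E.evQ t (C.qOf (C.gen i)) -
        (c * E.evQ t (C.qOf (C.gen i)) - H * g (C.gen i)) by ring]
      refine w.map_sub_le ?_ ((Perf.val_le_of_dvd w hw.le_one (hg _)).trans ?_)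
      · rw [map_mul]
        refine (mul_le_of_le_one_left' (hw.le_one _)).trans (((hbound Γ w hw).2 i).trans
          (max_le (le_max_left _ _) (le_max_of_le_right
            (pow_le_pow_right_of_le_one' (hw.le_one _) ?_))))
        rw [← Nat.mul_succ]
        exact (hL12.trans hL2M)
      · rw [map_pow]
        refine le_max_of_le_right (pow_le_pow_right_of_le_one' (hw.le_one _) ?_)
        rw [← Nat.mul_succ]
        exact hL12
    rcases le_max_iff.1 hHg with h | h
    · exact le_of_mul_le_mul_left h (lt_of_le_of_lt zero_le hHlow)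
    · exact (le_of_mul_le_pow hHlow h).trans hLY
  have hbnd : ∀ x ∈ maximalIdeal R, ∀ (Γ : Type u) [LinearOrderedCommGroupWithZero Γ]
      (w : Valuation E.O Γ), IsPt w → w (β * σ x) ≤ E.sideVal t w := by
    intro x hx Γ _ w hw
    rw [C.gen_span, Ideal.mem_span_range_iff_exists_fun] at hx
    obtain ⟨r, rfl⟩ := hx
    have hlin : ∀ s : Finset (Fin C.numGen),
        w (β * σ (∑ i ∈ s, r i * C.gen i)) ≤ E.sideVal t w := by
      intro s
      induction s using Finset.induction with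
      | empty =>
        rw [Finset.sum_empty]
        refine (le_of_eq (map_mul w _ _)).trans ((mul_le_of_le_one_left' (hw.le_one _)).trans (hpv Γ w hw _ ?_))
        have h := hadd 0 0
        rw [add_zero, show σ 0 - (σ 0 + σ 0) = -σ 0 by ring, dvd_neg] at h
        exact h
      | insert a s ha ih =>
        rw [Finset.sum_insert ha, show β * σ (r a * C.gen a + ∑ i ∈ s, r i * C.gen i) =
          (σ (r a) * σ (C.gen a) - (σ (r a) * σ (C.gen a) - β * σ (r a * C.gen a)))
          + β * σ (∑ i ∈ s, r i * C.gen i)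
          + β * (σ (r a * C.gen a + ∑ i ∈ s, r i * C.gen i)
            - (σ (r a * C.gen a) + σ (∑ i ∈ s, r i * C.gen i))) by ring]
        refine w.map_add_le (w.map_add_le (w.map_sub_le ?_ (hpv Γ w hw _ (hmul _ _))) ih)
          (hpv Γ w hw _ (dvd_mul_of_dvd_right (hadd _ _) _))
        rw [map_mul]
        exact (mul_le_of_le_one_left' (hw.le_one _)).trans (hgenb a Γ w hw)
    exact hlin Finset.univ
  refine ⟨⟨σ, hadd, hsmul, hone, hmul, hbnd, fun Γ _ w hw => ?_⟩⟩
  have hp' : (p : R) ∈ maximalIdeal R := by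
    rw [← residue_eq_zero_iff, map_natCast, CharP.cast_eq_zero]
  have h := hsmul (p : (Base p (ResidueField R) n)[X]) 1
  rw [eval₂_natCast, mul_one, map_natCast] at h
  rw [show β * β * (p : E.O) = β * σ (p : R) - β * (σ (p : R) - (p : E.O) * σ 1)
    - β * (p : E.O) * (σ 1 - β) by ring]
  exact w.map_sub_le (w.map_sub_le (hbnd _ hp' Γ w hw) (hpv Γ w hw _ (dvd_mul_of_dvd_right h _)))
    (hpv Γ w hw _ (dvd_mul_of_dvd_right hone _))

/-- The maps with an almost unit loss, chosen before the precision and the cover. -/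
theorem exists_sigma (L : ℕ) :
    ∃ (β : ℕ → Acol p (ResidueField R) (Fin n)) (K₀ : ℕ → ℕ) (v : ℕ),
      (∀ (L₀ : ℕ) (I : Ideal (An p (ResidueField R) (Fin n) 0)),
        maximalIdeal (An p (ResidueField R) (Fin n) 0) ^ L₀ ≤ I →
        AlmostUnit (lvl p (ResidueField R) (Fin n)) (cc p (Fin n)) I β) ∧
      ∀ j K, K₀ j ≤ K → ∀ (E : CoverExt p (ResidueField R) (n + 1)) (t : E.B), C.IsRootAt E t K →
        (p : E.O) ^ v ∈ E.sideI t ∧
          Nonempty (SigmaMap C E t L (algebraMap (Acol p (ResidueField R) (Fin n)) E.O (β j))) := by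
  classical
  obtain ⟨v, uv, hv⟩ := C.exists_constantCoeff_eq
  obtain ⟨D, hD⟩ := C.exists_bounds
  obtain ⟨w₀, hw₀⟩ := exists_weight_bound C.h_ne_zero
  set L' := max L v with hL'
  let M : ℕ → ℕ := fun j => max (max w₀ (v + 1)) (max (L' * (p ^ j + 1) * (p ^ j + 1))
    (divPrec (p ^ j) (L' * (p ^ j + 1) * (p ^ j + 1))))
  choose b hb using fun j => exists_approximates C.h (M j)
  choose y hy using fun j => colMap_surjective_mod (max L' w₀)
    (sharp (cX (p := p) (k := ResidueField R) (0 : Fin (n + 1))) (Filt.root p j (b j)))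
  refine ⟨fun j => y j ^ 2, fun j => D * M j + M j, v, fun L₀ I hI => ?_, fun j K hK E t hroot => ?_⟩
  · refine BaseTower.almostUnit L₀ w₀ I hI _ (fun j => p ^ j / 2) ?_ fun j hmem => ?_
    · refine tendsto_atTop.2 fun N => eventually_atTop.2 ⟨2 * N, fun j hj => ?_⟩
      rw [Nat.le_div_iff_mul_le two_pos, mul_comm]
      exact hj.trans (Nat.lt_pow_self hp.out.one_lt).le
    · have hmem' : y j ^ p ^ j ∈ mPow p (ResidueField R) (Fin n) w₀ := by
        rw [← Nat.add_sub_cancel' (Nat.mul_div_le (p ^ j) 2), pow_add, pow_mul]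
        exact Ideal.mul_mem_right _ _ hmem
      refine hw₀ (M j) w₀ ((le_max_left _ _).trans (le_max_left _ _)) le_rfl (b j) (hb j) _ ?_ hmem'
      have h := ((pow_dvd_pow _ (le_max_right L' w₀)).trans (hy j)).trans
        (sub_dvd_pow_sub_pow _ _ (p ^ j))
      rwa [← map_pow, ← map_pow, Filt.root_pow] at h
  · have hMv : v < M j := Nat.lt_of_succ_le ((le_max_right w₀ _).trans (le_max_left _ _))
    have hM3 : L' * (p ^ j + 1) * (p ^ j + 1) ≤ M j := (le_max_left _ _).trans (le_max_right _ _)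
    have hMK : M j ≤ K := (Nat.le_add_left _ _).trans hK
    refine ⟨E.p_pow_mem_sideI t hv (lt_of_lt_of_le hMv hMK) hroot, ?_⟩
    have hβ : (p : E.O) ^ L' ∣ algebraMap (Acol p (ResidueField R) (Fin n)) E.O (y j ^ 2) -
        sharp (E.inB (cX 0)) (E.inB (Filt.root p j (b j))) ^ 2 := by
      have h := map_dvd (mapUntilt (p := p) E.inB (cX (0 : Fin (n + 1))))
        ((pow_dvd_pow _ (le_max_left L' w₀)).trans (hy j))
      rw [map_pow, map_natCast, map_sub, mapUntilt_sharp] at h
      rw [map_pow, E.algebraMap_col]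
      exact h.trans (sub_dvd_pow_sub_pow _ _ 2)
    obtain ⟨S⟩ := C.exists_sigmaMap hv hD j L' (le_max_right _ _)
      ((Nat.mul_le_mul_left _ (Nat.le_succ _)).trans hM3)
      ((le_max_right _ _).trans (le_max_right _ _)) hM3 hMv (hb j) hroot hK hβ
    have hle : (p : E.O) ^ L ∣ (p : E.O) ^ L' := pow_dvd_pow _ (le_max_left _ _)
    exact ⟨⟨S.toFun, fun x z => hle.trans (S.map_add x z), fun Q x => hle.trans (S.map_smul Q x),
      hle.trans S.map_one, fun x z => hle.trans (S.map_mul x z), S.bound, S.bound_p⟩⟩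

end CoreData

end Vale.Agent.P202.Mixed2
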