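import Vale.Agent.P202.Mixed2.MainSheetsAux
import Vale.Agent.P202.Mixed2.MainAlmost
import Vale.Agent.P202.Mixed2.MainRing
import Vale.Agent.P202.Mixed2.SigmaExists

/-!
P202, mixed characteristic, main step: the sheets exist. The precision `L`, the index of the loss of
the division and the modulus `p ^ K` are chosen in this order, then the cover, then the loss of the
regularity.
-/

open scoped ENNReal TensorProduct
open Filter Topology

namespace Vale.Agent.P202.Mixed2.MainStep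

open Ideal IsLocalRing Lambda BaseTower Perf Perf.Base Polynomial

universe u

variable {p : ℕ} [Fact p.Prime] {R : Type u} [CommRing R] [IsLocalRing R]
  [CharP (ResidueField R) p] [PerfectRing (ResidueField R) p] {n : ℕ}

omit [CharP (IsLocalRing.ResidueField R) p] [PerfectRing (IsLocalRing.ResidueField R) p] in
theorem constant_exponent_pos (C : CoreData p R n) {v : ℕ} {u : (WittVector p (ResidueField R))ˣ}
    (hv : MvPowerSeries.constantCoeff (C.Φ.coeff 0) = (p : WittVector p (ResidueField R)) ^ v * u) :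
    0 < v := by
  rw [Nat.pos_iff_ne_zero]
  rintro rfl
  refine C.coeff_not_isUnit 0 C.natDegree_pos (MvPowerSeries.isUnit_iff_constantCoeff.2 ?_)
  rw [hv, pow_zero, one_mul]
  exact u.isUnit

/-- A sign does not change the length of the cotorsion of a multiplication. -/
theorem length_quot_sign {A : Type*} [CommRing A] {Q : Type*} [AddCommGroup Q] [Module A Q]
    {s : A} (hs : s * s = 1) (d : A) :
    Module.length A (Q ⧸ LinearMap.range (LinearMap.lsmul A Q (s * d))) =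
      Module.length A (Q ⧸ LinearMap.range (LinearMap.lsmul A Q d)) := by
  refine (Submodule.quotEquivOfEq _ _ (le_antisymm ?_ ?_)).length_eq <;> rintro _ ⟨x, rfl⟩
  · exact ⟨s • x, by simp only [LinearMap.lsmul_apply, smul_smul, mul_comm d]⟩
  · exact ⟨s • x, by simp only [LinearMap.lsmul_apply, smul_smul, mul_comm _ s, ← mul_assoc,
      hs, one_mul]⟩

variable {C : CoreData p R n} {E : CoverExt p (ResidueField R) (n + 1)} {K : ℕ}
  {τ : Fin C.Φ.natDegree → E.B}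
  (hsplit : (eqn C).map (algebraMap (A0 p R n) (E.TK K)) =
    ∏ i, (Polynomial.X - Polynomial.C (E.sharpT K (τ i))))

theorem rootMap_zS (q₀ : ℕ) (i : Fin C.Φ.natDegree) (l : Fin (n + 1)) :
    rootMap hsplit i (zS C l) = Ideal.Quotient.mk _ (E.sheetU (τ i) q₀ l ^ p ^ q₀) := by
  rw [E.sheetU_pow]
  cases l using Fin.cases with
  | zero =>
    rw [zS, Fin.cons_zero, rootMap_root, CoverExt.sharpT_apply, CoverExt.sideY, Fin.cons_zero]
  | succ l =>
    rw [zS, Fin.cons_succ, ← AdjoinRoot.algebraMap_eq, AlgHom.commutes, algebraMap_baseIso,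
      E.baseToO_X (τ i)]

/-- The comparison of the pushforwards, with a sign in front of the discriminant. -/
theorem sums_sign {A₀ B T R' : Type*} [CommRing A₀] [IsNoetherianRing A₀] [Nontrivial A₀]
    [CommRing B] [CommRing T] [CommRing R'] [Algebra A₀ B] [Algebra A₀ T] [Algebra B T]
    [IsScalarTower A₀ B T] [Algebra A₀ R'] {A : ℕ → Subalgebra A₀ B} {cw : ℕ}
    [∀ m, Module.Free A₀ (A m)] [∀ m, Module.Finite A₀ (A m)]
    (Q : Type*) [AddCommGroup Q] [Module A₀ Q] [Module R' Q] [IsScalarTower A₀ R' Q]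
    [Module.Finite A₀ Q] {I : Ideal A₀} (h : IsTower A cw) (hU : ∀ b, ∃ m, b ∈ A m)
    (hrank : ∀ m, Module.finrank A₀ (A m) = cw ^ m) (ρ : ∀ m, B →ₗ[A₀] A m)
    (hρ : ∀ m (a : A m), ρ m a = a) (hI : Module.length A₀ (A₀ ⧸ I) ≠ ⊤)
    (hQ : ∀ a ∈ I, ∀ x : Q, a • x = 0) {γ : ℕ → B} (hγ : AlmostUnit A cw I γ) {nT : ℕ}
    (hfree : AlmostFreeMod T I nT γ) {r : ℕ} [NeZero r] {θ : R'} {φ : Fin r → R' →ₐ[A₀] T}
    (hφ : RootMaps θ φ) {s d : A₀} (hs : s * s = 1)
    (hD : discProd (fun i => φ i θ) = algebraMap A₀ T (s * d)) :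
    (∑ i, lam A cw (Push (φ i) Q) ≤ (nT : ℝ≥0∞) * ((Module.length A₀ Q : ℝ≥0∞) +
        r * (Module.length A₀ (Q ⧸ LinearMap.range (LinearMap.lsmul A₀ Q d)) : ℝ≥0∞))) ∧
      (nT : ℝ≥0∞) * (Module.length A₀ Q : ℝ≥0∞) ≤ ∑ i, lam A cw (Push (φ i) Q) +
        (nT : ℝ≥0∞) *
          (Module.length A₀ (Q ⧸ LinearMap.range (LinearMap.lsmul A₀ Q d)) : ℝ≥0∞) := by
  obtain ⟨f, g, hgf, hfg⟩ := hfree
  have h1 := sums_length Q I h hU hrank ρ hρ hI hQ γ hγ nT f g hgf hfg hφ (s * d) hD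
  rwa [length_quot_sign hs d] at h1

theorem discr_sign (hsplit : (eqn C).map (algebraMap (A0 p R n) (E.TK K)) =
    ∏ i, (Polynomial.X - Polynomial.C (E.sharpT K (τ i)))) :
    ∃ s : A0 p R n, s * s = 1 ∧ discProd (fun i => rootMap hsplit i (AdjoinRoot.root (eqn C))) =
      algebraMap (A0 p R n) (E.TK K) (s * baseIso p (ResidueField R) n C.Φ.discr) := by
  refine ⟨baseIso p (ResidueField R) n ((-1) ^ (C.Φ.natDegree * (C.Φ.natDegree - 1) / 2)), ?_,
    (discProd_rootMap C.monic rfl C.natDegree_pos hsplit).trans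
      (congrArg (algebraMap (A0 p R n) (E.TK K)) (map_mul _ _ _))⟩
  rw [← map_mul, ← mul_pow, neg_one_mul, neg_neg, one_pow, map_one]

theorem sumLe [IsNoetherianRing (A0 p R n)] {nT c : ℕ} {γ : ℕ → A1 p R n}
    (hγ : AlmostUnit (lvl p (IsLocalRing.ResidueField R) (Fin n)) (cc p (Fin n))
      (maximalIdeal (A0 p R n) ^ c) γ)
    (hfree : AlmostFreeMod (E.TK K) (maximalIdeal (A0 p R n) ^ c) nT γ)
    {I : Fin C.Φ.natDegree → Ideal E.O} (hI : ∀ i, span {(p : E.O) ^ K} ≤ I i) :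
    SumLe (lvl p (IsLocalRing.ResidueField R) (Fin n)) (cc p (Fin n))
      (fun i => (Ideal.Quotient.factorₐ (A0 p R n) (hI i)).comp (rootMap hsplit i))
      (baseIso p (ResidueField R) n C.Φ.discr) c nT := by
  intro Q _ _ _ _ _ hQ
  have : NeZero C.Φ.natDegree := ⟨C.natDegree_pos.ne'⟩
  obtain ⟨s, hs, hD⟩ := discr_sign hsplit
  exact (Finset.sum_le_sum fun i _ => lam_push_factor_le (hI i) _ Q).trans
    (sums_sign Q (isTower p _ (Fin n)) exists_mem lvl_finrank (ret p _ (Fin n)) ret_self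
      (length_quot_ne_top c) hQ hγ hfree (rootMaps hsplit) hs hD).1

theorem smul_quot_eq_zero {A S : Type*} [CommRing A] [CommRing S] [Algebra A S] {m : Ideal A}
    {Z : Ideal S} {w N c : ℕ} (hw : m.map (algebraMap A S) ^ w ≤ Z) (hc : w * N ≤ c) :
    ∀ a ∈ m ^ c, ∀ x : S ⧸ Z ^ N, a • x = 0 := by
  intro a ha x
  obtain ⟨s, rfl⟩ := Ideal.Quotient.mk_surjective x
  rw [Algebra.smul_def, ← Ideal.Quotient.mk_algebraMap, ← map_mul, Ideal.Quotient.eq_zero_iff_mem]
  refine Ideal.mul_mem_right _ _ (Ideal.pow_right_mono hw N ?_)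
  rw [← pow_mul, ← Ideal.map_pow]
  exact Ideal.mem_map_of_mem _ (Ideal.pow_le_pow_right hc ha)

theorem length_quot_lsmul_le {A S : Type*} [CommRing A] [CommRing S] [Algebra A S] (Z : Ideal S)
    (d : A) : Module.length A ((S ⧸ Z) ⧸ LinearMap.range (LinearMap.lsmul A (S ⧸ Z) d)) ≤
      Module.length A (S ⧸ (span {algebraMap A S d} ⊔ Z)) := by
  let ψ : S →ₗ[A] (S ⧸ Z) ⧸ LinearMap.range (LinearMap.lsmul A (S ⧸ Z) d) :=
    Submodule.mkQ _ ∘ₗ (Ideal.Quotient.mkₐ A Z).toLinearMap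
  have hψ : (span {algebraMap A S d} ⊔ Z).restrictScalars A ≤ LinearMap.ker ψ := by
    intro s hs
    obtain ⟨a, ha, b, hb, rfl⟩ := Submodule.mem_sup.1 hs
    obtain ⟨e, rfl⟩ := Ideal.mem_span_singleton.1 ha
    refine (Submodule.Quotient.mk_eq_zero _).2 ⟨Ideal.Quotient.mk _ e, ?_⟩
    show d • Ideal.Quotient.mk Z e = Ideal.Quotient.mk Z (_ + b)
    rw [map_add, Ideal.Quotient.eq_zero_iff_mem.2 hb, add_zero, map_mul, Algebra.smul_def,
      Ideal.Quotient.mk_algebraMap]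
  refine Module.length_le_of_surjective
    (((span {algebraMap A S d} ⊔ Z).restrictScalars A).liftQ ψ hψ
    ∘ₗ (Submodule.Quotient.restrictScalarsEquiv A _).symm.toLinearMap) fun y => ?_
  obtain ⟨x, rfl⟩ := Submodule.Quotient.mk_surjective _ y
  obtain ⟨s, rfl⟩ := Ideal.Quotient.mk_surjective x
  exact ⟨Ideal.Quotient.mk _ s, rfl⟩

theorem map_sheet_pow_le (q₀ N : ℕ) (i : Fin C.Φ.natDegree) :
    (aI (E.sheetU (τ i) q₀) ^ (p ^ q₀ * (N + n + 1))).map
        (Ideal.Quotient.mk (span {(p : E.O) ^ K})) ≤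
      (span (Set.range (zS C)) ^ N).map (rootMap hsplit i).toRingHom := by
  refine (Ideal.map_mono ((Filt.range_le_of_mul_le (E.sheetU (τ i) q₀) (e := N + 1)
    (pow_pos (Fact.out : p.Prime).pos q₀) (le_of_eq (by ring))).trans
      (Ideal.pow_le_pow_right (Nat.le_succ N)))).trans (le_of_eq ?_)
  rw [Ideal.map_pow, Ideal.map_pow, Ideal.map_span, Ideal.map_span, ← Set.range_comp,
    ← Set.range_comp]
  exact congrArg (fun f => span (Set.range f) ^ N) (funext fun l => (rootMap_zS hsplit q₀ i l).symm)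

include hsplit in
theorem leSum [IsNoetherianRing (A0 p R n)] {nT c N w q₀ : ℕ} {γ : ℕ → A1 p R n}
    (hγ : AlmostUnit (lvl p (IsLocalRing.ResidueField R) (Fin n)) (cc p (Fin n))
      (maximalIdeal (A0 p R n) ^ c) γ)
    (hfree : AlmostFreeMod (E.TK K) (maximalIdeal (A0 p R n) ^ c) nT γ)
    (hw : (maximalIdeal (A0 p R n)).map (algebraMap (A0 p R n) (Sub C)) ^ w ≤
      span (Set.range (zS C))) (hc : w * N ≤ c) :
    LeSum (meas p R n E.O) (fun i => E.sheetU (τ i) q₀) (zS C)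
      (baseIso p (ResidueField R) n C.Φ.discr) (p ^ q₀) N nT := by
  have : Module.Finite (A0 p R n) (Sub C) := (eqn_monic C).finite_adjoinRoot
  have : Module.Finite (A0 p R n) (Sub C ⧸ span (Set.range (zS C)) ^ N) :=
    Module.Finite.of_surjective (Ideal.Quotient.mkₐ (A0 p R n) _).toLinearMap
      Ideal.Quotient.mk_surjective
  have : NeZero C.Φ.natDegree := ⟨C.natDegree_pos.ne'⟩
  obtain ⟨s, hs, hD⟩ := discr_sign hsplit
  exact (sums_sign (Sub C ⧸ span (Set.range (zS C)) ^ N) (isTower p _ (Fin n)) exists_mem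
    lvl_finrank (ret p _ (Fin n)) ret_self (length_quot_ne_top c) (smul_quot_eq_zero hw hc) hγ hfree
    (rootMaps hsplit) hs hD).2.trans (add_le_add
      (Finset.sum_le_sum fun i _ => (lam_push_quot_le (rootMap hsplit i) _ _
        (map_sheet_pow_le hsplit q₀ N i)).trans (lamMeas_val _ _).ge)
      (mul_le_mul_right (ENat.toENNReal_mono (length_quot_lsmul_le _ _)) _))

/-- A lift of the maps of the division, multiplied by two losses, is an exact map modulo an ideal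
containing the precision. -/
theorem exists_sigmaHom {S T P : Type*} [CommRing S] [CommRing T] {d : T} {a : Ideal T} (ha : d ∈ a)
    (f : S → T) (y b : T) (ev : P → T) (mul : P → S → S)
    (hadd : ∀ x z, d ∣ f (x + z) - (f x + f z)) (hone : d ∣ f 1 - y)
    (hmul : ∀ x z, d ∣ f x * f z - y * f (x * z))
    (hsmul : ∀ Q x, d ∣ f (mul Q x) - ev Q * f x) :
    ∃ σ : S →+ T ⧸ a, (∀ x, σ x = Ideal.Quotient.mk a (b * y * f x)) ∧
      σ 1 = Ideal.Quotient.mk a (b * (y * y)) ∧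
      (∀ x z, σ x * σ z = Ideal.Quotient.mk a (b * (y * y)) * σ (x * z)) ∧
      ∀ Q x, σ (mul Q x) = Ideal.Quotient.mk a (ev Q) * σ x := by
  have hd : ∀ {z z' : T} (k : T), d ∣ k → z - z' = k →
      Ideal.Quotient.mk a z = Ideal.Quotient.mk a z' :=
    fun k h e => Ideal.Quotient.eq.2 (e ▸ Ideal.mem_of_dvd _ h ha)
  refine ⟨AddMonoidHom.mk' (fun x => Ideal.Quotient.mk a (b * y * f x)) fun x z => ?_,
    fun _ => rfl, ?_, fun x z => ?_, fun Q x => ?_⟩ <;>
      simp only [AddMonoidHom.mk'_apply, ← map_add, ← map_mul]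
  · exact hd _ (dvd_mul_of_dvd_right (hadd x z) (b * y)) (by ring)
  · exact hd _ (dvd_mul_of_dvd_right hone (b * y)) (by ring)
  · exact hd _ (dvd_mul_of_dvd_right (hmul x z) (b * y * (b * y))) (by ring)
  · exact hd _ (dvd_mul_of_dvd_right (hsmul Q x) (b * y)) (by ring)

theorem toR_mk (C : CoreData p R n) (Q : (Base p (ResidueField R) n)[X]) :
    toR C (AdjoinRoot.mk _ (Q.map (baseIso p (ResidueField R) n))) = eval₂ C.φ C.θ Q := by
  rw [toR, AdjoinRoot.lift_mk, Polynomial.eval₂_map,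
    show (baseR C).comp (baseIso p (ResidueField R) n) = C.φ from RingHom.ext (baseR_baseIso C)]

theorem phi_zS {I : Ideal E.O} (hI : span {(p : E.O) ^ K} ≤ I) (q₀ : ℕ) (i : Fin C.Φ.natDegree)
    (l : Fin (n + 1)) :
    (Ideal.Quotient.factorₐ (A0 p R n) hI).comp (rootMap hsplit i) (zS C l) =
      Ideal.Quotient.mk I (E.sheetU (τ i) q₀ l ^ p ^ q₀) := by
  rw [AlgHom.comp_apply, rootMap_zS hsplit q₀ i l]
  rfl

theorem phi_toR {I : Ideal E.O} (hI : span {(p : E.O) ^ K} ≤ I) (i : Fin C.Φ.natDegree)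
    (σ : R → E.O ⧸ I)
    (hσ : ∀ Q x, σ (eval₂ C.φ C.θ Q * x) = Ideal.Quotient.mk I (E.evQ (τ i) Q) * σ x)
    (r : Sub C) (x : R) :
    σ (toR C r * x) = (Ideal.Quotient.factorₐ (A0 p R n) hI).comp (rootMap hsplit i) r * σ x := by
  obtain ⟨Q, rfl⟩ := mk_map_surjective r
  rw [toR_mk, hσ, AlgHom.comp_apply, rootMap_mk]
  rfl

theorem mk_mul_mem {T : Type*} [CommRing T] {I I' : Ideal T} (b y s : T) (h : y * s ∈ I ⊔ I') :
    Ideal.Quotient.mk I' (b * y * s) ∈ I.map (Ideal.Quotient.mk I') := by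
  obtain ⟨z, hz, z', hz', hzz⟩ := Submodule.mem_sup.1 h
  rw [mul_assoc, map_mul, ← hzz, map_add, Ideal.Quotient.eq_zero_iff_mem.2 hz', add_zero, ← map_mul]
  exact Ideal.mem_map_of_mem _ (Ideal.mul_mem_left _ _ hz)

/-- The loss of the sheets. -/
theorem small_loss [IsNoetherianRing (A0 p R n)] {nT : ℕ} (hnT : 0 < nT) {γ : ℕ → A1 p R n}
    (hγ : AlmostUnit (lvl p (IsLocalRing.ResidueField R) (Fin n)) (cc p (Fin n))
      (maximalIdeal (A0 p R n) ^ 1) γ)
    (hfree : AlmostFreeMod E.O (maximalIdeal (A0 p R n) ^ 1) nT γ) {a : Ideal E.O}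
    (ha : (maximalIdeal (A0 p R n) ^ 1).map (algebraMap (A0 p R n) E.O) ≤ a) {b : E.O}
    {η : ℝ≥0∞} (hb : (meas p R n E.O).val (E.O ⧸ (span {b} ⊔ a)) ≤ η / 2) {y : A1 p R n}
    (hy : lam (lvl p (IsLocalRing.ResidueField R) (Fin n)) (cc p (Fin n))
      (A1 p R n ⧸ (span {y} ⊔ extI (A1 p R n) (maximalIdeal (A0 p R n) ^ 1))) ≤ η / 2 / 2) :
    (meas p R n E.O).val (E.O ⧸ (span {b * (algebraMap (A1 p R n) E.O y *
      algebraMap (A1 p R n) E.O y)} ⊔ a)) ≤ (nT : ℝ≥0∞) * η := by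
  obtain ⟨f, g, -, hfg⟩ := hfree
  have hT := isTower p (ResidueField R) (Fin n)
  have h1 := Filt.lam_loss_le hT exists_mem _ (length_quot_ne_top 1) γ hγ nT f g hfg y
    (algebraMap (A1 p R n) E.O y) dvd_rfl a ha
  rw [meas, lamMeas_val] at hb ⊢
  refine (lam_mul_quot_le hT _ _ a).trans ?_
  refine (add_le_add ((lam_mul_quot_le hT _ _ a).trans (add_le_add h1 h1)) hb).trans ?_
  refine (add_le_add (add_le_add (mul_le_mul_right hy _) (mul_le_mul_right hy _))
    (le_mul_of_one_le_left' (show (1 : ℝ≥0∞) ≤ (nT : ℝ≥0∞) from Nat.one_le_cast.2 hnT))).trans ?_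
  rw [← mul_add, ← mul_add, ENNReal.add_halves, ENNReal.add_halves]

/-- The sheets exist as soon as the scale is large. -/
theorem exists_sheets [IsNoetherianRing (A0 p R n)] (C : CoreData p R n) :
    ∃ Q : ℕ, ∀ q₀ : ℕ, Q ≤ p ^ q₀ → ∀ (N c L : ℕ) (η : ℝ≥0∞), η ≠ 0 →
      Nonempty (Sheets C (p ^ q₀) (p ^ q₀ - 2 * n - 2) N c L η) := by
  classical
  obtain ⟨v, uv, hv⟩ := C.exists_constantCoeff_eq
  have hv0 := constant_exponent_pos C hv
  obtain ⟨w, -, hw⟩ := exists_pow_le C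
  refine ⟨(4 * n + 4) * v, fun q₀ hQ N c L η hη => ?_⟩
  obtain ⟨βD, K₀, v', hAU, hσ⟩ := C.exists_sigma L
  have hη2 : η / 2 ≠ 0 := (ENNReal.half_pos hη).ne'
  obtain ⟨j, hj⟩ := ((hAU 1 (maximalIdeal (A0 p R n) ^ 1) le_rfl).eventually
    (ge_mem_nhds (ENNReal.half_pos hη2))).exists
  set K := max (max (K₀ j) (v + 1)) (max (max L (w * N)) c) with hK
  have hKj : K₀ j ≤ K := (le_max_left _ _).trans (le_max_left _ _)
  have hKv : v < K := (le_max_right (K₀ j) _).trans (le_max_left _ _)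
  have hKL : L ≤ K := ((le_max_left _ _).trans (le_max_left _ _)).trans (le_max_right _ _)
  have hKN : w * N ≤ K := ((le_max_right _ _).trans (le_max_left _ _)).trans (le_max_right _ _)
  have hKc : c ≤ K := (le_max_right _ _).trans (le_max_right _ _)
  obtain ⟨E, τ, hsplit, hnil⟩ := exists_cover C.Φ C.monic C.coeff_not_isUnit K
  have hroot := C.isRootAt_of_split hsplit
  have hside : ∀ i, (p : E.O) ^ v ∈ E.sideI (τ i) := fun i => E.p_pow_mem_sideI _ hv hKv (hroot i)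
  have hX := fun i => E.cX_mem_radical (τ i) (hside i)
  have hy : ∀ i l, ∃ N : ℕ, E.sideY (τ i) l ^ N ∈ span (Set.range fun l => E.inB (cX l)) := by
    intro i l
    cases l using Fin.cases with
    | zero => simpa [CoverExt.sideY] using hnil i
    | succ l => exact ⟨1, by
        rw [pow_one]
        exact Ideal.subset_span ⟨l.succ, by simp [CoverExt.sideY]⟩⟩
  have hpJ : ∀ i, (p : E.O) ∈ aI (E.sheetU (τ i) q₀) ^ (2 * n + 2) := fun i =>
    Ideal.pow_le_pow_right (by omega) (E.p_mem_sheet q₀ (hside i) hv0 (e := 4 * n + 4) hQ)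
  have hpU : ∀ i, (p : E.O) ∈ aI (E.sheetU (τ i) q₀) := fun i =>
    Ideal.pow_le_self (by omega) (hpJ i)
  have hpL : ∀ i, (p : E.O) ^ L ∈ aI (E.sheetU (τ i) q₀) ^ L := fun i => Ideal.pow_mem_pow (hpU i) L
  have hpK : ∀ i, span {(p : E.O) ^ K} ≤ aI (E.sheetU (τ i) q₀) ^ L := fun i =>
    (span_singleton_le_iff_mem _).2 (Ideal.mem_of_dvd _ (pow_dvd_pow _ hKL) (hpL i))
  have hm0 : ∀ i, (maximalIdeal (A0 p R n) ^ 1).map (algebraMap (A0 p R n) E.O) ≤
      aI (E.sheetU (τ i) q₀) := fun i => by rw [pow_one]; exact E.map_maximal_le q₀ (τ i) (hpU i)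
  obtain ⟨nT, hnT, hfree⟩ := E.exists_almostFree
  obtain ⟨γ₁, hγ₁, hf₁, -⟩ := hfree 1 _ le_rfl
  obtain ⟨γc, hγc, -, hfc⟩ := hfree c _ le_rfl
  obtain ⟨γN, hγN, -, hfN⟩ := hfree (w * N) _ le_rfl
  have hp0 : (p : A0 p R n) ∈ maximalIdeal (A0 p R n) := by
    rw [← pow_one (maximalIdeal _), ← le_ord_iff_mem_pow, ord_p, pow_zero]
  choose b hbreg hb using fun i => E.exists_reg_loss q₀ (hy i) (hX i) le_rfl (hpJ i) hη2
  have hS := fun i => ((hσ j K hKj E (τ i) (hroot i)).2).some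
  choose σ hσx hσ1 hσmul hσQ using fun i => exists_sigmaHom (hpL i) (hS i).toFun _ (b i)
    (E.evQ (τ i)) (fun Q x => eval₂ C.φ C.θ Q * x) (hS i).map_add (hS i).map_one (hS i).map_mul
    (hS i).map_smul
  refine ⟨{
    X := { T := E.O }
    nT := nT
    nT_pos := hnT
    U := fun i => E.sheetU (τ i) q₀
    almost := fun i => E.exists_almost q₀ (hy i) (hX i) le_rfl (hpJ i)
    β := fun i => b i * (algebraMap (A1 p R n) E.O (βD j) * algebraMap (A1 p R n) E.O (βD j))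
    reg := fun i D hD f hf hev a => by
      rw [mul_comm (b i), mul_assoc]
      exact Ideal.mul_mem_left _ _ (hbreg i L D hD f hf hev a)
    small := fun i => small_loss hnT hγ₁ hf₁ (hm0 i) (hb i) hj
    φ := fun i => (Ideal.Quotient.factorₐ (A0 p R n) (hpK i)).comp (rootMap hsplit i)
    φ_z := fun i l => phi_zS hsplit (hpK i) q₀ i l
    σ := σ
    σ_toR := fun i r x => phi_toR hsplit (hpK i) i (σ i) (hσQ i) r x
    σ_one := hσ1
    σ_mul := hσmul
    σ_max := fun i x hx => (hσx i x).symm ▸ mk_mul_mem (b i) _ _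
      (E.mem_sheet_of_sideVal q₀ (hside i) (hpU i) L _ fun Γ _ w hw => (hS i).bound x hx Γ w hw)
    sum_le := sumLe hsplit hγc (hfc K (Ideal.pow_le_pow_right hKc (Ideal.pow_mem_pow hp0 K))) hpK
    le_sum := leSum hsplit hγN (hfN K (Ideal.pow_le_pow_right hKN (Ideal.pow_mem_pow hp0 K))) hw
      le_rfl }⟩


end Vale.Agent.P202.Mixed2.MainStep
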