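import Vale.Agent.P202.Char.Reduction
import Vale.Agent.P202.Zero.PSLength
import Vale.Agent.P202.Char.FrobRank

/-!
P202 mixed characteristic: for a reduction `x` of the maximal ideal by `m` elements the length
modulo `(x_i ^ L)` is at most `(e + ε) L ^ m`, by counting in the associated graded ring.
-/

namespace Vale.Agent.P202.Mixed2.ParamUpper

open IsLocalRing Filter Topology MvPolynomial Vale.Agent.P202.Char Vale.Agent.P202.Char.Red
open Vale.Agent.P202.Zero

universe u

variable {R : Type u} [CommRing R] [IsLocalRing R] {n : ℕ} (Z : RedData R n) (L : ℕ)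

/-- Tuples without monomials in the box of side `L`. -/
noncomputable def outBox (K : Type u) [CommRing K] :
    Submodule K (Z.ι →₀ MvPolynomial (Fin (n + 1)) K) where
  carrier := {p | ∀ i c, (∀ l, c l < L) → coeff c (p i) = 0}
  zero_mem' := fun i c _ => by simp
  add_mem' := fun {p q} hp hq i c h => by simp [hp i c h, hq i c h]
  smul_mem' := fun a p hp i c h => by simp [hp i c h]

/-- The tuples modulo the relations and the outside of the box. -/
abbrev Mod := (Z.ι →₀ MvPolynomial (Fin (n + 1)) (ResidueField R)) ⧸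
  ((W Z).restrictScalars (ResidueField R) ⊔ outBox Z L (ResidueField R))

/-- The image of the tuples of degree `j`. -/
noncomputable def slice (j : ℕ) : Submodule (ResidueField R) (Mod Z L) :=
  (hom (ResidueField R) (Fin (n + 1)) Z.δ j).map (Submodule.mkQ _)

/-- The pairs of a generator and an exponent in a box, by degree. -/
noncomputable def cells (T : Finset Z.ι) (L γ j : ℕ) :
    Finset (Σ _ : Z.ι, Fin (n + 1) →₀ ℕ) :=
  (T.sigma fun _ => PSLen.box (n + 1) L).filter fun b => Z.δ b.1 + γ + b.2.degree = j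

/-- The monomial tuple of a cell. -/
noncomputable def mono (b : Σ _ : Z.ι, Fin (n + 1) →₀ ℕ) :
    Z.ι →₀ MvPolynomial (Fin (n + 1)) (ResidueField R) :=
  Finsupp.single b.1 (monomial b.2 1)

variable {Z L}

theorem sum_mono_coeff [DecidableEq Z.ι] {T : Finset (Σ _ : Z.ι, Fin (n + 1) →₀ ℕ)}
    (c : (Σ _ : Z.ι, Fin (n + 1) →₀ ℕ) → ResidueField R) (i : Z.ι) (d : Fin (n + 1) →₀ ℕ) :
    coeff d ((∑ b ∈ T, c b • mono Z b) i) =
      if (⟨i, d⟩ : Σ _ : Z.ι, Fin (n + 1) →₀ ℕ) ∈ T then c ⟨i, d⟩ else 0 := by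
  classical
  rw [Finsupp.finsetSum_apply, coeff_sum]
  rw [← Finset.sum_ite_eq' T (⟨i, d⟩ : Σ _ : Z.ι, Fin (n + 1) →₀ ℕ) c]
  refine Finset.sum_congr rfl fun b _ => ?_
  obtain ⟨b₁, b₂⟩ := b
  simp only [mono, Finsupp.smul_apply, Finsupp.single_apply, coeff_smul, smul_eq_mul]
  by_cases h1 : b₁ = i
  · subst h1
    by_cases h2 : b₂ = d
    · subst h2; simp
    · simp [coeff_monomial, h2]
  · simp [h1]

theorem eq_sum_sub_mem [DecidableEq Z.ι] {T : Finset Z.ι} {j : ℕ}
    {p : Z.ι →₀ MvPolynomial (Fin (n + 1)) (ResidueField R)}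
    (hp : p ∈ hom (ResidueField R) (Fin (n + 1)) Z.δ j) (hT : ∀ i, i ∉ T → p i = 0) :
    p - ∑ b ∈ cells Z T L 0 j, coeff b.2 (p b.1) • mono Z b ∈ outBox Z L (ResidueField R) := by
  intro i d hd
  rw [Finsupp.sub_apply, coeff_sub,
    sum_mono_coeff (fun b => coeff b.2 (p b.1)) i d]
  split_ifs with h
  · exact sub_self _
  · rw [sub_zero]
    by_contra hne
    apply h
    simp only [cells, Finset.mem_filter, Finset.mem_sigma, add_zero]
    exact ⟨⟨by_contra fun hi => hne (by rw [hT i hi, coeff_zero]), PSLen.mem_box.2 hd⟩,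
      hp i d hne⟩

/-- The dimension of a slice. -/
theorem finrank_slice_le {S : Finset Z.ι} {g : MvPolynomial (Fin (n + 1)) (ResidueField R)} {γ : ℕ}
    (h : IsBasisData Z S g γ) [DecidableEq Z.ι] (j : ℕ) :
    Module.Finite (ResidueField R) (slice Z L j) ∧
      Module.finrank (ResidueField R) (slice Z L j) + (cells Z Sᶜ (L - γ) γ j).card ≤
        (cells Z Finset.univ L 0 j).card := by
  obtain ⟨hg0, hgh, -, hgen⟩ := h
  set mk := Submodule.mkQ ((W Z).restrictScalars (ResidueField R) ⊔ outBox Z L (ResidueField R))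
  set Bs := cells Z S L 0 j
  set Bn := cells Z Sᶜ L 0 j
  set B' := cells Z Sᶜ (L - γ) γ j
  let θs : (↥Bs → (ResidueField R)) →ₗ[(ResidueField R)] Mod Z L := Fintype.linearCombination (ResidueField R) fun b => mk (mono Z b.1)
  let θn : (↥Bn → (ResidueField R)) →ₗ[(ResidueField R)] Mod Z L := Fintype.linearCombination (ResidueField R) fun b => mk (mono Z b.1)
  have hsplit : slice Z L j ≤ LinearMap.range θs ⊔ LinearMap.range θn := by
    rintro _ ⟨p, hp, rfl⟩
    have h1 := eq_sum_sub_mem (T := Finset.univ) (L := L) hp (fun i hi => absurd (Finset.mem_univ i) hi)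
    rw [show mk p = mk (∑ b ∈ cells Z Finset.univ L 0 j, coeff b.2 (p b.1) • mono Z b) from
      (Submodule.Quotient.eq _).2 (Submodule.mem_sup_right h1), map_sum]
    refine sum_mem fun b hb => ?_
    rw [map_smul]
    refine Submodule.smul_mem _ _ ?_
    simp only [cells, Finset.mem_filter, Finset.mem_sigma] at hb
    by_cases hbS : b.1 ∈ S
    · refine Submodule.mem_sup_left ⟨Pi.single ⟨b, ?_⟩ 1, ?_⟩
      · simp only [Bs, cells, Finset.mem_filter, Finset.mem_sigma]
        exact ⟨⟨hbS, hb.1.2⟩, hb.2⟩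
      · simp [θs, Fintype.linearCombination_apply_single]
    · refine Submodule.mem_sup_right ⟨Pi.single ⟨b, ?_⟩ 1, ?_⟩
      · simp only [Bn, cells, Finset.mem_filter, Finset.mem_sigma]
        exact ⟨⟨Finset.mem_compl.2 hbS, hb.1.2⟩, hb.2⟩
      · simp [θn, Fintype.linearCombination_apply_single]
  -- multiples of `g`
  let ψ : (↥B' → (ResidueField R)) →ₗ[(ResidueField R)] (↥Bn → (ResidueField R)) := Fintype.linearCombination (ResidueField R) fun b' b =>
    coeff b.1.2 (((monomial b'.1.2 1 * g) • Finsupp.single b'.1.1 (1 : MvPolynomial _ (ResidueField R)) :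
      Z.ι →₀ MvPolynomial (Fin (n + 1)) (ResidueField R)) b.1.1)
  have hdeg : ∀ c, coeff c g ≠ 0 → c.degree = γ := fun c hc => by
    by_contra hne
    exact hc (hgh.coeff_eq_zero hne)
  -- a combination of multiples stays in the box
  have hbox : ∀ (b' : ↥B') (d : Fin (n + 1) →₀ ℕ), coeff d (monomial b'.1.2 (1 : (ResidueField R)) * g) ≠ 0 →
      (⟨b'.1.1, d⟩ : Σ _ : Z.ι, Fin (n + 1) →₀ ℕ) ∈ Bn := by
    intro b' d hd
    rw [coeff_monomial_mul'] at hd
    split_ifs at hd with hle
    swap; · exact absurd rfl hd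
    rw [one_mul] at hd
    have hb := b'.2
    simp only [B', Bn, cells, Finset.mem_filter, Finset.mem_sigma, PSLen.mem_box] at hb ⊢
    have he := hdeg _ hd
    refine ⟨⟨hb.1.1, fun l => ?_⟩, ?_⟩
    · have h2 : (d - b'.1.2) l ≤ γ := he ▸ Finsupp.le_degree l _
      have h3 := hb.1.2 l
      rw [Finsupp.tsub_apply] at h2
      omega
    · have hadd : b'.1.2 + (d - b'.1.2) = d := add_tsub_cancel_of_le hle
      have hdd := congrArg Finsupp.degree hadd
      rw [map_add, he] at hdd
      omega
  -- the value of `ψ` as a tuple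
  let P : (↥B' → (ResidueField R)) → (Z.ι →₀ MvPolynomial (Fin (n + 1)) (ResidueField R)) := fun c =>
    ∑ b', c b' • Finsupp.single b'.1.1 (monomial b'.1.2 1 * g)
  have hψ : ∀ c (b : ↥Bn), ψ c b = coeff b.1.2 (P c b.1.1) := by
    intro c b
    simp only [ψ, P, Fintype.linearCombination_apply, Finset.sum_apply, Pi.smul_apply,
      Finsupp.finsetSum_apply, coeff_sum, Finsupp.smul_apply, coeff_smul,
      Finsupp.single_apply, smul_eq_mul]
    refine Finset.sum_congr rfl fun b' _ => ?_
    split_ifs with hi <;> simp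
  have hψinj : Function.Injective ψ := by
    rw [injective_iff_map_eq_zero]
    intro c hc
    have hP : P c = 0 := by
      refine Finsupp.ext fun i => MvPolynomial.ext _ _ fun d => ?_
      rw [Finsupp.zero_apply, coeff_zero]
      by_cases hid : (⟨i, d⟩ : Σ _ : Z.ι, Fin (n + 1) →₀ ℕ) ∈ Bn
      · have := congrFun hc ⟨_, hid⟩
        rwa [hψ] at this
      · simp only [P, Finsupp.finsetSum_apply, coeff_sum, Finsupp.smul_apply, coeff_smul,
          Finsupp.single_apply, smul_eq_mul]
        refine Finset.sum_eq_zero fun b' _ => ?_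
        split_ifs with hi
        · by_contra hne
          exact hid (hi ▸ hbox b' d (fun h0 => hne (by rw [h0, mul_zero])))
        · simp
    funext b₀
    have h1 := DFunLike.congr_fun hP b₀.1.1
    simp only [P, Finsupp.finsetSum_apply, Finsupp.smul_apply, Finsupp.single_apply,
      Finsupp.zero_apply] at h1
    have h2 : (∑ b' : ↥B', if b'.1.1 = b₀.1.1 then c b' • monomial b'.1.2 (1 : (ResidueField R)) else 0) * g =
        0 := by
      rw [Finset.sum_mul]
      refine (Finset.sum_congr rfl fun b' _ => ?_).trans h1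
      split_ifs with hi
      · rw [smul_mul_assoc]
      · rw [zero_mul, smul_zero]
    have h3 := congrArg (coeff b₀.1.2) ((mul_eq_zero.1 h2).resolve_right hg0)
    rw [coeff_sum, Finset.sum_eq_single b₀] at h3
    · simpa using h3
    · intro b' _ hne
      split_ifs with hi
      · rw [coeff_smul, coeff_monomial, if_neg, smul_zero]
        exact fun hd => hne (Subtype.ext (Sigma.ext hi (heq_of_eq hd)))
      · exact coeff_zero _
    · exact fun hn => absurd (Finset.mem_univ _) hn
  have hkill : LinearMap.range ψ ≤ (LinearMap.range θs).comap θn := by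
    rintro _ ⟨c, rfl⟩
    rw [Submodule.mem_comap]
    have hPhom : P c ∈ hom (ResidueField R) (Fin (n + 1)) Z.δ j := by
      refine sum_mem fun b' _ => Submodule.smul_mem _ _ (single_mem_hom _ (mem_slot.2 fun d hd => ?_))
      have := hbox b' d hd
      simp only [Bn, cells, Finset.mem_filter, add_zero] at this
      exact this.2
    -- `g` times a tuple outside `S` is a tuple in `S` modulo relations
    obtain ⟨w, hw, s, hs, hws⟩ : ∃ w ∈ W Z, ∃ s ∈ Finsupp.supported
        (MvPolynomial (Fin (n + 1)) (ResidueField R)) (MvPolynomial (Fin (n + 1)) (ResidueField R)) (S : Set Z.ι),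
        w + s = P c := by
      refine Submodule.mem_sup.1 (sum_mem fun b' _ => ?_)
      rw [← smul_eq_mul, ← Finsupp.smul_single, ← algebraMap_smul (MvPolynomial (Fin (n + 1)) (ResidueField R))]
      refine Submodule.smul_mem _ _ (Submodule.smul_mem _ _ (hgen _ ?_))
      have hb := b'.2
      simp only [B', cells, Finset.mem_filter, Finset.mem_sigma, Finset.mem_compl] at hb
      exact hb.1.1
    have hws' := congrArg (comp (ResidueField R) (Fin (n + 1)) Z.δ j) hws
    rw [map_add, comp_of_mem _ hPhom, if_pos rfl] at hws'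
    have hwj : comp (ResidueField R) (Fin (n + 1)) Z.δ j w ∈ W Z := comp_mem_span _ (grRel_homog Z) hw j
    have hsj := comp_supported Z hs j
    have h1 := eq_sum_sub_mem (T := S) (L := L)
      (comp_mem (δ := Z.δ) j s) fun i hi => (Finsupp.mem_supported' _ _).1 hsj i (by simpa using hi)
    have h2 : θn (ψ c) = mk (P c) := by
      have h3 := eq_sum_sub_mem (T := Sᶜ) (L := L) hPhom fun i hi => by
        simp only [P, Finsupp.finsetSum_apply, Finsupp.smul_apply, Finsupp.single_apply]
        refine Finset.sum_eq_zero fun b' _ => ?_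
        rw [if_neg, smul_zero]
        intro he
        have hb := b'.2
        simp only [B', cells, Finset.mem_filter, Finset.mem_sigma] at hb
        exact hi (he ▸ hb.1.1)
      rw [show mk (P c) = mk (∑ b ∈ Bn, coeff b.2 (P c b.1) • mono Z b) from
        (Submodule.Quotient.eq _).2 (Submodule.mem_sup_right h3), map_sum, ← Finset.sum_coe_sort Bn]
      simp only [θn, Fintype.linearCombination_apply, hψ, map_smul]
    rw [h2, ← hws', map_add, show mk (comp (ResidueField R) (Fin (n + 1)) Z.δ j w) = 0 from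
      (Submodule.Quotient.mk_eq_zero _).2 (Submodule.mem_sup_left hwj), zero_add,
      show mk (comp (ResidueField R) (Fin (n + 1)) Z.δ j s) =
        mk (∑ b ∈ Bs, coeff b.2 (comp (ResidueField R) (Fin (n + 1)) Z.δ j s b.1) • mono Z b) from
        (Submodule.Quotient.eq _).2 (Submodule.mem_sup_right h1), map_sum, ← Finset.sum_coe_sort Bs]
    exact ⟨fun b => coeff b.1.2 (comp (ResidueField R) (Fin (n + 1)) Z.δ j s b.1.1), by
      simp only [θs, Fintype.linearCombination_apply, map_smul]⟩
  -- the count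
  set A := (LinearMap.range θs).comap θn
  let θ : ((↥Bs → (ResidueField R)) × (↥Bn → (ResidueField R))) →ₗ[(ResidueField R)] Mod Z L := θs.coprod θn
  have hle : slice Z L j ≤ LinearMap.range θ := by rwa [LinearMap.range_coprod]
  have : Module.Finite (ResidueField R) (slice Z L j) := Submodule.finiteDimensional_of_le hle
  refine ⟨this, ?_⟩
  have hψA : Module.finrank (ResidueField R) (LinearMap.range ψ) ≤ Module.finrank (ResidueField R) A :=
    Submodule.finrank_mono hkill
  rw [LinearMap.finrank_range_of_inj hψinj, Module.finrank_fintype_fun_eq_card, Fintype.card_coe]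
    at hψA
  have hker : Module.finrank (ResidueField R) A ≤ Module.finrank (ResidueField R) (LinearMap.ker θ) := by
    have hA : ∀ a : ↥A, ∃ s, θs s = θn a.1 := fun a => a.2
    have hsurj : A ≤ (LinearMap.ker θ).map (LinearMap.snd (ResidueField R) (↥Bs → (ResidueField R)) (↥Bn → (ResidueField R))) := by
      intro a ha
      obtain ⟨s, hs⟩ := hA ⟨a, ha⟩
      refine ⟨(-s, a), ?_, rfl⟩
      simp [θ, LinearMap.mem_ker, hs]
    exact (Submodule.finrank_mono hsurj).trans (Submodule.finrank_map_le _ _)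
  have h4 := θ.finrank_range_add_finrank_ker
  rw [Module.finrank_prod, Module.finrank_fintype_fun_eq_card, Module.finrank_fintype_fun_eq_card,
    Fintype.card_coe, Fintype.card_coe] at h4
  have h5 : Module.finrank (ResidueField R) (slice Z L j) ≤ Module.finrank (ResidueField R) (LinearMap.range θ) :=
    Submodule.finrank_mono hle
  have h6 : (cells Z Finset.univ L 0 j).card = Bs.card + Bn.card := by
    rw [← Finset.card_union_of_disjoint]
    · congr 1
      ext b
      simp only [Bs, Bn, cells, Finset.mem_union, Finset.mem_filter, Finset.mem_sigma,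
        Finset.mem_univ, Finset.mem_compl]
      tauto
    · refine Finset.disjoint_left.2 fun b h1 h2 => ?_
      simp only [Bs, Bn, cells, Finset.mem_filter, Finset.mem_sigma, Finset.mem_compl] at h1 h2
      exact h2.1.1 h1.1.1
  omega

variable (Z L) in
/-- The ideal of the powers. -/
noncomputable def powIdeal : Ideal R := Ideal.span (Set.range fun l => Z.z l ^ L)

theorem ev0_mem_powIdeal {q : Z.ι →₀ MvPolynomial (Fin (n + 1)) R} (hq : q ∈ outBox Z L R) :
    ev0 Z q ∈ powIdeal Z L := by
  simp only [ev0, evt, Finsupp.lsum_apply, Finsupp.sum]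
  refine Ideal.sum_mem _ fun i _ => ?_
  simp only [LinearMap.comp_apply, AlgHom.toLinearMap_apply, LinearMap.mulLeft_apply]
  refine Ideal.mul_mem_left _ _ ?_
  rw [MvPolynomial.aeval_def, MvPolynomial.eval₂_eq']
  refine Ideal.sum_mem _ fun c hc => Ideal.mul_mem_left _ _ ?_
  obtain ⟨l, hl⟩ : ∃ l, L ≤ c l := by
    by_contra hne
    push Not at hne
    exact (mem_support_iff.1 hc) (hq i c hne)
  rw [← Finset.mul_prod_erase _ _ (Finset.mem_univ l), ← Nat.sub_add_cancel hl, pow_add,
    mul_right_comm]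
  exact Ideal.mul_mem_left _ _ (Ideal.subset_span ⟨l, rfl⟩)

/-- A tuple whose reduction is a relation modulo the outside of the box evaluates into the next
step. -/
theorem ev0_mem_of_red [IsNoetherianRing R] {j : ℕ} {q : Z.ι →₀ MvPolynomial (Fin (n + 1)) R}
    (hq : q ∈ hom R (Fin (n + 1)) Z.δ j)
    (h1 : red Z q ∈ (W Z).restrictScalars (ResidueField R) ⊔ outBox Z L (ResidueField R)) :
    ev0 Z q ∈ powIdeal Z L ⊔ maximalIdeal R ^ (j + 1) := by
  classical
  obtain ⟨w, hw, b, hb, hwb⟩ := Submodule.mem_sup.1 h1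
  have hwb' := congrArg (comp (ResidueField R) (Fin (n + 1)) Z.δ j) hwb
  rw [map_add, comp_of_mem _ (red_mem_hom Z hq), if_pos rfl] at hwb'
  have hbj : comp (ResidueField R) (Fin (n + 1)) Z.δ j b ∈ outBox Z L (ResidueField R) :=
    fun i c hc => by
      rw [coeff_comp, hb i c hc]
      simp
  obtain ⟨q₀, hq₀, hred⟩ := exists_lift_hom Z (comp_mem (δ := Z.δ) j b)
  -- keep the monomials outside the box
  obtain ⟨q₁, hin⟩ : ∃ q₁ : Z.ι →₀ MvPolynomial (Fin (n + 1)) R, ∀ i c, coeff c (q₁ i) =
      if (⟨i, c⟩ : Σ _ : Z.ι, Fin (n + 1) →₀ ℕ) ∈ cells Z Finset.univ L 0 j then 0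
      else coeff c (q₀ i) := by
    refine ⟨q₀ - ∑ c ∈ cells Z Finset.univ L 0 j,
        Finsupp.single c.1 (monomial c.2 (coeff c.2 (q₀ c.1))), fun i c => ?_⟩
    simp only [Finsupp.sub_apply, coeff_sub, Finsupp.finsetSum_apply, coeff_sum]
    have : ∀ b ∈ cells Z Finset.univ L 0 j,
        coeff c ((Finsupp.single b.1 (monomial b.2 (coeff b.2 (q₀ b.1)))) i) =
          if b = ⟨i, c⟩ then coeff c (q₀ i) else 0 := by
      rintro ⟨b₁, b₂⟩ -
      rw [Finsupp.single_apply]
      by_cases h1 : b₁ = i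
      · subst h1
        by_cases h2 : b₂ = c
        · subst h2; simp
        · simp [coeff_monomial, h2]
      · simp [h1]
    rw [Finset.sum_congr rfl this, Finset.sum_ite_eq']
    split_ifs <;> simp
  have hq₁hom : q₁ ∈ hom R (Fin (n + 1)) Z.δ j := fun i c hc => by
    rw [hin] at hc
    split_ifs at hc with h
    · exact absurd rfl hc
    · exact hq₀ i c hc
  have hq₁out : q₁ ∈ outBox Z L R := fun i c hc => by
    rw [hin]
    split_ifs with h
    · rfl
    · by_contra hne
      refine h ?_
      simp only [cells, Finset.mem_filter, Finset.mem_sigma, Finset.mem_univ, true_and, add_zero]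
      exact ⟨PSLen.mem_box.2 hc, hq₀ i c hne⟩
  have hred₁ : red Z q₁ = comp (ResidueField R) (Fin (n + 1)) Z.δ j b := by
    rw [← hred]
    refine Finsupp.ext fun i => MvPolynomial.ext _ _ fun c => ?_
    rw [red_apply, red_apply, coeff_map, coeff_map, hin]
    split_ifs with h
    · have h0 : residue R (coeff c (q₀ i)) =
          coeff c (comp (ResidueField R) (Fin (n + 1)) Z.δ j b i) := by
        rw [← coeff_map, ← red_apply, hred]
      rw [map_zero, h0, hbj i c]
      simp only [cells, Finset.mem_filter, Finset.mem_sigma, PSLen.mem_box] at h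
      exact h.1.2
    · rfl
  have hm : ev0 Z (q - q₁) ∈ maximalIdeal R ^ (j + 1) := by
    refine key Z (sub_mem hq hq₁hom) ?_
    rw [map_sub, hred₁, ← hwb', add_sub_cancel_right]
    exact comp_mem_span _ (grRel_homog Z) hw j
  have hsum : ev0 Z q = ev0 Z q₁ + ev0 Z (q - q₁) := by rw [← map_add, add_sub_cancel]
  rw [hsum]
  exact Submodule.add_mem_sup (ev0_mem_powIdeal hq₁out) hm

omit [IsLocalRing R] in
theorem length_range_le {H A B : Type*} [AddCommGroup H] [AddCommGroup A] [AddCommGroup B]
    [Module R H] [Module R A] [Module R B] (f : H →ₗ[R] A) (g : H →ₗ[R] B)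
    (h : LinearMap.ker f ≤ LinearMap.ker g) :
    Module.length R (LinearMap.range g) ≤ Module.length R (LinearMap.range f) := by
  rw [← f.quotKerEquivRange.length_eq]
  refine Module.length_le_of_surjective
    (Submodule.liftQ _ g.rangeRestrict (h.trans (LinearMap.ker_rangeRestrict g).ge)) fun y => ?_
  obtain ⟨q, hq⟩ := g.surjective_rangeRestrict y
  exact ⟨Submodule.Quotient.mk q, hq⟩

variable (Z L) in
/-- The reduction of homogeneous tuples into the quotient. -/
noncomputable def redMod (j : ℕ) : hom R (Fin (n + 1)) Z.δ j →ₗ[R] Mod Z L :=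
  (Submodule.mkQ ((W Z).restrictScalars (ResidueField R) ⊔
    outBox Z L (ResidueField R))).restrictScalars R ∘ₗ (red Z).comp
      (hom R (Fin (n + 1)) Z.δ j).subtype

theorem range_redMod_le (j : ℕ) :
    LinearMap.range (redMod Z L j) ≤ (slice Z L j).restrictScalars R := by
  rintro _ ⟨q, rfl⟩
  exact ⟨red Z q.1, red_mem_hom Z q.2, rfl⟩

variable (Z L) in
/-- The evaluation of homogeneous tuples modulo the next step. -/
noncomputable def evQuot (j : ℕ) :
    hom R (Fin (n + 1)) Z.δ j →ₗ[R] R ⧸ (powIdeal Z L ⊔ maximalIdeal R ^ (j + 1)) :=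
  (powIdeal Z L ⊔ maximalIdeal R ^ (j + 1)).mkQ ∘ₗ (ev0 Z).comp
    (hom R (Fin (n + 1)) Z.δ j).subtype

theorem ker_redMod_le [IsNoetherianRing R] (j : ℕ) :
    LinearMap.ker (redMod Z L j) ≤ LinearMap.ker (evQuot Z L j) := fun q hf =>
  (Submodule.Quotient.mk_eq_zero _).2
    (ev0_mem_of_red q.2 ((Submodule.Quotient.mk_eq_zero _).1 hf))

theorem ker_factor_le_range (j : ℕ)
    (hKK : powIdeal Z L ⊔ maximalIdeal R ^ (j + 1) ≤ powIdeal Z L ⊔ maximalIdeal R ^ j) :
    LinearMap.ker (Submodule.factor hKK) ≤ LinearMap.range (evQuot Z L j) := by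
  intro x hx
  obtain ⟨x, rfl⟩ := Submodule.mkQ_surjective _ x
  obtain ⟨a, ha, b, hb, rfl⟩ := Submodule.mem_sup.1 ((Submodule.Quotient.mk_eq_zero _).1 hx)
  obtain ⟨c, hc, e, he, rfl⟩ := Submodule.mem_sup.1 (pow_le_range Z j hb)
  obtain ⟨q, hq, rfl⟩ := hc
  refine ⟨⟨q, hq⟩, (Submodule.Quotient.eq _).2 ?_⟩
  show ev0 Z q - (a + (ev0 Z q + e)) ∈ powIdeal Z L ⊔ maximalIdeal R ^ (j + 1)
  rw [show ev0 Z q - (a + (ev0 Z q + e)) = -(a + e) by ring]
  exact neg_mem (Submodule.add_mem_sup ha he)

attribute [local irreducible] evQuot redMod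

/-- One step of the filtration is bounded by the slice. -/
theorem length_step_le [IsNoetherianRing R] {j : ℕ}
    (hfin : Module.Finite (ResidueField R) (slice Z L j)) :
    Module.length R (R ⧸ (powIdeal Z L ⊔ maximalIdeal R ^ (j + 1))) ≤
      Module.length R (R ⧸ (powIdeal Z L ⊔ maximalIdeal R ^ j)) +
        Module.finrank (ResidueField R) (slice Z L j) := by
  have hKK : powIdeal Z L ⊔ maximalIdeal R ^ (j + 1) ≤ powIdeal Z L ⊔ maximalIdeal R ^ j :=
    sup_le_sup_left (Ideal.pow_le_pow_right j.le_succ) _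
  rw [Module.length_eq_add_of_exact (LinearMap.ker (Submodule.factor hKK)).subtype
    (Submodule.factor hKK) Subtype.val_injective (Submodule.factor_surjective _)
    (LinearMap.exact_subtype_ker_map _), add_comm]
  refine add_le_add le_rfl ?_
  have h1 : Module.length R (LinearMap.ker (Submodule.factor hKK)) ≤
      Module.length R (LinearMap.range (evQuot Z L j)) :=
    Module.length_le_of_injective (Submodule.inclusion (ker_factor_le_range j hKK))
      (Submodule.inclusion_injective _)
  have hk := ker_redMod_le (Z := Z) (L := L) j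
  have h2 := @length_range_le R _ (hom R (Fin (n + 1)) Z.δ j) (Mod Z L) _ _ _ _ _ _ _
    (redMod Z L j) (evQuot Z L j) hk
  have h3 : Module.length R (LinearMap.range (redMod Z L j)) ≤
      Module.length R ((slice Z L j).restrictScalars R) :=
    Module.length_le_of_injective (Submodule.inclusion (range_redMod_le j))
      (Submodule.inclusion_injective _)
  refine ((h1.trans h2).trans h3).trans_eq ?_
  rw [← Module.length_eq_finrank (K := ResidueField R) (M := slice Z L j)]
  exact (Module.length_eq_of_surjective (R := ResidueField R) (S := R) (M := slice Z L j)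
    residue_surjective)

theorem cells_total (T : Finset Z.ι) (L γ N : ℕ)
    (hN : ∀ i, Z.δ i + γ + (n + 1) * L < N) :
    ∑ j ∈ Finset.range N, (cells Z T L γ j).card = T.card * L ^ (n + 1) := by
  classical
  rw [← Finset.card_biUnion]
  · rw [show (Finset.range N).biUnion (cells Z T L γ) = T.sigma fun _ => PSLen.box (n + 1) L from ?_]
    · rw [Finset.card_sigma]
      simp [PSLen.card_box]
    · ext b
      simp only [cells, Finset.mem_biUnion, Finset.mem_filter, Finset.mem_range]
      refine ⟨fun ⟨_, _, h, _⟩ => h, fun h => ⟨_, ?_, h, rfl⟩⟩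
      have hb := PSLen.mem_box.1 (Finset.mem_sigma.1 h).2
      have : b.2.degree ≤ (n + 1) * L := by
        rw [Finsupp.degree_eq_sum]
        exact (Finset.sum_le_card_nsmul _ _ L fun l _ => (hb l).le).trans (by simp)
      have := hN b.1
      omega
  · intro a _ b _ hab
    rw [Function.onFun, Finset.disjoint_left]
    intro x h1 h2
    simp only [cells, Finset.mem_filter] at h1 h2
    exact hab (h1.2.symm.trans h2.2)

theorem length_le [IsNoetherianRing R] [DecidableEq Z.ι] {S : Finset Z.ι}
    {g : MvPolynomial (Fin (n + 1)) (ResidueField R)} {γ : ℕ}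
    (h : IsBasisData Z S g γ) {c : ℕ} (hc : maximalIdeal R ^ c ≤ powIdeal Z L) :
    len R (R ⧸ powIdeal Z L) + Sᶜ.card * (L - γ) ^ (n + 1) ≤
      Fintype.card Z.ι * L ^ (n + 1) := by
  classical
  set N := c + (Finset.univ.sup Z.δ + γ + (n + 1) * L + 1)
  have hstep : ∀ j, Module.length R (R ⧸ (powIdeal Z L ⊔ maximalIdeal R ^ j)) ≤
      ((∑ t ∈ Finset.range j, Module.finrank (ResidueField R) (slice Z L t) : ℕ) : ℕ∞) := by
    intro j
    induction j with
    | zero =>
      have : Subsingleton (R ⧸ (powIdeal Z L ⊔ maximalIdeal R ^ 0)) :=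
        Ideal.Quotient.subsingleton_iff.2 (by simp)
      simp
    | succ j ih =>
      rw [Finset.sum_range_succ, Nat.cast_add]
      exact (length_step_le (finrank_slice_le h j).1).trans (by gcongr)
  have h1 := hstep N
  rw [sup_eq_left.2 ((Ideal.pow_le_pow_right (Nat.le_add_right c _)).trans hc)] at h1
  have hlen : len R (R ⧸ powIdeal Z L) ≤
      ∑ t ∈ Finset.range N, Module.finrank (ResidueField R) (slice Z L t) := by
    rw [len, ← ENat.toNat_natCast (∑ t ∈ Finset.range N, _)]
    exact ENat.toNat_le_toNat h1 (ENat.natCast_ne_top _)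
  have h2 := Finset.sum_le_sum fun t (_ : t ∈ Finset.range N) => (finrank_slice_le h (L := L) t).2
  have hsup : ∀ i, Z.δ i ≤ Finset.univ.sup Z.δ := fun i => Finset.le_sup (Finset.mem_univ i)
  rw [Finset.sum_add_distrib,
    cells_total _ _ _ _ (fun i => by
      have := hsup i
      have : (n + 1) * (L - γ) ≤ (n + 1) * L := Nat.mul_le_mul_left _ (Nat.sub_le _ _)
      omega),
    cells_total _ _ _ _ (fun i => by have := hsup i; omega), Finset.card_univ] at h2
  omega

/-- The upper bound for the lengths modulo the powers of a reduction. -/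
theorem eventually_le (R : Type u) [CommRing R] [IsLocalRing R] [IsNoetherianRing R] {m : ℕ}
    (hm : 0 < m) (x : Fin m → R) (hx : Red.IsRed x) {e : ℝ} (he : IsMultiplicity R m e) :
    ∀ ε > 0, ∀ᶠ L : ℕ in atTop,
      (len R (R ⧸ Ideal.span (Set.range fun i => x i ^ L)) : ℝ) ≤ (e + ε) * (L : ℝ) ^ m := by
  classical
  obtain ⟨n, rfl⟩ := Nat.exists_eq_succ_of_ne_zero hm.ne'
  obtain ⟨Z, rfl⟩ := Red.exists_data hx
  obtain ⟨S, g, γ, hB⟩ := Red.exists_basisData Z
  obtain rfl := tendsto_nhds_unique he (Red.multiplicity_eq_card Z hB)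
  intro ε hε
  obtain ⟨-, c, hc⟩ := hx
  have hlim : Tendsto (fun L : ℕ => (Fintype.card Z.ι : ℝ) -
      (Sᶜ.card : ℝ) * ((L - γ : ℕ) : ℝ) ^ (n + 1) / (L : ℝ) ^ (n + 1)) atTop
      (𝓝 (S.card : ℝ)) := by
    have h0 : Tendsto (fun L : ℕ => ((L - γ : ℕ) : ℝ) / (L : ℝ)) atTop (𝓝 1) := by
      have h1 := (tendsto_const_nhds (x := (1 : ℝ))).sub
        (tendsto_const_div_atTop_nhds_zero_nat (γ : ℝ))
      rw [sub_zero] at h1
      refine h1.congr' ?_
      filter_upwards [eventually_gt_atTop γ] with L hL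
      have : (0 : ℝ) < L := by exact_mod_cast (Nat.zero_le γ).trans_lt hL
      rw [Nat.cast_sub hL.le]
      field_simp
    have h2 := ((h0.pow (n + 1)).const_mul (Sᶜ.card : ℝ)).const_sub (Fintype.card Z.ι : ℝ)
    rw [one_pow, mul_one] at h2
    convert h2 using 2 with L
    · rw [div_pow, mul_div_assoc]
    · rw [← Finset.card_add_card_compl S]
      push_cast
      ring
  filter_upwards [hlim.eventually (gt_mem_nhds (lt_add_of_pos_right _ hε)),
    eventually_gt_atTop 0] with L hL hL0
  have hfinal : maximalIdeal R ^ (c + (L * 1 + (n + 1) * (L - 1))) ≤ powIdeal Z L := by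
    refine ((Red.IsRed.pow_le hc _).trans Ideal.mul_le_left).trans ?_
    exact (pow_le_pow_pows Z.z L hL0 1).trans_eq (pow_one _)
  have h3 := length_le hB hfinal
  have hLpos : (0 : ℝ) < (L : ℝ) ^ (n + 1) := by positivity
  rw [sub_lt_iff_lt_add, ← sub_lt_iff_lt_add', lt_div_iff₀ hLpos] at hL
  have h4 : (len R (R ⧸ powIdeal Z L) : ℝ) + (Sᶜ.card : ℝ) * ((L - γ : ℕ) : ℝ) ^ (n + 1) ≤
      (Fintype.card Z.ι : ℝ) * (L : ℝ) ^ (n + 1) := by exact_mod_cast h3
  show (len R (R ⧸ powIdeal Z L) : ℝ) ≤ (_ + ε) * (L : ℝ) ^ (n + 1)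
  rw [sub_mul, add_mul] at hL
  rw [add_mul]
  linarith

end Vale.Agent.P202.Mixed2.ParamUpper
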