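import Vale.Agent.P202.Mixed2.Setup
import Vale.Agent.P202.Mixed2.Cohen
import Vale.Agent.P202.Mixed2.CohenLift
import Vale.Agent.P202.Mixed2.FibreMult
import Vale.Agent.P202.Mixed2.ParamUpper

/-!
P202 mixed characteristic: Lech's inequality for a complete domain and a complete algebra with
algebraically closed residue field and Artinian closed fibre, from the core.
-/

namespace Vale.Agent.P202.Mixed2

open IsLocalRing Filter Topology Vale.Agent.P202.Char Vale.Agent.P202.Zero

universe u

/-- The core for every complete local ring with algebraically closed residue field. -/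
def CoreAll : Prop :=
  ∀ (p : ℕ) [Fact p.Prime] (T : Type u) [CommRing T] [IsLocalRing T] [IsNoetherianRing T]
    [IsAdicComplete (maximalIdeal T) T] [CharP (ResidueField T) p] [IsAlgClosed (ResidueField T)]
    (n : ℕ) (C : CoreData p T n), CoreGoal p T n C

namespace SetupMain

set_option linter.unusedSectionVars false

variable {p : ℕ} [hp : Fact p.Prime] (R S : Type u) [CommRing R] [CommRing S] [IsLocalRing R]
  [IsLocalRing S] [IsNoetherianRing R] [IsNoetherianRing S] [Algebra R S]
  [IsLocalHom (algebraMap R S)] [IsDomain R] [IsAdicComplete (maximalIdeal R) R]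
  [IsAdicComplete (maximalIdeal S) S] [CharP (ResidueField R) p] [Infinite (ResidueField R)]
  [IsAlgClosed (ResidueField S)]

/-- The setting of the core for a complete domain and a complete algebra. -/
theorem exists_setting (hp0 : (p : R) ≠ 0) {n : ℕ} (hdR : ringKrullDim R = (n + 1 : ℕ)) :
    ∃ (h : ℕ) (K : Type u) (_ : Field K) (T : Type u) (_ : CommRing T) (_ : IsLocalRing T) (_ : IsNoetherianRing T)
      (_ : IsAdicComplete (maximalIdeal T) T) (_ : CharP (ResidueField T) p)
      (_ : IsAlgClosed (ResidueField T)) (_ : Algebra R T) (_ : Module.Flat R T)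
      (_ : IsLocalHom (algebraMap R T)) (D : CoreData p T (n + h)) (π : T →+* PS K h)
      (ψ : T →+* S) (a : R), ringKrullDim T = (n + h + 1 : ℕ) ∧ a ≠ 0 ∧
        D.φ D.Φ.discr = algebraMap R T a ∧ Function.Surjective π ∧
        RingHom.ker π = (maximalIdeal R).map (algebraMap R T) ∧ Function.Surjective ψ ∧
        ∀ r, ψ (algebraMap R T r) = algebraMap R S r := by
  classical
  obtain ⟨C, _, _, _, hC, res, incl, hres, hker, hπ, -, -⟩ :=
    Cohen.exists_cohen (p := p) (k := ResidueField R)
  have : IsAdicComplete (maximalIdeal C) C := hπ.maximalIdeal_eq.symm ▸ hC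
  have hreg : ∀ a : C, (p : C) * a = 0 → a = 0 := fun a ha =>
    (mul_eq_zero.1 ha).resolve_left hπ.ne_zero
  obtain ⟨f, hf⟩ := Cohen.exists_lift (E := R) res hres hker hreg (WittMap.natCast_mem p)
    (J := maximalIdeal R) le_rfl res
  have hf' : ∀ v, residue R (f v) = res v := RingHom.congr_fun hf
  obtain ⟨Ch, hCh⟩ := Choices.exists_choices hπ f (fun x => by
    obtain ⟨v, hv⟩ := hres x
    exact ⟨v, (hf' v).trans hv⟩) hdR hp0
  let K := ResidueField S
  have : CharP K p :=
    charP_of_injective_ringHom (ResidueField.map (algebraMap R S)).injective p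
  have := Gonfle.isAdicComplete_witt (p := p) K
  have hW : Irreducible (p : WittVector p K) := WittVector.irreducible p
  obtain ⟨h, z, hz⟩ := Submodule.fg_iff_exists_fin_generating_family.1
    (maximalIdeal S).fg_of_isNoetherianRing
  have hzm : ∀ j, z j ∈ maximalIdeal S := fun j => hz ▸ Ideal.subset_span ⟨j, rfl⟩
  obtain ⟨ψ₀, hψ₀, hψ₀C, hψ₀X⟩ := Gonfle.exists_surjective (p := p) hW (WittMap.wittMap p S)
    (fun x => by
      obtain ⟨w, hw⟩ := WittVector.constantCoeff_surjective p x
      exact ⟨w, (WittMap.residue_wittMap p w).trans hw⟩) z hz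
  let Bh := Base p K h
  have : IsAdicComplete (maximalIdeal Bh) Bh := PSComplete.isAdicComplete
  have hpB : (p : Bh) ∈ maximalIdeal Bh := by
    rw [mem_maximalIdeal, mem_nonunits_iff, MvPowerSeries.isUnit_iff_constantCoeff]
    rw [map_natCast]
    exact hW.not_isUnit
  obtain ⟨f₁, hf₁⟩ := Cohen.exists_lift (E := Bh) res hres hker hreg hpB
    (le_maximalIdeal (RingHom.ker_ne_top ψ₀))
    ((RingHom.quotientKerEquivOfSurjective hψ₀).symm.toRingHom.comp ((algebraMap R S).comp f))
  have hf₁' : ∀ v, ψ₀ (f₁ v) = algebraMap R S (f v) := fun v => by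
    have h1 := congrArg (RingHom.quotientKerEquivOfSurjective hψ₀) (RingHom.congr_fun hf₁ v)
    exact h1.trans ((RingHom.quotientKerEquivOfSurjective hψ₀).apply_symm_apply _)
  let B := Base p K (n + h)
  have : IsAdicComplete (maximalIdeal B) B := PSComplete.isAdicComplete
  have hXB : ∀ i : Fin n, (MvPowerSeries.X (Fin.castAdd h i) : B) ∈ maximalIdeal B := fun i => by
    rw [mem_maximalIdeal, mem_nonunits_iff, MvPowerSeries.isUnit_iff_constantCoeff]
    simp
  let rn : Bh →+* B := (MvPowerSeries.rename (Setup.emb n h)).toRingHom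
  let ι : MvPowerSeries (Fin n) C →+* B :=
    EvalPS.eval (N := maximalIdeal B) (rn.comp f₁) _ hXB
  have hιX : ∀ i, ι (MvPowerSeries.X i) = MvPowerSeries.X (Fin.castAdd h i) := fun i =>
    EvalPS.eval_X _ _ hXB i
  have hιC : ∀ v, ι (MvPowerSeries.C v) = rn (f₁ v) := fun v => EvalPS.eval_C _ _ hXB v
  let ρ : ResidueField R →+* PS K h := res.liftOfSurjective hres
    ⟨(MvPowerSeries.map (WittVector.constantCoeff (p := p) (R := K))).comp f₁, fun v hv => by
      rw [hker, Ideal.mem_span_singleton] at hv
      obtain ⟨c, rfl⟩ := hv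
      rw [RingHom.mem_ker, map_mul, map_natCast,
        ← map_natCast (MvPowerSeries.C (σ := Fin h) (R := K)), CharP.cast_eq_zero, map_zero,
        zero_mul]⟩
  have hρ : ∀ v, ρ (res v) =
      MvPowerSeries.map (WittVector.constantCoeff (p := p) (R := K)) (f₁ v) := fun v =>
    RingHom.liftOfRightInverse_comp_apply _ _ _ _ v
  let w : Fin (n + h) → S := Fin.append (fun i => algebraMap R S (Ch.φ (MvPowerSeries.X i))) z
  have hw : ∀ i, w i ∈ maximalIdeal S := fun i => by
    induction i using Fin.addCases with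
    | left i =>
      simp only [w, Fin.append_left]
      exact Stage2.map_le (Ideal.mem_map_of_mem _ (Ch.φ_X_mem i))
    | right j => simpa [w] using hzm j
  let ψB : B →+* S := EvalPS.eval (N := maximalIdeal S) (WittMap.wittMap p S) w hw
  have hψrn : ψB.comp rn = ψ₀ := by
    have h6 : ∀ j, ψB (rn (MvPowerSeries.X j)) = z j := fun j => by
      change ψB (MvPowerSeries.rename (Setup.emb n h) (MvPowerSeries.X j)) = _
      rw [MvPowerSeries.rename_X]
      refine (EvalPS.eval_X _ _ hw _).trans ?_
      simp [w, Setup.emb]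
    refine Gonfle.hom_ext (maximalIdeal S) _ _ (fun a => ?_) (fun j => ?_) (fun j => ?_)
    · rw [hψ₀C]
      change ψB (MvPowerSeries.rename (Setup.emb n h) (MvPowerSeries.C a)) = _
      rw [MvPowerSeries.rename_C]
      exact EvalPS.eval_C _ _ hw a
    · rw [hψ₀X]
      exact h6 j
    · exact (h6 j).symm ▸ hzm j
  have hψB : Function.Surjective ψB := fun s => by
    obtain ⟨b, rfl⟩ := hψ₀ s
    exact ⟨rn b, RingHom.congr_fun hψrn b⟩
  have hψι : ψB.comp ι = (algebraMap R S).comp Ch.φ := by
    refine Gonfle.hom_ext (maximalIdeal S) _ _ (fun v => ?_) (fun i => ?_) (fun i => ?_)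
    · rw [RingHom.comp_apply, RingHom.comp_apply, hιC, hCh, ← hf₁']
      exact RingHom.congr_fun hψrn (f₁ v)
    · rw [RingHom.comp_apply, RingHom.comp_apply, hιX]
      refine (EvalPS.eval_X _ _ hw _).trans ?_
      simp [w]
    · rw [RingHom.comp_apply, hιX]
      rw [show ψB (MvPowerSeries.X (Fin.castAdd h i)) = w (Fin.castAdd h i) from
        EvalPS.eval_X _ _ hw _]
      exact hw _
  obtain ⟨T, i1, i2, i3, i4, i5, i6, i7, i8, i9, D, π, ψ, a, hall⟩ :=
    Setup.exists_tensor (p := p) (h := h) K hπ hdR Ch ι hιX ρ (fun v => by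
      rw [hCh, hf', hρ, hιC, Setup.pi0_apply]
      exact congrArg _ (MvPowerSeries.killCompl_rename_app (f₁ v)).symm)
      ψB hψB (RingHom.congr_fun hψι)
  exact ⟨h, K, inferInstance, T, i1, i2, i3, i4, i5, i6, i7, i8, i9, D, π, ψ, a, hall⟩

/-- Lengths do not change along a surjection. -/
theorem len_map {T : Type u} [CommRing T] [Algebra T S]
    (hs : Function.Surjective (algebraMap T S)) (I : Ideal T) :
    len T (S ⧸ (I • ⊤ : Submodule T S)) = len S (S ⧸ I.map (algebraMap T S)) := by
  refine congrArg ENat.toNat (((Submodule.quotEquivOfEq _ _ (Ideal.smul_top_eq_map I)).trans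
    (Submodule.Quotient.restrictScalarsEquiv T (I.map (algebraMap T S)))).length_eq.trans ?_)
  exact Module.length_eq_of_surjective hs

/-- A power of an ideal lies in the ideal of the powers of its generators. -/
theorem pow_le_span {A : Type u} [CommRing A] {m : ℕ} (x : Fin m → A) (L : ℕ) :
    Ideal.span (Set.range x) ^ (m * L + 1) ≤ Ideal.span (Set.range fun i => x i ^ L) := by
  classical
  suffices h : ∀ t : Finset (Fin m), Ideal.span (x '' t) ^ (t.card * L + 1) ≤
      Ideal.span (Set.range fun i => x i ^ L) by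
    simpa using h Finset.univ
  intro t
  induction t using Finset.induction with
  | empty => simp
  | @insert a t ha ih =>
    rw [Finset.coe_insert, Set.image_insert_eq, Ideal.span_insert, Finset.card_insert_of_notMem ha,
      show (t.card + 1) * L + 1 = L + (t.card * L + 1) by ring]
    refine Ideal.sup_pow_add_le_pow_sup_pow.trans (sup_le ?_ ih)
    rw [Ideal.span_singleton_pow, Ideal.span_singleton_le_iff_mem]
    exact Ideal.subset_span ⟨a, rfl⟩

/-- The image of a nonzero element grows slowly modulo powers of a reduction. -/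
theorem grow_reduction [Module.Flat R S] {m : ℕ} (hm : ringKrullDim S = m) (x : Fin m → S)
    (hx : Red.IsRed x) {a : R} (ha : a ≠ 0) :
    Tendsto (fun L : ℕ => (len S (S ⧸ (Ideal.span {algebraMap R S a} ⊔
      Ideal.span (Set.range fun i => x i ^ L))) : ℝ) / (L : ℝ) ^ m) atTop (𝓝 0) := by
  obtain ⟨-, c, hc⟩ := hx
  obtain ⟨q, hqd⟩ : ∃ q, q = (c + 1) * (m + 1) := ⟨_, rfl⟩
  have hq : 0 < q := by rw [hqd]; positivity
  have hle : ∀ L, 0 < L →
      maximalIdeal S ^ (q * L) ≤ Ideal.span (Set.range fun i => x i ^ L) := by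
    intro L hL
    rw [hqd, mul_assoc, pow_mul]
    refine (Ideal.pow_right_mono (hc.trans Ideal.mul_le_left) _).trans ?_
    refine (Ideal.pow_le_pow_right ?_).trans (pow_le_span x L)
    nlinarith
  have h1 := (CoreBuild.grow R S hm ha).comp
    (tendsto_id.const_mul_atTop' (r := q) hq)
  have h2 := h1.const_mul ((q : ℝ) ^ m)
  rw [mul_zero] at h2
  refine squeeze_zero' (Eventually.of_forall fun L => by positivity) ?_ h2
  filter_upwards [eventually_gt_atTop 0] with L hL
  simp only [Function.comp_apply, id_eq]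
  have hq0 : (q : ℝ) ^ m ≠ 0 := by positivity
  rw [Nat.cast_mul, mul_pow, mul_div, mul_div_mul_left _ _ hq0]
  gcongr
  exact ENat.toNat_le_toNat (length_quotient_mono (sup_le_sup_left (hle L hL) _))
    (length_quotient_ne_top _ (q * L) le_sup_right)

end SetupMain

/-- An Artinian closed fibre does not change the dimension. -/
theorem SetupMain.dim_of_artinian (R S : Type u) [CommRing R] [CommRing S] [IsLocalRing R]
    [IsLocalRing S] [IsNoetherianRing R] [IsNoetherianRing S] [Algebra R S]
    [IsLocalHom (algebraMap R S)] [Module.Flat R S]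
    (hfib : ∃ c, maximalIdeal S ^ c ≤ (maximalIdeal R).map (algebraMap R S)) {d : ℕ}
    (hd : ringKrullDim R = d) : ringKrullDim S = d := by
  obtain ⟨c, hc⟩ := hfib
  obtain ⟨D', -, hD', -, -⟩ := exists_multiplicity S
  set J := (maximalIdeal R).map (algebraMap R S)
  have : Nontrivial (S ⧸ J) :=
    Ideal.Quotient.nontrivial_iff.2 (map_maximalIdeal_lt_top (algebraMap R S)).ne
  have : IsLocalRing (S ⧸ J) :=
    IsLocalRing.of_surjective' (Ideal.Quotient.mk J) Ideal.Quotient.mk_surjective
  have h0 : ringKrullDim (S ⧸ J) = (0 : ℕ) := by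
    rw [Nat.cast_zero]
    have : Ring.KrullDimLE 0 (S ⧸ J) := Ring.krullDimLE_zero_iff.2 fun P hP => by
      have hP' : (P.comap (Ideal.Quotient.mk J)).IsPrime := hP.comap _
      have h1 : J ≤ P.comap (Ideal.Quotient.mk J) := fun x hx => by
        simp [Ideal.mem_comap, Ideal.Quotient.eq_zero_iff_mem.2 hx]
      have h2 := hP'.le_of_pow_le (hc.trans h1)
      have h3 : (P.comap (Ideal.Quotient.mk J)).IsMaximal := by
        rw [← (maximalIdeal.isMaximal S).eq_of_le hP'.ne_top h2]
        exact maximalIdeal.isMaximal S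
      exact Ideal.isMaximal_of_isIntegral_of_isMaximal_comap (R := S) P h3
    exact ringKrullDimZero_iff_ringKrullDim_eq_zero.1 this
  rw [hD', Stage2.dim_eq_add hd hD' h0, add_zero]

open SetupMain in
/-- Lech's inequality with Artinian closed fibre, for a complete domain of mixed characteristic
and a complete algebra with algebraically closed residue field. -/
theorem lech_artinian (core : CoreAll.{u}) (p : ℕ) [Fact p.Prime] (R S : Type u) [CommRing R]
    [CommRing S] [IsLocalRing R] [IsLocalRing S] [IsNoetherianRing R] [IsNoetherianRing S]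
    [Algebra R S] [IsLocalHom (algebraMap R S)] [Module.Flat R S] [IsDomain R]
    [IsAdicComplete (maximalIdeal R) R] [IsAdicComplete (maximalIdeal S) S]
    [CharP (ResidueField R) p] [Infinite (ResidueField R)] [IsAlgClosed (ResidueField S)]
    (hp0 : (p : R) ≠ 0) (hfib : ∃ c, maximalIdeal S ^ c ≤ (maximalIdeal R).map (algebraMap R S))
    (d : ℕ) (hd : ringKrullDim R = d) (e e' : ℝ) (he : IsMultiplicity R d e)
    (he' : IsMultiplicity S d e') : e ≤ e' := by
  obtain ⟨n, rfl⟩ : ∃ n, d = n + 1 := by
    refine Nat.exists_eq_succ_of_ne_zero fun h0 => hp0 ?_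
    have : Ring.KrullDimLE 0 R := Ring.krullDimLE_iff.2 (by rw [hd, h0])
    have hfield : IsField R := Ring.KrullDimLE.isField_of_isDomain
    have h1 := WittMap.natCast_mem p (R := R)
    rwa [IsLocalRing.isField_iff_maximalIdeal_eq.1 hfield, Ideal.mem_bot] at h1
  have hdS : ringKrullDim S = (n + 1 : ℕ) := SetupMain.dim_of_artinian R S hfib hd
  have : Infinite (ResidueField S) :=
    Infinite.of_injective _ (ResidueField.map (algebraMap R S)).injective
  obtain ⟨h, K, _, T, _, _, _, _, _, _, _, _, _, D, π, ψ, a, hdT, ha, hDa, hπ, hker, hψ, hψR⟩ :=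
    exists_setting (p := p) R S hp0 hd
  let _ : Algebra T S := ψ.toAlgebra
  have : IsScalarTower R T S := IsScalarTower.of_algebraMap_eq fun r => (hψR r).symm
  have hψs : Function.Surjective (algebraMap T S) := hψ
  have : Module.Finite T S := Module.Finite.of_surjective (Algebra.linearMap T S) hψs
  obtain ⟨eT, -, heT⟩ := exists_multiplicity_of_dim T hdT
  have hle : e ≤ eT := FibreMult.le_mult π hπ hker (Nat.succ_pos n) he
    (show n + h + 1 = n + 1 + h by omega ▸ heT)
  obtain ⟨x, hxm, c, hc⟩ := Stage2.exists_red_dim hdS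
  have hred : Red.IsRed x := ⟨hxm, c, hc⟩
  choose xT hxT using fun i => hψ (x i)
  have hxTm : ∀ i, xT i ∈ maximalIdeal T := fun i =>
    (mem_maximalIdeal _).2 fun hu => (mem_maximalIdeal _).1 (hxm i) (hxT i ▸ hu.map ψ)
  have hpow : ∀ L, (Ideal.span (Set.range fun i => xT i ^ L)).map (algebraMap T S) =
      Ideal.span (Set.range fun i => x i ^ L) := fun L => by
    rw [Ideal.map_span, ← Set.range_comp]
    refine congrArg Ideal.span (congrArg Set.range (funext fun i => ?_))
    simp [RingHom.algebraMap_toAlgebra, hxT]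
  have hmS : (maximalIdeal T).map (algebraMap T S) = maximalIdeal S :=
    IsLocalRing.eq_maximalIdeal (Ideal.IsMaximal.map_of_surjective_of_ker_le hψs
      (le_maximalIdeal (RingHom.ker_ne_top _)))
  have hfin : ∃ j, (maximalIdeal T ^ j • ⊤ : Submodule T S) ≤ Ideal.span (Set.range xT) • ⊤ := by
    refine ⟨c + 1, ?_⟩
    rw [Ideal.smul_top_eq_map, Ideal.smul_top_eq_map, Ideal.map_pow, hmS, Ideal.map_span,
      ← Set.range_comp, show algebraMap T S ∘ xT = x from funext hxT]
    exact fun y hy => (hc.trans Ideal.mul_le_left) hy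
  have hgrow : Tendsto (fun L : ℕ => (len T (S ⧸ ((Ideal.span {D.φ D.Φ.discr} ⊔
      Ideal.span (Set.range fun i => xT i ^ L)) • ⊤ : Submodule T S)) : ℝ) / (L : ℝ) ^ (n + 1))
      atTop (𝓝 0) := by
    refine (grow_reduction R S hdS x hred ha).congr fun L => ?_
    rw [len_map S hψs, Ideal.map_sup, hpow, Ideal.map_span, Set.image_singleton, hDa,
      ← IsScalarTower.algebraMap_apply]
  refine le_of_forall_pos_le_add fun ε hε => ?_
  have h1 := core p T (n + h) D eT heT S inferInstance inferInstance h (n + 1) (by omega)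
    (Nat.succ_pos n) (Ext.Syz.syzFree_flat π hπ hker S) xT hxTm hfin hgrow (ε / 2) (by linarith)
  have h2 := ParamUpper.eventually_le S (Nat.succ_pos n) x hred he' (ε / 2) (by linarith)
  obtain ⟨L, hL1, hL2, hL⟩ := (h1.and (h2.and (eventually_gt_atTop 0))).exists
  rw [len_map S hψs, hpow] at hL1
  have hpos : (0 : ℝ) < (L : ℝ) ^ (n + 1) := by positivity
  nlinarith [hle, le_of_mul_le_mul_right (hL1.trans hL2) hpos]

end Vale.Agent.P202.Mixed2
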