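import Vale.Agent.P202.Mixed2.MainCore
import Vale.Agent.P202.Mixed2.MainSheets
import Vale.Agent.P202.Mixed2.MainLifts
import Vale.Agent.P202.Mixed2.SetupMain

/-!
P202, mixed characteristic: the core holds for every complete local ring with algebraically closed
residue field.
-/

namespace Vale.Agent.P202.Mixed2

universe u

open IsLocalRing

/-- The core. -/
theorem coreAll : CoreAll.{u} := by
  intro p _ T _ _ _ _ _ _ n C
  refine MainStep.core_of C (MainStep.exists_sheets C) fun M _ _ hfM hnt s m hms hm hS x hx hc => ?_
  exact MainStep.exists_lifts C M hms hm hS x hx hc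

end Vale.Agent.P202.Mixed2
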