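import Vale.Agent.P202.Mixed2.Acyclic
import Vale.Agent.P202.Mixed2.WinFlatGd

/-!
P202, mixed characteristic, main step: elementary bounds for measures.
-/

open scoped ENNReal

namespace Vale.Agent.P202.Mixed2

universe u

namespace Meas

variable {T : Type u} [CommRing T] (μ : Meas T) {n : ℕ} {U : Fin (n + 1) → T}

variable (U) in
/-- `T` modulo a power of the ideal is at most as many copies as there are monomials below. -/
theorem pow_val_le (m : ℕ) :
    μ.val (T ⧸ aI U ^ m) ≤ ((m + n).choose (n + 1) : ℕ) * μ.val (T ⧸ aI U) := by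
  classical
  induction m with
  | zero =>
    refine le_trans (le_of_eq (μ.zero _ ?_)) zero_le
    rw [pow_zero, Ideal.one_eq_top]
    exact Submodule.Quotient.subsingleton_iff.2 rfl
  | succ m ih =>
    let S : Finset (Fin (n + 1) →₀ ℕ) := Finset.univ.finsuppAntidiag m
    have hcard : Fintype.card (Fin S.card) = (m + n).choose n := by
      rw [Fintype.card_fin, Finset.card_finsuppAntidiag_nat_eq_choose, Finset.card_univ,
        Fintype.card_fin, show n + 1 + m - 1 = m + n by omega]
      exact Nat.choose_symm_add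
    let γ : Fin S.card → (Fin (n + 1) →₀ ℕ) := fun i => (S.equivFin.symm i : _)
    have hmem : ∀ i, ∏ l, U l ^ γ i l ∈ aI U ^ m := by
      intro i
      have hs : ∑ l, γ i l = m := (Finset.mem_finsuppAntidiag.1 (S.equivFin.symm i).2).1
      rw [← hs, ← Finset.prod_pow_eq_pow_sum]
      exact Ideal.prod_mem_prod fun l _ => Ideal.pow_mem_pow (Ideal.subset_span (Set.mem_range_self l)) _
    let f : (Fin S.card → T ⧸ aI U) →ₗ[T] T ⧸ aI U ^ (m + 1) :=
      ∑ i, (Submodule.liftQ (aI U)
        (LinearMap.toSpanSingleton T _ (Ideal.Quotient.mk (aI U ^ (m + 1)) (∏ l, U l ^ γ i l)))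
        fun c hc => by
          rw [LinearMap.mem_ker, LinearMap.toSpanSingleton_apply]
          show Ideal.Quotient.mk (aI U ^ (m + 1)) (c * ∏ l, U l ^ γ i l) = 0
          rw [Ideal.Quotient.eq_zero_iff_mem, pow_succ']
          exact Ideal.mul_mem_mul hc (hmem i)) ∘ₗ LinearMap.proj i
    let g : (T ⧸ aI U ^ (m + 1)) →ₗ[T] T ⧸ aI U ^ m :=
      (Ideal.Quotient.factorₐ T (Ideal.pow_le_pow_right m.le_succ)).toLinearMap
    have hex : LinearMap.ker g ≤ LinearMap.range f := by
      intro x hx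
      obtain ⟨x, rfl⟩ := Ideal.Quotient.mk_surjective x
      obtain ⟨F, hF, rfl⟩ := exists_homog (Ideal.Quotient.eq_zero_iff_mem.1 hx : x ∈ aI U ^ m)
      refine ⟨fun i => Ideal.Quotient.mk _ (F.coeff (γ i)), ?_⟩
      simp only [f, LinearMap.sum_apply, LinearMap.comp_apply, LinearMap.proj_apply]
      rw [MvPolynomial.eval_eq', map_sum]
      refine (Finset.sum_congr rfl fun i _ => (show _ =
        Ideal.Quotient.mk (aI U ^ (m + 1)) (F.coeff (γ i) * ∏ l, U l ^ γ i l) from rfl)).trans ?_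
      rw [← Finset.sum_equiv (s := (Finset.univ : Finset S)) (t := (Finset.univ : Finset (Fin S.card)))
        (f := fun j => Ideal.Quotient.mk (aI U ^ (m + 1)) (F.coeff j.1 * ∏ l, U l ^ j.1 l))
        S.equivFin (by simp) (fun j _ => by simp [γ]),
        Finset.sum_coe_sort S fun j => Ideal.Quotient.mk (aI U ^ (m + 1)) (F.coeff j * ∏ l, U l ^ j l)]
      refine (Finset.sum_subset ?_ fun j _ hj => ?_).symm
      · intro j hj
        refine Finset.mem_finsuppAntidiag.2 ⟨?_, Finset.subset_univ _⟩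
        have h := hF (MvPolynomial.mem_support_iff.1 hj)
        have e : (Finsupp.weight (1 : Fin (n + 1) → ℕ)) j = j.degree := by
          rw [Finsupp.degree_eq_weight_one]
          rfl
        rwa [e, Finsupp.degree_eq_sum] at h
      · rw [MvPolynomial.notMem_support_iff.1 hj, zero_mul, map_zero]
    refine (μ.le_of_exact hex).trans ?_
    rw [μ.pi_fintype, hcard, show m + 1 + n = m + n + 1 by ring, Nat.choose_succ_succ',
      Nat.cast_add, add_mul]
    exact add_le_add le_rfl ih

theorem kb_pow_le (β : T) (k : ℕ) (M : Type u) [AddCommGroup M] [Module T M] :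
    μ.kb (β ^ k) M ≤ k * μ.kb β M := by
  induction k with
  | zero =>
    rw [pow_zero, Nat.cast_zero, zero_mul]
    refine le_of_eq (μ.zero _ (Submodule.Quotient.subsingleton_iff.2 ?_))
    exact eq_top_iff.2 fun x _ => ⟨x, one_smul T x⟩
  | succ k ih =>
    set R := fun k : ℕ => LinearMap.range (LinearMap.lsmul T M (β ^ k))
    let f : (M ⧸ LinearMap.range (LinearMap.lsmul T M β)) →ₗ[T] M ⧸ R (k + 1) :=
      Submodule.mapQ _ _ (LinearMap.lsmul T M (β ^ k)) (by
        rintro _ ⟨y, rfl⟩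
        exact ⟨y, by simp [smul_smul, pow_succ, mul_comm]⟩)
    let g : (M ⧸ R (k + 1)) →ₗ[T] M ⧸ R k := Submodule.mapQ _ _ LinearMap.id (by
      rintro _ ⟨y, rfl⟩
      exact ⟨β • y, by simp [smul_smul, pow_succ, mul_comm]⟩)
    have hex : LinearMap.ker g ≤ LinearMap.range f := by
      intro x hx
      obtain ⟨x, rfl⟩ := Submodule.mkQ_surjective _ x
      obtain ⟨y, hy⟩ := (Submodule.Quotient.mk_eq_zero _).1 (LinearMap.mem_ker.1 hx)
      refine ⟨Submodule.Quotient.mk y, ?_⟩
      simpa [f] using congrArg (Submodule.Quotient.mk (p := R (k + 1))) hy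
    refine (μ.le_of_exact hex).trans ?_
    rw [Nat.cast_succ, add_mul, one_mul, add_comm ((k : ℝ≥0∞) * _)]
    exact add_le_add le_rfl ih

theorem kb_quot_le_val (β : T) (I : Ideal T) :
    μ.kb β (T ⧸ I) ≤ μ.val (T ⧸ (Ideal.span {β} ⊔ I)) := by
  refine μ.le_of_surjective (Submodule.liftQ _
    ((Submodule.mkQ _) ∘ₗ (Submodule.mkQ I : T →ₗ[T] T ⧸ I)) (sup_le ?_ fun c hc => ?_)) fun y => ?_
  · rw [Ideal.span_le]
    rintro _ rfl
    exact (Submodule.Quotient.mk_eq_zero _).2 ⟨Submodule.mkQ I 1, by simp [Algebra.smul_def]⟩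
  · rw [LinearMap.mem_ker, LinearMap.comp_apply, Submodule.mkQ_apply I,
      (Submodule.Quotient.mk_eq_zero I).2 hc, map_zero]
  · obtain ⟨y, rfl⟩ := Submodule.mkQ_surjective _ y
    obtain ⟨y, rfl⟩ := Submodule.mkQ_surjective _ y
    exact ⟨Submodule.Quotient.mk y, rfl⟩

end Meas

end Vale.Agent.P202.Mixed2
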