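import Vale.Agent.P202.Mixed2.WinFlatGd
import Vale.Agent.P202.Mixed2.Acyclic
import Vale.Agent.P202.Mixed2.FiltRoots

/-!
P202, mixed characteristic, windows: cycles of the resolution part with entries in positive degree
of the complex are boundaries up to a power of `β` and a bounded loss of level.
-/

namespace Vale.Agent.P202.Mixed2.Win

universe u v

open Vale.Agent.P202.Char

variable {T : Type u} [CommRing T] {n : ℕ} {U : Fin (n + 1) → T} {β : T} {L J M : ℕ}
  {Z : Type v} [CommRing Z] [Algebra Z T] {lamZ : Fin (n + 1) → Z} {a : Fin n → ℤ}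

/-- The exponent lost by one use of acyclicity. -/
def accExp (n L : ℕ) : ℕ := (n + 1) * (1 + L * (L + 1))

namespace Lift

variable (P : Lift U β L J M) (R : WinRes lamZ a)

theorem res_apply {W : ℕ} (hW : W ≤ L) (x : P.ι → R.G.β → T) (b : P.ι) (g : R.G.β) :
    (P.res a R hW).D x b g = P.scal T (fun b' => x b' g) b +
      (-1 : T) ^ P.deg b * ∑ g', MvPolynomial.aeval U (R.G.D g g') * x b g' := by
  show P.withCol (resD (U := U) a R) x b g = _
  rw [withCol_apply, scal_apply]
  simp [resD, Finset.sum_apply]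

omit [Algebra Z T] in
theorem mem_resDeg {k : ℤ} {v : R.G.β → T} :
    v ∈ (resDeg a R k : Submodule T (R.G.β → T)) ↔ ∀ g, (R.G.deg g : ℤ) ≠ k → v g = 0 := by
  simp only [resDeg, Submodule.mem_pi, Set.mem_univ, true_implies]
  refine forall_congr' fun g => ?_
  split_ifs with h <;> simp [h]

theorem mem_res_deg {W : ℕ} {hW : W ≤ L} {k : ℤ} {x : P.ι → R.G.β → T} :
    x ∈ (P.res a R hW).deg k ↔ ∀ b g, (P.deg b : ℤ) + R.G.deg g ≠ k → x b g = 0 := by
  show x ∈ Submodule.pi Set.univ (fun b => resDeg a R (k - P.deg b)) ↔ _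
  simp only [Submodule.mem_pi, Set.mem_univ, true_implies, mem_resDeg]
  refine forall_congr' fun b => forall_congr' fun g => ?_
  constructor <;> intro h hd <;> exact h (by omega)

omit [Algebra Z T] in
theorem mem_resLev {A : ℕ} {x : P.ι → R.G.β → T} :
    x ∈ P.resLev a R A ↔ ∀ b g, x b g ∈ aI U ^ (A - R.sg g) := by
  simp [resLev, Submodule.mem_pi]

omit [Algebra Z T] in
theorem resLev_anti {A A' : ℕ} (h : A ≤ A') : P.resLev a R A' ≤ P.resLev a R A :=
  fun _ hx => (P.mem_resLev R).2 fun b g =>
    Ideal.pow_le_pow_right (Nat.sub_le_sub_right h _) ((P.mem_resLev R).1 hx b g)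

theorem aeval_D_mem (g g' : R.G.β) :
    MvPolynomial.aeval U (R.G.D g g') ∈ aI U ^ (R.sg g' - R.sg g) ∧
      (R.sg g' < R.sg g → MvPolynomial.aeval U (R.G.D g g') = 0) := by
  classical
  obtain ⟨hh, hz⟩ := R.D_homog g' g
  refine ⟨?_, fun h => ?_⟩
  · rw [MvPolynomial.aeval_def, MvPolynomial.eval₂_eq']
    refine Ideal.sum_mem _ fun γ hγ => Ideal.mul_mem_left _ _ ?_
    have := prod_pow_mem (U := U) γ
    have e : γ.degree = R.sg g' - R.sg g := by
      rw [Finsupp.degree_eq_weight_one]
      exact hh (MvPolynomial.mem_support_iff.1 hγ)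
    rwa [e] at this
  · simp only [show R.G.D g g' = 0 from hz h, map_zero]

theorem resLev_stable {W : ℕ} (hW : W ≤ L) (A : ℕ) {x : P.ι → R.G.β → T}
    (hx : x ∈ P.resLev a R A) : (P.res a R hW).D x ∈ P.resLev a R A := by
  rw [mem_resLev] at hx ⊢
  intro b g
  rw [res_apply, scal_apply]
  refine add_mem (sum_mem fun b' _ => ?_) (Ideal.mul_mem_left _ _ (sum_mem fun g' _ => ?_))
  · exact Ideal.mul_mem_left _ _ (hx b' g)
  · obtain ⟨h1, h2⟩ := aeval_D_mem (U := U) R g g'
    rcases lt_or_ge (R.sg g') (R.sg g) with h | h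
    · rw [h2 h, zero_mul]; exact zero_mem _
    · have := Ideal.mul_mem_mul h1 (hx b g')
      rw [← pow_add] at this
      exact Ideal.pow_le_pow_right (by omega) this

/-- One use of acyclicity in one column of the resolution. -/
theorem acyc_col (hreg : RegUpTo U β L) {m ℓ : ℕ} (hm : 1 ≤ m) (hℓ : ℓ ≤ L) (w : P.ι → T)
    (hw : ∀ b, P.deg b ≠ m → w b = 0) (hDw : ∀ b, P.scal T w b ∈ aI U ^ ℓ) :
    ∃ y : P.ι → T, (∀ b, P.deg b ≠ m + 1 → y b = 0) ∧
      ∀ b, β ^ accExp n L * w b - P.scal T y b ∈ aI U ^ (ℓ - (n + 1) * M) := by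
  classical
  set mk := Ideal.Quotient.mk (aI U ^ L)
  have hlin : ∀ (z : P.ι → T) b,
      mlin (T ⧸ aI U ^ L) P.mcx.D (fun b' => mk (z b')) b = mk (P.scal T z b) := fun z (b : P.ι) => by
    refine (mlin_apply _ _ _ _).trans ?_
    show ∑ b' : P.ι, mk (P.D b b') * mk (z b') = _
    simp only [scal_apply, smul_eq_mul, map_sum, map_mul]
  have hmI : ∀ l, mI U M 0 l = aI U ^ l := fun l => by simp [mI]
  obtain ⟨x, hx, hxe⟩ := acyclic_step hreg P.mcx P.deg_le P.mcx_null (n + 1) 0 (by omega) m
    (by omega) ℓ hℓ (fun b => mk (w b))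
    ((MCx.mem_degSub _).2 fun b hb => by
      rw [hw b (by exact_mod_cast hb), map_zero])
    (fun b => by rw [hlin, hmI]; exact Ideal.mem_map_of_mem _ (hDw b))
  rw [MCx.mem_degSub] at hx
  choose y hy using fun b : P.ι => Ideal.Quotient.mk_surjective (I := aI U ^ L) (x b)
  refine ⟨fun b => if P.deg b = m + 1 then y b else 0, fun b hb => if_neg hb, fun b => ?_⟩
  have hx' : x = fun b => mk (if P.deg b = m + 1 then y b else 0) := funext fun b => by
    split_ifs with h
    · exact (hy b).symm
    · rw [map_zero]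
      exact hx b fun hb => h (by exact_mod_cast hb)
  have h := hxe b
  rw [hx'] at h
  have e := hlin (fun b' => if P.deg b' = m + 1 then y b' else 0) b
  have h' : mk (β ^ accExp n L) * mk (w b) -
      mk (P.scal T (fun b' => if P.deg b' = m + 1 then y b' else 0) b) ∈
      (aI U ^ (ℓ - (n + 1) * M)).map mk :=
    (congrArg (Ideal.map mk) (hmI _)).le
      ((congrArg (fun u => mk (β ^ accExp n L) * mk (w b) - u) e) ▸ h)
  rwa [← map_mul, ← map_sub, Ideal.mem_quotient_iff_mem
    (Ideal.pow_le_pow_right ((Nat.sub_le _ _).trans hℓ))] at h'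

/-- Descending induction on the degree in the resolution. -/
theorem descend (hreg : RegUpTo U β L) {W : ℕ} (hW : W ≤ L) (k : ℤ) :
    ∀ (j ℓ : ℕ), ℓ ≤ W → ∀ x ∈ (P.res a R hW).deg k,
      (∀ b g, (P.deg b = 0 ∨ j ≤ R.G.deg g) → x b g = 0) →
      (P.res a R hW).D x ∈ P.resLev a R ℓ →
      ∃ y ∈ (P.res a R hW).deg (k + 1), (∀ b g, P.deg b = 0 → y b g = 0) ∧
        β ^ (j * accExp n L) • x - (P.res a R hW).D y ∈
          P.resLev a R (ℓ - j * ((n + 1) * M)) := by
  classical
  intro j
  induction j with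
  | zero =>
    intro ℓ _ x _ hsupp _
    refine ⟨0, zero_mem _, fun _ _ _ => rfl, ?_⟩
    rw [map_zero, sub_zero,
      show x = 0 from funext fun b => funext fun g => hsupp b g (Or.inr (Nat.zero_le _)), smul_zero]
    exact zero_mem _
  | succ j ih =>
    intro ℓ hℓ x hx hsupp hDx
    set C := P.res a R hW
    set c := (n + 1) * M
    set E := accExp n L
    rw [mem_res_deg] at hx
    rw [mem_resLev] at hDx
    -- the top degree
    have hy : ∀ g, ∃ y : P.ι → T, (∀ b, (P.deg b : ℤ) ≠ k - j + 1 → y b = 0) ∧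
        (∀ b, P.deg b ≤ 1 → y b = 0) ∧
        (R.G.deg g = j → ∀ b, β ^ E * x b g - P.scal T y b ∈ aI U ^ (ℓ - c - R.sg g)) := by
      intro g
      by_cases hg : R.G.deg g = j
      swap
      · exact ⟨0, fun _ _ => rfl, fun _ _ => rfl, fun h => absurd h hg⟩
      by_cases hk : 1 ≤ k - (j : ℤ)
      swap
      · refine ⟨0, fun _ _ => rfl, fun _ _ => rfl, fun _ b => ?_⟩
        have hxb : x b g = 0 := by
          by_cases hb : (P.deg b : ℤ) + R.G.deg g = k
          · exact hsupp b g (Or.inl (by rw [hg] at hb; omega))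
          · exact hx b g hb
        rw [hxb, map_zero, mul_zero, Pi.zero_apply, sub_zero]
        exact zero_mem _
      obtain ⟨m, hm⟩ := Int.eq_ofNat_of_zero_le (show 0 ≤ k - (j : ℤ) by omega)
      obtain ⟨y, hy, hye⟩ := P.acyc_col (m := m) (ℓ := ℓ - R.sg g) hreg (by omega)
        ((Nat.sub_le _ _).trans (hℓ.trans hW)) (fun b => x b g)
        (fun b hb => hx b g (by rw [hg]; omega)) (fun b => by
          have h := hDx b g
          rw [res_apply, Finset.sum_eq_zero fun g' _ => ?_, mul_zero, add_zero] at h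
          · exact h
          · by_cases hD : R.G.D g g' = 0
            · rw [hD, map_zero, zero_mul]
            · rw [hsupp b g' (Or.inr (by have := R.G.homog g g' hD; omega)), mul_zero])
      refine ⟨y, fun b hb => hy b (by omega), fun b hb => hy b (by omega), fun _ b => ?_⟩
      rw [Nat.sub_right_comm]
      exact hye b
    choose y hyd hy1 hye using hy
    set y0 : P.ι → R.G.β → T := fun b g => if R.G.deg g = j then y g b else 0
    have hy0deg : y0 ∈ C.deg (k + 1) := (P.mem_res_deg R).2 fun b g hbg => by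
      simp only [y0]
      split_ifs with hg
      · exact hyd g b (by rw [hg] at hbg; omega)
      · rfl
    have hy01 : ∀ b g, P.deg b ≤ 1 → y0 b g = 0 := fun b g hb => by
      simp only [y0]
      split_ifs
      · exact hy1 g b hb
      · rfl
    have hres : ∀ b g, j ≤ R.G.deg g → C.D y0 b g = P.scal T (fun b' => y0 b' g) b := by
      intro b g hg
      rw [res_apply, Finset.sum_eq_zero fun g' _ => ?_, mul_zero, add_zero]
      by_cases hD : R.G.D g g' = 0
      · rw [hD, map_zero, zero_mul]
      · rw [show y0 b g' = 0 from if_neg (by have := R.G.homog g g' hD; omega), mul_zero]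
    set z := β ^ E • x - C.D y0 with hz
    set z' : P.ι → R.G.β → T := fun b g => if R.G.deg g < j then z b g else 0 with hz'
    have he : z - z' ∈ P.resLev a R (ℓ - c) := by
      rw [mem_resLev]
      intro b g
      simp only [Pi.sub_apply, hz']
      split_ifs with hg
      · rw [sub_self]; exact zero_mem _
      rw [sub_zero, hz, Pi.sub_apply, Pi.sub_apply, Pi.smul_apply, Pi.smul_apply, smul_eq_mul,
        hres b g (not_lt.1 hg)]
      rcases (not_lt.1 hg).eq_or_lt with hg' | hg'
      · simp only [y0, hg'.symm, if_pos]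
        exact hye g hg'.symm b
      · rw [hsupp b g (Or.inr (by omega)), mul_zero,
          show (fun b' => y0 b' g) = 0 from funext fun b' => if_neg (by omega), map_zero,
          Pi.zero_apply, sub_zero]
        exact zero_mem _
    have hzdeg : z ∈ C.deg k := by
      refine sub_mem (Submodule.smul_mem _ _ ((P.mem_res_deg R).2 hx)) ?_
      simpa using C.map_deg (k + 1) ⟨y0, hy0deg, rfl⟩
    have hz'deg : z' ∈ C.deg k := (P.mem_res_deg R).2 fun b g hbg => by
      simp only [hz']
      split_ifs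
      · exact (P.mem_res_deg R).1 hzdeg b g hbg
      · rfl
    have hz'supp : ∀ b g, (P.deg b = 0 ∨ j ≤ R.G.deg g) → z' b g = 0 := by
      rintro b g (hb | hg)
      · simp only [hz']
        split_ifs with h
        · rw [hz, Pi.sub_apply, Pi.sub_apply, Pi.smul_apply, Pi.smul_apply, hsupp b g (Or.inl hb),
            smul_zero, res_apply, scal_apply, Finset.sum_eq_zero fun b' _ => ?_,
            Finset.sum_eq_zero fun g' _ => ?_, mul_zero, add_zero, sub_zero]
          · rw [hy01 b g' (by omega), mul_zero]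
          · by_cases hD : P.deg b' = P.deg b + 1
            · rw [hy01 b' g (by omega), smul_zero]
            · rw [P.homog b b' hD, zero_smul]
        · rfl
      · simp only [hz']; exact if_neg (not_lt.2 hg)
    have hDz' : C.D z' ∈ P.resLev a R (ℓ - c) := by
      rw [show z' = β ^ E • x - C.D y0 - (z - z') by rw [← hz]; abel, map_sub, map_sub, map_smul]
      refine sub_mem (sub_mem (Submodule.smul_mem _ _ (P.resLev_anti R (Nat.sub_le _ _)
        ((P.mem_resLev R).2 hDx))) ?_) (P.resLev_stable R hW _ he)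
      exact P.resLev_anti R ((Nat.sub_le _ _).trans hℓ) (C.sq y0 trivial)
    obtain ⟨y1, hy1d, hy10, hy1e⟩ := ih (ℓ - c) ((Nat.sub_le _ _).trans hℓ) z' hz'deg hz'supp hDz'
    refine ⟨β ^ (j * E) • y0 + y1, add_mem (Submodule.smul_mem _ _ hy0deg) hy1d, fun b g hb => ?_, ?_⟩
    · simp [hy10 b g hb, hy01 b g (by omega)]
    · have hsum : β ^ ((j + 1) * E) • x - C.D (β ^ (j * E) • y0 + y1) =
          (β ^ (j * E) • z' - C.D y1) + β ^ (j * E) • (z - z') := by
        rw [add_one_mul, pow_add, mul_smul, map_add, map_smul, smul_sub _ z z', hz, smul_sub]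
        abel
      rw [hsum, show ℓ - (j + 1) * c = ℓ - c - j * c by rw [add_one_mul]; omega]
      exact add_mem hy1e (Submodule.smul_mem _ _ (P.resLev_anti R (Nat.sub_le _ _) he))

/-- Projection on the tuples of degree zero of the complex, in one column of the resolution. -/
noncomputable def proj0 (g : R.G.β) : (P.ι → R.G.β → T) →ₗ[T] (P.ι → T) :=
  LinearMap.pi fun b => if P.deg b = 0 then LinearMap.proj g ∘ₗ LinearMap.proj b else 0

omit [Algebra Z T] in
theorem proj0_apply (g : R.G.β) (x : P.ι → R.G.β → T) (b : P.ι) :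
    P.proj0 R g x b = if P.deg b = 0 then x b g else 0 := by
  simp only [proj0, LinearMap.pi_apply]
  split_ifs <;> rfl

/-- Tuples with degree zero part in the image of the differential and the power `B`. -/
noncomputable def colB (B : ℕ) : Submodule T (P.ι → R.G.β → T) :=
  ⨅ g, (P.img0B B).comap (P.proj0 R g)

omit [Algebra Z T] in
theorem mem_colB {B : ℕ} {x : P.ι → R.G.β → T} :
    x ∈ P.colB R B ↔ ∀ g, P.proj0 R g x ∈ P.img0B B := by
  simp [colB, Submodule.mem_iInf]

/-- In degree zero `β` pushes high powers of the ideal into the image of the differential. -/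
theorem smul_mem_img0B {B : ℕ} (hB : B ≤ L) {b : P.ι} (hb : P.deg b = 0) {c : T}
    (hc : c ∈ aI U ^ ((n + 1) * M)) :
    (Pi.single b (β * c) : P.ι → T) ∈ P.img0B B := by
  classical
  have hc' : c ∈ Ideal.span (Set.range fun l => U l ^ M) := by
    rcases Nat.eq_zero_or_pos M with rfl | hM
    · simp only [pow_zero, Set.range_const, Ideal.span_singleton_one, Submodule.mem_top]
    · have h := Filt.range_le_of_mul_le U (P := M) (e := 1) (m := (n + 1) * M) hM
        (by rw [add_comm 1 n]) hc
      rwa [pow_one] at h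
  obtain ⟨t, rfl⟩ := Ideal.mem_span_range_iff_exists_fun.1 hc'
  rw [Finset.mul_sum, ← LinearMap.single_apply (R := T) (φ := fun _ : P.ι => T), map_sum]
  refine sum_mem fun l _ => ?_
  rw [LinearMap.single_apply]
  refine Submodule.mem_sup.2 ⟨P.scal T (fun b' => t l * P.h l b' b), ⟨fun b' => t l * P.h l b' b, ?_, rfl⟩,
    Pi.single b (β * (t l * U l ^ M)) - P.scal T (fun b' => t l * P.h l b' b), fun a _ => ?_,
    add_sub_cancel _ _⟩
  · intro b' _
    show t l * P.h l b' b ∈ (if P.deg b' = 1 then (⊤ : Submodule T T) else ⊥)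
    split_ifs with h
    · trivial
    · rw [P.h_deg l b' b (by omega), mul_zero]; exact zero_mem _
  · refine Ideal.pow_le_pow_right hB ?_
    have h := Ideal.mul_mem_left _ (t l) (P.htpy l a b)
    have e0 : (P.h l * P.D) a b = 0 := by
      rw [Matrix.mul_apply]
      exact Finset.sum_eq_zero fun c' _ => by rw [P.homog c' b (by omega), mul_zero]
    have e1 : P.scal T (fun b' => t l * P.h l b' b) a = t l * (P.D * P.h l) a b := by
      rw [scal_apply, Matrix.mul_apply, Finset.mul_sum]
      exact Finset.sum_congr rfl fun b' _ => by rw [smul_eq_mul, mul_left_comm]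
    rw [Matrix.add_apply, e0, add_zero, mul_sub, ← e1] at h
    rw [Pi.sub_apply, ← neg_sub]
    refine neg_mem ?_
    convert h using 2
    rcases eq_or_ne a b with rfl | hab
    · rw [Pi.single_eq_same, if_pos rfl]; ring
    · rw [Pi.single_eq_of_ne hab, if_neg hab, mul_zero]

omit [Algebra Z T] in
/-- `β` pushes deep levels into `colB`. -/
theorem smul_resLev_le {B : ℕ} (hB : B ≤ L) {C : ℕ}
    (hC : ∀ g, (n + 1) * M + R.sg g ≤ C) {x : P.ι → R.G.β → T} (hx : x ∈ P.resLev a R C) :
    β • x ∈ P.colB R B := by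
  classical
  rw [mem_colB]
  intro g
  rw [show P.proj0 R g (β • x) = ∑ b, if P.deg b = 0 then Pi.single b (β * x b g) else 0 by
    funext b'
    rw [Finset.sum_apply, proj0_apply, Finset.sum_eq_single b']
    · split_ifs <;> simp
    · intro b _ hb
      split_ifs <;> simp [Ne.symm hb]
    · simp]
  refine sum_mem fun b _ => ?_
  split_ifs with hb
  · exact P.smul_mem_img0B hB hb
      (Ideal.pow_le_pow_right (by have := hC g; omega) ((P.mem_resLev R).1 hx b g))
  · exact zero_mem _

/-- The levels below which homology with coefficients in `colB` is negligible. -/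
noncomputable abbrev mid (B C : ℕ) : Submodule T (P.ι → R.G.β → T) :=
  P.colB R B ⊔ P.resLev a R C

/-- Cycles of `mid` modulo a deep level are boundaries at a shallower level, up to `β`. -/
theorem mid_killed (hreg : RegUpTo U β L) {W : ℕ} (hW : W ≤ L) {B C t s : ℕ}
    (hC : ∀ g, (n + 1) * M + R.sg g ≤ C) (hCt : C ≤ t)
    (hts : t + (R.N0 + 1) * ((n + 1) * M) ≤ s) (hs : s ≤ W)
    (htB : t + (R.N0 + 1) * ((n + 1) * M) ≤ B) (hBW : B ≤ W) (k : ℤ)
    {x : P.ι → R.G.β → T} (hx : x ∈ (P.res a R hW).cyc (P.resLev a R s) (P.mid R B C) k) :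
    β ^ ((R.N0 + 1) * accExp n L + 1) • x ∈
      (P.res a R hW).bd (P.resLev a R t) (P.mid R B C) k := by
  classical
  set C' := P.res a R hW
  set ℓ := min s B
  set E := accExp n L
  obtain ⟨⟨hxK, hxd⟩, hDx⟩ := hx
  have hxd' := (P.mem_res_deg R).1 hxd
  have hcol : β • x ∈ P.colB R B := by
    obtain ⟨u, hu, r, hr, rfl⟩ := Submodule.mem_sup.1 hxK
    rw [smul_add]
    exact add_mem (Submodule.smul_mem _ _ hu) (P.smul_resLev_le R (hBW.trans hW) hC hr)
  rw [mem_colB] at hcol
  have hdec : ∀ g, ∃ y : P.ι → T, (∀ b, P.deg b ≠ 1 → y b = 0) ∧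
      ∀ b, P.deg b = 0 → β * x b g - P.scal T y b ∈ aI U ^ B := fun g => by
    obtain ⟨_, ⟨y, hy, rfl⟩, r, hr, hs'⟩ := Submodule.mem_sup.1 (hcol g)
    refine ⟨y, fun b hb => ?_, fun b hb => ?_⟩
    · have := hy b trivial
      simp only [SetLike.mem_coe, if_neg hb, Submodule.mem_bot] at this
      exact this
    · have := congrFun hs' b
      rw [Pi.add_apply, proj0_apply, if_pos hb, Pi.smul_apply, Pi.smul_apply, smul_eq_mul] at this
      rw [← this, add_sub_cancel_left]
      exact hr b trivial
  choose y hy hye using hdec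
  set y0 : P.ι → R.G.β → T := fun b g => if (R.G.deg g : ℤ) = k then y g b else 0
  have hy0d : y0 ∈ C'.deg (k + 1) := (P.mem_res_deg R).2 fun b g hbg => by
    simp only [y0]
    split_ifs with hg
    · exact hy g b (by omega)
    · rfl
  have hy00 : ∀ b g, P.deg b = 0 → y0 b g = 0 := fun b g hb => by
    simp only [y0]
    split_ifs
    · exact hy g b (by omega)
    · rfl
  set z := β • x - C'.D y0 with hz
  set z' : P.ι → R.G.β → T := fun b g => if P.deg b = 0 then 0 else z b g with hz'
  have hzd : z ∈ C'.deg k := by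
    refine sub_mem (Submodule.smul_mem _ _ hxd) ?_
    simpa using C'.map_deg (k + 1) ⟨y0, hy0d, rfl⟩
  have he : z - z' ∈ P.resLev a R ℓ := by
    rw [mem_resLev]
    intro b g
    simp only [Pi.sub_apply, hz']
    split_ifs with hb
    swap
    · rw [sub_self]; exact zero_mem _
    rw [sub_zero]
    by_cases hg : (R.G.deg g : ℤ) = k
    swap
    · rw [(P.mem_res_deg R).1 hzd b g (by omega)]; exact zero_mem _
    refine Ideal.pow_le_pow_right ((Nat.sub_le _ _).trans (min_le_right s B)) ?_
    rw [hz, Pi.sub_apply, Pi.sub_apply, res_apply, Finset.sum_eq_zero fun g' _ => ?_, mul_zero,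
      add_zero]
    · rw [show (fun b' => y0 b' g) = y g from funext fun b' => if_pos hg]
      exact hye g b hb
    · rw [hy00 b g' hb, mul_zero]
  have hDz' : C'.D z' ∈ P.resLev a R ℓ := by
    rw [show z' = β • x - C'.D y0 - (z - z') by rw [← hz]; abel, map_sub, map_sub, map_smul]
    refine sub_mem (sub_mem (Submodule.smul_mem _ _ (P.resLev_anti R (min_le_left s B) hDx)) ?_)
      (P.resLev_stable R hW _ he)
    exact P.resLev_anti R ((min_le_left s B).trans hs) (C'.sq y0 trivial)
  obtain ⟨y1, hy1d, hy10, hy1e⟩ := P.descend R hreg hW k (R.N0 + 1) ℓ ((min_le_left _ _).trans hs) z'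
    ((P.mem_res_deg R).2 fun b g hbg => by
      simp only [hz']
      split_ifs
      · rfl
      · exact (P.mem_res_deg R).1 hzd b g hbg)
    (fun b g h => by
      simp only [hz']
      rcases h with hb | hg
      · exact if_pos hb
      · exact absurd (R.deg_le g) (by omega))
    hDz'
  set w := β ^ ((R.N0 + 1) * E) • y0 + y1 with hw
  have hwd : w ∈ C'.deg (k + 1) := add_mem (Submodule.smul_mem _ _ hy0d) hy1d
  have hwK : w ∈ P.mid R B C := Submodule.mem_sup_left <| (P.mem_colB R).2 fun g => by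
    rw [show P.proj0 R g w = 0 from funext fun b => by
      rw [proj0_apply]
      split_ifs with hb
      · simp [hw, hy00 b g hb, hy10 b g hb]
      · rfl]
    exact zero_mem _
  refine Submodule.mem_sup.2 ⟨C'.D w, ⟨w, ⟨hwK, hwd⟩, rfl⟩,
    β ^ ((R.N0 + 1) * E + 1) • x - C'.D w, ⟨?_, ?_⟩, add_sub_cancel _ _⟩
  · have hsum : β ^ ((R.N0 + 1) * E + 1) • x - C'.D w =
        (β ^ ((R.N0 + 1) * E) • z' - C'.D y1) + β ^ ((R.N0 + 1) * E) • (z - z') := by
      rw [hw, map_add, map_smul, pow_succ, mul_smul, smul_sub _ z z', hz, smul_sub]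
      abel
    rw [hsum]
    exact add_mem (P.resLev_anti R (by omega) hy1e)
      (Submodule.smul_mem _ _ (P.resLev_anti R (by omega) he))
  · refine sub_mem (Submodule.smul_mem _ _ hxd) ?_
    simpa using C'.map_deg (k + 1) ⟨w, hwd, rfl⟩

end Lift

end Vale.Agent.P202.Mixed2.Win
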