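import Vale.Agent.P202.Mixed2.WinStabAux
import Vale.Agent.P202.Mixed2.WinStabStep

/-!
P202, mixed characteristic, windows: the stable homology of the complex tensor the resolution of
the sections has Euler characteristic `n!` times the measure of the homology in degree zero.
-/

open scoped ENNReal

namespace Vale.Agent.P202.Mixed2.Win

universe u v

open Vale.Agent.P202.Char

/-- A module placed in degree zero, without differential. -/
noncomputable def zGd (T : Type u) [CommRing T] (F : Type u) [AddCommGroup F] [Module T F] :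
    Gd T F where
  D := 0
  deg k := if k = 0 then ⊤ else ⊥
  bot := ⊥
  top := ⊤
  map_deg k := by rw [Submodule.map_zero]; exact bot_le
  sq x _ := by simp

theorem zGd_hm {T : Type u} [CommRing T] (μ : Meas T) (F : Type u) [AddCommGroup F] [Module T F] :
    μ.hm (zGd T F) ⊥ ⊤ 0 = μ.val F ∧ ∀ k, k ∉ Finset.Icc (0 : ℤ) 0 → (zGd T F).deg k = ⊥ := by
  refine ⟨?_, fun k hk => if_neg fun h => hk (by simp [h])⟩
  have hc : (zGd T F).cyc ⊥ ⊤ 0 = ⊤ := by simp [Gd.cyc, zGd]
  have hb : (zGd T F).bd ⊥ ⊤ 0 = ⊥ := by simp [Gd.bd, zGd]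
  refine μ.congr ((Submodule.quotEquivOfEqBot _ ?_).trans
    ((LinearEquiv.ofEq _ _ hc).trans Submodule.topEquiv))
  rw [hb, Submodule.comap_bot, Submodule.ker_subtype]

variable {T : Type u} [CommRing T] {n : ℕ} {U : Fin (n + 1) → T}
  {Z : Type v} [CommRing Z] [Algebra Z T] {lamZ : Fin (n + 1) → Z} {a : Fin n → ℤ}

namespace Lift

variable {β : T} {L J M : ℕ} (P : Lift U β L J M) (R : WinRes lamZ a) (μ : Meas T)

/-- The resolution tensor the homology in degree zero. -/
noncomputable def eGd (B : ℕ) : Gd T (R.G.β → P.h0B B) where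
  D := LinearMap.pi fun g => ∑ g', MvPolynomial.aeval U (R.G.D g g') • LinearMap.proj g'
  deg k := Submodule.pi Set.univ fun g => (zGd T (P.h0B B)).deg (k - R.G.deg g)
  bot := ⊥
  top := ⊤
  map_deg k := by
    rintro _ ⟨x, hx, rfl⟩ g -
    simp only [SetLike.mem_coe, LinearMap.pi_apply, LinearMap.sum_apply, LinearMap.smul_apply,
      LinearMap.proj_apply]
    refine sum_mem fun g' _ => ?_
    by_cases hD : R.G.D g g' = 0
    · rw [hD, map_zero, zero_smul]; exact zero_mem _
    · refine Submodule.smul_mem _ _ ?_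
      have := hx g' trivial
      simp only [SetLike.mem_coe] at this
      rwa [show k - (R.G.deg g' : ℤ) = k - 1 - R.G.deg g by
        have := R.G.homog g g' hD; omega] at this
  sq x _ := by
    rw [Submodule.mem_bot]
    funext g
    simp only [LinearMap.pi_apply, LinearMap.sum_apply, LinearMap.smul_apply, LinearMap.proj_apply,
      Finset.smul_sum, Pi.zero_apply, smul_smul]
    rw [Finset.sum_comm]
    refine Finset.sum_eq_zero fun g'' _ => ?_
    rw [← Finset.sum_smul]
    simp only [← map_mul, ← map_sum]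
    have h := congrFun (congrFun R.G.sq g) g''
    rw [Matrix.mul_apply, Matrix.zero_apply] at h
    rw [h, map_zero, zero_smul]

/-- The Euler characteristic of `eGd`. -/
theorem eGd_hchi (B : ℕ) (hfin : μ.val (P.h0B B) ≠ ∞) :
    μ.hchi (P.eGd R B) (Finset.Icc 0 (0 + (R.N0 : ℤ))) ⊥ ⊤ =
      (n.factorial : ℝ) * (μ.val (P.h0B B)).toReal := by
  classical
  obtain ⟨h0, hdeg⟩ := zGd_hm μ (P.h0B B)
  have hcols : Gd.Cols (P.eGd R B) (zGd T (P.h0B B)) R.G.deg (fun _ => ⊥) (fun _ => ⊤) := by
    refine ⟨fun k => rfl, fun _ => bot_le, bot_le, le_top, fun b x _ => ?_,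
      fun b b' hne hd x _ => ?_, fun b b' _ x hx => ?_, fun _ _ _ _ _ => trivial,
      fun _ => by simp [zGd], fun _ => le_top⟩
    · rw [Submodule.mem_bot]
      simp only [eGd, LinearMap.pi_apply, LinearMap.sum_apply, LinearMap.smul_apply,
        LinearMap.proj_apply, zGd, LinearMap.zero_apply, smul_zero, sub_zero]
      rw [Finset.sum_eq_single b (fun g' _ hg => by simp [Pi.single_eq_of_ne hg]) (by simp)]
      have : R.G.D b b = 0 := by
        by_contra h
        have := R.G.homog b b h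
        omega
      rw [this, map_zero, zero_smul]
    · simp only [eGd, LinearMap.pi_apply, LinearMap.sum_apply, LinearMap.smul_apply,
        LinearMap.proj_apply]
      rw [Finset.sum_eq_single b (fun g' _ hg => by simp [Pi.single_eq_of_ne hg]) (by simp)]
      have : R.G.D b' b = 0 := by
        by_contra h
        exact hd (R.G.homog b' b h)
      rw [this, map_zero, zero_smul]
    · rw [Submodule.mem_bot] at hx
      rw [hx, Pi.single_zero, map_zero]
      exact zero_mem _
  have hf : ∀ (g : R.G.β) k, μ.hm (zGd T (P.h0B B)) ⊥ ⊤ k ≠ ∞ := fun _ k => by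
    by_cases hk : k = 0
    · rw [hk, h0]; exact hfin
    · rw [μ.hm_of_deg _ (hdeg k (by simp [hk]))]; exact ENNReal.zero_ne_top
  obtain ⟨-, -, -, hchi⟩ := μ.columns hcols hf 0
  have h := hchi R.N0 0 0 R.deg_le hdeg
  rw [show Submodule.pi Set.univ (fun _ : R.G.β => (⊥ : Submodule T (P.h0B B))) = ⊥ from
      Submodule.pi_univ_bot, show Submodule.pi Set.univ (fun _ : R.G.β => (⊤ : Submodule T (P.h0B B))) = ⊤
      from Submodule.pi_top _] at h
  rw [h]
  simp only [Meas.hchi, Finset.Icc_self, Finset.sum_singleton, Int.natAbs_zero, pow_zero, one_mul,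
    h0, ← Finset.sum_mul]
  congr 1
  exact_mod_cast R.euler

omit [Algebra Z T] in
theorem proj0_mem (g : R.G.β) (x : P.ι → R.G.β → T) : P.proj0 R g x ∈ P.deg0 := fun b _ => by
  show P.proj0 R g x b ∈ (if P.deg b = 0 then (⊤ : Submodule T T) else ⊥)
  rw [proj0_apply]
  split_ifs with h
  · trivial
  · exact zero_mem _

/-- The class in degree zero in each column of the resolution. -/
noncomputable def fH0 (B : ℕ) : (P.ι → R.G.β → T) →ₗ[T] (R.G.β → P.h0B B) :=
  LinearMap.pi fun g =>
    Submodule.mkQ _ ∘ₗ (P.proj0 R g).codRestrict P.deg0 (P.proj0_mem R g)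

/-- Below `colB` the complex is the resolution tensor the homology in degree zero. -/
theorem colB_hm {W : ℕ} (hW : W ≤ L) (B : ℕ) (k : ℤ) :
    μ.hm (P.res a R hW) (P.colB R B) ⊤ k = μ.hm (P.eGd R B) ⊥ ⊤ k := by
  classical
  have hf0 : ∀ x, P.fH0 R B x = 0 ↔ x ∈ P.colB R B := fun x => by
    rw [mem_colB, funext_iff]
    refine forall_congr' fun g => ?_
    simp [fH0, Submodule.Quotient.mk_eq_zero]
  suffices H : ∀ m, m = k + 0 →
      μ.hm (P.res a R hW) (P.colB R B) ⊤ k = μ.hm (P.eGd R B) ⊥ ⊤ m from H k (add_zero k).symm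
  rintro m rfl
  refine μ.congr (LinearEquiv.ofBijective _ ((P.res a R hW).hMap_bijective (P.eGd R B)
    (X := P.colB R B) (Y := ⊤) (X' := ⊥) (Y' := ⊤) (P.fH0 R B) 1 0 ?_ le_top (by simp) ?_ ?_ le_top
    ?_ ?_ k).choose_spec.choose_spec)
  · intro j x _
    rw [Submodule.mem_bot, sub_eq_zero, Units.val_one, one_smul]
    funext g
    simp only [fH0, eGd, LinearMap.pi_apply, LinearMap.comp_apply, LinearMap.sum_apply,
      LinearMap.smul_apply, LinearMap.proj_apply, Submodule.mkQ_apply]
    simp only [← Submodule.mkQ_apply, ← map_smul, ← map_sum]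
    rw [Submodule.mkQ_apply, Submodule.mkQ_apply, Submodule.Quotient.eq]
    simp only [Submodule.mem_comap, Submodule.coe_subtype, AddSubgroupClass.coe_sub,
      AddSubmonoidClass.coe_finsetSum, LinearMap.codRestrict_apply]
    refine Submodule.mem_sup_left ⟨fun b => if P.deg b = 1 then x b g else 0, fun b _ => ?_, ?_⟩
    · show (if P.deg b = 1 then x b g else 0) ∈ (if P.deg b = 1 then (⊤ : Submodule T T) else ⊥)
      split_ifs <;> simp
    · funext b
      simp only [Pi.sub_apply, Finset.sum_apply, Pi.smul_apply, proj0_apply, smul_eq_mul]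
      rw [scal_apply]
      by_cases hb : P.deg b = 0
      · simp only [if_pos hb]
        rw [res_apply, hb, pow_zero, one_mul, add_sub_cancel_right, scal_apply]
        refine Finset.sum_congr rfl fun b' _ => ?_
        by_cases hD : P.deg b' = P.deg b + 1
        · rw [if_pos (by omega)]
        · rw [P.homog b b' hD, zero_smul, zero_smul]
      · simp only [if_neg hb, Finset.sum_const_zero, sub_zero]
        refine Finset.sum_eq_zero fun b' _ => ?_
        by_cases hD : P.deg b' = P.deg b + 1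
        · rw [if_neg (by omega), smul_zero]
        · rw [P.homog b b' hD, zero_smul]
  · rintro j _ ⟨x, hx, rfl⟩ g -
    rw [SetLike.mem_coe]
    show P.fH0 R B x g ∈ (if j + 0 - (R.G.deg g : ℤ) = 0 then (⊤ : Submodule T (P.h0B B)) else ⊥)
    split_ifs with hg
    · trivial
    · refine (Submodule.mem_bot T).2 ((Submodule.Quotient.mk_eq_zero _).2 ?_)
      show P.proj0 R g x ∈ P.img0B B
      rw [show P.proj0 R g x = 0 from funext fun b => by
        rw [proj0_apply]
        split_ifs with hb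
        · exact (P.mem_res_deg R).1 hx b g (by omega)
        · rfl]
      exact zero_mem _
  · rintro _ ⟨x, hx, rfl⟩
    exact (Submodule.mem_bot T).2 ((hf0 x).2 hx)
  · intro j y ⟨_, hy⟩
    choose r hr using fun g => Submodule.Quotient.mk_surjective _ (y g)
    refine Submodule.mem_sup_left
      ⟨fun b g => if (R.G.deg g : ℤ) = j then (r g).1 b else 0, ⟨trivial, ?_⟩, ?_⟩
    · refine (P.mem_res_deg R).2 fun b g hbg => ?_
      show (if (R.G.deg g : ℤ) = j then (r g).1 b else 0) = 0
      split_ifs with hg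
      · have := (r g).2 b trivial
        simp only [SetLike.mem_coe, if_neg (show P.deg b ≠ 0 by omega), Submodule.mem_bot] at this
        exact this
      · rfl
    · funext g
      by_cases hg : (R.G.deg g : ℤ) = j
      · show Submodule.Quotient.mk _ = y g
        rw [← hr g]
        refine congrArg Submodule.Quotient.mk (Subtype.ext (funext fun b => ?_))
        show P.proj0 R g _ b = (r g).1 b
        rw [proj0_apply]
        split_ifs with hb
        · rfl
        · have := (r g).2 b trivial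
          simp only [SetLike.mem_coe, if_neg hb, Submodule.mem_bot] at this
          exact this.symm
      · have h0 := hy g trivial
        simp only [zGd, SetLike.mem_coe, if_neg (show j + 0 - (R.G.deg g : ℤ) ≠ 0 by omega),
          Submodule.mem_bot] at h0
        rw [h0]
        refine (Submodule.Quotient.mk_eq_zero _).2 ?_
        show P.proj0 R g _ ∈ P.img0B B
        rw [show P.proj0 R g (fun b g => if (R.G.deg g : ℤ) = j then (r g).1 b else 0) = 0 from
          funext fun b => by rw [proj0_apply, if_neg hg, ite_self]; rfl]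
        exact zero_mem _
  · rintro j x ⟨-, hx⟩
    exact (hf0 x).1 ((Submodule.mem_bot T).1 hx)

omit [Algebra Z T] in
theorem resLev_le_colB {W B : ℕ} (h : ∀ g, B + R.sg g ≤ W) :
    P.resLev a R W ≤ P.colB R B := fun x hx => by
  refine (P.mem_colB R).2 fun g => Submodule.mem_sup_right fun b _ => ?_
  rw [SetLike.mem_coe, proj0_apply]
  split_ifs
  · exact Ideal.pow_le_pow_right (by have := h g; omega) ((P.mem_resLev R).1 hx b g)
  · exact zero_mem _

omit [Algebra Z T] in
/-- Finiteness and the size of what `β` kills below a level. -/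
theorem quot_resLev (hfin : μ.val (T ⧸ aI U) ≠ ∞) (W : ℕ) :
    μ.val ((P.ι → R.G.β → T) ⧸ P.resLev a R W) ≠ ∞ ∧
      ∀ γ, μ.kb γ ((P.ι → R.G.β → T) ⧸ P.resLev a R W) ≤
        ((Fintype.card P.ι * Fintype.card R.G.β * Meas.powConst n W : ℕ) : ℝ≥0∞) *
          μ.kb γ (T ⧸ aI U) := by
  obtain ⟨hf, hk⟩ := μ.pow_quot hfin W
  let f : (P.ι → R.G.β → T) →ₗ[T] (P.ι → R.G.β → T ⧸ aI U ^ W) :=
    ((Ideal.Quotient.mkₐ T (aI U ^ W)).toLinearMap.compLeft R.G.β).compLeft P.ι
  have hker : LinearMap.ker f ≤ P.resLev a R W := fun x hx => (P.mem_resLev R).2 fun b g =>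
    Ideal.pow_le_pow_right (Nat.sub_le _ _)
      (Ideal.Quotient.eq_zero_iff_mem.1 (congrFun (congrFun (LinearMap.mem_ker.1 hx) b) g))
  have hsurj : Function.Surjective f := fun y => by
    choose t ht using fun b g => Ideal.Quotient.mk_surjective (y b g)
    exact ⟨t, funext fun b => funext fun g => ht b g⟩
  let π := Submodule.factor hker ∘ₗ (f.quotKerEquivOfSurjective hsurj).symm.toLinearMap
  have hπ : Function.Surjective π :=
    (Submodule.factor_surjective hker).comp (LinearEquiv.surjective _)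
  have h1 : μ.val (R.G.β → T ⧸ aI U ^ W) ≠ ∞ := by
    rw [μ.pi_fintype]; exact ENNReal.mul_ne_top (ENNReal.natCast_ne_top _) hf
  refine ⟨ne_top_of_le_ne_top ?_ (μ.le_of_surjective π hπ), fun γ => ?_⟩
  · rw [μ.pi_fintype]; exact ENNReal.mul_ne_top (ENNReal.natCast_ne_top _) h1
  · refine (μ.kb_quot_le γ π hπ).trans ((μ.kb_pi_fintype γ h1 _).trans ?_)
    push_cast
    rw [mul_assoc, mul_assoc]
    exact mul_le_mul' le_rfl ((μ.kb_pi_fintype γ hf _).trans (mul_le_mul' le_rfl (hk γ)))

theorem h0B_ne_top (hfin : μ.val (T ⧸ aI U) ≠ ∞) (B : ℕ) : μ.val (P.h0B B) ≠ ∞ := by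
  have h1 : μ.val (P.ι → T ⧸ aI U ^ B) ≠ ∞ := by
    rw [μ.pi_fintype]
    exact ENNReal.mul_ne_top (ENNReal.natCast_ne_top _) (μ.pow_quot hfin B).1
  let f : P.deg0 →ₗ[T] (P.ι → T ⧸ aI U ^ B) :=
    (Ideal.Quotient.mkₐ T (aI U ^ B)).toLinearMap.compLeft P.ι ∘ₗ P.deg0.subtype
  have hker : LinearMap.ker f ≤ (P.img0B B).comap P.deg0.subtype := fun x hx =>
    Submodule.mem_sup_right fun b _ =>
      Ideal.Quotient.eq_zero_iff_mem.1 (congrFun (LinearMap.mem_ker.1 hx) b)
  refine ne_top_of_le_ne_top h1 (le_trans (μ.le_of_surjective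
    (Submodule.factor hker ∘ₗ f.quotKerEquivRange.symm.toLinearMap)
    ((Submodule.factor_surjective hker).comp (LinearEquiv.surjective _))) (μ.sub_le _))

end Lift

open Lift

variable (R : WinRes lamZ a)

/-- The largest shift of the resolution. -/
noncomputable def maxSg : ℕ := Finset.univ.sup R.sg

/-- The loss of level of `res_stable`. -/
noncomputable def stabGap (M : ℕ) : ℕ := (R.N0 + 2) * ((n + 1) * M) + maxSg R + 1

/-- One degree: the stable image is the homology below `colB`, up to `β`. -/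
theorem stable_degree {β : T} {L J M : ℕ} (hreg : RegUpTo U β L) (P : Lift U β L J M)
    (μ : Meas T) (hfin : μ.val (T ⧸ aI U) ≠ ∞) {W : ℕ} (hW : W ≤ L) {A B C : ℕ}
    (hC : stabGap R M ≤ C) (hCA : C + stabGap R M ≤ A) (hAB : A + stabGap R M ≤ B)
    (hBW : B + stabGap R M ≤ W) (h : P.resLev a R A ≤ P.resLev a R C) (k : ℤ) :
    |(μ.val (Meas.imH (P.res a R hW) h ⊤ k)).toReal -
        (μ.hm (P.eGd R B) ⊥ ⊤ k).toReal| ≤
      2 * (((Fintype.card P.ι * Fintype.card R.G.β * Meas.powConst n W : ℕ) : ℝ≥0∞) *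
        μ.kb (β ^ ((R.N0 + 1) * accExp n L + 1)) (T ⧸ aI U)).toReal := by
  set Cx := P.res a R hW
  set e := (R.N0 + 1) * accExp n L + 1
  set γ := β ^ e
  set g := stabGap R M with hgdef
  have hg1 : (R.N0 + 1) * ((n + 1) * M) ≤ g := by
    rw [hgdef, stabGap, show R.N0 + 2 = R.N0 + 1 + 1 from rfl, add_one_mul (R.N0 + 1)]; omega
  have hsg : ∀ x, (n + 1) * M + R.sg x ≤ C := fun x => by
    have : R.sg x ≤ maxSg R := Finset.le_sup (Finset.mem_univ x)
    have : 1 * ((n + 1) * M) ≤ (R.N0 + 2) * ((n + 1) * M) := Nat.mul_le_mul_right _ (by omega)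
    rw [hgdef, stabGap] at hC
    omega
  set E := ((Fintype.card P.ι * Fintype.card R.G.β * Meas.powConst n W : ℕ) : ℝ≥0∞) *
    μ.kb γ (T ⧸ aI U)
  obtain ⟨hq, hqk⟩ := P.quot_resLev R μ hfin W
  have hE : E ≠ ∞ := ENNReal.mul_ne_top (ENNReal.natCast_ne_top _)
    (ne_top_of_le_ne_top hfin (μ.kb_le_val _))
  have hbotcol : P.resLev a R W ≤ P.colB R B := P.resLev_le_colB R fun x => by
    have : R.sg x ≤ maxSg R := Finset.le_sup (Finset.mem_univ x)
    rw [hgdef, stabGap] at hBW
    omega
  have hfinH : ∀ {X Y : Submodule T (P.ι → R.G.β → T)} j, P.resLev a R W ≤ X →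
      μ.hm Cx X Y j ≠ ∞ ∧ μ.kb γ (Cx.H X Y j) ≤ E := fun j hX =>
    ⟨ne_top_of_le_ne_top hq (Gd.hm_le_quot μ Cx hX j).1,
      ((Gd.hm_le_quot μ Cx hX j).2 γ hq).trans (hqk γ)⟩
  set K := P.mid R B C with hKdef
  have hKA : P.resLev a R A ≤ K := (P.resLev_anti R (by omega)).trans le_sup_right
  have hKC : P.resLev a R C ≤ K := le_sup_right
  have hKA' : P.resLev a R (A + g) ≤ K := (P.resLev_anti R (by omega)).trans le_sup_right
  have hWA : Cx.bot ≤ P.resLev a R A := P.resLev_anti R (by omega)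
  have hWA' : Cx.bot ≤ P.resLev a R (A + g) := P.resLev_anti R (by omega)
  have hWC : P.resLev a R W ≤ P.resLev a R C := P.resLev_anti R (by omega)
  have hkill : ∀ {s t : ℕ} (hst : P.resLev a R s ≤ P.resLev a R t) j, C ≤ t → t + g ≤ s → s ≤ W →
      t + g ≤ B → ∀ x : Cx.H (P.resLev a R s) K j, γ • Cx.move hst (le_refl K) j x = 0 := by
    intro s t hst j ht hts hs htB x
    induction x using Submodule.Quotient.induction_on with | _ x
    rw [Gd.move_mk, ← Submodule.Quotient.mk_smul, Gd.mk_eq_zero]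
    exact P.mid_killed R hreg hW hsg ht (by omega) hs (by omega) (by omega) j x.2
  -- from the stable image to the homology below `mid`
  let pC := Cx.move (X := P.resLev a R C) (Y := ⊤) (X₁ := K) hKC le_rfl k
  let f : Meas.imH Cx h ⊤ k →ₗ[T] Cx.H K ⊤ k := pC ∘ₗ Submodule.subtype _
  have hcomp : ∀ w : Cx.H (P.resLev a R A) ⊤ k,
      pC (Cx.move h le_rfl k w) = Cx.move hKA le_rfl k w := fun w => by
    induction w using Submodule.Quotient.induction_on with | _ w
    rfl
  have hfk : ∀ z, f z = 0 → γ • z = 0 := by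
    rintro ⟨_, w, rfl⟩ hz
    refine Subtype.ext ?_
    have h0 : w ∈ LinearMap.ker (Cx.move (Y := ⊤) hKA le_rfl k) :=
      LinearMap.mem_ker.2 ((hcomp w).symm.trans hz)
    rw [Cx.ker_move_top hWA hKA le_top le_rfl k] at h0
    obtain ⟨v, rfl⟩ := h0
    have hc2 : Cx.move h le_rfl k (Cx.move (X := P.resLev a R A) le_rfl (le_top : K ≤ ⊤) k v) =
        Cx.move (X := P.resLev a R C) le_rfl (le_top : K ≤ ⊤) k (Cx.move h le_rfl k v) := by
      induction v using Submodule.Quotient.induction_on with | _ v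
      rfl
    show γ • Cx.move h le_rfl k _ = 0
    rw [hc2, ← map_smul, hkill h k le_rfl hCA (by omega) (by omega), map_zero]
  have hfc : ∀ y, γ • y ∈ LinearMap.range f := by
    intro y
    have hA' : P.resLev a R (A + g) ≤ P.resLev a R A := P.resLev_anti R (Nat.le_add_right _ _)
    have hc3 : Cx.conn (Y := K) hWA (le_refl ⊤) k y =
        Cx.move hA' (le_refl K) (k - 1) (Cx.conn (Y := K) hWA' (le_refl ⊤) k y) := by
      induction y using Submodule.Quotient.induction_on with | _ y
      rfl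
    have h0 : γ • y ∈ LinearMap.ker (Cx.conn (Y := K) hWA (le_refl ⊤) k) := by
      rw [LinearMap.mem_ker, map_smul, hc3]
      exact hkill hA' _ (by omega) le_rfl (by omega) (by omega) _
    rw [Cx.ker_conn hWA hKA le_top le_rfl k] at h0
    obtain ⟨w, hw⟩ := h0
    exact ⟨⟨_, w, rfl⟩, (hcomp w).trans hw⟩
  have h1 := μ.abs_sub_le_of_killed γ f hfk hfc
    (ne_top_of_le_ne_top (hfinH k hWC).1 (μ.sub_le _)) (hfinH k (hWC.trans hKC)).1 hE
    ((μ.kb_inj_le γ (hfinH k hWC).1 _ (Submodule.injective_subtype _)).trans (hfinH k hWC).2)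
    (hfinH k (hWC.trans hKC)).2
  -- from `mid` to `colB`
  have hKsmul : ∀ x ∈ K, γ • x ∈ P.colB R B := fun x hx => by
    obtain ⟨u, hu, r, hr, rfl⟩ := Submodule.mem_sup.1 hx
    rw [smul_add]
    refine add_mem (Submodule.smul_mem _ _ hu) ?_
    rw [show γ = β ^ ((R.N0 + 1) * accExp n L) * β from pow_succ _ _, mul_smul]
    exact Submodule.smul_mem _ _ (P.smul_resLev_le R (by omega) hsg hr)
  have hcK : P.colB R B ≤ K := le_sup_left
  have h2 := μ.abs_sub_le_of_killed γ (Cx.move (Y := ⊤) hcK le_rfl k)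
    (fun x hx => by
      have h0 : x ∈ LinearMap.ker (Cx.move (Y := ⊤) hcK le_rfl k) := LinearMap.mem_ker.2 hx
      rw [Cx.ker_move_top hbotcol hcK le_top le_rfl k] at h0
      obtain ⟨v, rfl⟩ := h0
      rw [← map_smul, Cx.smul_H_eq_zero hKsmul, map_zero])
    (fun y => by
      rw [← Cx.ker_conn hbotcol hcK le_top le_rfl k, LinearMap.mem_ker, map_smul]
      exact Cx.smul_H_eq_zero hKsmul _ _)
    (hfinH k hbotcol).1 (hfinH k (hWC.trans hKC)).1 hE
    (hfinH k hbotcol).2 (hfinH k (hWC.trans hKC)).2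
  have h3 : μ.hm Cx (P.colB R B) ⊤ k = μ.hm (P.eGd R B) ⊥ ⊤ k := P.colB_hm R μ hW B k
  rw [← h3]
  have := abs_le.1 h1
  have := abs_le.1 h2
  simp only [Meas.hm] at *
  rw [abs_le]
  constructor <;> linarith

/-- The stable part of the resolution complex has Euler characteristic `n!` times the measure of
the homology in degree zero. -/
theorem res_stable (M : ℕ) :
    ∃ gap : ℕ, ∀ J L r W : ℕ, ∀ hW : W ≤ L, ∀ A C B : ℕ,
      gap ≤ C → C + gap ≤ A → A + gap ≤ B → B + gap ≤ W →
      ∃ N K : ℕ, ∀ {T : Type u} [CommRing T] [Algebra Z T] {U : Fin (n + 1) → T} (μ : Meas T),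
        Almost μ U → ∀ β : T, RegUpTo U β L →
        ∀ P : Lift U β L J M, Fintype.card P.ι ≤ r →
        μ.val (P.h0B B) ≠ ∞ ∧
        ∀ (h : P.resLev a R A ≤ P.resLev a R C) (lo hi : ℤ),
          lo ≤ 0 → (n : ℤ) + 1 + R.N0 ≤ hi →
          |∑ k ∈ Finset.Icc lo hi, (-1 : ℝ) ^ k.natAbs *
              (μ.val (Meas.imH (P.res a R hW) h ⊤ k)).toReal -
            (n.factorial : ℝ) * (μ.val (P.h0B B)).toReal| ≤
          K * (μ.kb (β ^ N) (T ⧸ aI U)).toReal := by
  refine ⟨stabGap R M, fun J L r W hW A C B hC hCA hAB hBW => ?_⟩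
  refine ⟨(R.N0 + 1) * accExp n L + 1,
    (n + 2 + R.N0) * (2 * (r * Fintype.card R.G.β * Meas.powConst n W)),
    fun {T} _ _ {U} μ hA β hreg P hr => ⟨P.h0B_ne_top μ hA.fin B, fun h lo hi hlo hhi => ?_⟩⟩
  set Cx := P.res a R hW
  set γ := β ^ ((R.N0 + 1) * accExp n L + 1)
  set s := Finset.Icc (0 : ℤ) ((n : ℤ) + 1 + R.N0) with hs
  have hsub : s ⊆ Finset.Icc lo hi := by
    intro k hk
    simp only [hs, Finset.mem_Icc] at hk ⊢
    omega
  have hzero : ∀ k ∈ Finset.Icc lo hi, k ∉ s →
      (-1 : ℝ) ^ k.natAbs * (μ.val (Meas.imH Cx h ⊤ k)).toReal = 0 := by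
    intro k _ hk
    have hdeg : Cx.deg k = ⊥ := by
      rw [Submodule.eq_bot_iff]
      intro x hx
      funext b g
      refine (P.mem_res_deg R).1 hx b g fun e => hk ?_
      have := P.deg_le b
      have := R.deg_le g
      simp only [hs, Finset.mem_Icc]
      omega
    have : μ.val (Meas.imH Cx h ⊤ k) = 0 :=
      le_antisymm ((μ.sub_le _).trans (μ.hm_of_deg Cx hdeg).le) zero_le
    simp [this]
  rw [← Finset.sum_subset hsub hzero, ← P.eGd_hchi R μ B (P.h0B_ne_top μ hA.fin B), Meas.hchi,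
    Finset.sum_subset (s₁ := Finset.Icc (0 : ℤ) (0 + (R.N0 : ℤ))) (s₂ := s)
      (fun k hk => by simp only [hs, Finset.mem_Icc] at hk ⊢; omega) fun k _ hk => by
        rw [μ.hm_of_deg, ENNReal.toReal_zero, mul_zero]
        rw [Submodule.eq_bot_iff]
        intro x hx
        funext g
        have hg := hx g trivial
        simp only [SetLike.mem_coe, zGd] at hg
        rw [if_neg (fun e => hk (by
          have := R.deg_le g
          simp only [Finset.mem_Icc]
          omega)), Submodule.mem_bot] at hg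
        exact hg,
    ← Finset.sum_sub_distrib]
  refine (Finset.abs_sum_le_sum_abs _ _).trans ((Finset.sum_le_card_nsmul _ _
    ((2 * (r * Fintype.card R.G.β * Meas.powConst n W) : ℕ) *
      (μ.kb γ (T ⧸ aI U)).toReal) fun k _ => ?_).trans (le_of_eq ?_))
  · rw [← mul_sub, abs_mul, abs_pow, abs_neg, abs_one, one_pow, one_mul]
    refine (stable_degree R hreg P μ hA.fin hW hC hCA hAB hBW h k).trans ?_
    rw [ENNReal.toReal_mul, ENNReal.toReal_natCast]
    push_cast
    rw [← mul_assoc]
    gcongr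
  · have hcard : s.card = n + 2 + R.N0 := by
      rw [hs, Int.card_Icc]
      omega
    rw [hcard, nsmul_eq_mul]
    push_cast
    ring

end Vale.Agent.P202.Mixed2.Win
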