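import Vale.Agent.P202.Mixed2.WinFlatEq
import Vale.Agent.P202.Mixed2.WinStab

/-!
P202, mixed characteristic, windows: the inequality between the measure of `T` modulo the ideal and
the homology in degree zero of a lifted complex, up to what a power of `β` can kill.
-/

open scoped ENNReal

namespace Vale.Agent.P202.Mixed2

universe u v

theorem Meas.kb_pow_mono {T : Type u} [CommRing T] (μ : Meas T) (β : T) {m m' : ℕ} (h : m ≤ m')
    (M : Type u) [AddCommGroup M] [Module T M] : μ.kb (β ^ m) M ≤ μ.kb (β ^ m') M := by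
  have hle : LinearMap.range (LinearMap.lsmul T M (β ^ m')) ≤
      LinearMap.range (LinearMap.lsmul T M (β ^ m)) := by
    rintro _ ⟨x, rfl⟩
    refine ⟨β ^ (m' - m) • x, ?_⟩
    simp only [LinearMap.lsmul_apply, smul_smul, ← pow_add, Nat.add_sub_cancel' h]
  refine μ.le_of_surjective (Submodule.mapQ _ _ LinearMap.id fun x hx => hle hx) fun y => ?_
  obtain ⟨y, rfl⟩ := Submodule.mkQ_surjective _ y
  exact ⟨Submodule.Quotient.mk y, rfl⟩

/-- Going further down does not enlarge the image. -/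
theorem Meas.imH_trans_le {T : Type u} [CommRing T] (μ : Meas T) {V : Type u} [AddCommGroup V]
    [Module T V] (C : Gd T V) {X₂ X₁ X₀ : Submodule T V} (h : X₂ ≤ X₁) (h' : X₁ ≤ X₀)
    (Y : Submodule T V) (k : ℤ) :
    μ.val (Meas.imH C (h.trans h') Y k) ≤ μ.val (Meas.imH C h Y k) := by
  set g := C.move (Y := Y) h' le_rfl k ∘ₗ (Meas.imH C h Y k).subtype
  refine (μ.mono (S' := LinearMap.range g) ?_).trans (μ.range_le g)
  rintro _ ⟨z, rfl⟩
  refine ⟨⟨_, z, rfl⟩, ?_⟩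
  induction z using Submodule.Quotient.induction_on with | _ z
  rfl

namespace Win

open Vale.Agent.P202.Char

variable {n : ℕ}

/-- The Euler characteristic of the window of a column of degree `i`. -/
noncomputable def chiP (a : Fin n → ℤ) (i J : ℕ) : ℤ :=
  ∑ s ∈ Finset.range (i * J), ∑ q ∈ Finset.range (n + 1),
    (-1 : ℤ) ^ q * (hP a (-(i : ℤ) * J + s) q : ℤ)

theorem sum_chiP (J i : ℕ) (hJ : 1 ≤ J) (hi1 : 1 ≤ i) (hi : i ≤ n + 1) :
    |∑ kk : Fin (n + 1), chiP (stdTw kk J) i J - ((n + 1).factorial : ℤ) * (J : ℤ) ^ (n + 1)| ≤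
      ((n : ℤ) + 1) * (((n : ℤ) + 1) ^ 2 + 2) * (2 * (n : ℤ) + 5) ^ (n + 1) * (J : ℤ) ^ n := by
  have h := winG_sum n i J 0 hi1 hi (by omega)
  simp only [Nat.cast_zero, zero_add, mul_one, sub_zero] at h
  refine le_trans (le_of_eq ?_) h
  congr 2
  simp only [chiP]
  rw [Finset.sum_comm]
  refine Finset.sum_congr rfl fun s _ => ?_
  rw [winG_eq]
  refine Finset.sum_congr rfl fun kk _ => ?_
  rw [sum_hP]
  refine Finset.prod_congr rfl fun j _ => ?_
  simp only [stdTw]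
  push_cast
  ring

/-- The constant in the window inequality. -/
def winK (n : ℕ) : ℕ := (n + 1) * ((n + 1) ^ 2 + 2) * (2 * n + 5) ^ (n + 1)

theorem sum_chiP_alt {ι : Type} [Fintype ι] (deg : ι → ℕ) (hdeg : ∀ b, deg b ≤ n + 1)
    (halt : ∑ b, (-1 : ℤ) ^ deg b = 0) {J : ℕ} (hJ : 1 ≤ J) :
    ∑ kk : Fin (n + 1), ∑ b, (-1 : ℤ) ^ deg b * chiP (stdTw kk J) (deg b) J ≤
      -(((Finset.univ.filter fun b => deg b = 0).card : ℤ) *
        (((n + 1).factorial : ℤ) * (J : ℤ) ^ (n + 1))) +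
      (Fintype.card ι : ℤ) * ((winK n : ℤ) * (J : ℤ) ^ n) := by
  classical
  set F : ℤ := ((n + 1).factorial : ℤ) * (J : ℤ) ^ (n + 1)
  rw [Finset.sum_comm]
  have h0 : (((Finset.univ.filter fun b => deg b = 0).card : ℕ) : ℤ) * F =
      ∑ b, if deg b = 0 then (-1 : ℤ) ^ deg b * F else 0 := by
    rw [← Finset.sum_filter]
    rw [Finset.sum_congr rfl fun b hb => by rw [(Finset.mem_filter.1 hb).2, pow_zero, one_mul]]
    rw [Finset.sum_const, nsmul_eq_mul]
  have h1 : ∑ b, (if deg b = 0 then 0 else (-1 : ℤ) ^ deg b * F) =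
      -(((Finset.univ.filter fun b => deg b = 0).card : ℤ) * F) := by
    rw [h0, eq_neg_iff_add_eq_zero, ← Finset.sum_add_distrib,
      Finset.sum_congr rfl fun b _ => show _ = (-1 : ℤ) ^ deg b * F by split_ifs <;> simp,
      ← Finset.sum_mul, halt, zero_mul]
  rw [← h1, ← sub_le_iff_le_add', ← Finset.sum_sub_distrib]
  refine le_trans (Finset.sum_le_card_nsmul _ _ ((winK n : ℤ) * (J : ℤ) ^ n) fun b _ => ?_)
    (le_of_eq (by rw [Finset.card_univ, nsmul_eq_mul]))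
  rw [← Finset.mul_sum]
  split_ifs with hb
  · have hz : ∀ kk : Fin (n + 1), chiP (stdTw kk J) (deg b) J = 0 := fun kk => by simp [chiP, hb]
    rw [Finset.sum_congr rfl fun kk _ => hz kk, Finset.sum_const_zero, mul_zero, sub_zero]
    positivity
  · rw [← mul_sub]
    refine le_trans (le_abs_self _) ?_
    rw [abs_mul, abs_pow, abs_neg, abs_one, one_pow, one_mul]
    refine (sum_chiP J _ hJ (Nat.one_le_iff_ne_zero.2 hb) (hdeg b)).trans (le_of_eq ?_)
    simp [winK]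

namespace Lift

variable {T : Type u} [CommRing T] {U : Fin (n + 1) → T} {lam : Fin (n + 1) → T}
  {β : T} {L J M : ℕ} (P : Lift U β L J M) {a : Fin n → ℤ} {W : ℕ}
  (hW : P.shift + W + (n + 3) * J ≤ L) {μ : Meas T}

/-- A bound for the constant of `small` which sees only the number of columns. -/
noncomputable def bigC (a : Fin n → ℤ) (J r i : ℕ) : ℕ :=
  r * ∑ e ∈ Finset.range (n + 2), ∑ s ∈ Finset.range (i + e * J), ∑ q ∈ Finset.range (n + 1),
    hP a (-(e : ℤ) * J + s) q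

theorem winC_le {r : ℕ} (hr : Fintype.card P.ι ≤ r) {i i' : ℕ} (hi : i ≤ i') :
    P.winC a i ≤ (bigC a J r i' : ℕ) := by
  rw [winC]
  simp only [← Nat.cast_sum]
  refine Nat.cast_le.2 ((Finset.sum_le_card_nsmul _ _
    (∑ e ∈ Finset.range (n + 2), ∑ s ∈ Finset.range (i' + e * J), ∑ q ∈ Finset.range (n + 1),
      hP a (-(e : ℤ) * J + s) q) fun b _ => ?_).trans ?_)
  · refine le_trans ?_ (Finset.single_le_sum (f := fun e => ∑ s ∈ Finset.range (i' + e * J),
      ∑ q ∈ Finset.range (n + 1), hP a (-(e : ℤ) * J + s) q) (fun _ _ => Nat.zero_le _)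
      (Finset.mem_range.2 (Nat.lt_succ_of_le (P.deg_le b))))
    exact Finset.sum_le_sum_of_subset (Finset.range_mono (by omega))
  · rw [Finset.card_univ, smul_eq_mul, bigC]
    exact Nat.mul_le_mul_right _ hr

/-- The window between the flat level and the top. -/
theorem chi_window (hwin : WinFacts μ U lam a) {d : ℕ} (hd : n + 1 ≤ d) :
    μ.hchi (P.sys lam a hW) (Finset.Icc (-(n : ℤ)) (0 + d)) (P.fl lam a 0) (P.lv lam a P.shift) =
      ((∑ b, (-1 : ℤ) ^ P.deg b * chiP a (P.deg b) J : ℤ) : ℝ) *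
        (μ.val (T ⧸ aI U)).toReal := by
  classical
  have hA := P.cols (lam := lam) (a := a) (c := -(P.shift : ℤ)) hW (P.fl_mono 0)
    (g := fun _ => P.shift) (fun _ _ _ => le_rfl) (fun b => by omega)
    (fun b => by omega) 0 0
  have hfin : ∀ b k, μ.hm (colGd U lam a 0 0)
      (cut U lam a (P.shift + 0 + P.deg b * J) (P.slot (-(P.shift : ℤ)) b))
      (cut U lam a P.shift (P.slot (-(P.shift : ℤ)) b)) k ≠ ∞ := fun b k => by
    rw [add_zero]
    exact (hwin 0 0 (P.deg b * J) P.shift _).1 k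
  refine ((μ.columns hA hfin 1).2.2.2 d (-(n : ℤ)) 0 (fun b => (P.deg_le b).trans hd)
    fun k hk => cechDeg_eq_bot hk).trans ?_
  rw [Int.cast_sum, Finset.sum_mul]
  refine Finset.sum_congr rfl fun b _ => ?_
  rw [add_zero, (hwin 0 0 (P.deg b * J) P.shift _).2.2.2.2]
  have e : P.slot (-(P.shift : ℤ)) b + P.shift = -(P.deg b : ℤ) * J := by
    simp [slot]
    ring
  simp only [e, chiP]
  push_cast
  ring

theorem fl_fin (hwin : WinFacts μ U lam a) {i : ℕ} (hi : i ≤ W) (k : ℤ) :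
    μ.hm (P.sys lam a hW) (P.fl lam a i) (P.fl lam a 0) k ≠ ∞ := by
  classical
  have hA := P.cols (lam := lam) (a := a) (c := -(P.shift : ℤ)) hW (P.fl_mono i)
    (P.fl_mono 0) (fun b => by omega) (fun b => by omega) 0 0
  refine (μ.columns hA (fun b k => ?_) 1).1 k
  rw [show P.shift + i + P.deg b * J = P.shift + 0 + P.deg b * J + i by ring]
  exact (hwin 0 0 i _ _).1 k

theorem sys_deg {d : ℕ} (hd : n + 1 ≤ d) (k : ℤ) (hk : k ∉ Finset.Icc (-(n : ℤ)) (0 + d)) :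
    (P.sys lam a hW).deg k = ⊥ := by
  rw [Submodule.eq_bot_iff]
  intro x hx
  funext b
  have h : x b ∈ cechDeg (n := n) T (Tot T n ℕ) (k - P.deg b) := hx b trivial
  rw [cechDeg_eq_bot, Submodule.mem_bot] at h
  · exact h
  · have := P.deg_le b
    simp only [Finset.mem_Icc] at hk ⊢
    omega

/-- The images which the splice needs to be small. -/
theorem small_pair (hwin : WinFacts μ U lam a) (hlam : Sep lam) (ha : ∀ j, 0 ≤ a j)
    {kk : Fin (n + 1)} (hJ : a = stdTw kk J) {A₁ A₂ : ℕ} (h1 : 2 * P.shift ≤ A₁)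
    (h12 : A₁ + P.shift ≤ A₂) (h2 : A₂ ≤ W) {k : ℤ} (hk : k ≠ 0)
    (h21 : P.fl lam a A₂ ≤ P.fl lam a A₁) (h1P : P.fl lam a A₁ ≤ P.fl lam a 0) :
    μ.val (Meas.imH (P.sys lam a hW) h21 (P.lv lam a P.shift) k) ≤
        P.winC a A₁ * μ.kb (β ^ (n + 1)) (T ⧸ aI U) ∧
      μ.val (Meas.imH (P.sys lam a hW) h1P (P.lv lam a P.shift) k) ≤
        P.winC a P.shift * μ.kb (β ^ (n + 1)) (T ⧸ aI U) := by
  have h1w : P.fl lam a A₁ ≤ P.fl lam a P.shift := P.fl_anti (by omega)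
  have hwP : P.fl lam a P.shift ≤ P.fl lam a 0 := P.fl_anti (Nat.zero_le _)
  exact ⟨P.small hW hwin hlam ha hJ (by omega) h12 h2 hk h21,
    (μ.imH_trans_le (P.sys lam a hW) h1w hwP (P.lv lam a P.shift) k).trans
      (P.small hW hwin hlam ha hJ le_rfl (by omega) (by omega) hk h1w)⟩

variable {Z : Type v} [CommRing Z] [Algebra Z T] {lamZ : Fin (n + 1) → Z} (R : WinRes.{v, u} lamZ a)

include hW in
/-- The deep part is the complex tensor the resolution. -/
theorem sys_res (hAl : Almost μ U) (hl : ∀ k, algebraMap Z T (lamZ k) = lam k) (hlam : Sep lam)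
    (ha : ∀ j, 0 ≤ a j) (hWL : W ≤ L) {C A : ℕ} (hCA : C ≤ A) (hAW : A ≤ W)
    (h21 : P.fl lam a A ≤ P.fl lam a C) (hres : P.resLev a R A ≤ P.resLev a R C) (k : ℤ) :
    μ.val (Meas.imH (P.sys lam a hW) h21 (P.fl lam a 0) k) =
      μ.val (Meas.imH (P.res a R hWL) hres ⊤ k) := by
  have hf : P.flatLev lam a A ≤ P.flatLev lam a C := fun x hx b _ =>
    cut_anti U lam a hCA _ (hx b trivial)
  exact (P.sys_flat hWL hW μ hlam ha h21 hf k).trans
    (P.flat_res R hl hWL hAl hlam ha hCA hAW hf hres k)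

include hW in
/-- One twist. -/
theorem one_twist (hAl : Almost μ U) (hl : ∀ k, algebraMap Z T (lamZ k) = lam k) (hlam : Sep lam)
    {kk : Fin (n + 1)} (hJ : a = stdTw kk J) (hWL : W ≤ L) {r A₁ A₂ N K B : ℕ}
    (hr : Fintype.card P.ι ≤ r) (h1 : 2 * P.shift ≤ A₁) (h12 : A₁ + P.shift ≤ A₂) (h2 : A₂ ≤ W)
    (hN : n + 1 ≤ N)
    (hst : ∀ (h : P.resLev a R A₂ ≤ P.resLev a R A₁) (lo hi : ℤ),
      lo ≤ 0 → (n : ℤ) + 1 + R.N0 ≤ hi →
      |∑ k ∈ Finset.Icc lo hi, (-1 : ℝ) ^ k.natAbs *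
          (μ.val (Meas.imH (P.res a R hWL) h ⊤ k)).toReal -
        (n.factorial : ℝ) * (μ.val (P.h0B B)).toReal| ≤
      K * (μ.kb (β ^ N) (T ⧸ aI U)).toReal) :
    0 ≤ ((∑ b, (-1 : ℤ) ^ P.deg b * chiP a (P.deg b) J : ℤ) : ℝ) * (μ.val (T ⧸ aI U)).toReal +
      (n.factorial : ℝ) * (μ.val (P.h0B B)).toReal +
      ((K + (2 * n + 2 + R.N0) * (2 * bigC a J r A₁) : ℕ) : ℝ) *
        (μ.kb (β ^ N) (T ⧸ aI U)).toReal := by
  have ha : ∀ j, 0 ≤ a j := hJ ▸ stdTw_nonneg kk J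
  have hwin : WinFacts μ U lam a := winFacts μ hAl hlam ha
  have h21 : P.fl lam a A₂ ≤ P.fl lam a A₁ := P.fl_anti (by omega)
  have h1P : P.fl lam a A₁ ≤ P.fl lam a 0 := P.fl_anti (Nat.zero_le _)
  have hres : P.resLev a R A₂ ≤ P.resLev a R A₁ := fun x hx b _ g _ =>
    Ideal.pow_le_pow_right (by omega) (hx b trivial g trivial)
  have hkN : μ.kb (β ^ N) (T ⧸ aI U) ≠ ∞ := ne_top_of_le_ne_top hAl.fin (μ.kb_le_val _)
  have hbound : ∀ i, i ≤ A₁ → P.winC a i * μ.kb (β ^ (n + 1)) (T ⧸ aI U) ≤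
      (bigC a J r A₁ : ℕ) * μ.kb (β ^ N) (T ⧸ aI U) := fun i hi =>
    mul_le_mul' (P.winC_le hr hi) (μ.kb_pow_mono β hN _)
  have hsp := μ.splice (P.sys lam a hW) h21 h1P (P.fl_le_lv (by omega)) (P.sys_bot hW h2)
    (P.sys_top hW) (-(n : ℤ)) (0 + (n + 1 + R.N0 : ℕ)) (P.sys_deg hW (Nat.le_add_right _ _))
    (P.window_flat hW hwin (Nat.zero_le _)).1 (P.fl_fin hW hwin (by omega)) _
    (ENNReal.mul_ne_top (ENNReal.natCast_ne_top (bigC a J r A₁)) hkN)
    (fun k hk => (P.small_pair hW hwin hlam ha hJ h1 h12 h2 hk h21 h1P).1.trans (hbound _ le_rfl))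
    (fun k hk => (P.small_pair hW hwin hlam ha hJ h1 h12 h2 hk h21 h1P).2.trans
      (hbound _ (by omega)))
  simp only [P.sys_res hW R hAl hl hlam ha hWL (by omega : A₁ ≤ A₂) h2 h21 hres] at hsp
  rw [P.chi_window hW hwin (Nat.le_add_right (n + 1) R.N0)] at hsp
  have hst' := abs_le.1 (hst hres (-(n : ℤ)) (0 + (n + 1 + R.N0 : ℕ)) (by omega) (by simp))
  have hcard : (Finset.Icc (-(n : ℤ)) (0 + (n + 1 + R.N0 : ℕ))).card = 2 * n + 2 + R.N0 := by
    rw [Int.card_Icc]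
    omega
  rw [hcard, ENNReal.toReal_mul, ENNReal.toReal_natCast] at hsp
  simp only [Nat.cast_add, Nat.cast_mul, Nat.cast_ofNat, Nat.cast_one] at hsp hst' ⊢
  linarith [hst'.2]

end Lift

/-- The window inequality. -/
theorem window_bound {Z : Type v} [CommRing Z] [IsDomain Z] [IsPrincipalIdealRing Z]
    (lamZ : Fin (n + 1) → Z) (hlamZ : Sep lamZ) (M : ℕ) {J : ℕ} (hJ : 1 ≤ J) :
    ∃ gap : ℕ, ∀ L r : ℕ, gap ≤ L → ∃ B ≤ L, ∃ N K : ℕ,
      ∀ {T : Type u} [CommRing T] [Algebra Z T] {U : Fin (n + 1) → T} (μ : Meas T),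
        Almost μ U → ∀ β : T, RegUpTo U β L → ∀ P : Lift U β L J M, Fintype.card P.ι ≤ r →
        ∑ b, (-1 : ℤ) ^ P.deg b = 0 →
        μ.val (P.h0B B) ≠ ∞ ∧
        ((Finset.univ.filter fun b => P.deg b = 0).card : ℝ) * ((n + 1).factorial : ℝ) *
            (J : ℝ) ^ (n + 1) * (μ.val (T ⧸ aI U)).toReal ≤
          ((n + 1).factorial : ℝ) * (μ.val (P.h0B B)).toReal +
            (r : ℝ) * (winK n : ℝ) * (J : ℝ) ^ n * (μ.val (T ⧸ aI U)).toReal +
            (K : ℝ) * (μ.kb (β ^ N) (T ⧸ aI U)).toReal := by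
  classical
  have R : ∀ kk : Fin (n + 1), WinRes.{v, u} lamZ (stdTw kk J) := fun kk =>
    (exists_winRes lamZ hlamZ _ (stdTw_nonneg kk J)).some
  choose gap hgap using fun kk => res_stable.{u, v} (R kk) M
  set w := (n + 1) * M with hw
  set g := Finset.univ.sup gap with hg
  have hgle : ∀ kk, gap kk ≤ g := fun kk => Finset.le_sup (Finset.mem_univ kk)
  refine ⟨4 * w + 4 * g + (n + 3) * J, fun L r hL => ⟨3 * w + 3 * g, by omega, ?_⟩⟩
  set W := 3 * w + 4 * g with hWdef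
  have hWL : W ≤ L := by omega
  choose N K hst using fun kk =>
    hgap kk J L r W hWL (3 * w + 2 * g) (2 * w + g) (3 * w + 3 * g)
      (by have := hgle kk; omega) (by have := hgle kk; omega) (by have := hgle kk; omega)
      (by have := hgle kk; omega)
  refine ⟨(Finset.univ.sup N) + (n + 1),
    ∑ kk, (K kk + (2 * n + 2 + (R kk).N0) * (2 * Lift.bigC (stdTw kk J) J r (2 * w + g))),
    fun {T} _ _ {U} μ hAl β hreg P hr halt =>
      ⟨(hst 0 μ hAl β hreg P hr).1, ?_⟩⟩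
  set lam : Fin (n + 1) → T := fun k => algebraMap Z T (lamZ k)
  have hlam : Sep lam := fun k l h => by
    have := (hlamZ k l h).map (algebraMap Z T)
    rwa [map_sub] at this
  set m := (Finset.univ.sup N) + (n + 1)
  have hW : P.shift + W + (n + 3) * J ≤ L := by
    show w + W + (n + 3) * J ≤ L
    omega
  have hfin : μ.kb (β ^ m) (T ⧸ aI U) ≠ ∞ :=
    ne_top_of_le_ne_top hAl.fin (μ.kb_le_val _)
  have key : ∀ kk, 0 ≤ ((∑ b, (-1 : ℤ) ^ P.deg b * chiP (stdTw kk J) (P.deg b) J : ℤ) : ℝ) *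
        (μ.val (T ⧸ aI U)).toReal +
      (n.factorial : ℝ) * (μ.val (P.h0B (3 * w + 3 * g))).toReal +
      ((K kk + (2 * n + 2 + (R kk).N0) * (2 * Lift.bigC (stdTw kk J) J r (2 * w + g)) : ℕ) : ℝ) *
        (μ.kb (β ^ m) (T ⧸ aI U)).toReal := fun kk => by
    refine P.one_twist hW (R kk) hAl (fun _ => rfl) hlam rfl hWL hr
      (A₁ := 2 * w + g) (A₂ := 3 * w + 2 * g)
      (show 2 * w ≤ _ by omega) (show _ + w ≤ _ by omega) (by omega) (by omega)
      fun h lo hi hlo hhi => ?_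
    refine ((hst kk μ hAl β hreg P hr).2 h lo hi hlo hhi).trans ?_
    refine mul_le_mul_of_nonneg_left (ENNReal.toReal_mono hfin
      (μ.kb_pow_mono β ?_ _)) (Nat.cast_nonneg _)
    exact (Finset.le_sup (Finset.mem_univ kk)).trans (Nat.le_add_right _ _)
  have hsum := Finset.sum_nonneg fun kk (_ : kk ∈ Finset.univ) => key kk
  simp only [Finset.sum_add_distrib, ← Finset.sum_mul, Finset.sum_const, Finset.card_univ,
    Fintype.card_fin, nsmul_eq_mul, ← Int.cast_sum, ← Nat.cast_sum] at hsum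
  rw [← Nat.cast_mul, ← Nat.factorial_succ] at hsum
  have hchi := sum_chiP_alt P.deg P.deg_le halt hJ
  have hchi' : ((∑ kk : Fin (n + 1), ∑ b, (-1 : ℤ) ^ P.deg b * chiP (stdTw kk J) (P.deg b) J : ℤ)
      : ℝ) ≤ -(((Finset.univ.filter fun b => P.deg b = 0).card : ℝ) *
        (((n + 1).factorial : ℝ) * (J : ℝ) ^ (n + 1))) +
      (r : ℝ) * ((winK n : ℝ) * (J : ℝ) ^ n) := by
    refine le_trans (Int.cast_le.2 hchi) ?_
    push_cast
    gcongr
  rw [Finset.sum_add_distrib]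
  have := mul_le_mul_of_nonneg_right hchi'
    (ENNReal.toReal_nonneg (a := μ.val (T ⧸ aI U)))
  linarith

end Win

end Vale.Agent.P202.Mixed2
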