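import Vale.Agent.P202.Mixed2.MainRing
import Vale.Agent.P202.Mixed2.MainArith
import Vale.Agent.P202.Mixed2.WinBound
import Vale.Agent.P202.Char.KoszulSmall

/-!
P202, mixed characteristic, main step: the inequalities combined, given the sheets and the lifts.
-/

open scoped ENNReal

namespace Vale.Agent.P202.Mixed2.MainStep

open IsLocalRing Lambda BaseTower Perf Perf.Base Filter Topology Vale.Agent.P202.Char

universe u

section Arith

/-- `1 - ((n + 1) c + r) / q ≤ ((q - c) ^ (n + 1) - r (q - c) ^ n) / q ^ (n + 1)`. -/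
theorem shrink_le (n : ℕ) {q c r : ℝ} (hc : 0 ≤ c) (hr : 0 ≤ r) (hcq : c ≤ q) (hq : 0 < q) :
    (1 - ((n + 1) * c + r) / q) * q ^ (n + 1) ≤ (q - c) ^ (n + 1) - r * (q - c) ^ n := by
  have h1 : 1 + ((n + 1 : ℕ) : ℝ) * (-(c / q)) ≤ (1 + -(c / q)) ^ (n + 1) :=
    one_add_mul_le_pow (by
      have : c / q ≤ 1 := (div_le_one hq).2 hcq
      linarith) _
  have h2 : (1 + -(c / q)) ^ (n + 1) * q ^ (n + 1) = (q - c) ^ (n + 1) := by
    rw [← mul_pow]
    congr 1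
    field_simp
    ring
  have h3 := mul_le_mul_of_nonneg_right h1 (pow_nonneg hq.le (n + 1))
  rw [h2] at h3
  have h4 : (q - c) ^ n ≤ q ^ n := pow_le_pow_left₀ (by linarith) (by linarith) n
  have h5 : r / q * q ^ (n + 1) = r * q ^ n := by
    rw [pow_succ]
    field_simp
  push_cast at h3
  have h6 : (1 - ((n + 1) * c + r) / q) * q ^ (n + 1) =
      (1 + (n + 1) * -(c / q)) * q ^ (n + 1) - r / q * q ^ (n + 1) := by
    field_simp
    ring
  rw [h6, h5]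
  nlinarith [mul_le_mul_of_nonneg_left h4 hr]

/-- `1 - (n + 1) (2 n + 1) / N ≤ (q N) ^ (n + 1) / (q (N + n + 1) + n) ^ (n + 1)`. -/
theorem spread_le (n : ℕ) {q N : ℝ} (hq : 1 ≤ q) (hN : 0 < N) :
    (1 - (n + 1) * (2 * n + 1) / N) * (q * (N + n + 1) + n) ^ (n + 1) ≤ (q * N) ^ (n + 1) := by
  set X := q * (N + n + 1) + n
  set d : ℝ := 2 * n + 1
  have hn : (0 : ℝ) ≤ n := Nat.cast_nonneg n
  have hX0 : 0 ≤ X := by positivity
  have hd : (N - d) * X ≤ q * N * N := by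
    have : X ≤ q * (N + d) := by
      simp only [X, d]
      nlinarith
    by_cases h : d ≤ N
    · nlinarith [mul_le_mul_of_nonneg_left this (sub_nonneg.2 h), mul_nonneg (mul_nonneg
        (show (0 : ℝ) ≤ q by linarith) (show 0 ≤ d by simp only [d]; linarith))
        (show 0 ≤ d by simp only [d]; linarith)]
    · have : (N - d) * X ≤ 0 := mul_nonpos_of_nonpos_of_nonneg (by linarith) hX0
      nlinarith [mul_nonneg (mul_nonneg (show (0 : ℝ) ≤ q by linarith) hN.le) hN.le]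
  by_cases h : d ≤ N
  · have h1 : 1 + ((n + 1 : ℕ) : ℝ) * (-(d / N)) ≤ (1 + -(d / N)) ^ (n + 1) :=
      one_add_mul_le_pow (by
        have : d / N ≤ 1 := (div_le_one hN).2 h
        linarith) _
    have h2 : (1 + -(d / N)) * X ≤ q * N := by
      rw [show (1 + -(d / N)) * X = (N - d) * X / N by field_simp; ring, div_le_iff₀ hN]
      exact hd
    have h3 := pow_le_pow_left₀ (mul_nonneg (by
      have : d / N ≤ 1 := (div_le_one hN).2 h
      linarith) hX0) h2 (n + 1)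
    rw [mul_pow] at h3
    refine le_trans ?_ h3
    refine mul_le_mul_of_nonneg_right (le_trans (le_of_eq ?_) h1) (pow_nonneg hX0 _)
    push_cast
    ring
  · have : 1 - (n + 1) * d / N ≤ 0 := by
      rw [sub_nonpos, one_le_div hN]
      nlinarith
    exact le_trans (mul_nonpos_of_nonpos_of_nonneg this (pow_nonneg hX0 _))
      (pow_nonneg (by nlinarith) _)

/-- The lower, window and upper bounds combined, summed over the sheets. -/
theorem combine {ι : Type*} [Fintype ι] (μ H up : ι → ℝ) {nT E NN Qd P f am ℓ err : ℝ}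
    (hnT : 0 < nT) (hQd : 0 ≤ Qd) (hP : 0 ≤ P) (hf : 0 < f) (ham : 0 ≤ am)
    (hlow : nT * E * NN ≤ Qd * ∑ i, μ i)
    (hwin : ∀ i, P * μ i ≤ f * H i + nT * err)
    (hup : ∀ i, am * H i ≤ up i + nT * err)
    (htot : ∑ i, up i ≤ nT * ℓ) :
    E * NN * P * am ≤ Qd * (f * ℓ + Fintype.card ι * (f + am) * err) := by
  have h1 : P * am * ∑ i, μ i ≤ f * (nT * ℓ) + Fintype.card ι * (f + am) * (nT * err) := by
    rw [Finset.mul_sum]
    refine le_trans (Finset.sum_le_sum fun i _ => ?_) (b := ∑ i, (f * up i + (f + am) * (nT * err)))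
      ?_
    · nlinarith [mul_le_mul_of_nonneg_left (hwin i) ham, mul_le_mul_of_nonneg_left (hup i) hf.le]
    · rw [Finset.sum_add_distrib, ← Finset.mul_sum, Finset.sum_const, Finset.card_univ,
        nsmul_eq_mul, ← mul_assoc]
      exact add_le_add (mul_le_mul_of_nonneg_left htot hf.le) le_rfl
  have h2 := mul_le_mul_of_nonneg_right hlow (mul_nonneg hP ham)
  have h3 := mul_le_mul_of_nonneg_left h1 hQd
  refine le_of_mul_le_mul_left ?_ hnT
  nlinarith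

end Arith

variable {p : ℕ} [Fact p.Prime] {R : Type u} [CommRing R] [IsLocalRing R]
  [CharP (ResidueField R) p] [PerfectRing (ResidueField R) p] {n : ℕ}

theorem regUpTo_pow {T : Type u} [CommRing T] {U : Fin (n + 1) → T} {β : T} {L : ℕ}
    (h : RegUpTo U β L) (k : ℕ) : RegUpTo U (β ^ (k + 1)) L := fun D hD f hf hm a => by
  rw [pow_succ, mul_assoc]
  exact Ideal.mul_mem_left _ _ (h D hD f hf hm a)

theorem exists_sep [Infinite (ResidueField R)] :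
    ∃ lam : Fin (n + 1) → WittVector p (ResidueField R), Sep lam := by
  let v : Fin (n + 1) → ResidueField R := fun i => Infinite.natEmbedding _ (i : ℕ)
  choose lam hlam using fun i => WittVector.constantCoeff_surjective (R := ResidueField R) p (v i)
  refine ⟨lam, fun k l h => WittVector.isUnit_of_coeff_zero_ne_zero _ ?_⟩
  show WittVector.constantCoeff (lam k - lam l) ≠ 0
  rw [map_sub, hlam, hlam, sub_ne_zero]
  exact fun he => h (Fin.val_injective ((Infinite.natEmbedding _).injective he))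

variable [IsNoetherianRing (A0 p R n)]

/-- The sheets exist at every large scale. -/
def SheetsGoal (C : CoreData p R n) : Prop :=
  ∃ Q, ∀ q0, Q ≤ p ^ q0 → ∀ N c L (η : ℝ≥0∞), η ≠ 0 →
    Nonempty (Sheets C (p ^ q0) (p ^ q0 - 2 * n - 2) N c L η)

/-- One scale and one exponent of the lifts. -/
def LiftsAt (C : CoreData p R n) (M : Type u) [AddCommGroup M] [Module R M] {m : ℕ}
    (x : Fin m → R) (b0 r M0 q a : ℕ) : Prop :=
  ∃ L0 : ℕ, ∀ L, L0 ≤ L → ∃ k K : ℕ,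
    ∀ (N c : ℕ) (η : ℝ≥0∞) (S : Sheets C q (q - 2 * n - 2) N c L η)
      (Q : Type u) [AddCommGroup Q] [Module R Q] [Module (A0 p R n) Q] [Module (Sub C) Q]
      [IsScalarTower (A0 p R n) (Sub C) Q],
      (∀ (t : Sub C) (v : Q), t • v = toR C t • v) →
      (Q ≃ₗ[R] M ⧸ (Ideal.span (Set.range fun l => x l ^ a) • ⊤ : Submodule R M)) →
      ∀ i, ∃ P : Win.Lift (S.U i) (S.β i ^ (k + 1)) L (q - 2 * n - 2) (q * M0),
        Fintype.card P.ι ≤ r ∧ (∑ b, if P.deg b = 0 then (1 : ℤ) else 0) = (b0 : ℤ) ∧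
        ∑ b, (-1 : ℤ) ^ P.deg b = 0 ∧
        ∀ B, B ≤ L → (a : ℝ≥0∞) ^ m * (meas p R n S.X.T).val (P.h0B B) ≤
          lam (lvl p (ResidueField R) (Fin n)) (cc p (Fin n)) (Push (S.φ i) Q) +
            (K : ℝ≥0∞) * ((S.nT : ℝ≥0∞) * η)

/-- Lifts of the Koszul complex of the parameters on a resolution, with the scaled comparison of
their homology in degree zero with the pushforwards. -/
def LiftsGoal (C : CoreData p R n) (M : Type u) [AddCommGroup M] [Module R M] {m : ℕ}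
    (x : Fin m → R) : Prop :=
  ∃ b0 r M0 : ℕ, 0 < b0 ∧ ∀ q a : ℕ, 0 < a → LiftsAt C M x b0 r M0 q a

theorem len_cast {A : Type*} [CommRing A] {M : Type*} [AddCommGroup M] [Module A M]
    (h : Module.length A M ≠ ⊤) : (Module.length A M : ℝ≥0∞) = (len A M : ℝ≥0∞) := by
  rw [len, ← ENat.toENNReal_coe, ENat.natCast_toNat h]

/-- The lower bound from the sheets. -/
theorem low [IsNoetherianRing R] (C : CoreData p R n) {q J N c L : ℕ} {η : ℝ≥0∞}
    (S : Sheets C q J N c L η) {E : ℝ}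
    (hN : E * (N : ℝ) ^ (n + 1) / ((n + 1).factorial : ℝ) +
      (len (A0 p R n) (Sub C ⧸ (Ideal.span {algebraMap (A0 p R n) (Sub C)
        (baseIso p (ResidueField R) n C.Φ.discr)} ⊔ Ideal.span (Set.range (zS C)) ^ N)) : ℝ) ≤
      (len (A0 p R n) (Sub C ⧸ Ideal.span (Set.range (zS C)) ^ N) : ℝ)) :
    (S.nT : ℝ) * E * (N : ℝ) ^ (n + 1) ≤ ((q : ℝ) * ((N : ℝ) + n + 1) + n) ^ (n + 1) *
      ∑ i, ((meas p R n S.X.T).val (S.X.T ⧸ aI (S.U i))).toReal := by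
  set μ := meas p R n S.X.T
  set m := q * (N + n + 1)
  have hle := S.le_sum
  have hb : ∀ i, μ.val (S.X.T ⧸ aI (S.U i) ^ m) ≤
      ((m + n).choose (n + 1) : ℕ) * μ.val (S.X.T ⧸ aI (S.U i)) := fun i => μ.pow_val_le _ m
  have hfinU : ∀ i, μ.val (S.X.T ⧸ aI (S.U i)) ≠ ∞ := fun i => (S.almost i).some.fin
  unfold LeSum at hle
  rw [len_cast (length_sub_ne_top C N _ le_rfl),
    len_cast (length_sub_ne_top C N _ le_sup_right)] at hle
  have h1 := ENNReal.toReal_mono (ENNReal.add_ne_top.2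
      ⟨ENNReal.sum_ne_top.2 fun i _ => ENNReal.mul_ne_top (ENNReal.natCast_ne_top _) (hfinU i),
        ENNReal.mul_ne_top (ENNReal.natCast_ne_top _) (ENNReal.natCast_ne_top _)⟩)
    (hle.trans (add_le_add (Finset.sum_le_sum fun i _ => hb i) le_rfl))
  rw [ENNReal.toReal_add (ENNReal.sum_ne_top.2 fun i _ =>
      ENNReal.mul_ne_top (ENNReal.natCast_ne_top _) (hfinU i))
    (ENNReal.mul_ne_top (ENNReal.natCast_ne_top _) (ENNReal.natCast_ne_top _)),
    ENNReal.toReal_sum fun i _ => ENNReal.mul_ne_top (ENNReal.natCast_ne_top _) (hfinU i)] at h1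
  simp only [ENNReal.toReal_mul, ENNReal.toReal_natCast] at h1
  rw [← Finset.mul_sum] at h1
  have hch : ((m + n).choose (n + 1) : ℝ) ≤
      ((q : ℝ) * ((N : ℝ) + n + 1) + n) ^ (n + 1) / ((n + 1).factorial : ℝ) := by
    refine (Nat.choose_le_pow_div (n + 1) (m + n)).trans (le_of_eq ?_)
    simp only [m]
    push_cast
    ring
  have hfac : (0 : ℝ) < ((n + 1).factorial : ℝ) := by positivity
  have hsum : (0 : ℝ) ≤ ∑ i, (μ.val (S.X.T ⧸ aI (S.U i))).toReal :=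
    Finset.sum_nonneg fun i _ => ENNReal.toReal_nonneg
  have h2 := mul_le_mul_of_nonneg_left hN (Nat.cast_nonneg (α := ℝ) S.nT)
  have h3 := mul_le_mul_of_nonneg_right hch hsum
  rw [div_mul_eq_mul_div, le_div_iff₀ hfac] at h3
  have h4 : (S.nT : ℝ) * (E * (N : ℝ) ^ (n + 1) / ((n + 1).factorial : ℝ)) ≤
      ((m + n).choose (n + 1) : ℝ) * ∑ i, (μ.val (S.X.T ⧸ aI (S.U i))).toReal := by
    rw [mul_add] at h2
    linarith
  rw [← mul_div_assoc, div_le_iff₀ hfac] at h4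
  calc (S.nT : ℝ) * E * (N : ℝ) ^ (n + 1) = (S.nT : ℝ) * (E * (N : ℝ) ^ (n + 1)) := by ring
    _ ≤ _ := h4.trans h3

/-- The scale: the main term of the window inequality is almost `(n + 1)! q ^ (n + 1)`. -/
theorem exists_scale (n : ℕ) {b0 : ℕ} (hb0 : 0 < b0) (r W : ℕ) (Q₀ : ℕ) {p : ℕ} (hp : 1 < p)
    {t : ℝ} (ht : t < 1) :
    ∃ q0 : ℕ, Q₀ ≤ p ^ q0 ∧ 2 * n + 3 ≤ p ^ q0 ∧
      t * ((n + 1).factorial : ℝ) * ((p ^ q0 : ℕ) : ℝ) ^ (n + 1) ≤
        (b0 : ℝ) * ((n + 1).factorial : ℝ) * ((p ^ q0 - 2 * n - 2 : ℕ) : ℝ) ^ (n + 1) -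
          (r : ℝ) * (W : ℝ) * ((p ^ q0 - 2 * n - 2 : ℕ) : ℝ) ^ n := by
  have hfac : (0 : ℝ) < ((n + 1).factorial : ℝ) := by positivity
  set f : ℝ := ((n + 1).factorial : ℝ)
  set rc : ℝ := (r : ℝ) * (W : ℝ) / f
  have hrc : 0 ≤ rc := by positivity
  set c0 : ℝ := 2 * n + 2
  obtain ⟨q0, hq0⟩ := pow_unbounded_of_one_lt
    (max (Q₀ : ℝ) (((n + 1) * c0 + rc) / (1 - t)) + c0 + 1)
    (show (1 : ℝ) < p by exact_mod_cast hp)
  rw [← Nat.cast_pow] at hq0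
  have hmax1 := le_max_left (Q₀ : ℝ) (((n + 1) * c0 + rc) / (1 - t))
  have hmax2 := le_max_right (Q₀ : ℝ) (((n + 1) * c0 + rc) / (1 - t))
  have hc0 : 0 ≤ c0 := by positivity
  refine ⟨q0, ?_⟩
  set q : ℕ := p ^ q0
  have hq1 : c0 + 1 ≤ (q : ℝ) := by linarith [Nat.cast_nonneg (α := ℝ) Q₀]
  have hqn : 2 * n + 3 ≤ q := by
    have : ((2 * n + 3 : ℕ) : ℝ) ≤ q := by push_cast; linarith [show c0 = 2 * n + 2 from rfl]
    exact_mod_cast this
  refine ⟨Nat.cast_le.1 (by linarith : (Q₀ : ℝ) ≤ q), hqn, ?_⟩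
  set J := q - 2 * n - 2
  have hJR : (J : ℝ) = q - c0 := by
    have : q = J + (2 * n + 2) := by omega
    rw [this]
    push_cast
    ring
  have h1 := shrink_le n hc0 hrc (by linarith) (show (0 : ℝ) < q by linarith)
  have h2 : t ≤ 1 - ((n + 1) * c0 + rc) / q := by
    have h3 : (n + 1) * c0 + rc ≤ (q : ℝ) * (1 - t) := by
      rw [← div_le_iff₀ (by linarith)]
      linarith
    have : ((n + 1) * c0 + rc) / q ≤ 1 - t := by
      rw [div_le_iff₀ (by linarith)]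
      linarith
    linarith
  have h4 := (mul_le_mul_of_nonneg_right h2 (pow_nonneg (Nat.cast_nonneg q) (n + 1))).trans h1
  rw [← hJR] at h4
  have h5 := mul_le_mul_of_nonneg_left h4 hfac.le
  have h6 : f * rc = (r : ℝ) * (W : ℝ) := by simp only [rc]; field_simp
  have h7 : (1 : ℝ) * (f * (J : ℝ) ^ (n + 1)) ≤ (b0 : ℝ) * (f * (J : ℝ) ^ (n + 1)) :=
    mul_le_mul_of_nonneg_right (by exact_mod_cast hb0) (by positivity)
  rw [mul_sub, ← mul_assoc f rc, h6] at h5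
  linarith

/-- The power: the binomial bound costs almost nothing. -/
theorem exists_power {f P t q : ℝ} (n : ℕ) (hf : 0 ≤ f) (ht0 : 0 ≤ t) (ht1 : t < 1) (hq : 1 ≤ q)
    (hP : t * f * q ^ (n + 1) ≤ P) {G : ℕ → Prop} (hG : ∀ᶠ N : ℕ in atTop, G N) :
    ∃ N : ℕ, G N ∧
      t * t * f * (q * ((N : ℝ) + n + 1) + n) ^ (n + 1) ≤ (N : ℝ) ^ (n + 1) * P := by
  obtain ⟨N, hN, hN0, hNt⟩ : ∃ N : ℕ, G N ∧ 0 < N ∧
      ((n + 1) * (2 * n + 1) / (1 - t) : ℝ) ≤ N :=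
    (hG.and ((eventually_gt_atTop 0).and
      (tendsto_natCast_atTop_atTop.eventually_ge_atTop _))).exists
  refine ⟨N, hN, ?_⟩
  set Qd : ℝ := (q * ((N : ℝ) + n + 1) + n) ^ (n + 1)
  have hNR : (0 : ℝ) < N := Nat.cast_pos.2 hN0
  have hQd : 0 < Qd := by positivity
  have h1 := spread_le n hq hNR
  have h2 : t ≤ 1 - (n + 1) * (2 * n + 1) / (N : ℝ) := by
    have h3 : ((n : ℝ) + 1) * (2 * n + 1) ≤ (N : ℝ) * (1 - t) := by
      rw [← div_le_iff₀ (by linarith)]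
      linarith
    have : ((n : ℝ) + 1) * (2 * n + 1) / (N : ℝ) ≤ 1 - t := by
      rw [div_le_iff₀ hNR]
      linarith
    linarith
  have h4 := (mul_le_mul_of_nonneg_right h2 hQd.le).trans h1
  calc t * t * f * Qd = t * f * (t * Qd) := by ring
    _ ≤ t * f * (q * N) ^ (n + 1) := mul_le_mul_of_nonneg_left h4 (by positivity)
    _ = (N : ℝ) ^ (n + 1) * (t * f * q ^ (n + 1)) := by rw [mul_pow]; ring
    _ ≤ _ := mul_le_mul_of_nonneg_left hP (pow_nonneg hNR.le _)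

/-- The bounds on one cover, in reals. -/
theorem on_sheets [IsNoetherianRing R] (C : CoreData p R n) {q J N c L : ℕ} {η : ℝ≥0∞}
    (S : Sheets C q J N c L η) {E P am : ℝ}
    (hN : E * (N : ℝ) ^ (n + 1) / ((n + 1).factorial : ℝ) +
      (len (A0 p R n) (Sub C ⧸ (Ideal.span {algebraMap (A0 p R n) (Sub C)
        (baseIso p (ResidueField R) n C.Φ.discr)} ⊔ Ideal.span (Set.range (zS C)) ^ N)) : ℝ) ≤
      (len (A0 p R n) (Sub C ⧸ Ideal.span (Set.range (zS C)) ^ N) : ℝ))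
    (hP : 0 ≤ P) (ham : 0 ≤ am) {ℓ dℓ K : ℕ} (H : Fin C.Φ.natDegree → ℝ≥0∞)
    (up : Fin C.Φ.natDegree → ℝ≥0∞)
    (hwin : ∀ i, P * ((meas p R n S.X.T).val (S.X.T ⧸ aI (S.U i))).toReal ≤
      ((n + 1).factorial : ℝ) * (H i).toReal + (S.nT : ℝ) * ((K : ℝ) * η.toReal))
    (hup : ∀ i, am * (H i).toReal ≤ (up i).toReal + (S.nT : ℝ) * ((K : ℝ) * η.toReal))
    (htot : ∑ i, up i ≤ (S.nT : ℝ≥0∞) * ((ℓ : ℝ≥0∞) + C.Φ.natDegree * (dℓ : ℝ≥0∞))) :
    E * (N : ℝ) ^ (n + 1) * P * am ≤ ((q : ℝ) * ((N : ℝ) + n + 1) + n) ^ (n + 1) *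
      (((n + 1).factorial : ℝ) * ((ℓ : ℝ) + C.Φ.natDegree * (dℓ : ℝ)) +
        C.Φ.natDegree * (((n + 1).factorial : ℝ) + am) * ((K : ℝ) * η.toReal)) := by
  have hfinU : ∀ i, up i ≠ ∞ := fun i => ne_top_of_le_ne_top
    (ENNReal.mul_ne_top (ENNReal.natCast_ne_top _) (ENNReal.add_ne_top.2
      ⟨ENNReal.natCast_ne_top _, ENNReal.mul_ne_top (ENNReal.natCast_ne_top _)
        (ENNReal.natCast_ne_top _)⟩))
    ((Finset.single_le_sum (fun _ _ => zero_le) (Finset.mem_univ i)).trans htot)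
  have h1 := ENNReal.toReal_mono (ENNReal.mul_ne_top (ENNReal.natCast_ne_top _)
      (ENNReal.add_ne_top.2 ⟨ENNReal.natCast_ne_top _,
        ENNReal.mul_ne_top (ENNReal.natCast_ne_top _) (ENNReal.natCast_ne_top _)⟩)) htot
  rw [ENNReal.toReal_sum fun i _ => hfinU i, ENNReal.toReal_mul, ENNReal.toReal_add
    (ENNReal.natCast_ne_top _) (ENNReal.mul_ne_top (ENNReal.natCast_ne_top _)
      (ENNReal.natCast_ne_top _)), ENNReal.toReal_mul] at h1
  simp only [ENNReal.toReal_natCast] at h1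
  have h2 := combine (fun i => ((meas p R n S.X.T).val (S.X.T ⧸ aI (S.U i))).toReal)
    (fun i => (H i).toReal) (fun i => (up i).toReal) (Nat.cast_pos.2 S.nT_pos) (by positivity) hP
    (by positivity) ham (low C S hN) hwin hup h1
  rwa [Fintype.card_fin] at h2

/-- The pushforwards of a quotient killed by a power of the maximal ideal, with lengths as natural
numbers. -/
theorem sum_push_len [IsNoetherianRing R] (C : CoreData p R n) {q J N c L : ℕ} {η : ℝ≥0∞}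
    (S : Sheets C q J N c L η) (M : Type u) [AddCommGroup M] [Module R M] [Module.Finite R M]
    (I : Ideal R) [Module (A0 p R n) (M ⧸ (I • ⊤ : Submodule R M))]
    [Module (Sub C) (M ⧸ (I • ⊤ : Submodule R M))]
    [IsScalarTower (A0 p R n) (Sub C) (M ⧸ (I • ⊤ : Submodule R M))]
    (hS : ∀ (s : Sub C) (z : M ⧸ (I • ⊤ : Submodule R M)), s • z = toR C s • z)
    (hkill : ∀ r ∈ maximalIdeal R ^ c, ∀ z : M ⧸ (I • ⊤ : Submodule R M), r • z = 0) :
    ∑ i, lam (lvl p (ResidueField R) (Fin n)) (cc p (Fin n))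
        (Push (S.φ i) (M ⧸ (I • ⊤ : Submodule R M))) ≤
      (S.nT : ℝ≥0∞) * ((len R (M ⧸ (I • ⊤ : Submodule R M)) : ℝ≥0∞) + C.Φ.natDegree *
        (len R (M ⧸ ((Ideal.span {C.φ C.Φ.discr} ⊔ I) • ⊤ : Submodule R M)) : ℝ≥0∞)) := by
  have h1 : Module.length R (M ⧸ (I • ⊤ : Submodule R M)) ≠ ⊤ := length_ne_top_of_killed hkill
  have h2 := length_quot_sup M I (C.φ C.Φ.discr)
  have h3 : Module.length R (M ⧸ ((Ideal.span {C.φ C.Φ.discr} ⊔ I) • ⊤ : Submodule R M)) ≠ ⊤ :=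
    h2 ▸ ne_top_of_le_ne_top h1 (Module.length_le_of_surjective _ (Submodule.mkQ_surjective _))
  have h := sum_push_le C S (M ⧸ (I • ⊤ : Submodule R M)) hS hkill
  exact h.trans (mul_le_mul' le_rfl (add_le_add (len_cast h1).le
    (mul_le_mul' le_rfl (((congrArg (fun e : ℕ∞ => (e : ℝ≥0∞)) h2).trans (len_cast h3)).le))))

/-- The bounds on one cover with the constants collected. -/
theorem cover_bound [IsNoetherianRing R] (C : CoreData p R n) {q J N c L : ℕ} {η : ℝ}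
    (S : Sheets C q J N c L (ENNReal.ofReal η)) (hη : 0 ≤ η) {E : ℝ}
    (hN : E * (N : ℝ) ^ (n + 1) / ((n + 1).factorial : ℝ) +
      (len (A0 p R n) (Sub C ⧸ (Ideal.span {algebraMap (A0 p R n) (Sub C)
        (baseIso p (ResidueField R) n C.Φ.discr)} ⊔ Ideal.span (Set.range (zS C)) ^ N)) : ℝ) ≤
      (len (A0 p R n) (Sub C ⧸ Ideal.span (Set.range (zS C)) ^ N) : ℝ))
    {b0 r W a m K1 K2 K3 Kt ℓ dℓ : ℕ} (hK1 : K1 * K3 ≤ Kt) (hK2 : K2 ≤ Kt) {Pm : ℝ}
    (hPm : Pm = (b0 : ℝ) * ((n + 1).factorial : ℝ) * (J : ℝ) ^ (n + 1) -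
      (r : ℝ) * (W : ℝ) * (J : ℝ) ^ n)
    (hP0 : 0 ≤ Pm) (H up kb : Fin C.Φ.natDegree → ℝ≥0∞)
    (hkb : ∀ i, kb i ≤ (K3 : ℝ≥0∞) * ((S.nT : ℝ≥0∞) * ENNReal.ofReal η))
    (hw : ∀ i, (b0 : ℝ) * ((n + 1).factorial : ℝ) * (J : ℝ) ^ (n + 1) *
        ((meas p R n S.X.T).val (S.X.T ⧸ aI (S.U i))).toReal ≤
      ((n + 1).factorial : ℝ) * (H i).toReal + (r : ℝ) * (W : ℝ) * (J : ℝ) ^ n *
        ((meas p R n S.X.T).val (S.X.T ⧸ aI (S.U i))).toReal + (K1 : ℝ) * (kb i).toReal)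
    (hup : ∀ i, (a : ℝ≥0∞) ^ m * H i ≤ up i + (K2 : ℝ≥0∞) * ((S.nT : ℝ≥0∞) * ENNReal.ofReal η))
    (htot : ∑ i, up i ≤ (S.nT : ℝ≥0∞) * ((ℓ : ℝ≥0∞) + C.Φ.natDegree * (dℓ : ℝ≥0∞))) :
    E * (N : ℝ) ^ (n + 1) * Pm * (a : ℝ) ^ m ≤ ((q : ℝ) * ((N : ℝ) + n + 1) + n) ^ (n + 1) *
      (((n + 1).factorial : ℝ) * ((ℓ : ℝ) + C.Φ.natDegree * (dℓ : ℝ)) +
        C.Φ.natDegree * (((n + 1).factorial : ℝ) + (a : ℝ) ^ m) * ((Kt : ℝ) * η)) := by
  have hne : (S.nT : ℝ≥0∞) * ENNReal.ofReal η ≠ ∞ :=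
    ENNReal.mul_ne_top (ENNReal.natCast_ne_top _) ENNReal.ofReal_ne_top
  have hconv : ∀ K : ℕ, ((K : ℝ≥0∞) * ((S.nT : ℝ≥0∞) * ENNReal.ofReal η)).toReal =
      (S.nT : ℝ) * ((K : ℝ) * η) := fun K => by
    rw [ENNReal.toReal_mul, ENNReal.toReal_mul, ENNReal.toReal_natCast, ENNReal.toReal_natCast,
      ENNReal.toReal_ofReal hη, mul_left_comm]
  have hmono : ∀ K : ℕ, K ≤ Kt → (S.nT : ℝ) * ((K : ℝ) * η) ≤ (S.nT : ℝ) * ((Kt : ℝ) * η) :=
    fun K hK => mul_le_mul_of_nonneg_left (mul_le_mul_of_nonneg_right (Nat.cast_le.2 hK) hη)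
      (Nat.cast_nonneg _)
  have h := on_sheets C S hN hP0 (pow_nonneg (Nat.cast_nonneg a) m) (K := Kt)
    H up (fun i => ?_) (fun i => ?_) htot
  · rwa [ENNReal.toReal_ofReal hη] at h
  · rw [ENNReal.toReal_ofReal hη]
    have h1 := ENNReal.toReal_mono (ENNReal.mul_ne_top (ENNReal.natCast_ne_top _) hne) (hkb i)
    rw [hconv] at h1
    have h2 := mul_le_mul_of_nonneg_left h1 (Nat.cast_nonneg (α := ℝ) K1)
    have h3 := hmono _ hK1
    push_cast at h3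
    have h4 := hw i
    rw [hPm, sub_mul]
    nlinarith
  · rw [ENNReal.toReal_ofReal hη]
    have hfin : up i ≠ ∞ := ne_top_of_le_ne_top (ENNReal.mul_ne_top (ENNReal.natCast_ne_top _)
      (ENNReal.add_ne_top.2 ⟨ENNReal.natCast_ne_top _,
        ENNReal.mul_ne_top (ENNReal.natCast_ne_top _) (ENNReal.natCast_ne_top _)⟩))
      ((Finset.single_le_sum (fun _ _ => zero_le) (Finset.mem_univ i)).trans htot)
    have hfin2 := ENNReal.mul_ne_top (ENNReal.natCast_ne_top K2) hne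
    have h1 := ENNReal.toReal_mono (ENNReal.add_ne_top.2 ⟨hfin, hfin2⟩) (hup i)
    rw [ENNReal.toReal_mul, ENNReal.toReal_pow, ENNReal.toReal_natCast,
      ENNReal.toReal_add hfin hfin2, hconv] at h1
    exact h1.trans (add_le_add le_rfl (hmono _ hK2))

/-- One large exponent. -/
theorem one_exp [IsNoetherianRing R] (C : CoreData p R n) (M : Type u) [AddCommGroup M]
    [Module R M] [Module.Finite R M] {m : ℕ} {x : Fin m → R}
    (hc : ∃ c, (maximalIdeal R ^ c • ⊤ : Submodule R M) ≤ Ideal.span (Set.range x) • ⊤)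
    {b0 r M0 q0 N a : ℕ}
    (hQ : ∀ N c L (η : ℝ≥0∞), η ≠ 0 →
      Nonempty (Sheets C (p ^ q0) (p ^ q0 - 2 * n - 2) N c L η))
    (hlift : LiftsAt C M x b0 r M0 (p ^ q0) a)
    (lamZ : Fin (n + 1) → WittVector p (ResidueField R)) (hlamZ : Sep lamZ)
    (hJ : 1 ≤ p ^ q0 - 2 * n - 2) {E ε' Pm : ℝ}
    (hPm : Pm = (b0 : ℝ) * ((n + 1).factorial : ℝ) * ((p ^ q0 - 2 * n - 2 : ℕ) : ℝ) ^ (n + 1) -
      (r : ℝ) * (Win.winK n : ℝ) * ((p ^ q0 - 2 * n - 2 : ℕ) : ℝ) ^ n)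
    (hP0 : 0 ≤ Pm) (hε : 0 < ε')
    (hN : E * (N : ℝ) ^ (n + 1) / ((n + 1).factorial : ℝ) +
      (len (A0 p R n) (Sub C ⧸ (Ideal.span {algebraMap (A0 p R n) (Sub C)
        (baseIso p (ResidueField R) n C.Φ.discr)} ⊔ Ideal.span (Set.range (zS C)) ^ N)) : ℝ) ≤
      (len (A0 p R n) (Sub C ⧸ Ideal.span (Set.range (zS C)) ^ N) : ℝ)) :
    E * (N : ℝ) ^ (n + 1) * Pm * (a : ℝ) ^ m ≤
      (((p ^ q0 : ℕ) : ℝ) * ((N : ℝ) + n + 1) + n) ^ (n + 1) *
      (((n + 1).factorial : ℝ) * ((len R (M ⧸ (Ideal.span (Set.range fun l => x l ^ a) • ⊤ :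
          Submodule R M)) : ℝ) + C.Φ.natDegree * (len R (M ⧸ ((Ideal.span {C.φ C.Φ.discr} ⊔
        Ideal.span (Set.range fun i => x i ^ a)) • ⊤ : Submodule R M)) : ℝ)) + ε') := by
  classical
  obtain ⟨L0, hlift⟩ := hlift
  obtain ⟨gap, hgap⟩ := Win.window_bound.{u, u} lamZ hlamZ (p ^ q0 * M0) hJ
  obtain ⟨c, hc'⟩ := exists_killed x hc a
  obtain ⟨L, hL0, hLg⟩ : ∃ L, L0 ≤ L ∧ gap ≤ L :=
    ⟨max L0 gap, le_max_left _ _, le_max_right _ _⟩
  obtain ⟨B, hBL, N1, K1, hwin⟩ := hgap L r hLg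
  obtain ⟨k, K2, hlift⟩ := hlift L hL0
  obtain ⟨Kt, hK1, hK2⟩ : ∃ Kt : ℕ, K1 * (N1 * (k + 1)) ≤ Kt ∧ K2 ≤ Kt :=
    ⟨max (K1 * (N1 * (k + 1))) K2, le_max_left _ _, le_max_right _ _⟩
  obtain ⟨f, hf⟩ : ∃ f : ℝ, ((n + 1).factorial : ℝ) = f := ⟨_, rfl⟩
  obtain ⟨Den, hDen'⟩ : ∃ D : ℝ, D = C.Φ.natDegree * (f + (a : ℝ) ^ m) * Kt + 1 := ⟨_, rfl⟩
  have hDen : 0 < Den := by
    rw [hDen', ← hf]
    positivity
  obtain ⟨η, hη'⟩ : ∃ η : ℝ, η = ε' / Den := ⟨_, rfl⟩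
  have hη : 0 < η := hη' ▸ div_pos hε hDen
  obtain ⟨S⟩ := hQ N c L (ENNReal.ofReal η) (by simpa using hη)
  let Qa := M ⧸ (Ideal.span (Set.range fun l => x l ^ a) • ⊤ : Submodule R M)
  let := Module.compHom Qa (baseR C)
  let := Module.compHom Qa (toR C)
  have : IsScalarTower (A0 p R n) (Sub C) Qa := IsScalarTower.of_algebraMap_smul fun b z => by
    show toR C (algebraMap (A0 p R n) (Sub C) b) • z = baseR C b • z
    rw [toR_of]
  have hkill : ∀ r ∈ maximalIdeal R ^ c, ∀ z : Qa, r • z = 0 := killed_quot M hc'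
  have htot := sum_push_len C S M (Ideal.span (Set.range fun l => x l ^ a)) (fun _ _ => rfl) hkill
  choose Pl hcard hrank halt hup using hlift N c (ENNReal.ofReal η) S Qa
    (fun _ _ => rfl) (LinearEquiv.refl R Qa)
  let _ : Algebra (WittVector p (ResidueField R)) S.X.T :=
    ((algebraMap (A0 p R n) S.X.T).comp ((baseIso p (ResidueField R) n).comp
      MvPowerSeries.C)).toAlgebra
  have h := cover_bound C S hη.le hN (W := Win.winK n) (K1 := K1) (K3 := N1 * (k + 1)) (a := a)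
    (m := m) hK1 hK2 hPm hP0
    (fun i => (meas p R n S.X.T).val ((Pl i).h0B B)) _
    (fun i => (meas p R n S.X.T).kb ((S.β i ^ (k + 1)) ^ N1) (S.X.T ⧸ aI (S.U i)))
    (fun i => by
      rw [← pow_mul, mul_comm (k + 1)]
      exact ((meas p R n S.X.T).kb_pow_le _ _ _).trans
        (mul_le_mul' le_rfl (((meas p R n S.X.T).kb_quot_le_val _ _).trans (S.small i))))
    (fun i => by
      have h1 := (hwin (meas p R n S.X.T) (S.almost i).some (S.β i ^ (k + 1))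
        (regUpTo_pow (S.reg i) k) (Pl i) (hcard i) (halt i)).2
      have h0 : ((Finset.univ.filter fun b => (Pl i).deg b = 0).card : ℝ) = (b0 : ℝ) := by
        have := hrank i
        rw [Finset.sum_boole] at this
        exact_mod_cast this
      rw [h0] at h1
      exact h1)
    (fun i => hup i B hBL) htot
  refine h.trans (mul_le_mul_of_nonneg_left (add_le_add le_rfl ?_) (by positivity))
  rw [hf]
  have h1 : Den * η = ε' := hη' ▸ mul_div_cancel₀ _ hDen.ne'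
  nlinarith [show Den * η = C.Φ.natDegree * (f + (a : ℝ) ^ m) * Kt * η + η by
    rw [hDen']; ring]

/-- The core, from sheets and lifts. -/
theorem core_of [IsNoetherianRing R] [Infinite (ResidueField R)] (C : CoreData p R n)
    (hS : SheetsGoal C)
    (hL : ∀ (M : Type u) [AddCommGroup M] [Module R M], Module.Finite R M → Nontrivial M →
      ∀ (s m : ℕ), m + s = n + 1 → 0 < m → Ext.SyzFree R s M → ∀ x : Fin m → R,
      (∀ i, x i ∈ maximalIdeal R) →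
      (∃ c, (maximalIdeal R ^ c • ⊤ : Submodule R M) ≤ Ideal.span (Set.range x) • ⊤) →
      LiftsGoal C M x) :
    CoreGoal p R n C := by
  intro e he M _ _ hfM hnt s m hms hm hsyz x hx hc hdisc ε hε
  rcases le_or_gt (e - ε) 0 with hneg | hpos
  · exact Eventually.of_forall fun L =>
      (mul_nonpos_of_nonpos_of_nonneg hneg (pow_nonneg (Nat.cast_nonneg L) m)).trans
        (Nat.cast_nonneg _)
  obtain ⟨b0, r, M0, hb0, hlift⟩ := hL M hfM hnt s m hms hm hsyz x hx hc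
  obtain ⟨lamZ, hlamZ⟩ := exists_sep (p := p) (R := R) (n := n)
  obtain ⟨Q₀, hQ⟩ := hS
  set f : ℝ := ((n + 1).factorial : ℝ)
  have hfac : (0 : ℝ) < f := by positivity
  set E : ℝ := e - ε / 4 with hEdef
  have hE : 0 < E := by linarith
  set θ : ℝ := (e - ε / 2) / E
  have hθ : θ < 1 := (div_lt_one hE).2 (by linarith)
  have hθ0 : 0 < θ := div_pos (by linarith) hE
  obtain ⟨t, ht0, ht1, htt⟩ : ∃ t : ℝ, 0 < t ∧ t < 1 ∧ e - ε / 2 ≤ E * (t * t) :=
    ⟨(θ + 1) / 2, by linarith, by linarith, by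
      rw [← div_le_iff₀' hE]
      nlinarith [sq_nonneg (θ - 1)]⟩
  obtain ⟨q0, hqQ, hqn, hP⟩ := exists_scale n hb0 r (Win.winK n) Q₀
    (Fact.out : p.Prime).one_lt ht1
  set q : ℕ := p ^ q0 with hq
  set Pm : ℝ := (b0 : ℝ) * f * ((q - 2 * n - 2 : ℕ) : ℝ) ^ (n + 1) -
    (r : ℝ) * (Win.winK n : ℝ) * ((q - 2 * n - 2 : ℕ) : ℝ) ^ n with hPm
  have hP0 : 0 ≤ Pm := le_trans (by positivity) hP
  have hqR : (1 : ℝ) ≤ q := by
    exact_mod_cast le_trans (by omega : 1 ≤ 2 * n + 3) hqn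
  obtain ⟨N, hN, hρ⟩ := exists_power n hfac.le ht0.le ht1 hqR hP
    (lower C he (by linarith : 0 < ε / 4))
  set Qd : ℝ := ((q : ℝ) * ((N : ℝ) + n + 1) + n) ^ (n + 1)
  have hQd : 0 < Qd := by
    have : (0 : ℝ) < q := lt_of_lt_of_le one_pos hqR
    have : (0 : ℝ) < (q : ℝ) * ((N : ℝ) + n + 1) := by positivity
    positivity
  set D : ℝ := (C.Φ.natDegree : ℝ)
  have hD : 0 ≤ D := Nat.cast_nonneg _
  have hdisc' := hdisc.eventually_le_const (show (0 : ℝ) < ε / (8 * (D + 1)) by positivity)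
  filter_upwards [hdisc', eventually_ge_atTop 1] with a had ha1
  have ham : (0 : ℝ) < (a : ℝ) ^ m := by
    have : (0 : ℝ) < a := by exact_mod_cast ha1
    positivity
  have key := one_exp C M hc (fun N c L η h => hQ q0 hqQ N c L η h) (hlift q a ha1) lamZ hlamZ
    (by omega) hPm hP0 (show 0 < f * (ε / 8 * (a : ℝ) ^ m) by positivity) hN
  set ℓ : ℝ := (len R (M ⧸ (Ideal.span (Set.range fun i => x i ^ a) • ⊤ : Submodule R M)) : ℝ)
  set dℓ : ℝ := (len R (M ⧸ ((Ideal.span {C.φ C.Φ.discr} ⊔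
    Ideal.span (Set.range fun i => x i ^ a)) • ⊤ : Submodule R M)) : ℝ) with hdℓ
  have hd' : D * dℓ ≤ ε / 8 * (a : ℝ) ^ m := by
    rw [div_le_div_iff₀ ham (by positivity)] at had
    have h2 : (0 : ℝ) ≤ dℓ := Nat.cast_nonneg _
    nlinarith
  have hmain : E * (t * t) * (a : ℝ) ^ m * (f * Qd) ≤
      (ℓ + ε / 2 * (a : ℝ) ^ m) * (f * Qd) := by
    calc E * (t * t) * (a : ℝ) ^ m * (f * Qd)
        = E * (a : ℝ) ^ m * (t * t * f * Qd) := by ring
      _ ≤ E * (a : ℝ) ^ m * ((N : ℝ) ^ (n + 1) * Pm) :=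
          mul_le_mul_of_nonneg_left hρ (by positivity)
      _ = E * (N : ℝ) ^ (n + 1) * Pm * (a : ℝ) ^ m := by ring
      _ ≤ Qd * (f * (ℓ + D * dℓ) + f * (ε / 8 * (a : ℝ) ^ m)) := key
      _ ≤ Qd * (f * (ℓ + ε / 2 * (a : ℝ) ^ m)) := by
          refine mul_le_mul_of_nonneg_left ?_ hQd.le
          rw [← mul_add]
          refine mul_le_mul_of_nonneg_left ?_ hfac.le
          nlinarith
      _ = _ := by ring
  have h1 := le_of_mul_le_mul_right hmain (by positivity)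
  have h2 := mul_le_mul_of_nonneg_right htt ham.le
  nlinarith

end Vale.Agent.P202.Mixed2.MainStep
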