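import Vale.Agent.P202.Mixed2.Scaling
import Vale.Agent.P202.Mixed2.Sums

/-!
P202, mixed characteristic: `H_0` of a complex whose entries out of degree one are `β`-twisted
values of an additive, `β`-multiplicative extension `σ` of a root map `φ` is at most as long as
the pushforward along `φ` of the module these entries present, up to a power of `β`.
-/

open scoped ENNReal TensorProduct

namespace Vale.Agent.P202.Mixed2

open Vale.Agent.P202.Char Vale.Agent.P202.Lambda

universe u

section Generic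

variable {A₀ B : Type*} [CommRing A₀] [CommRing B] [Algebra A₀ B] [IsNoetherianRing A₀]
  {S : Type u} [CommRing S] [Algebra A₀ S] [Algebra B S] [IsScalarTower A₀ B S]
  {A : ℕ → Subalgebra A₀ B} {c : ℕ} {R R' : Type*} [CommRing R] [CommRing R'] [Algebra A₀ R']
  {Q : Type*} [AddCommGroup Q] [Module A₀ Q] [Module R' Q] [IsScalarTower A₀ R' Q]

/-- A tuple supported in degree zero, from an arbitrary one. -/
noncomputable def tup0 (P : MCx S) : (P.β → S) →ₗ[S] Deg0 P :=
  (LinearMap.pi fun b => if P.deg b = 0 then (LinearMap.proj b : (P.β → S) →ₗ[S] S) else 0).codRestrict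
    (Deg0 P) fun x => (MCx.mem_degSub S).2 fun b hb => by
      have : ¬P.deg b = 0 := fun h => hb (by simp [h])
      simp [this]

theorem tup0_apply (P : MCx S) (x : P.β → S) (b : P.β) :
    (tup0 P x : P.β → S) b = if P.deg b = 0 then x b else 0 := by
  simp only [tup0, LinearMap.codRestrict_apply, LinearMap.pi_apply]
  split_ifs <;> simp

theorem tup0_self (P : MCx S) (u : Deg0 P) : tup0 P (u : P.β → S) = u := by
  refine Subtype.ext (funext fun b => ?_)
  rw [tup0_apply]
  split_ifs with h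
  · rfl
  · exact ((MCx.mem_degSub S).1 u.2 b (by exact_mod_cast h)).symm

/-- The map from the pushforward to `H_0`, onto up to a power of `β`. -/
theorem exists_push_to_H0 (f : R' →+* R) (φ : R' →ₐ[A₀] S) (β : S) (σ : R →+ S) (hone : σ 1 = β)
    (hmul : ∀ x y, σ x * σ y = β * σ (x * y)) (hsmul : ∀ r x, σ (f r * x) = φ r * σ x)
    (P : MCx S) (v : P.β → P.β → R) (k : P.β → ℕ) (k₀ : ℕ) (hk : ∀ b, P.deg b = 1 → k b ≤ k₀)
    (hD : ∀ a b, P.deg a = 0 → P.deg b = 1 → P.D a b = β ^ k b * σ (v a b))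
    (π : (P.β → R) →+ Q) (hπf : ∀ r x, π (f r • x) = r • π x) (hπ : Function.Surjective π)
    (hker : ∀ x, π x = 0 → ∃ w : P.β → R, ∀ a, P.deg a = 0 →
      x a = ∑ b with P.deg b = 1, w b * v a b) :
    ∃ Ψ : Push φ Q →ₗ[S] H0 P, ∀ u : H0 P, β ^ (k₀ + 2) • u ∈ LinearMap.range Ψ := by
  classical
  let w0 : (P.β → R) →+ H0 P :=
    { toFun := fun x => (img0 P).mkQ (tup0 P fun a => β ^ (k₀ + 1) * σ (x a))
      map_zero' := by
        simp only [Pi.zero_apply, map_zero, mul_zero]
        exact (congrArg _ (map_zero (tup0 P))).trans (map_zero _)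
      map_add' := fun x y => by
        simp only [Pi.add_apply, map_add, mul_add]
        rw [← map_add, ← map_add]
        rfl }
  have hw0 : ∀ x, w0 x = (img0 P).mkQ (tup0 P fun a => β ^ (k₀ + 1) * σ (x a)) := fun _ => rfl
  have hzero : ∀ x, π x = 0 → w0 x = 0 := by
    intro x hx
    obtain ⟨w, hw⟩ := hker x hx
    rw [hw0, Submodule.mkQ_apply, Submodule.Quotient.mk_eq_zero, mem_img0]
    refine ⟨fun b => if P.deg b = 1 then β ^ (k₀ - k b) * σ (w b) else 0,
      (MCx.mem_degSub S).2 fun b hb => if_neg fun h => hb (by simp [h]), funext fun a => ?_⟩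
    rw [mlin_apply, tup0_apply]
    split_ifs with ha
    · rw [hw a ha, map_sum, Finset.mul_sum, Finset.sum_filter]
      refine Finset.sum_congr rfl fun b _ => ?_
      split_ifs with hb
      · have hpow : β ^ (k₀ + 1) = β ^ k b * β ^ (k₀ - k b) * β := by
          rw [← pow_add, Nat.add_sub_cancel' (hk b hb), pow_succ]
        rw [smul_eq_mul, hD a b ha hb, hpow, mul_assoc _ β, ← hmul]
        ring
      · rw [smul_zero]
    · refine Finset.sum_eq_zero fun b _ => ?_
      by_cases hab : P.D a b = 0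
      · rw [hab, zero_smul]
      · rw [if_neg (by have := P.homog a b hab; omega), smul_zero]
  have hwf : ∀ r x, w0 (f r • x) = φ r • w0 x := fun r x => by
    rw [hw0, hw0, ← map_smul, ← map_smul]
    refine congrArg _ (congrArg _ (funext fun a => ?_))
    rw [Pi.smul_apply, Pi.smul_apply, smul_eq_mul, smul_eq_mul, hsmul]
    ring
  choose sec hsec using hπ
  have hwell : ∀ x, w0 (sec (π x)) = w0 x := fun x => by
    rw [← sub_eq_zero, ← map_sub]
    exact hzero _ (by rw [map_sub, hsec, sub_self])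
  have hwr : ∀ (r : R') q, w0 (sec (r • q)) = φ r • w0 (sec q) := fun r q => by
    rw [← hwf, ← hwell (f r • sec q), hπf, hsec]
  let wQ : Q →ₗ[A₀] H0 P :=
    { toFun := fun q => w0 (sec q)
      map_add' := fun q q' => by rw [← map_add, ← hwell (sec q + sec q'), map_add π, hsec, hsec]
      map_smul' := fun a q => by
        rw [RingHom.id_apply, ← algebraMap_smul R' a q, hwr, AlgHom.commutes, algebraMap_smul] }
  have hle : pushRel φ Q ≤ LinearMap.ker (wQ.liftBaseChange S) := by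
    refine Submodule.span_le.2 ?_
    rintro _ ⟨r, q, rfl⟩
    rw [SetLike.mem_coe, LinearMap.mem_ker, map_sub, map_smul, LinearMap.liftBaseChange_tmul,
      LinearMap.liftBaseChange_tmul, one_smul, one_smul, sub_eq_zero]
    exact hwr r q
  refine ⟨(pushRel φ Q).liftQ _ hle, fun u => ?_⟩
  obtain ⟨u, rfl⟩ := Submodule.mkQ_surjective _ u
  have he : ∀ a, P.deg a = 0 → (img0 P).mkQ (tup0 P (Pi.single a (β ^ (k₀ + 2)))) ∈
      LinearMap.range ((pushRel φ Q).liftQ (wQ.liftBaseChange S) hle) := by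
    intro a _
    refine ⟨(pushRel φ Q).mkQ ((1 : S) ⊗ₜ[A₀] π (Pi.single a 1)), ?_⟩
    rw [Submodule.mkQ_apply, Submodule.liftQ_apply, LinearMap.liftBaseChange_tmul, one_smul]
    show w0 (sec (π (Pi.single a 1))) = _
    rw [hwell, hw0]
    refine congrArg _ (congrArg _ (funext fun b => ?_))
    rcases eq_or_ne b a with rfl | hb
    · rw [Pi.single_eq_same, Pi.single_eq_same, hone]
      ring
    · rw [Pi.single_eq_of_ne hb, Pi.single_eq_of_ne hb, map_zero, mul_zero]
  have hsum : β ^ (k₀ + 2) • u = ∑ a with P.deg a = 0,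
      (u : P.β → S) a • tup0 P (Pi.single a (β ^ (k₀ + 2))) := by
    refine Subtype.ext (funext fun b => ?_)
    simp only [Submodule.coe_smul, Submodule.coe_sum, Finset.sum_apply, Pi.smul_apply, tup0_apply,
      smul_eq_mul]
    by_cases hb : P.deg b = 0
    · rw [Finset.sum_eq_single b (fun a _ ha => by simp [hb, ha.symm])
        (fun h => absurd (Finset.mem_filter.2 ⟨Finset.mem_univ b, hb⟩) h), if_pos hb,
        Pi.single_eq_same, mul_comm]
    · rw [(MCx.mem_degSub S).1 u.2 b (by exact_mod_cast hb), mul_zero]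
      simp [hb]
  rw [← map_smul, hsum, map_sum]
  exact sum_mem fun a ha => by
    rw [map_smul]
    exact Submodule.smul_mem _ _ (he a (Finset.mem_filter.1 ha).2)

/-- `H_0` is at most the pushforward, up to the cotorsion of a power of `β`. -/
theorem lam_H0_le_push (h : IsTower A c) (f : R' →+* R) (φ : R' →ₐ[A₀] S) (β : S) (σ : R →+ S)
    (hone : σ 1 = β) (hmul : ∀ x y, σ x * σ y = β * σ (x * y))
    (hsmul : ∀ r x, σ (f r * x) = φ r * σ x)
    (P : MCx S) (v : P.β → P.β → R) (k : P.β → ℕ) (k₀ : ℕ) (hk : ∀ b, P.deg b = 1 → k b ≤ k₀)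
    (hD : ∀ a b, P.deg a = 0 → P.deg b = 1 → P.D a b = β ^ k b * σ (v a b))
    (π : (P.β → R) →+ Q) (hπf : ∀ r x, π (f r • x) = r • π x) (hπ : Function.Surjective π)
    (hker : ∀ x, π x = 0 → ∃ w : P.β → R, ∀ a, P.deg a = 0 →
      x a = ∑ b with P.deg b = 1, w b * v a b) :
    lam A c (H0 P) ≤ lam A c (Push φ Q) + lam A c (Deg0 P ⧸
      LinearMap.range ((LinearMap.lsmul S (Deg0 P) (β ^ (k₀ + 2))).restrictScalars B)) := by
  obtain ⟨Ψ, hΨ⟩ := exists_push_to_H0 f φ β σ hone hmul hsmul P v k k₀ hk hD π hπf hπ hker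
  set g := Ψ.restrictScalars B
  refine (lam_le_add h (LinearMap.range g).subtype (LinearMap.range g).mkQ
    (Submodule.subtype_injective _) (LinearMap.exact_subtype_mkQ _)).trans (add_le_add
      (lam_le_of_surjective g.rangeRestrict g.surjective_rangeRestrict) ?_)
  refine lam_le_of_surjective (Submodule.mapQ _ _ ((img0 P).mkQ.restrictScalars B) ?_) ?_
  · rintro _ ⟨u, rfl⟩
    show (img0 P).mkQ (β ^ (k₀ + 2) • u) ∈ LinearMap.range g
    rw [map_smul]
    obtain ⟨z, hz⟩ := hΨ ((img0 P).mkQ u)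
    exact ⟨z, hz⟩
  · intro z
    obtain ⟨z, rfl⟩ := Submodule.mkQ_surjective _ z
    obtain ⟨u, rfl⟩ := Submodule.mkQ_surjective (img0 P) z
    exact ⟨Submodule.mkQ _ u, rfl⟩

end Generic

section Ideal

variable {A₀ B : Type*} [CommRing A₀] [CommRing B] [Algebra A₀ B] [IsNoetherianRing A₀]
  {T : Type u} [CommRing T] [Algebra A₀ T] [Algebra B T] [IsScalarTower A₀ B T]
  {A : ℕ → Subalgebra A₀ B} {c : ℕ} {n L : ℕ} {U : Fin (n + 1) → T} {β : T}
  {R R' : Type*} [CommRing R] [CommRing R'] [Algebra A₀ R']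
  {Q : Type*} [AddCommGroup Q] [Module A₀ Q] [Module R' Q] [IsScalarTower A₀ R' Q]

/-- Over `T` modulo the power `L` of the ideal of `U`, with the error term of the scaling. -/
theorem lam_H0_le_push_errQ (h : IsTower A c) (f : R' →+* R)
    (φ : R' →ₐ[A₀] T ⧸ aI U ^ L) (σ : R →+ T ⧸ aI U ^ L)
    (hone : σ 1 = Ideal.Quotient.mk _ β)
    (hmul : ∀ x y, σ x * σ y = Ideal.Quotient.mk _ β * σ (x * y))
    (hsmul : ∀ r x, σ (f r * x) = φ r * σ x)
    (P : MCx (T ⧸ aI U ^ L)) (v : P.β → P.β → R) (k : P.β → ℕ) (k₀ : ℕ)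
    (hk : ∀ b, P.deg b = 1 → k b ≤ k₀)
    (hD : ∀ a b, P.deg a = 0 → P.deg b = 1 →
      P.D a b = Ideal.Quotient.mk (aI U ^ L) β ^ k b * σ (v a b))
    (π : (P.β → R) →+ Q) (hπf : ∀ r x, π (f r • x) = r • π x) (hπ : Function.Surjective π)
    (hker : ∀ x, π x = 0 → ∃ w : P.β → R, ∀ a, P.deg a = 0 →
      x a = ∑ b with P.deg b = 1, w b * v a b) :
    lam A c (H0 P) ≤ lam A c (Push φ Q) +
      (P.rank 0 : ℝ≥0∞) * (((k₀ + 2 : ℕ) : ℝ≥0∞) * errQ A c U β L) :=
  (lam_H0_le_push h f φ _ σ hone hmul hsmul P v k k₀ hk hD π hπf hπ hker).trans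
    (add_le_add le_rfl (lam_deg0_quot h P (k₀ + 2)))

end Ideal

end Vale.Agent.P202.Mixed2
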