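import Vale.Agent.P202.Mixed2.WinFlatGd

/-!
P202, mixed characteristic, windows: estimates with the measure used for the stability of the
resolution part.
-/

open scoped ENNReal

namespace Vale.Agent.P202.Mixed2

universe u

namespace Meas

variable {T : Type u} [CommRing T] (μ : Meas T)
  {M N : Type u} [AddCommGroup M] [Module T M] [AddCommGroup N] [Module T N]

theorem le_kb_of_killed (β : T) (h : ∀ x : M, β • x = 0) : μ.val M ≤ μ.kb β M := by
  refine le_of_eq (μ.congr (Submodule.quotEquivOfEqBot _ ?_).symm)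
  rw [Submodule.eq_bot_iff]
  rintro _ ⟨x, rfl⟩
  exact h x

/-- A map with kernel and cokernel killed by `β` hardly changes the measure. -/
theorem abs_sub_le_of_killed (β : T) (f : M →ₗ[T] N) (hk : ∀ x, f x = 0 → β • x = 0)
    (hc : ∀ y, β • y ∈ LinearMap.range f) (hM : μ.val M ≠ ∞) (hN : μ.val N ≠ ∞) {E : ℝ≥0∞}
    (hE : E ≠ ∞) (hkM : μ.kb β M ≤ E) (hkN : μ.kb β N ≤ E) :
    |(μ.val M).toReal - (μ.val N).toReal| ≤ E.toReal := by
  have h1 : μ.val M ≤ μ.val N + E := by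
    rw [← μ.congr (Submodule.topEquiv : (⊤ : Submodule T M) ≃ₗ[T] M)]
    exact (μ.val_le_of_killed_ker β hM f ⊤ fun x _ => hk x).trans (add_le_add le_rfl hkM)
  have h2 : μ.val N ≤ μ.val M + E := by
    rw [← μ.congr (Submodule.topEquiv : (⊤ : Submodule T N) ≃ₗ[T] N)]
    exact (μ.val_le_add_kb β hN (S := ⊤) (G := LinearMap.range f) fun y _ => hc y).trans
      (add_le_add (μ.range_le f) hkN)
  have a := ENNReal.toReal_mono (ENNReal.add_ne_top.2 ⟨hN, hE⟩) h1
  have b := ENNReal.toReal_mono (ENNReal.add_ne_top.2 ⟨hM, hE⟩) h2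
  rw [ENNReal.toReal_add hN hE] at a
  rw [ENNReal.toReal_add hM hE] at b
  rw [abs_le]
  constructor <;> linarith

theorem kb_pi_fin (β : T) (hM : μ.val M ≠ ∞) (r : ℕ) :
    μ.kb β (Fin r → M) ≤ r * μ.kb β M := by
  induction r with
  | zero =>
    refine (μ.kb_le_val β).trans ?_
    rw [μ.pi_fin]
    simp
  | succ r ih =>
    have hf : μ.val (Fin r → M) ≠ ∞ := by
      rw [μ.pi_fin]; exact ENNReal.mul_ne_top (ENNReal.natCast_ne_top r) hM
    rw [← μ.kb_congr β (Fin.consLinearEquiv T fun _ : Fin (r + 1) => M), Nat.cast_succ, add_mul,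
      one_mul, add_comm _ (μ.kb β M)]
    refine (μ.kb_le_of_exact β (f := LinearMap.inl T M (Fin r → M))
      (g := LinearMap.snd T M (Fin r → M)) ?_ hf ?_).trans (add_le_add le_rfl ih)
    · rw [μ.prod]; exact ENNReal.add_ne_top.2 ⟨hM, hf⟩
    · exact (Function.Exact.inl_snd (R := T) (M := M) (N := Fin r → M)).linearMap_ker_eq.le

theorem kb_pi_fintype (β : T) (hM : μ.val M ≠ ∞) (ι : Type) [Fintype ι] :
    μ.kb β (ι → M) ≤ Fintype.card ι * μ.kb β M := by
  rw [μ.kb_congr β (LinearEquiv.funCongrLeft T M (Fintype.equivFin ι).symm)]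
  exact μ.kb_pi_fin β hM _

variable {n : ℕ} {U : Fin (n + 1) → T}

/-- The bound for the powers of an ideal with `n + 1` generators. -/
def powConst (n : ℕ) : ℕ → ℕ
  | 0 => 0
  | m + 1 => (n + 1) * powConst n m + 1

/-- Quotients by powers of the ideal. -/
theorem pow_quot (h : μ.val (T ⧸ aI U) ≠ ∞) (m : ℕ) :
    μ.val (T ⧸ aI U ^ m) ≠ ∞ ∧
      ∀ β, μ.kb β (T ⧸ aI U ^ m) ≤ powConst n m * μ.kb β (T ⧸ aI U) := by
  induction m with
  | zero =>
    have : Subsingleton (T ⧸ aI U ^ 0) := Ideal.Quotient.subsingleton_iff.2 (by simp)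
    have h0 := μ.zero (T ⧸ aI U ^ 0) this
    exact ⟨by simp [h0], fun β => ((μ.kb_le_val β).trans h0.le).trans zero_le⟩
  | succ m ih =>
    obtain ⟨ihf, ihk⟩ := ih
    let g : (T ⧸ aI U ^ (m + 1)) →ₗ[T] T ⧸ aI U :=
      (Ideal.Quotient.factorₐ T (Ideal.pow_le_self (Nat.succ_ne_zero m))).toLinearMap
    let f : (Fin (n + 1) → T ⧸ aI U ^ m) →ₗ[T] T ⧸ aI U ^ (m + 1) :=
      ∑ l, (Submodule.liftQ (aI U ^ m)
        ((Ideal.Quotient.mkₐ T (aI U ^ (m + 1))).toLinearMap ∘ₗ LinearMap.lsmul T T (U l))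
        fun x hx => LinearMap.mem_ker.2 (Ideal.Quotient.eq_zero_iff_mem.2 (by
          rw [pow_succ' (aI U) m]
          exact Ideal.mul_mem_mul (Ideal.mem_span_range_self (x := l)) hx))) ∘ₗ LinearMap.proj l
    have hex : LinearMap.ker g ≤ LinearMap.range f := by
      intro z hz
      obtain ⟨t, rfl⟩ := Ideal.Quotient.mk_surjective z
      obtain ⟨c, rfl⟩ := Ideal.mem_span_range_iff_exists_fun.1
        (Ideal.Quotient.eq_zero_iff_mem.1 (LinearMap.mem_ker.1 hz))
      refine ⟨fun l => Ideal.Quotient.mk _ (c l), ?_⟩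
      rw [map_sum]
      simp only [f, LinearMap.sum_apply, LinearMap.comp_apply, LinearMap.proj_apply]
      exact Finset.sum_congr rfl fun l _ => congrArg (Ideal.Quotient.mk _) (mul_comm (U l) (c l))
    have hpi : μ.val (Fin (n + 1) → T ⧸ aI U ^ m) ≠ ∞ := by
      rw [μ.pi_fin]; exact ENNReal.mul_ne_top (ENNReal.natCast_ne_top _) ihf
    have hfin : μ.val (T ⧸ aI U ^ (m + 1)) ≠ ∞ :=
      ne_top_of_le_ne_top (ENNReal.add_ne_top.2 ⟨hpi, h⟩) (μ.le_of_exact hex)
    refine ⟨hfin, fun β => (μ.kb_le_of_exact β hfin h hex).trans ?_⟩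
    rw [powConst, Nat.cast_succ, add_mul, one_mul, Nat.cast_mul, mul_assoc]
    exact add_le_add ((μ.kb_pi_fin β ihf _).trans (mul_le_mul' le_rfl (ihk β))) le_rfl

end Meas

namespace Gd

variable {T : Type u} [CommRing T] (μ : Meas T) {V : Type u} [AddCommGroup V] [Module T V]
  (C : Gd T V)

/-- Homology of `Y / X` is bounded by `V / X₀` for `X₀ ≤ X`. -/
theorem hm_le_quot {X₀ X Y : Submodule T V} (h0 : X₀ ≤ X) (k : ℤ) :
    μ.hm C X Y k ≤ μ.val (V ⧸ X₀) ∧
      ∀ β, μ.val (V ⧸ X₀) ≠ ∞ → μ.hk C β X Y k ≤ μ.kb β (V ⧸ X₀) := by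
  let φ : C.cyc X Y k →ₗ[T] V ⧸ X := X.mkQ ∘ₗ (C.cyc X Y k).subtype
  have hle : LinearMap.ker φ ≤ (C.bd X Y k).comap (C.cyc X Y k).subtype := fun x hx =>
    Submodule.mem_sup_right ⟨(Submodule.Quotient.mk_eq_zero X).1 (LinearMap.mem_ker.1 hx),
      x.2.1.2⟩
  let e := φ.quotKerEquivRange
  let ψ : LinearMap.range φ →ₗ[T] C.H X Y k := Submodule.factor hle ∘ₗ e.symm.toLinearMap
  have hψ : Function.Surjective ψ :=
    (Submodule.factor_surjective hle).comp e.symm.surjective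
  have hq : Function.Surjective (Submodule.factor h0) := Submodule.factor_surjective h0
  refine ⟨(μ.le_of_surjective ψ hψ).trans ((μ.sub_le _).trans (μ.le_of_surjective _ hq)),
    fun β hfin => ?_⟩
  exact (μ.kb_quot_le β ψ hψ).trans ((μ.kb_inj_le β
    (ne_top_of_le_ne_top hfin (μ.le_of_surjective _ hq)) _ (Submodule.injective_subtype _)).trans
    (μ.kb_quot_le β _ hq))

end Gd

end Vale.Agent.P202.Mixed2
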