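import Vale.Agent.P202.Mixed2.PushScale
import Vale.Agent.P202.Mixed2.PushH0
import Vale.Agent.P202.Mixed2.LamMeas
import Vale.Agent.P202.Mixed2.WinStabAux

/-!
P202, mixed characteristic, main step: through an additive `β`-multiplicative extension `σ` of a
root map, a Koszul extended complex over the ring becomes a lift whose homology in degree zero,
times a power of the exponent, is at most the pushforward of the powered homology.
-/

open scoped ENNReal TensorProduct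

namespace Vale.Agent.P202.Mixed2.MainPush

open Vale.Agent.P202.Char Vale.Agent.P202.Lambda

universe u v w w'

/-- The constant of the error of the pushforward. -/
noncomputable def pushK (n L α m r : ℕ) : ℕ :=
  r * (m * α ^ m * sExp n L α * (m * α + 2) + α + 2) * Meas.powConst n L

theorem regUpTo_pow {T : Type u} [CommRing T] {n L : ℕ} {U : Fin (n + 1) → T} {β : T}
    (h : RegUpTo U β L) {E : ℕ} (hE : 0 < E) : RegUpTo U (β ^ E) L := fun D hD g hg hg' a => by
  obtain ⟨E, rfl⟩ : ∃ E', E = E' + 1 := ⟨E - 1, by omega⟩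
  rw [pow_succ, mul_assoc]
  exact Ideal.mul_mem_left _ _ (h D hD g hg hg' a)

theorem prod_pow_eq {S : Type u} [CommRing S] {ι : Type*} (b : S) (k : ι → ℕ) :
    ∀ l : List ι, (l.map fun i => b ^ k i).prod = b ^ (l.map k).sum
  | [] => by simp
  | i :: l => by simp [prod_pow_eq b k l, pow_add]

theorem sigma_pow {R : Type v} [CommRing R] {S : Type u} [CommRing S] (σ : R →+ S) {β : S}
    (hmul : ∀ x y, σ x * σ y = β * σ (x * y)) (x : R) :
    ∀ k : ℕ, σ x ^ (k + 1) = β ^ k * σ (x ^ (k + 1))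
  | 0 => by simp
  | k + 1 => by
    rw [pow_succ, sigma_pow σ hmul x k, mul_assoc, hmul, pow_succ β, pow_succ x (k + 1)]
    ring

variable {A₀ : Type w} {B : Type w'} [CommRing A₀] [CommRing B] [Algebra A₀ B]
  [IsNoetherianRing A₀] {T : Type u} [CommRing T] [Algebra A₀ T] [Algebra B T]
  [IsScalarTower A₀ B T] {A : ℕ → Subalgebra A₀ B} {c : ℕ} {n L : ℕ} {U : Fin (n + 1) → T} {β : T}

theorem errQ_pow (h : IsTower A c) (E : ℕ) :
    errQ A c U (β ^ E) L ≤ (E : ℝ≥0∞) * errQ A c U β L := by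
  set S := T ⧸ aI U ^ L
  set b := Ideal.Quotient.mk (aI U ^ L) β
  let π : (S ⧸ Ideal.span {b ^ E}) →ₐ[B] T ⧸ (Ideal.span {β ^ E} ⊔ aI U ^ L) :=
    Ideal.Quotient.liftₐ _ (Ideal.Quotient.factorₐ B le_sup_right) fun z hz => by
      obtain ⟨d, rfl⟩ := Ideal.mem_span_singleton'.1 hz
      obtain ⟨d, rfl⟩ := Ideal.Quotient.mk_surjective d
      rw [← map_pow, ← map_mul]
      exact Ideal.Quotient.eq_zero_iff_mem.2 (Ideal.mem_sup_left
        (Ideal.mul_mem_left _ _ (Ideal.mem_span_singleton_self _)))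
  let πB : (S ⧸ Ideal.span {b ^ E}) →ₗ[B] T ⧸ (Ideal.span {β ^ E} ⊔ aI U ^ L) := π.toLinearMap
  refine (lam_le_of_surjective πB fun z => ?_).trans ((lam_pow_quot h b E).trans
    (mul_le_mul' le_rfl lam_beta_quot))
  obtain ⟨z, rfl⟩ := Ideal.Quotient.mk_surjective z
  exact ⟨Ideal.Quotient.mk _ (Ideal.Quotient.mk _ z), rfl⟩

theorem errQ_le (h : IsTower A c) (hfin : (lamMeas T h).val (T ⧸ aI U) ≠ ⊤) (L : ℕ) :
    errQ A c U β L ≤
      (Meas.powConst n L : ℝ≥0∞) * (lamMeas T h).val (T ⧸ (Ideal.span {β} ⊔ aI U)) := by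
  set μ := lamMeas T h
  have h1 : μ.val (T ⧸ (Ideal.span {β} ⊔ aI U ^ L)) ≤ μ.kb β (T ⧸ aI U ^ L) := by
    let g : (T ⧸ aI U ^ L) →ₗ[T] T ⧸ (Ideal.span {β} ⊔ aI U ^ L) :=
      (Ideal.Quotient.factorₐ T le_sup_right).toLinearMap
    refine μ.le_of_surjective (Submodule.liftQ _ g ?_) fun z => ?_
    · rintro _ ⟨z, rfl⟩
      obtain ⟨z, rfl⟩ := Ideal.Quotient.mk_surjective z
      exact Ideal.Quotient.eq_zero_iff_mem.2 (Ideal.mem_sup_left
        (Ideal.mul_mem_right _ _ (Ideal.mem_span_singleton_self β)))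
    · obtain ⟨z, rfl⟩ := Ideal.Quotient.mk_surjective z
      exact ⟨Submodule.mkQ _ (Ideal.Quotient.mk _ z), rfl⟩
  have h2 : μ.kb β (T ⧸ aI U) ≤ μ.val (T ⧸ (Ideal.span {β} ⊔ aI U)) := by
    refine μ.le_of_surjective (Submodule.liftQ _
      ((LinearMap.range (LinearMap.lsmul T (T ⧸ aI U) β)).mkQ ∘ₗ Submodule.mkQ (aI U)) ?_)
      fun z => ?_
    · refine sup_le ((Ideal.span_singleton_le_iff_mem _).2 ?_) fun z hz => ?_
      · rw [LinearMap.mem_ker, LinearMap.comp_apply, Submodule.mkQ_apply,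
          Submodule.Quotient.mk_eq_zero]
        exact ⟨Ideal.Quotient.mk _ 1, congrArg (Ideal.Quotient.mk _) (mul_one β)⟩
      · rw [LinearMap.mem_ker, LinearMap.comp_apply, Submodule.mkQ_apply (aI U),
          (Submodule.Quotient.mk_eq_zero _).2 hz, map_zero]
    · obtain ⟨z, rfl⟩ := Submodule.mkQ_surjective _ z
      obtain ⟨z, rfl⟩ := Ideal.Quotient.mk_surjective z
      exact ⟨Submodule.mkQ _ z, rfl⟩
  calc errQ A c U β L = μ.val (T ⧸ (Ideal.span {β} ⊔ aI U ^ L)) := (lamMeas_val h _).symm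
    _ ≤ μ.kb β (T ⧸ aI U ^ L) := h1
    _ ≤ (Meas.powConst n L : ℝ≥0∞) * μ.kb β (T ⧸ aI U) := (μ.pow_quot hfin L).2 β
    _ ≤ _ := mul_le_mul' le_rfl h2

variable {R : Type v} [CommRing R] {S' : Type*} [CommRing S'] [Algebra A₀ S']
  {Q : Type*} [AddCommGroup Q] [Module A₀ Q] [Module S' Q] [IsScalarTower A₀ S' Q]

/-- The root maps move null homotopies. -/
theorem null_sMap (φ : S' →ₐ[A₀] T ⧸ aI U ^ L) (σ : R →+ T ⧸ aI U ^ L) (f : S' →+* R)
    (hmul : ∀ x y, σ x * σ y = Ideal.Quotient.mk _ β * σ (x * y))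
    (hone : σ 1 = Ideal.Quotient.mk _ β) (hsmul : ∀ r x, σ (f r * x) = φ r * σ x)
    (z : Fin (n + 1) → S') {q : ℕ} (hz : ∀ k, φ (z k) = Ideal.Quotient.mk _ (U k ^ q))
    {G : MCx R} {M : ℕ} {k : Fin (n + 1)} (hG : G.IsNullHtpic (f (z k) ^ M)) :
    (sMap σ hmul G).IsNullHtpic (Ideal.Quotient.mk _ (β ^ 2 * U k ^ (q * M))) := by
  have h := sMap_null σ hmul hG
  rwa [← map_pow f, ← mul_one (f (z k ^ M)), hsmul, hone, map_pow φ, hz, ← map_pow, ← map_mul,
    ← map_mul, ← pow_mul, show β * (U k ^ (q * M) * β) = β ^ 2 * U k ^ (q * M) by ring] at h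

/-- The twisted complexes of the scaling are null homotopic. -/
theorem null_twist (φ : S' →ₐ[A₀] T ⧸ aI U ^ L) (σ : R →+ T ⧸ aI U ^ L) (f : S' →+* R)
    (hmul : ∀ x y, σ x * σ y = Ideal.Quotient.mk _ β * σ (x * y))
    (hone : σ 1 = Ideal.Quotient.mk _ β) (hsmul : ∀ r x, σ (f r * x) = φ r * σ x)
    (z : Fin (n + 1) → S') {q : ℕ} (hz : ∀ k, φ (z k) = Ideal.Quotient.mk _ (U k ^ q))
    (F : MCx R) {m α M : ℕ} (hα : 0 < α) (x : Fin m → R) (l : List (Fin m)) (hl : l.length = m)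
    (e : Fin m → ℕ) (he : ∀ j, e j = 1 ∨ e j = α) (k : Fin (n + 1))
    (hnull : ((l.map fun j => x j ^ e j).foldr cone F).IsNullHtpic (f (z k) ^ M)) :
    ((l.map fun j => σ (x j) ^ e j).foldr cone (sMap σ hmul F)).IsNullHtpic
      (Ideal.Quotient.mk _ (β ^ (m * α + 2) * U k ^ (q * M))) := by
  set b := Ideal.Quotient.mk (aI U ^ L) β
  have h1 := null_sMap φ σ f hmul hone hsmul z hz hnull
  rw [sMap_foldr, List.map_map] at h1
  have h2 := (twisted_foldr (fun j => b ^ (e j - 1)) (fun j => σ (x j ^ e j)) (sMap σ hmul F) l).null h1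
  have hpow : (fun j => σ (x j) ^ e j) = fun j => b ^ (e j - 1) * σ (x j ^ e j) := by
    funext j
    have : 0 < e j := by rcases he j with h | h <;> omega
    have h3 := sigma_pow σ hmul (x j) (e j - 1)
    rwa [show e j - 1 + 1 = e j by omega] at h3
  rw [hpow]
  have hs : (l.map fun j => e j - 1).sum ≤ m * α := by
    refine (List.sum_le_card_nsmul _ α fun a ha => ?_).trans (by simp [hl])
    obtain ⟨j, -, rfl⟩ := List.mem_map.1 ha
    rcases he j with h | h <;> omega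
  have h4 := Ext.null_mul _ (b ^ (m * α - (l.map fun j => e j - 1).sum)) h2
  rwa [prod_pow_eq, ← mul_assoc, ← pow_add, Nat.sub_add_cancel hs, ← map_pow, ← map_mul,
    ← mul_assoc, ← pow_add] at h4

/-- The powered complex against the pushforward. -/
theorem lam_powered_le (h : IsTower A c) (G : MCx R) (f : S' →+* R)
    (φ : S' →ₐ[A₀] T ⧸ aI U ^ L) (σ : R →+ T ⧸ aI U ^ L)
    (hsmul : ∀ r y, σ (f r * y) = φ r * σ y) (hone : σ 1 = Ideal.Quotient.mk _ β)
    (hmul : ∀ y y', σ y * σ y' = Ideal.Quotient.mk _ β * σ (y * y'))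
    (e : H0 G ≃+ Q) (he : ∀ r u, e (f r • u) = r • e u) :
    lam A c (H0 (sMap σ hmul G)) ≤ lam A c (Push φ Q) +
      (G.rank 0 : ℝ≥0∞) * (((0 + 2 : ℕ) : ℝ≥0∞) * errQ A c U β L) := by
  let π : (G.β → R) →+ Q :=
    { toFun := fun y => e ((img0 G).mkQ (tup0 G y))
      map_zero' := by simp
      map_add' := fun y y' => by simp }
  refine lam_H0_le_push_errQ h f φ σ hone hmul hsmul (sMap σ hmul G) G.D (fun _ => 0) 0
    (fun _ _ => le_rfl) (fun a c _ _ => by rw [pow_zero, one_mul]; rfl) π ?_ ?_ ?_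
  · intro r (y : G.β → R)
    show e ((img0 G).mkQ (tup0 G (f r • y))) = r • e ((img0 G).mkQ (tup0 G y))
    rw [map_smul, map_smul, he]
  · intro y
    obtain ⟨u, hu⟩ := Submodule.mkQ_surjective (img0 G) (e.symm y)
    refine ⟨(u : G.β → R), ?_⟩
    show e ((img0 G).mkQ (tup0 G (u : G.β → R))) = y
    rw [tup0_self, hu, AddEquiv.apply_symm_apply]
  · intro (y : G.β → R) hy
    have h0 : (img0 G).mkQ (tup0 G y) = 0 := e.injective (hy.trans (map_zero e).symm)
    obtain ⟨u, hu, hue⟩ := mem_img0.1 ((Submodule.Quotient.mk_eq_zero _).1 h0)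
    refine ⟨u, fun (a : G.β) (ha : G.deg a = 0) => ?_⟩
    have h1 := congrFun hue a
    rw [tup0_apply, if_pos ha, mlin_apply] at h1
    refine h1.symm.trans ?_
    show _ = ∑ b : G.β with G.deg b = 1, u b * G.D a b
    rw [Finset.sum_filter]
    refine Finset.sum_congr rfl fun b _ => ?_
    split_ifs with hb
    · exact mul_comm _ _
    · rw [(MCx.mem_degSub R).1 hu b (by exact_mod_cast hb), smul_zero]

/-- Powers of the values against values of the powers. -/
theorem lam_move_le (h : IsTower A c) (F : MCx R) {m α : ℕ} (hα : 0 < α) (x : Fin m → R)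
    (σ : R →+ T ⧸ aI U ^ L) (hmul : ∀ y y', σ y * σ y' = Ideal.Quotient.mk _ β * σ (y * y'))
    (hiso : H0Iso (sMap σ hmul F)) (hfinL : lam A c (T ⧸ aI U ^ L) ≠ ⊤) :
    lam A c (H0 (((List.finRange m).map fun j => σ (x j) ^ α).foldr cone (sMap σ hmul F))) ≤
      lam A c (H0 (sMap σ hmul (((List.finRange m).map fun j => x j ^ α).foldr cone F))) +
        (F.rank 0 : ℝ≥0∞) * ((α : ℝ≥0∞) * errQ A c U β L) := by
  rw [sMap_foldr, List.map_map]
  refine (lam_foldr_le (β := β) h hiso (l' := (List.finRange m).map (σ ∘ fun j => x j ^ α))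
    ?_ (α - 1) ?_ (lam_deg0_ne_top h _ hfinL)).trans
    (add_le_add le_rfl (mul_le_mul' le_rfl (mul_le_mul' (Nat.cast_le.2 (Nat.sub_le α 1)) le_rfl)))
  · refine Ideal.span_le.2 fun y hy => ?_
    obtain ⟨j, hj, rfl⟩ := List.mem_map.1 hy
    rw [show α = α - 1 + 1 by omega, sigma_pow σ hmul]
    refine Ideal.mul_mem_left _ _ (Ideal.subset_span (List.mem_map.2 ⟨j, hj, ?_⟩))
    rfl
  · intro y hy
    induction hy using Submodule.span_induction with
    | mem y hy =>
      obtain ⟨j, hj, rfl⟩ := List.mem_map.1 hy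
      refine Ideal.subset_span (List.mem_map.2 ⟨j, hj, ?_⟩)
      have := sigma_pow σ hmul (x j) (α - 1)
      rw [show α - 1 + 1 = α by omega] at this
      exact this
    | zero => simp
    | add y y' _ _ hy hy' => rw [mul_add]; exact add_mem hy hy'
    | smul r y _ hy =>
      rw [smul_eq_mul, mul_left_comm]
      exact Ideal.mul_mem_left _ r hy

/-- The exponents of the lift do not depend on `α`; the pushforward bounds `α ^ m` times its
homology in degree zero. -/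
theorem exists_push_lift (h : IsTower A c) (F : MCx R) {m : ℕ} (x : Fin m → R) (hm : 0 < m)
    (hdeg : ∀ b, F.deg b + m ≤ n + 1) (𝔪 : Ideal R) (hF : ∀ a b, F.D a b ∈ 𝔪)
    (hx : ∀ j, x j ∈ 𝔪) (f : S' →+* R) (z : Fin (n + 1) → S') {α M₀ M q J : ℕ} (hα : 0 < α)
    (hnull₀ : ∀ k, (((List.finRange m).map x).foldr cone F).IsNullHtpic (f (z k) ^ M₀))
    (hnull : ∀ l : List (Fin m), l.length = m → l.Nodup → ∀ e : Fin m → ℕ,
      (∀ j, e j = 1 ∨ e j = α) → ∀ k,
        ((l.map fun j => x j ^ e j).foldr cone F).IsNullHtpic (f (z k) ^ M))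
    (φ : S' →ₐ[A₀] T ⧸ aI U ^ L) (hz : ∀ k, φ (z k) = Ideal.Quotient.mk _ (U k ^ q))
    (σ : R →+ T ⧸ aI U ^ L) (hsmul : ∀ r y, σ (f r * y) = φ r * σ y)
    (hone : σ 1 = Ideal.Quotient.mk _ β)
    (hmul : ∀ y y', σ y * σ y' = Ideal.Quotient.mk _ β * σ (y * y'))
    (hmax : ∀ y ∈ 𝔪, σ y ∈ (aI U ^ J).map (Ideal.Quotient.mk _))
    (hreg : RegUpTo U β L) (hfin : (lamMeas T h).val (T ⧸ aI U) ≠ ⊤)
    (hL : (n + 1) * (q * M) * α ≤ L) (hiso : H0Iso (sMap σ hmul F))
    (e : H0 (((List.finRange m).map fun j => x j ^ α).foldr cone F) ≃+ Q)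
    (he : ∀ r u, e (f r • u) = r • e u) :
    ∃ P : Win.Lift U (β ^ 2) L J (q * M₀), Fintype.card P.ι = 2 ^ m * Fintype.card F.β ∧
      (∑ b, if P.deg b = 0 then (1 : ℤ) else 0) = (F.rank 0 : ℤ) ∧
      (∑ b, (-1 : ℤ) ^ P.deg b) = 0 ∧
      ∀ B' ≤ L, (α : ℝ≥0∞) ^ m * (lamMeas T h).val (P.h0B B') ≤ lam A c (Push φ Q) +
        (pushK n L α m (F.rank 0) : ℝ≥0∞) *
          (lamMeas T h).val (T ⧸ (Ideal.span {β} ⊔ aI U)) := by
  classical
  set μ := lamMeas T h
  set b := Ideal.Quotient.mk (aI U ^ L) β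
  set P₀ := sMap σ hmul F
  set l₁ := (List.finRange m).map x
  have hlen : l₁.length = m := by simp [l₁]
  have hne : l₁ ≠ [] := fun h0 => by simp [h0] at hlen; omega
  set G₁ := l₁.foldr cone F
  have hdeg₁ : ∀ c, (sMap σ hmul G₁).deg c ≤ n + 1 := by
    intro c
    have hb : ∀ c, F.deg c ≤ n + 1 - m := fun c => by have := hdeg c; omega
    have h2 := foldr_deg_le F hb l₁ c
    rw [hlen] at h2
    rcases Nat.lt_or_ge (n + 1) m with hlt | hge
    · have : IsEmpty F.β := ⟨fun c => by have := hdeg c; omega⟩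
      have h3 := foldr_card F l₁
      rw [Fintype.card_eq_zero (α := F.β), mul_zero] at h3
      exact ((Fintype.card_eq_zero_iff.1 h3).false c).elim
    · exact h2.trans (by omega)
  obtain ⟨P, hcard, hsum, hB⟩ := exists_lift μ (sMap σ hmul G₁) hdeg₁
    (fun a c => hmax _ (foldr_entries 𝔪 F hF l₁ (fun y hy => by
      obtain ⟨j, -, rfl⟩ := List.mem_map.1 hy
      exact hx j) a c))
    (fun k => null_sMap φ σ f hmul hone hsmul z hz (hnull₀ k))
  refine ⟨P, ?_, ?_, ?_, fun B' hB' => ?_⟩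
  · rw [hcard, ← hlen]
    exact foldr_card F l₁
  · exact (hsum fun k => if k = 0 then 1 else 0).trans
      ((foldr_rank0 F l₁).trans (rank0_eq F).symm)
  · exact (hsum fun k => (-1) ^ k).trans (foldr_alt F l₁ hne)
  have hfinL : lam A c (T ⧸ aI U ^ L) ≠ ⊤ := by
    rw [← lamMeas_val (T := T) h (T ⧸ aI U ^ L)]
    exact (μ.pow_quot hfin L).1
  set E := m * α + 2
  set err : ℝ≥0∞ := (Meas.powConst n L : ℝ≥0∞) * μ.val (T ⧸ (Ideal.span {β} ⊔ aI U))
  have herr : errQ A c U β L ≤ err := errQ_le h hfin L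
  have hscale := scale_all h (regUpTo_pow hreg (E := E) (by omega)) (P := P₀) hiso hdeg
    (fun j => σ (x j)) (fun l hl hnd e he' k => null_twist φ σ f hmul hone hsmul z hz F hα x l hl e
      he' k (hnull l hl hnd e he' k)) hfinL hL
  have hmove := lam_move_le h F hα x σ hmul hiso hfinL
  have hpush := lam_powered_le h _ f φ σ hsmul hone hmul e he
  have hG₁ : μ.val (H0 (sMap σ hmul G₁)) =
      lam A c (H0 (((List.finRange m).map fun j => σ (x j)).foldr cone P₀)) := by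
    rw [lamMeas_val h, sMap_foldr, List.map_map]
    rfl
  have hr : (((List.finRange m).map fun j => x j ^ α).foldr cone F).rank 0 = F.rank 0 :=
    foldr_rank F _
  rw [hr] at hpush
  have h1 : (α : ℝ≥0∞) ^ m * μ.val (P.h0B B') ≤ lam A c (Push φ Q) +
      ((F.rank 0 * 2 : ℕ) : ℝ≥0∞) * errQ A c U β L +
      ((F.rank 0 * α : ℕ) : ℝ≥0∞) * errQ A c U β L +
      ((F.rank 0 * (m * α ^ m * sExp n L α * E) : ℕ) : ℝ≥0∞) * errQ A c U β L := by
    refine (mul_le_mul' le_rfl ((hB B' hB').trans hG₁.le)).trans (hscale.trans ?_)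
    refine add_le_add (hmove.trans (add_le_add (hpush.trans ?_) ?_)) ?_
    · refine add_le_add le_rfl (le_of_eq ?_)
      push_cast
      ring
    · rw [Nat.cast_mul, mul_assoc]
    · refine (mul_le_mul' le_rfl (mul_le_mul' le_rfl (mul_le_mul' le_rfl (errQ_pow h E)))).trans
        (le_of_eq ?_)
      rw [show P₀.rank 0 = F.rank 0 from rfl]
      push_cast
      ring
  refine h1.trans ?_
  rw [add_assoc, add_assoc, ← add_mul, ← add_mul, ← Nat.cast_add, ← Nat.cast_add]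
  refine add_le_add le_rfl ((mul_le_mul' le_rfl herr).trans (le_of_eq ?_))
  simp only [err, pushK, E]
  push_cast
  ring

end Vale.Agent.P202.Mixed2.MainPush
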