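import Vale.Agent.P202.Mixed2.Sums

/-!
P202, mixed characteristic: the comparison of the pushforwards with lengths, for an almost free
algebra `T` of rank `nT` (`Sums` with `Measure.lam_baseChange_almost`).
-/

open scoped ENNReal TensorProduct

namespace Vale.Agent.P202.Mixed2

open Lambda

variable {A₀ B T R' : Type*} [CommRing A₀] [IsNoetherianRing A₀] [Nontrivial A₀] [CommRing B]
  [CommRing T] [CommRing R'] [Algebra A₀ B] [Algebra A₀ T] [Algebra B T] [IsScalarTower A₀ B T]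
  [Algebra A₀ R']
variable {A : ℕ → Subalgebra A₀ B} {c : ℕ}
variable [∀ n, Module.Free A₀ (A n)] [∀ n, Module.Finite A₀ (A n)]
variable (Q : Type*) [AddCommGroup Q] [Module A₀ Q] [Module R' Q] [IsScalarTower A₀ R' Q]
  [Module.Finite A₀ Q]
variable (I : Ideal A₀)

/-- The sum of the measures of the `r` pushforwards is `nT` times the length, up to the
discriminant. -/
theorem sums_length {r : ℕ} [NeZero r] {θ : R'} {φ : Fin r → R' →ₐ[A₀] T} (h : IsTower A c)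
    (hU : ∀ b, ∃ n, b ∈ A n) (hrank : ∀ n, Module.finrank A₀ (A n) = c ^ n)
    (ρ : ∀ n, B →ₗ[A₀] A n) (hρ : ∀ n (a : A n), ρ n a = a)
    (hI : Module.length A₀ (A₀ ⧸ I) ≠ ⊤) (hQ : ∀ a ∈ I, ∀ x : Q, a • x = 0)
    (β : ℕ → B) (hβ : AlmostUnit A c I β) (nT : ℕ)
    (f : ℕ → (Fin nT → B ⧸ extI B I) →ₗ[B] T ⧸ I.map (algebraMap A₀ T))
    (g : ℕ → (T ⧸ I.map (algebraMap A₀ T)) →ₗ[B] Fin nT → B ⧸ extI B I)
    (hgf : ∀ P x, g P (f P x) = β P • x) (hfg : ∀ P x, f P (g P x) = β P • x)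
    (hφ : RootMaps θ φ) (d₀ : A₀) (hD : discProd (fun i => φ i θ) = algebraMap A₀ T d₀) :
    (∑ i, lam A c (Push (φ i) Q) ≤ (nT : ℝ≥0∞) * ((Module.length A₀ Q : ℝ≥0∞) +
        r * (Module.length A₀ (Q ⧸ LinearMap.range (LinearMap.lsmul A₀ Q d₀)) : ℝ≥0∞))) ∧
      (nT : ℝ≥0∞) * (Module.length A₀ Q : ℝ≥0∞) ≤ ∑ i, lam A c (Push (φ i) Q) +
        (nT : ℝ≥0∞) *
          (Module.length A₀ (Q ⧸ LinearMap.range (LinearMap.lsmul A₀ Q d₀)) : ℝ≥0∞) := by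
  have hQ' : ∀ a ∈ I, ∀ x : Q ⧸ LinearMap.range (LinearMap.lsmul A₀ Q d₀), a • x = 0 := by
    intro a ha x
    obtain ⟨y, rfl⟩ := Submodule.mkQ_surjective _ x
    rw [← map_smul, hQ a ha y, map_zero]
  have e1 : lam A c (T ⊗[A₀] Q) = (nT : ℝ≥0∞) * (Module.length A₀ Q : ℝ≥0∞) :=
    lam_baseChange_almost Q I h hU hrank ρ hρ hI hQ β hβ nT f g hgf hfg
  have e2 : lam A c (T ⊗[A₀] (Q ⧸ LinearMap.range (LinearMap.lsmul A₀ Q d₀))) = (nT : ℝ≥0∞) *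
      (Module.length A₀ (Q ⧸ LinearMap.range (LinearMap.lsmul A₀ Q d₀)) : ℝ≥0∞) :=
    lam_baseChange_almost _ I h hU hrank ρ hρ hI hQ' β hβ nT f g hgf hfg
  obtain ⟨h1, h2⟩ := sums (A := A) Q h hφ d₀ hD
  rw [e1, e2] at h1 h2
  exact ⟨h1.trans_eq (by ring), h2⟩

end Vale.Agent.P202.Mixed2
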