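import Vale.Agent.P202.Mixed2.FiltLimit
import Vale.Agent.P202.Mixed2.SumsLen
import Vale.Agent.P202.Mixed2.Cover.Glue
import Vale.Agent.P202.Mixed2.Cover.SideBasis
import Vale.Agent.P202.Mixed2.Cover.Loss
import Vale.Agent.P202.Lambda.Small

/-!
# Auxiliary statements for the sheets of the main step

The sheet coordinates `U = sharp` of the roots of the second parameters: `p` lies in a high power of
their ideal, an element bounded by the second parameters at every point lies in the power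
`q - 2n - 2`,
and the loss of a product is at most the sum of the losses.
-/

open scoped ENNReal

namespace Vale.Agent.P202.Mixed2

open Ideal Lambda TensorProduct

universe u

section Loss

variable {A₀ B : Type*} [CommRing A₀] [CommRing B] [Algebra A₀ B] [IsNoetherianRing A₀]
variable {A : ℕ → Subalgebra A₀ B} {c : ℕ}
variable {T : Type*} [CommRing T] [Algebra A₀ T] [Algebra B T] [IsScalarTower A₀ B T]

/-- The cotorsion of a product. -/
theorem lam_mul_quot_le (h : IsTower A c) (x y : T) (J : Ideal T) :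
    lam A c (T ⧸ (span {x * y} ⊔ J)) ≤
      lam A c (T ⧸ (span {y} ⊔ J)) + lam A c (T ⧸ (span {x} ⊔ J)) := by
  set C := span {x * y} ⊔ J
  set Cx := span {x} ⊔ J
  set Cy := span {y} ⊔ J
  have hCx : C ≤ Cx :=
    sup_le_sup_right (Ideal.span_singleton_le_span_singleton.2 (dvd_mul_right x y)) J
  let π : (T ⧸ C) →ₗ[B] T ⧸ Cx := (Ideal.Quotient.factorₐ B hCx).toLinearMap
  have hg : Cy ≤ Submodule.comap (LinearMap.lsmul T T x) C := by
    refine sup_le ((Ideal.span_singleton_le_iff_mem _).2 ?_) fun z hz => ?_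
    · exact Ideal.mem_sup_left (mem_span_singleton_self _)
    · exact Ideal.mem_sup_right (J.mul_mem_left x hz)
  let g : (T ⧸ Cy) →ₗ[B] T ⧸ C := (Submodule.mapQ Cy C _ hg).restrictScalars B
  have hker : LinearMap.ker π ≤ LinearMap.range g := by
    intro z hz
    obtain ⟨t, rfl⟩ := Ideal.Quotient.mk_surjective z
    obtain ⟨a, ha, b, hb, rfl⟩ := Submodule.mem_sup.1 (Ideal.Quotient.eq_zero_iff_mem.1 hz)
    obtain ⟨s, rfl⟩ := Ideal.mem_span_singleton.1 ha
    refine ⟨Ideal.Quotient.mk _ s, ?_⟩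
    show Ideal.Quotient.mk C (x * s) = _
    rw [map_add, Ideal.Quotient.eq_zero_iff_mem.2 (Ideal.mem_sup_right hb : b ∈ C), add_zero]
  refine (lam_le_add h (LinearMap.ker π).subtype π (Submodule.subtype_injective _)
    (LinearMap.exact_subtype_ker_map π)).trans (add_le_add ?_ le_rfl)
  refine (lam_le_of_injective (Submodule.inclusion hker) (Submodule.inclusion_injective _)).trans ?_
  exact lam_le_of_surjective g.rangeRestrict g.surjective_rangeRestrict

end Loss

section Bound

variable {p : ℕ} [hp : Fact p.Prime] {B : Type u} [CommRing B] [CharP B p] [PerfectRing B p]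
  [IsDomain B] [IsIntegrallyClosed B] {n : ℕ} {π : B} [Fact (π ≠ 0)] [Fact ¬IsUnit π]
  {u : Fin (n + 1) → B}

omit [IsDomain B] [IsIntegrallyClosed B] [Fact (π ≠ 0)] [Fact ¬IsUnit π] in
/-- One coordinate bounds the powers of the ideal at a point. -/
theorem exists_val_pow_le {Γ : Type u} [LinearOrderedCommGroupWithZero Γ]
    {w : Valuation (Untilt p π) Γ} (hw : IsPt w) :
    ∃ l₀ : Fin (n + 1), (∀ l, w (Filt.US π u l) ≤ w (Filt.US π u l₀)) ∧
      ∀ (k : ℕ) (z : Untilt p π), z ∈ aI (Filt.US π u) ^ k → w z ≤ w (Filt.US π u l₀) ^ k := by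
  obtain ⟨l, -, hl⟩ := Finset.exists_max_image Finset.univ
    (fun i => w (Filt.US π u i)) Finset.univ_nonempty
  refine ⟨l, fun i => hl i (Finset.mem_univ i), fun k => ?_⟩
  have h1 : ∀ z ∈ aI (Filt.US (p := p) π u), w z ≤ w (Filt.US π u l) := by
    intro z hz
    induction hz using Submodule.span_induction with
    | mem z hz => obtain ⟨i, rfl⟩ := hz; exact hl i (Finset.mem_univ i)
    | zero => simp
    | add a b _ _ ha hb => exact w.map_add_le ha hb
    | smul c z _ hz =>
      rw [smul_eq_mul, map_mul]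
      exact (mul_le_of_le_one_left' (hw.le_one c)).trans hz
  induction k with
  | zero => intro z _; rw [pow_zero]; exact hw.le_one z
  | succ k ih =>
    intro z hz
    rw [pow_succ] at hz ⊢
    induction hz using Submodule.mul_induction_on' with
    | mem_mul_mem s hs t ht => rw [map_mul]; exact mul_le_mul' (ih s hs) (h1 t ht)
    | add s _ t _ hs ht => exact w.map_add_le hs ht

variable (K : Type u) [Field K] [Algebra B K] [IsFractionRing B K] [CharP K p] [PerfectRing K p]

include K in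
/-- An element bounded by a power of the coordinates at every point lies in a slightly smaller
power,
up to any power of `p`. -/
theorem mem_pow_sup_of_bound {M : ℕ} (hM : π ^ M ∈ span (Set.range u)) {v : ℕ}
    (hv : (p : Untilt p π) ^ v ∈ aI (Filt.US π u)) (E t : ℕ) (x : Untilt p π)
    (hx : ∀ (Γ : Type u) [LinearOrderedCommGroupWithZero Γ] (w : Valuation (Untilt p π) Γ),
      IsPt w → ∃ l, w x ≤ w (Filt.US π u l) ^ E) :
    x ∈ aI (Filt.US π u) ^ (E - 1 - n - n) ⊔ span {(p : Untilt p π) ^ t} := by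
  have hπ : π ≠ 0 := Fact.out
  induction t generalizing x with
  | zero =>
    rw [pow_zero, Ideal.span_singleton_one, sup_top_eq]
    trivial
  | succ t ih =>
    obtain ⟨g, ⟨z, hz⟩, hg⟩ := exists_sharp_approx_dvd.{u, u} x (v * E)
    have hgb : ∀ (Γ : Type u) [LinearOrderedCommGroupWithZero Γ] (w : Valuation (Untilt p π) Γ),
        IsPt w → ∃ l, w (sharp π g) ≤ w (Filt.US π u l) ^ E ∧ w z ≤ w (Filt.US π u l) ^ E := by
      intro Γ _ w hw
      obtain ⟨l₀, hl₀, hpow⟩ := exists_val_pow_le (u := u) hw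
      have hpE : w (p : Untilt p π) ^ (v * E) ≤ w (Filt.US π u l₀) ^ E := by
        rw [pow_mul, ← map_pow]
        exact pow_le_pow_left' ((hpow 1 _ (by rwa [pow_one])).trans_eq (pow_one _)) E
      obtain ⟨l, hl⟩ := hx Γ w hw
      have hx' : w x ≤ w (Filt.US π u l₀) ^ E := hl.trans (pow_le_pow_left' (hl₀ l) E)
      have hgl : w (sharp π g) ≤ w (Filt.US π u l₀) ^ E := by
        refine le_of_le_max_mul hw.p_lt_one ?_
        refine (le_of_eq (congrArg w (show sharp π g = x - (x - sharp π g) by ring))).trans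
          (w.map_sub_le (le_max_of_le_left hx') ((hg Γ w hw.le_one).trans ?_))
        rcases le_total (w (sharp π g)) (w (p : Untilt p π) ^ (v * E)) with h | h
        · rw [max_eq_right h]
          exact le_max_of_le_left ((mul_le_of_le_one_left' (hw.le_one _)).trans hpE)
        · rw [max_eq_left h]
          exact le_max_right _ _
      refine ⟨l₀, hgl, le_trans ?_ (max_le hgl hpE)⟩
      have h := hg Γ w hw.le_one
      rw [hz, map_mul] at h
      exact le_of_mul_le_mul_left h (pos_iff_ne_zero.2 hw.p_ne_zero)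
    have hgmem : g ∈ span (Set.range u) ^ (E - 1 - n) := by
      refine Filt.mem_pow_of_le_valuation (K := K) (p := p) hM fun V hV hlt => ?_
      obtain ⟨Γ, _, w, h1, h0, h2, h3⟩ := exists_pointVal (p := p) V (algebraMap B K) hV π
        ((map_ne_zero_iff _ (IsFractionRing.injective B K)).2 hπ) hlt
      obtain ⟨l, hl, -⟩ := hgb Γ w ⟨h1, h0, h2⟩
      simp only [Filt.US, ← map_pow] at hl
      rcases (h3 _ _).1 hl with h | h
      · exact Or.inl ⟨l, by rwa [map_pow, map_pow] at h⟩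
      · exact Or.inr (h _)
    obtain ⟨a, ha, b, hb, hab⟩ := Submodule.mem_sup.1 (ih z fun Γ _ w hw => by
      obtain ⟨l, -, hl⟩ := hgb Γ w hw
      exact ⟨l, hl⟩)
    obtain ⟨c, rfl⟩ := mem_span_singleton.1 hb
    rw [show x = (sharp π g + (p : Untilt p π) * a) + (p : Untilt p π) ^ (t + 1) * c by
      rw [pow_succ']; linear_combination hz - (p : Untilt p π) * hab]
    exact add_mem
      (Ideal.mem_sup_left (add_mem (Filt.sharp_mem hv hgmem) (Ideal.mul_mem_left _ _ ha)))
      (Ideal.mem_sup_right (Ideal.mul_mem_right _ _ (mem_span_singleton_self _)))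

end Bound

namespace CoverExt

open IsLocalRing Vale.Agent.P202.Perf.Base

variable {p : ℕ} [hp : Fact p.Prime] {k : Type u} [Field k] [CharP k p] [PerfectRing k p] {d : ℕ}
variable (E : CoverExt p k (d + 1)) (t : E.B) (q₀ : ℕ)

/-- The sheet coordinates: `sharp` of the roots of the second parameters. -/
noncomputable abbrev sheetU : Fin (d + 1) → E.O :=
  Filt.US (E.inB (cX 0)) fun l => Filt.root p q₀ (E.sideY t l)

theorem sheetU_pow (l : Fin (d + 1)) :
    E.sheetU t q₀ l ^ p ^ q₀ = sharp (E.inB (cX 0)) (E.sideY t l) := by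
  rw [sheetU, Filt.US, ← map_pow, Filt.root_pow]

theorem sideI_le_sheet : E.sideI t ≤ aI (E.sheetU t q₀) ^ p ^ q₀ := by
  refine Ideal.span_le.2 ?_
  rintro _ ⟨l, rfl⟩
  rw [SetLike.mem_coe, Filt.US, ← E.sheetU_pow t q₀]
  exact Ideal.pow_mem_pow (Ideal.mem_span_range_self (x := l)) _

variable {t} {v : ℕ}

theorem sharp_pi_nilpotent (hv : (p : E.O) ^ v ∈ E.sideI t) :
    ∃ M : ℕ, E.inB (cX (0 : Fin (d + 1))) ^ M ∈
      span (Set.range fun l => Filt.root p q₀ (E.sideY t l)) := by
  obtain ⟨M, hM⟩ := E.cX_mem_radical t hv 0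
  refine ⟨M, Ideal.span_le.2 ?_ hM⟩
  rintro _ ⟨l, rfl⟩
  rw [← Filt.root_pow p q₀ (E.sideY t l)]
  exact Ideal.pow_mem_of_mem _ (Ideal.mem_span_range_self (x := l)) _ (pow_pos hp.out.pos q₀)

theorem p_pow_mem_sheet (hv : (p : E.O) ^ v ∈ E.sideI t) :
    (p : E.O) ^ v ∈ aI (E.sheetU t q₀) ^ p ^ q₀ := E.sideI_le_sheet t q₀ hv

/-- `p` lies in a high power of the sheet ideal. -/
theorem p_mem_sheet (hv : (p : E.O) ^ v ∈ E.sideI t) (hv0 : 0 < v) {e : ℕ}
    (he : e * v ≤ p ^ q₀) : (p : E.O) ∈ aI (E.sheetU t q₀) ^ (e - 1 - d - d) := by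
  obtain ⟨M, hM⟩ := E.sharp_pi_nilpotent q₀ hv
  have hv' := E.p_pow_mem_sheet q₀ hv
  have h := mem_pow_sup_of_bound (p := p) E.L hM
    (Ideal.pow_le_self (pow_ne_zero q₀ hp.out.ne_zero) hv') e (v * e) (p : E.O) fun Γ _ w hw => by
      obtain ⟨l, -, hl⟩ := exists_val_pow_le
        (u := fun l => Filt.root p q₀ (E.sideY t l)) hw
      refine ⟨l, (pow_le_pow_iff_left₀ zero_le zero_le hv0.ne').1 ?_⟩
      rw [← pow_mul, ← map_pow]
      exact (hl _ _ hv').trans (pow_le_pow_right_of_le_one' (hw.le_one _) he)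
  refine (sup_le le_rfl ((Ideal.span_singleton_le_iff_mem _).2 ?_) :
    aI (E.sheetU t q₀) ^ (e - 1 - d - d) ⊔ span {(p : E.O) ^ (v * e)} ≤ _) h
  rw [pow_mul]
  refine Ideal.pow_le_pow_right ?_ (pow_mul (aI (E.sheetU t q₀)) _ e ▸ Ideal.pow_mem_pow hv' e)
  exact le_trans (by omega) (Nat.le_mul_of_pos_left e (pow_pos hp.out.pos q₀))

/-- An element bounded by the second parameters at every point. -/
theorem mem_sheet_of_sideVal (hv : (p : E.O) ^ v ∈ E.sideI t)
    (hpU : (p : E.O) ∈ aI (E.sheetU t q₀)) (L : ℕ) (z : E.O)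
    (hz : ∀ (Γ : Type u) [LinearOrderedCommGroupWithZero Γ] (w : Valuation E.O Γ), IsPt w →
      w z ≤ E.sideVal t w) :
    z ∈ aI (E.sheetU t q₀) ^ (p ^ q₀ - 2 * d - 2) ⊔ aI (E.sheetU t q₀) ^ L := by
  obtain ⟨M, hM⟩ := E.sharp_pi_nilpotent q₀ hv
  have h := mem_pow_sup_of_bound (p := p) E.L hM
    (Ideal.pow_le_self (pow_ne_zero q₀ hp.out.ne_zero) (E.p_pow_mem_sheet q₀ hv)) (p ^ q₀) L z
    fun Γ _ w hw => by
      obtain ⟨l, hl⟩ := E.sharp_sideVal t (w := w)
      refine ⟨l, ?_⟩
      rw [← map_pow]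
      exact (hz Γ w hw).trans (hl.trans (congrArg w (E.sheetU_pow t q₀ l).symm)).le
  exact (sup_le_sup (Ideal.pow_le_pow_right (by omega))
    ((Ideal.span_singleton_le_iff_mem _).2 (Ideal.pow_mem_pow hpU L))) h

theorem baseToO_X (t : E.B) (i : Fin d) :
    E.baseToO (MvPowerSeries.X i) = sharp (E.inB (cX 0)) (E.sideY t i.succ) := by
  rw [E.baseToO_apply, unramLevel_X, mapUntilt_sharp, sideY, Fin.cons_succ]
  congr 2
  rw [cRoot, RingEquiv.symm_apply_eq, iterateFrobeniusEquiv_apply, iterateFrobenius_def, pow_zero,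
    pow_one]

/-- The maximal ideal of the bottom level lies in the sheet ideal. -/
theorem map_maximal_le (t : E.B) (hpU : (p : E.O) ∈ aI (E.sheetU t q₀)) :
    (maximalIdeal (An p k (Fin d) 0)).map (algebraMap (An p k (Fin d) 0) E.O) ≤
      aI (E.sheetU t q₀) := by
  refine Ideal.map_le_iff_le_comap.2 fun f hf => ?_
  have hle : aI (baseU p k d) ≤
      (aI (E.sheetU t q₀)).comap (mapUntilt (p := p) E.inB (cX (0 : Fin (d + 1)))) := by
    refine Ideal.span_le.2 ?_
    rintro _ ⟨l, rfl⟩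
    rw [SetLike.mem_coe, Ideal.mem_comap, baseU, Filt.US, mapUntilt_sharp]
    cases l using Fin.cases with
    | zero => rwa [sharp_self]
    | succ i =>
      rw [show E.inB (cX i.succ) = E.sideY t i.succ by rw [sideY, Fin.cons_succ],
        ← E.sheetU_pow t q₀]
      exact Ideal.pow_mem_of_mem _ (Ideal.mem_span_range_self (x := i.succ)) _
        (pow_pos hp.out.pos q₀)
  exact hle (colMap_maximal hf)

end CoverExt

section Push

variable {A₀ B : Type*} [CommRing A₀] [CommRing B] [Algebra A₀ B]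
variable {A : ℕ → Subalgebra A₀ B} {c : ℕ}
variable {T R' : Type*} [CommRing T] [CommRing R'] [Algebra A₀ T] [Algebra B T]
  [IsScalarTower A₀ B T] [Algebra A₀ R'] {J J' : Ideal T}

theorem factorMap_smul (h : J ≤ J') {Q : Type*} [AddCommGroup Q] [Module A₀ Q] (s : T ⧸ J)
    (z : (T ⧸ J) ⊗[A₀] Q) :
    AlgebraTensorModule.map (Ideal.Quotient.factorₐ B h).toLinearMap (LinearMap.id : Q →ₗ[A₀] Q)
        (s • z) =
      Ideal.Quotient.factor h s •
        AlgebraTensorModule.map (Ideal.Quotient.factorₐ B h).toLinearMap LinearMap.id z := by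
  induction z using TensorProduct.induction_on with
  | zero => rw [smul_zero, map_zero, smul_zero]
  | tmul t x =>
    rw [TensorProduct.smul_tmul', AlgebraTensorModule.map_tmul, AlgebraTensorModule.map_tmul,
      TensorProduct.smul_tmul']
    congr 1
    exact map_mul (Ideal.Quotient.factor h) s t
  | add a b ha hb => rw [smul_add, map_add, map_add, ha, hb, smul_add]

theorem factorMap_surjective (h : J ≤ J') {Q : Type*} [AddCommGroup Q] [Module A₀ Q] :
    Function.Surjective (AlgebraTensorModule.map (Ideal.Quotient.factorₐ B h).toLinearMap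
      (LinearMap.id : Q →ₗ[A₀] Q)) := by
  intro z
  induction z using TensorProduct.induction_on with
  | zero => exact ⟨0, map_zero _⟩
  | tmul t x =>
    obtain ⟨t, rfl⟩ := Ideal.Quotient.factor_surjective h t
    exact ⟨t ⊗ₜ x, AlgebraTensorModule.map_tmul _ _ _ _⟩
  | add a b ha hb =>
    obtain ⟨a, rfl⟩ := ha
    obtain ⟨b, rfl⟩ := hb
    exact ⟨a + b, map_add _ _ _⟩

theorem factorMap_pushRel (h : J ≤ J') (φ : R' →ₐ[A₀] T ⧸ J) {Q : Type*} [AddCommGroup Q]
    [Module A₀ Q] [Module R' Q] [IsScalarTower A₀ R' Q] {z : (T ⧸ J) ⊗[A₀] Q}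
    (hz : z ∈ pushRel φ Q) :
    AlgebraTensorModule.map (Ideal.Quotient.factorₐ B h).toLinearMap (LinearMap.id : Q →ₗ[A₀] Q) z ∈
      pushRel ((Ideal.Quotient.factorₐ A₀ h).comp φ) Q := by
  induction hz using Submodule.span_induction with
  | mem z hz =>
    obtain ⟨x, q, rfl⟩ := hz
    refine Submodule.subset_span ⟨x, q, ?_⟩
    rw [map_sub, factorMap_smul, AlgebraTensorModule.map_tmul, AlgebraTensorModule.map_tmul]
    rfl
  | zero => rw [map_zero]; exact zero_mem _
  | add a b _ _ ha hb => rw [map_add]; exact add_mem ha hb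
  | smul s a _ ha => rw [factorMap_smul]; exact Submodule.smul_mem _ _ ha

/-- Enlarging the ideal does not increase the pushforward. -/
theorem lam_push_factor_le (h : J ≤ J') (φ : R' →ₐ[A₀] T ⧸ J) (Q : Type*) [AddCommGroup Q]
    [Module A₀ Q] [Module R' Q] [IsScalarTower A₀ R' Q] :
    lam A c (Push ((Ideal.Quotient.factorₐ A₀ h).comp φ) Q) ≤ lam A c (Push φ Q) := by
  let f₀ : ((T ⧸ J) ⊗[A₀] Q) →ₗ[B] (T ⧸ J') ⊗[A₀] Q :=
    AlgebraTensorModule.map (Ideal.Quotient.factorₐ B h).toLinearMap LinearMap.id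
  let f := ((pushRel φ Q).restrictScalars B).mapQ
    ((pushRel ((Ideal.Quotient.factorₐ A₀ h).comp φ) Q).restrictScalars B) f₀
    fun z hz => factorMap_pushRel h φ hz
  have hf : Function.Surjective f := fun y => by
    obtain ⟨z, rfl⟩ := Submodule.Quotient.mk_surjective _ y
    obtain ⟨w, rfl⟩ := factorMap_surjective (B := B) h z
    exact ⟨Submodule.Quotient.mk w, rfl⟩
  refine lam_le_of_surjective ((Submodule.Quotient.restrictScalarsEquiv B _).toLinearMap ∘ₗ f ∘ₗ
    (Submodule.Quotient.restrictScalarsEquiv B _).symm.toLinearMap) fun y => ?_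
  obtain ⟨x, hx⟩ := hf ((Submodule.Quotient.restrictScalarsEquiv B _).symm y)
  exact ⟨Submodule.Quotient.restrictScalarsEquiv B _ x, by simp [hx]⟩

/-- The pushforward of a cyclic module. -/
theorem lam_push_quot_le (φ : R' →ₐ[A₀] T ⧸ J) (I : Ideal R') (a : Ideal T)
    (ha : a.map (Ideal.Quotient.mk J) ≤ I.map φ.toRingHom) :
    lam A c (Push φ (R' ⧸ I)) ≤ lam A c (T ⧸ a) := by
  set mk := (pushRel φ (R' ⧸ I)).mkQ
  have hone : ∀ (s : T ⧸ J) (r : R'), mk (s ⊗ₜ[A₀] Ideal.Quotient.mk I r) =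
      (s * φ r) • mk ((1 : T ⧸ J) ⊗ₜ[A₀] (1 : R' ⧸ I)) := by
    intro s r
    have := mk_actR φ (R' ⧸ I) r ((1 : T ⧸ J) ⊗ₜ[A₀] (1 : R' ⧸ I))
    rw [actR_tmul, show r • (1 : R' ⧸ I) = Ideal.Quotient.mk I r by
      rw [Algebra.smul_def, mul_one, Ideal.Quotient.algebraMap_eq]] at this
    rw [mul_smul, ← this, ← map_smul, TensorProduct.smul_tmul', smul_eq_mul, mul_one]
  let f : T →ₗ[B] Push φ (R' ⧸ I) :=
    ((LinearMap.toSpanSingleton (T ⧸ J) _ (mk ((1 : T ⧸ J) ⊗ₜ[A₀] (1 : R' ⧸ I)))).restrictScalars B)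
      ∘ₗ (Ideal.Quotient.mkₐ B J).toLinearMap
  have hker : a.restrictScalars B ≤ LinearMap.ker f := by
    intro t ht
    rw [LinearMap.mem_ker]
    show Ideal.Quotient.mk J t • mk ((1 : T ⧸ J) ⊗ₜ[A₀] (1 : R' ⧸ I)) = 0
    have h := ha (Ideal.mem_map_of_mem _ (Submodule.restrictScalars_mem _ _ _ |>.1 ht))
    revert h
    generalize Ideal.Quotient.mk J t = z
    intro h
    induction h using Submodule.span_induction with
    | mem z hz =>
      obtain ⟨r, hr, rfl⟩ := hz
      have := hone 1 r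
      rw [Ideal.Quotient.eq_zero_iff_mem.2 hr, tmul_zero, map_zero, one_mul] at this
      exact this.symm
    | zero => exact zero_smul _ _
    | add x y _ _ hx hy => rw [add_smul, hx, hy, add_zero]
    | smul s x _ hx => rw [smul_eq_mul, mul_smul, hx, smul_zero]
  suffices ∀ y, ∃ t, f t = y by
    refine lam_le_of_surjective ((a.restrictScalars B).liftQ f hker ∘ₗ
      (Submodule.Quotient.restrictScalarsEquiv B a).symm.toLinearMap) fun y => ?_
    obtain ⟨t, ht⟩ := this y
    exact ⟨Ideal.Quotient.mk a t, ht⟩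
  intro y
  obtain ⟨z, rfl⟩ := Submodule.Quotient.mk_surjective _ y
  induction z using TensorProduct.induction_on with
  | zero => exact ⟨0, map_zero f⟩
  | tmul s x =>
    obtain ⟨r, rfl⟩ := Ideal.Quotient.mk_surjective x
    obtain ⟨t, ht⟩ := Ideal.Quotient.mk_surjective (s * φ r)
    refine ⟨t, ?_⟩
    show Ideal.Quotient.mk J t • mk _ = mk _
    rw [ht, hone]
  | add z w hz hw =>
    obtain ⟨t, ht⟩ := hz
    obtain ⟨t', ht'⟩ := hw
    exact ⟨t + t', by rw [map_add, ht, ht', Submodule.Quotient.mk_add]⟩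

end Push

end Vale.Agent.P202.Mixed2
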