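import Vale.Agent.P202.Mixed2.PushTransfer

/-!
P202, mixed characteristic, main step: scaling in all the Koszul variables, and the change from
`σ (x) ^ a` to `σ (x ^ a)`.
-/

open scoped ENNReal

namespace Vale.Agent.P202.Mixed2.MainPush

open Vale.Agent.P202.Char Vale.Agent.P202.Lambda

universe u v

section Fold

variable {N : Type u} [CommRing N]

theorem foldr_deg_le (P : MCx N) {d : ℕ} (hP : ∀ b, P.deg b ≤ d) : ∀ (l : List N)
    (b : (l.foldr cone P).β), (l.foldr cone P).deg b ≤ d + l.length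
  | [], b => hP b
  | _ :: l, b => cone_deg_le (fun c => foldr_deg_le P hP l c) b

theorem foldr_card (P : MCx N) : ∀ l : List N,
    Fintype.card (l.foldr cone P).β = 2 ^ l.length * Fintype.card P.β
  | [] => (one_mul _).symm
  | y :: l => by
    show Fintype.card ((l.foldr cone P).β ⊕ (l.foldr cone P).β) = _
    rw [Fintype.card_sum, foldr_card P l, List.length_cons, pow_succ]
    ring

theorem cone_sum (y : N) (P : MCx N) (f : ℕ → ℤ) :
    ∑ b, f ((cone y P).deg b) = (∑ b, f (P.deg b)) + ∑ b, f (P.deg b + 1) :=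
  Fintype.sum_sum_type (α₁ := P.β) (α₂ := P.β) fun b => f ((cone y P).deg b)

theorem foldr_alt (P : MCx N) : ∀ l : List N, l ≠ [] →
    ∑ b, (-1 : ℤ) ^ (l.foldr cone P).deg b = 0
  | [], h => absurd rfl h
  | y :: l, _ => by
    refine (cone_sum y (l.foldr cone P) fun k => (-1 : ℤ) ^ k).trans ?_
    simp [pow_succ, Finset.sum_neg_distrib]

theorem foldr_rank0 (P : MCx N) : ∀ l : List N,
    ∑ b, (if (l.foldr cone P).deg b = 0 then (1 : ℤ) else 0) = ∑ b, if P.deg b = 0 then 1 else 0
  | [] => rfl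
  | y :: l => by
    refine (cone_sum y (l.foldr cone P) fun k => if k = 0 then (1 : ℤ) else 0).trans ?_
    simp [foldr_rank0 P l]

theorem rank0_eq (P : MCx N) : (P.rank 0 : ℤ) = ∑ b, if P.deg b = 0 then 1 else 0 := by
  simp [MCx.rank, Finset.sum_boole]

theorem foldr_rank (P : MCx N) (l : List N) : (l.foldr cone P).rank 0 = P.rank 0 := by
  have := (rank0_eq (l.foldr cone P)).trans ((foldr_rank0 P l).trans (rank0_eq P).symm)
  exact_mod_cast this

theorem foldr_entries (I : Ideal N) (P : MCx N) (hP : ∀ a b, P.D a b ∈ I) : ∀ (l : List N),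
    (∀ y ∈ l, y ∈ I) → ∀ a b, (l.foldr cone P).D a b ∈ I
  | [], _ => hP
  | y :: l, hl => fun a b => by
    have ih := foldr_entries I P hP l fun z hz => hl z (List.mem_cons_of_mem y hz)
    have hy : y ∈ I := hl y List.mem_cons_self
    show Matrix.fromBlocks (l.foldr cone P).D (y • (1 : Matrix _ _ N)) 0 (-(l.foldr cone P).D) a b ∈ I
    rcases a with a | a <;> rcases b with b | b
    · exact ih a b
    · simp only [Matrix.fromBlocks_apply₁₂, Matrix.smul_apply, smul_eq_mul]
      exact I.mul_mem_right _ hy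
    · simp
    · simp only [Matrix.fromBlocks_apply₂₂, Matrix.neg_apply]
      exact neg_mem (ih a b)

/-- `H_0` of iterated cones is `H_0` modulo the variables. -/
def H0Iso (P : MCx N) : Prop :=
  ∀ l : List N, Nonempty (H0 (l.foldr cone P) ≃ₗ[N]
    H0 P ⧸ (Ideal.ofList l • (⊤ : Submodule N (H0 P))))

end Fold

/-- Iterating a scaling step. -/
theorem chain {α m : ℕ} (X : ℕ → ℝ≥0∞) (err : ℝ≥0∞)
    (hstep : ∀ i < m, (α : ℝ≥0∞) * X i ≤ X (i + 1) + (α : ℝ≥0∞) * err) :
    ∀ i ≤ m, (α : ℝ≥0∞) ^ i * X 0 ≤ X i + ((i * α ^ i : ℕ) : ℝ≥0∞) * err := by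
  intro i
  induction i with
  | zero => simp
  | succ i ih =>
    intro hi
    have h1 := hstep i hi
    have h2 := ih (Nat.le_of_succ_le hi)
    rcases Nat.eq_zero_or_pos α with rfl | hα
    · simp
    calc (α : ℝ≥0∞) ^ (i + 1) * X 0 = (α : ℝ≥0∞) * ((α : ℝ≥0∞) ^ i * X 0) := by ring
      _ ≤ (α : ℝ≥0∞) * (X i + ((i * α ^ i : ℕ) : ℝ≥0∞) * err) := mul_le_mul' le_rfl h2
      _ = (α : ℝ≥0∞) * X i + ((i * α ^ (i + 1) : ℕ) : ℝ≥0∞) * err := by push_cast; ring
      _ ≤ X (i + 1) + (α : ℝ≥0∞) * err + ((i * α ^ (i + 1) : ℕ) : ℝ≥0∞) * err :=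
          add_le_add h1 le_rfl
      _ ≤ X (i + 1) + (((i + 1) * α ^ (i + 1) : ℕ) : ℝ≥0∞) * err := by
          rw [add_assoc, ← add_mul]
          refine add_le_add le_rfl (mul_le_mul' ?_ le_rfl)
          rw [← Nat.cast_add]
          refine Nat.cast_le.2 ?_
          rw [add_mul, one_mul, add_comm]
          exact Nat.add_le_add_left (Nat.le_self_pow (Nat.succ_ne_zero i) α) _

section Lam

variable {A₀ B : Type*} [CommRing A₀] [CommRing B] [Algebra A₀ B] [IsNoetherianRing A₀]
  {T : Type u} [CommRing T] [Algebra A₀ T] [Algebra B T] [IsScalarTower A₀ B T]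
  {A : ℕ → Subalgebra A₀ B} {c : ℕ} {n L : ℕ} {U : Fin (n + 1) → T} {β : T}

omit [IsNoetherianRing A₀] in
theorem lam_foldr_congr {P : MCx (T ⧸ aI U ^ L)} (hiso : H0Iso P) {l l' : List (T ⧸ aI U ^ L)}
    (hl : Ideal.ofList l = Ideal.ofList l') :
    lam A c (H0 (l.foldr cone P)) = lam A c (H0 (l'.foldr cone P)) := by
  obtain ⟨e⟩ := hiso l
  obtain ⟨e'⟩ := hiso l'
  exact lam_congr ((e.trans ((Submodule.quotEquivOfEq _ _ (by rw [hl])).trans e'.symm)).restrictScalars B)

/-- Enlarging the variables costs what kills the difference. -/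
theorem lam_foldr_le (h : IsTower A c) {P : MCx (T ⧸ aI U ^ L)} (hiso : H0Iso P)
    {l l' : List (T ⧸ aI U ^ L)} (hle : Ideal.ofList l ≤ Ideal.ofList l') (e : ℕ)
    (hkill : ∀ y ∈ Ideal.ofList l', Ideal.Quotient.mk (aI U ^ L) β ^ e * y ∈ Ideal.ofList l)
    (hfin : lam A c (Deg0 P) ≠ ⊤) :
    lam A c (H0 (l.foldr cone P)) ≤ lam A c (H0 (l'.foldr cone P)) +
      (P.rank 0 : ℝ≥0∞) * (e * errQ A c U β L) := by
  obtain ⟨i⟩ := hiso l
  obtain ⟨i'⟩ := hiso l'
  set X := Ideal.ofList l • (⊤ : Submodule (T ⧸ aI U ^ L) (H0 P))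
  set Y := Ideal.ofList l' • (⊤ : Submodule (T ⧸ aI U ^ L) (H0 P))
  have hXY : X ≤ Y := Submodule.smul_mono_left hle
  rw [lam_congr (i.restrictScalars B), lam_congr (i'.restrictScalars B)]
  set π : (H0 P ⧸ X) →ₗ[B] H0 P ⧸ Y := (Submodule.factor hXY).restrictScalars B
  let q : Deg0 P →ₗ[T ⧸ aI U ^ L] H0 P ⧸ X := X.mkQ ∘ₗ (img0 P).mkQ
  have hq : Function.Surjective q :=
    (Submodule.mkQ_surjective X).comp (Submodule.mkQ_surjective (img0 P))
  have hK : ∀ z ∈ LinearMap.ker π, Ideal.Quotient.mk (aI U ^ L) β ^ e • z = 0 := by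
    intro z hz
    obtain ⟨z, rfl⟩ := Submodule.mkQ_surjective X z
    have hzY : z ∈ Y := (Submodule.Quotient.mk_eq_zero Y).1 hz
    rw [← map_smul, Submodule.mkQ_apply, Submodule.Quotient.mk_eq_zero]
    clear hz
    induction hzY using Submodule.smul_induction_on' with
    | smul r hr w _ => rw [smul_smul]; exact Submodule.smul_mem_smul (hkill r hr) trivial
    | add w _ w' _ hw hw' => rw [smul_add]; exact add_mem hw hw'
  have h1 := lam_sub_killed h q hq hfin (Ideal.Quotient.mk (aI U ^ L) β ^ e) (LinearMap.ker π) hK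
  have h2 := lam_le_add h (LinearMap.ker π).subtype π (Submodule.subtype_injective _)
    (LinearMap.exact_subtype_ker_map π)
  refine h2.trans ?_
  rw [add_comm]
  exact add_le_add le_rfl (h1.trans (lam_deg0_quot h P e))

omit [IsNoetherianRing A₀] in
theorem ofList_perm {S : Type*} [CommRing S] {l l' : List S} (h : l.Perm l') :
    Ideal.ofList l = Ideal.ofList l' := by
  unfold Ideal.ofList
  congr 1
  ext x
  exact h.mem_iff

/-- The exponents at the step `i`. -/
def expo (α : ℕ) {m : ℕ} (i : ℕ) (j : Fin m) : ℕ := if (j : ℕ) < i then α else 1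

/-- The measure at the step `i`. -/
noncomputable abbrev stage (A : ℕ → Subalgebra A₀ B) (c : ℕ) (P : MCx (T ⧸ aI U ^ L)) {m : ℕ}
    (y : Fin m → T ⧸ aI U ^ L) (α i : ℕ) : ℝ≥0∞ :=
  lam A c (H0 (((List.finRange m).map fun j => y j ^ expo α i j).foldr cone P))

/-- Scaling in one of the variables. -/
theorem scale_at (h : IsTower A c) (hreg : RegUpTo U β L) {P : MCx (T ⧸ aI U ^ L)}
    (hiso : H0Iso P) {m : ℕ} (hP : ∀ b, P.deg b + m ≤ n + 1) (y : Fin m → T ⧸ aI U ^ L)
    {M α : ℕ} (hnull : ∀ l : List (Fin m), l.length = m → l.Nodup → ∀ e : Fin m → ℕ,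
      (∀ j, e j = 1 ∨ e j = α) → ∀ k,
        ((l.map fun j => y j ^ e j).foldr cone P).IsNullHtpic
          (Ideal.Quotient.mk (aI U ^ L) (β * U k ^ M)))
    (hfin : lam A c (T ⧸ aI U ^ L) ≠ ⊤) (hL : (n + 1) * M * α ≤ L)
    (i : Fin m) :
    (α : ℝ≥0∞) * stage A c P y α i ≤ stage A c P y α (i + 1) +
      (α : ℝ≥0∞) * ((P.rank 0 : ℝ≥0∞) * (sExp n L α * errQ A c U β L)) := by
  classical
  let X : ℕ → ℝ≥0∞ := stage A c P y α
  show (α : ℝ≥0∞) * X i ≤ X (i + 1) + _
  set others := (List.finRange m).erase i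
  have hperm : (List.finRange m).Perm (i :: others) :=
    List.perm_cons_erase (List.mem_finRange i)
  set K := (others.map fun j => y j ^ expo α i j).foldr cone P
  have hlen : others.length + 1 = m := by
    have := hperm.length_eq
    simp only [List.length_finRange, List.length_cons] at this
    omega
  have hnot : i ∉ others := fun hi => by
    have := (hperm.nodup_iff.1 (List.nodup_finRange m))
    exact (List.nodup_cons.1 this).1 hi
  have hsame : ∀ j ∈ others, y j ^ expo α (i + 1) j = y j ^ expo α i j := fun j hj => by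
    have hne : (j : ℕ) ≠ i := fun he => hnot (Fin.ext he ▸ hj)
    simp only [expo]
    split_ifs <;> first | rfl | omega
  have h0 : X i = lam A c (H0 (cone (y i) K)) := by
    refine (lam_foldr_congr hiso (ofList_perm (hperm.map _))).trans ?_
    rw [List.map_cons, List.foldr_cons, show expo α i i = 1 by simp [expo], pow_one]
  have h1 : X (i + 1) = lam A c (H0 (cone (y i ^ α) K)) := by
    refine (lam_foldr_congr hiso (ofList_perm (hperm.map _))).trans ?_
    rw [List.map_cons, List.map_congr_left hsame, List.foldr_cons,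
      show expo α (i + 1) i = α by simp [expo]]
  have hK : ∀ b, K.deg b ≤ n := by
    intro b
    have hb : ∀ b, P.deg b ≤ n + 1 - m := fun b => by have := hP b; omega
    have h2 := foldr_deg_le P hb (others.map fun j => y j ^ expo α i j) b
    rw [List.length_map] at h2
    rcases Nat.lt_or_ge (n + 1) m with hlt | hge
    · have : IsEmpty P.β := ⟨fun c => by have := hP c; omega⟩
      have h3 := foldr_card P (others.map fun j => y j ^ expo α i j)
      rw [Fintype.card_eq_zero (α := P.β), mul_zero] at h3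
      exact ((Fintype.card_eq_zero_iff.1 h3).false b).elim
    · exact h2.trans (by omega)
  have hn : ∀ k, (cone (y i) K).IsNullHtpic (Ideal.Quotient.mk (aI U ^ L) (β * U k ^ M)) := by
    intro k
    have := hnull (i :: others) (by simp [hlen]) (hperm.nodup_iff.1 (List.nodup_finRange m))
      (expo α i) (fun j => by simp only [expo]; split_ifs <;> simp) k
    simpa [K, expo] using this
  have hs := scale_cone h hreg K (y i) hK hn (lam_deg0_ne_top h K hfin) α hL
  rw [h0, h1]
  rwa [show K.rank 0 = P.rank 0 from foldr_rank P _] at hs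

/-- Scaling in all the variables. -/
theorem scale_all (h : IsTower A c) (hreg : RegUpTo U β L) {P : MCx (T ⧸ aI U ^ L)}
    (hiso : H0Iso P) {m : ℕ} (hP : ∀ b, P.deg b + m ≤ n + 1) (y : Fin m → T ⧸ aI U ^ L)
    {M α : ℕ} (hnull : ∀ l : List (Fin m), l.length = m → l.Nodup → ∀ e : Fin m → ℕ,
      (∀ j, e j = 1 ∨ e j = α) → ∀ k,
        ((l.map fun j => y j ^ e j).foldr cone P).IsNullHtpic
          (Ideal.Quotient.mk (aI U ^ L) (β * U k ^ M)))
    (hfin : lam A c (T ⧸ aI U ^ L) ≠ ⊤) (hL : (n + 1) * M * α ≤ L) :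
    (α : ℝ≥0∞) ^ m * lam A c (H0 (((List.finRange m).map y).foldr cone P)) ≤
      lam A c (H0 (((List.finRange m).map fun j => y j ^ α).foldr cone P)) +
        ((m * α ^ m : ℕ) : ℝ≥0∞) * ((P.rank 0 : ℝ≥0∞) * (sExp n L α * errQ A c U β L)) := by
  classical
  set err : ℝ≥0∞ := (P.rank 0 : ℝ≥0∞) * (sExp n L α * errQ A c U β L)
  have := chain (α := α) (stage A c P y α) err
    (fun i hi => scale_at h hreg hiso hP y hnull hfin hL ⟨i, hi⟩) m le_rfl
  have h0 : stage A c P y α 0 = lam A c (H0 (((List.finRange m).map y).foldr cone P)) :=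
    lam_foldr_congr hiso (congrArg Ideal.ofList (List.map_congr_left fun j _ => by simp [expo]))
  have h1 : stage A c P y α m =
      lam A c (H0 (((List.finRange m).map fun j => y j ^ α).foldr cone P)) :=
    lam_foldr_congr hiso (congrArg Ideal.ofList (List.map_congr_left fun j _ => by simp [expo]))
  rw [← h0, ← h1]
  exact this

end Lam

end Vale.Agent.P202.Mixed2.MainPush
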