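import Vale.Agent.P202.Mixed2.Scaling
import Vale.Agent.P202.Mixed2.WinFlatGd
import Vale.Agent.P202.Ext.Killed

/-!
P202, mixed characteristic, main step: twisting of complexes by scalars, transfer of a complex
along an additive `β`-multiplicative map, and the lift to `T` of a complex over `T` modulo a power
of the ideal.
-/

open scoped ENNReal

namespace Vale.Agent.P202.Mixed2.MainPush

open Vale.Agent.P202.Char

universe u v

section Twist

variable {S : Type u} [CommRing S]

/-- `P'` receives `P` and maps back to it with composite `c`. -/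
def Twisted (c : S) (P P' : MCx S) : Prop :=
  ∃ (E : Matrix P'.β P.β S) (G : Matrix P.β P'.β S),
    (∀ a b, E a b ≠ 0 → P'.deg a = P.deg b) ∧ (∀ a b, G a b ≠ 0 → P.deg a = P'.deg b) ∧
      P'.D * E = E * P.D ∧ G * P'.D = P.D * G ∧ E * G = c • (1 : Matrix P'.β P'.β S)

theorem twisted_refl (P : MCx S) : Twisted 1 P P := by
  refine ⟨1, 1, fun a b h => ?_, fun a b h => ?_, by rw [mul_one, one_mul],
    by rw [mul_one, one_mul], by rw [one_smul, mul_one]⟩ <;>
  · rcases eq_or_ne a b with rfl | hab
    · rfl
    · exact absurd (Matrix.one_apply_ne hab) h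

theorem Twisted.null {c : S} {P P' : MCx S} (h : Twisted c P P') {r : S} (hr : P.IsNullHtpic r) :
    P'.IsNullHtpic (c * r) := by
  obtain ⟨E, G, hE, hG, hDE, hGD, hEG⟩ := h
  obtain ⟨η, hη, e⟩ := hr
  refine ⟨E * (η * G), fun a b hab => ?_, ?_⟩
  · obtain ⟨i, h1, h2⟩ := exists_ne_zero_of_mul hab
    obtain ⟨j, h3, h4⟩ := exists_ne_zero_of_mul h2
    rw [hE _ _ h1, hη _ _ h3, hG _ _ h4]
  · calc P'.D * (E * (η * G)) + E * (η * G) * P'.D
        = E * ((P.D * η + η * P.D) * G) := by
          rw [← Matrix.mul_assoc P'.D, hDE, Matrix.mul_assoc E (η * G), Matrix.mul_assoc η, hGD,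
            Matrix.add_mul, Matrix.mul_add]
          simp only [Matrix.mul_assoc]
      _ = (c * r) • (1 : Matrix P'.β P'.β S) := by
          rw [e, Matrix.smul_mul, Matrix.one_mul, Matrix.mul_smul, hEG, smul_smul, mul_comm]

theorem Twisted.cone {c : S} {P P' : MCx S} (h : Twisted c P P') (d y : S) :
    Twisted (c * d) (cone y P) (cone (d * y) P') := by
  obtain ⟨E, G, hE, hG, hDE, hGD, hEG⟩ := h
  refine ⟨Matrix.fromBlocks (d • E) 0 0 E, Matrix.fromBlocks G 0 0 (d • G), ?_, ?_, ?_, ?_, ?_⟩
  · rintro (a | a) (b | b) hab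
    · exact hE a b (right_ne_zero_of_mul (by simpa using hab))
    · simp at hab
    · simp at hab
    · exact congrArg (· + 1) (hE a b (by simpa using hab))
  · rintro (a | a) (b | b) hab
    · exact hG a b (by simpa using hab)
    · simp at hab
    · simp at hab
    · exact congrArg (· + 1) (hG a b (right_ne_zero_of_mul (by simpa using hab)))
  · show Matrix.fromBlocks P'.D ((d * y) • (1 : Matrix P'.β P'.β S)) 0 (-P'.D) *
        Matrix.fromBlocks (d • E) 0 0 E =
      Matrix.fromBlocks (d • E) 0 0 E *
        Matrix.fromBlocks P.D (y • (1 : Matrix P.β P.β S)) 0 (-P.D)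
    rw [Matrix.fromBlocks_multiply, Matrix.fromBlocks_multiply]
    simp [hDE, smul_smul, mul_comm]
  · show Matrix.fromBlocks G 0 0 (d • G) *
        Matrix.fromBlocks P'.D ((d * y) • (1 : Matrix P'.β P'.β S)) 0 (-P'.D) =
      Matrix.fromBlocks P.D (y • (1 : Matrix P.β P.β S)) 0 (-P.D) *
        Matrix.fromBlocks G 0 0 (d • G)
    rw [Matrix.fromBlocks_multiply, Matrix.fromBlocks_multiply]
    simp [hGD, smul_smul, mul_comm]
  · show Matrix.fromBlocks (d • E) 0 0 E * Matrix.fromBlocks G 0 0 (d • G) =
      (c * d) • (1 : Matrix (P'.β ⊕ P'.β) (P'.β ⊕ P'.β) S)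
    rw [Matrix.fromBlocks_multiply, ← Matrix.fromBlocks_one, Matrix.fromBlocks_smul]
    simp [hEG, smul_smul, mul_comm]

/-- Scaling the Koszul variables. -/
theorem twisted_foldr {ι : Type*} (d y : ι → S) (P : MCx S) : ∀ l : List ι,
    Twisted (l.map d).prod ((l.map y).foldr Mixed2.cone P)
      ((l.map fun i => d i * y i).foldr Mixed2.cone P)
  | [] => by simpa using twisted_refl P
  | i :: l => by
    have h := (twisted_foldr d y P l).cone (d i) (y i)
    rw [mul_comm] at h
    simpa using h

end Twist

section Transfer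

variable {R : Type v} [CommRing R] {S : Type u} [CommRing S] (σ : R →+ S) {β : S}
  (hmul : ∀ x y, σ x * σ y = β * σ (x * y))

include hmul in
theorem map_mul_map {I : Type} [Fintype I] (A B : Matrix I I R) :
    A.map σ * B.map σ = β • (A * B).map σ := by
  ext i j
  simp [Matrix.mul_apply, hmul, map_sum, Finset.mul_sum]

/-- A complex moved entrywise. -/
noncomputable def sMap (F : MCx R) : MCx S where
  β := F.β
  deg := F.deg
  D := F.D.map σ
  sq := by
    rw [map_mul_map σ hmul, F.sq]
    ext i j
    simp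
  homog a b h := F.homog a b fun h0 => h (by simp [h0])

theorem sMap_null {F : MCx R} {r : R} (h : F.IsNullHtpic r) :
    (sMap σ hmul F).IsNullHtpic (β * σ r) := by
  classical
  obtain ⟨η, hη, e⟩ := h
  refine ⟨η.map σ, fun a b hab => hη a b fun h0 => hab ((congrArg σ h0).trans (map_zero σ)), ?_⟩
  show F.D.map σ * η.map σ + η.map σ * F.D.map σ = (β * σ r) • (1 : Matrix F.β F.β S)
  rw [map_mul_map σ hmul, map_mul_map σ hmul, ← smul_add, ← Matrix.map_add σ (map_add σ), e]
  ext i j
  rcases eq_or_ne i j with rfl | hij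
  · simp
  · simp [hij]

theorem sMap_cone (y : R) (F : MCx R) :
    sMap σ hmul (cone y F) = cone (σ y) (sMap σ hmul F) := by
  unfold sMap cone
  congr 1
  rw [Matrix.fromBlocks_map]
  congr 1
  · ext i j
    rcases eq_or_ne i j with rfl | hij
    · simp
    · simp [hij]
  · ext i j
    simp
  · ext i j
    simp

theorem sMap_foldr (F : MCx R) : ∀ l : List R,
    sMap σ hmul (l.foldr cone F) = (l.map σ).foldr cone (sMap σ hmul F)
  | [] => rfl
  | y :: l => by
    rw [List.foldr_cons, sMap_cone, sMap_foldr F l]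
    rfl

end Transfer

section Lift

variable {T : Type u} [CommRing T] {n : ℕ} {U : Fin (n + 1) → T} {β : T} {L J M : ℕ}

/-- A complex over `T` modulo the power `L` of the ideal, with entries in the power `J`, lifts
to `T`; its homology in degree zero modulo a shallower power is no larger than before. -/
theorem exists_lift (μ : Meas T) (P : MCx (T ⧸ aI U ^ L)) (hdeg : ∀ b, P.deg b ≤ n + 1)
    (hJ : ∀ a b, P.D a b ∈ (aI U ^ J).map (Ideal.Quotient.mk (aI U ^ L)))
    (hnull : ∀ l, P.IsNullHtpic (Ideal.Quotient.mk (aI U ^ L) (β * U l ^ M))) :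
    ∃ PL : Win.Lift U β L J M, Fintype.card PL.ι = Fintype.card P.β ∧
      (∀ f : ℕ → ℤ, ∑ b, f (PL.deg b) = ∑ b, f (P.deg b)) ∧
      ∀ B ≤ L, μ.val (PL.h0B B) ≤ μ.val (H0 P) := by
  classical
  set mk := Ideal.Quotient.mk (aI U ^ L)
  have hD : ∀ a b, ∃ x : T, x ∈ aI U ^ J ∧ mk x = P.D a b ∧ (P.deg b ≠ P.deg a + 1 → x = 0) := by
    intro a b
    by_cases h : P.deg b = P.deg a + 1
    · obtain ⟨x, hx, hxe⟩ :=
        (Ideal.mem_map_iff_of_surjective mk Ideal.Quotient.mk_surjective).1 (hJ a b)
      exact ⟨x, hx, hxe, fun h' => absurd h h'⟩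
    · exact ⟨0, zero_mem _, by rw [map_zero]; by_contra h0; exact h (P.homog a b (Ne.symm h0)),
        fun _ => rfl⟩
  choose D hmem hmk hhom using hD
  have hH : ∀ l, ∃ h : Matrix P.β P.β T, (∀ a b, P.deg a ≠ P.deg b + 1 → h a b = 0) ∧
      P.D * h.map mk + h.map mk * P.D = mk (β * U l ^ M) • (1 : Matrix P.β P.β _) := by
    intro l
    obtain ⟨η, hη, e⟩ := hnull l
    choose g hg using fun a b => Ideal.Quotient.mk_surjective (η a b)
    refine ⟨fun a b => if P.deg a = P.deg b + 1 then g a b else 0, fun a b h => if_neg h, ?_⟩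
    convert e using 4 <;>
    · ext a b
      show mk (if P.deg a = P.deg b + 1 then g a b else 0) = η a b
      split_ifs with h
      · exact hg a b
      · rw [map_zero]
        by_contra h0
        exact h (hη a b (Ne.symm h0))
  choose h hdegh hh using hH
  have hmap : (Matrix.of D).map mk = P.D := by ext a b; simp [hmk]
  let PL : Win.Lift U β L J M :=
    { ι := P.β
      deg := P.deg
      deg_le := hdeg
      D := Matrix.of D
      mem := hmem
      homog := hhom
      sq := fun a c => Ideal.Quotient.eq_zero_iff_mem.1 (by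
        change mk _ = 0
        rw [← Matrix.map_apply (f := mk) (M := Matrix.of D * Matrix.of D), Matrix.map_mul, hmap,
          P.sq, Matrix.zero_apply])
      h := h
      h_deg := hdegh
      htpy := fun l a c => Ideal.Quotient.eq.1 (by
        change mk _ = mk _
        rw [← Matrix.map_apply (f := mk), Matrix.map_add mk (map_add mk), Matrix.map_mul,
          Matrix.map_mul, hmap, hh l, Matrix.smul_apply, Matrix.one_apply, smul_eq_mul]
        split_ifs <;> simp) }
  refine ⟨PL, rfl, fun _ => rfl, fun B hB => ?_⟩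
  let Ψ : ↥(PL.deg0) →ₗ[T] H0 P :=
    { toFun := fun u => Submodule.Quotient.mk ⟨fun b => mk ((u : P.β → T) b),
        (MCx.mem_degSub _).2 fun b hb => by
          have hu := u.2 b trivial
          simp only [SetLike.mem_coe] at hu
          rw [if_neg (fun h0 => hb (by exact_mod_cast h0)), Submodule.mem_bot] at hu
          exact (congrArg mk hu).trans (map_zero mk)⟩
      map_add' := fun u u' => by
        rw [← Submodule.Quotient.mk_add]
        exact congrArg _ (Subtype.ext (funext fun b => map_add mk _ _))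
      map_smul' := fun r u => by
        rw [RingHom.id_apply, ← Submodule.Quotient.mk_smul]
        exact congrArg _ (Subtype.ext (funext fun b => map_mul mk _ _)) }
  have hsurj : Function.Surjective Ψ := by
    intro z
    obtain ⟨z, rfl⟩ := Submodule.Quotient.mk_surjective _ z
    choose g hg using fun b => Ideal.Quotient.mk_surjective ((z : P.β → T ⧸ aI U ^ L) b)
    refine ⟨⟨fun b => if P.deg b = 0 then g b else 0, fun b _ => ?_⟩,
      congrArg (Submodule.Quotient.mk (p := img0 P)) (Subtype.ext (funext fun b => ?_))⟩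
    · show (if P.deg b = 0 then g b else 0) ∈ (if P.deg b = 0 then (⊤ : Submodule T T) else ⊥)
      split_ifs <;> simp
    · show mk (if P.deg b = 0 then g b else 0) = _
      split_ifs with hb
      · exact hg b
      · rw [map_zero, (MCx.mem_degSub _).1 z.2 b (by exact_mod_cast hb)]
  have hle : LinearMap.ker Ψ ≤ (PL.img0B B).comap PL.deg0.subtype := by
    intro u hu
    obtain ⟨x, hx, hxe⟩ := mem_img0.1
      ((Submodule.Quotient.mk_eq_zero _).1 (LinearMap.mem_ker.1 hu))
    choose g hg using fun b => Ideal.Quotient.mk_surjective (x b)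
    let y : P.β → T := fun b => if P.deg b = 1 then g b else 0
    have hy : ∀ b, mk (y b) = x b := fun b => by
      simp only [y]
      split_ifs with hb
      · exact hg b
      · rw [map_zero, (MCx.mem_degSub _).1 hx b (by exact_mod_cast hb)]
    refine Submodule.mem_sup.2 ⟨PL.scal T y, ⟨y, fun b _ => ?_, rfl⟩,
      (u : P.β → T) - PL.scal T y, fun b _ => ?_, add_sub_cancel _ _⟩
    · show y b ∈ (if P.deg b = 1 then (⊤ : Submodule T T) else ⊥)
      simp only [y]
      split_ifs <;> simp
    · refine Ideal.pow_le_pow_right hB (Ideal.Quotient.eq.1 ?_)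
      change mk _ = mk _
      rw [PL.scal_apply, map_sum]
      refine (congrFun hxe b).symm.trans ?_
      rw [mlin_apply]
      refine Finset.sum_congr rfl fun b' _ => ?_
      show P.D b b' • x b' = mk (D b b' • y b')
      rw [smul_eq_mul, smul_eq_mul, map_mul, hmk, hy]
  refine (μ.le_of_surjective (Submodule.factor hle) (Submodule.factor_surjective hle)).trans ?_
  exact (μ.congr (Ψ.quotKerEquivOfSurjective hsurj)).le

end Lift

end Vale.Agent.P202.Mixed2.MainPush
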