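import Vale.Agent.P202.Mixed2.Acyclic
import Vale.Agent.P202.Lambda.Killed

/-!
P202, mixed characteristic: scaling of the normalised length of `H_0` in a Koszul variable `y`,
`a * lam (H_0 / y) ≤ lam (H_0 / y ^ a) + (error killed by a power of β)`.
-/

open scoped ENNReal

namespace Vale.Agent.P202.Mixed2

open Vale.Agent.P202.Char Vale.Agent.P202.Lambda

universe u

variable {N : Type u} [CommRing N]

/-- The cone of multiplication by `y`: the Koszul extension of `P` by one element. -/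
noncomputable def cone (y : N) (P : MCx N) : MCx N where
  β := P.β ⊕ P.β
  deg := Sum.elim P.deg fun b => P.deg b + 1
  D := Matrix.fromBlocks P.D (y • (1 : Matrix P.β P.β N)) 0 (-P.D)
  sq := by simp [Matrix.fromBlocks_multiply, P.sq]
  homog a b h := by
    rcases a with a | a <;> rcases b with b | b
    · exact P.homog a b h
    · have : a = b := by
        by_contra hab
        simp [hab] at h
      simp [this]
    · simp at h
    · have := P.homog a b (fun h0 => h (by simp [h0]))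
      simp [this]

theorem cone_deg_le {y : N} {P : MCx N} {n : ℕ} (hP : ∀ b, P.deg b ≤ n) (b : (cone y P).β) :
    (cone y P).deg b ≤ n + 1 := by
  rcases b with b | b
  · exact (hP b).trans n.le_succ
  · exact Nat.succ_le_succ (hP b)

theorem cone_apply (y : N) (P : MCx N) (v : (cone y P).β → N) (a : P.β) :
    mlin N (cone y P).D v (Sum.inl a) =
        mlin N P.D (fun b => v (Sum.inl b)) a + y * v (Sum.inr a) ∧
      mlin N (cone y P).D v (Sum.inr a) = -(mlin N P.D (fun b => v (Sum.inr b)) a) := by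
  constructor <;>
    · refine (mlin_apply N (cone y P).D v _).trans ?_
      refine Eq.trans (Fintype.sum_sum_type (α₁ := P.β) (α₂ := P.β) _) ?_
      simp [cone, mlin_apply, Matrix.one_apply, Finset.sum_neg_distrib]

theorem dlin_deg0 (P : MCx N) {u : P.β → N} (hu : u ∈ Deg0 P) : mlin N P.D u = 0 := by
  funext a
  rw [mlin_apply]
  refine Finset.sum_eq_zero fun b _ => ?_
  by_cases h : P.D a b = 0
  · rw [h, zero_smul]
  · rw [(MCx.mem_degSub N).1 hu b (by have := P.homog a b h; omega), smul_zero]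

theorem mem_img0 {P : MCx N} {u : Deg0 P} :
    u ∈ img0 P ↔ ∃ x ∈ P.degSub N 1, mlin N P.D x = u :=
  Submodule.mem_map

/-- Multiples of the elements of `H_0` by `y ^ a`. -/
noncomputable abbrev powSub0 (P : MCx N) (y : N) (a : ℕ) : Submodule N (H0 P) :=
  LinearMap.range (LinearMap.lsmul N (H0 P) (y ^ a))

/-- `H_0 / y ^ a H_0`. -/
abbrev H0pow (P : MCx N) (y : N) (a : ℕ) : Type u := H0 P ⧸ powSub0 P y a

theorem mem_powSub0 {P : MCx N} {y : N} {a : ℕ} {z : H0 P} :
    z ∈ powSub0 P y a ↔ ∃ h, y ^ a • h = z := Iff.rfl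

/-- Multiplication by `y`. -/
noncomputable def mulMap (P : MCx N) (y : N) (a : ℕ) : H0pow P y a →ₗ[N] H0pow P y (a + 1) :=
  (powSub0 P y a).mapQ (powSub0 P y (a + 1)) (LinearMap.lsmul N (H0 P) y) (by
    rintro _ ⟨z, rfl⟩
    exact mem_powSub0.2 ⟨z, by simp [pow_succ', mul_smul, smul_comm y]⟩)

/-- The projection to `H_0 / y H_0`. -/
noncomputable def projMap (P : MCx N) (y : N) (a : ℕ) : H0pow P y (a + 1) →ₗ[N] H0pow P y 1 :=
  Submodule.factor (by
    rintro _ ⟨z, rfl⟩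
    exact mem_powSub0.2 ⟨y ^ a • z, by simp [smul_smul, pow_succ']⟩)

theorem mulMap_mk (P : MCx N) (y : N) (a : ℕ) (z : H0 P) :
    mulMap P y a (Submodule.Quotient.mk z) = Submodule.Quotient.mk (y • z) := rfl

theorem projMap_surjective (P : MCx N) (y : N) (a : ℕ) : Function.Surjective (projMap P y a) :=
  fun z => by
    obtain ⟨z, rfl⟩ := Submodule.Quotient.mk_surjective _ z
    exact ⟨Submodule.Quotient.mk z, rfl⟩

theorem ker_projMap (P : MCx N) (y : N) (a : ℕ) :
    LinearMap.ker (projMap P y a) = LinearMap.range (mulMap P y a) := by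
  refine le_antisymm (fun z hz => ?_) ?_
  · obtain ⟨z, rfl⟩ := Submodule.Quotient.mk_surjective _ z
    obtain ⟨w, hw⟩ := mem_powSub0.1
      ((Submodule.Quotient.mk_eq_zero _).1 (show Submodule.Quotient.mk z = 0 from hz))
    exact ⟨Submodule.Quotient.mk w, by rw [mulMap_mk, ← hw, pow_one]⟩
  · rintro _ ⟨z, rfl⟩
    obtain ⟨z, rfl⟩ := Submodule.Quotient.mk_surjective _ z
    rw [mulMap_mk, LinearMap.mem_ker]
    show (Submodule.Quotient.mk (y • z) : H0pow P y 1) = 0
    exact (Submodule.Quotient.mk_eq_zero _).2 (mem_powSub0.2 ⟨z, by rw [pow_one]⟩)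

/-- Tuples with entries in an ideal. -/
theorem mem_smul_top {P : MCx N} {J : Ideal N} (w : Deg0 P) (h : ∀ b, (w : P.β → N) b ∈ J) :
    (Submodule.Quotient.mk w : H0 P) ∈ J • (⊤ : Submodule N (H0 P)) := by
  classical
  have hs : ∀ b : {b // P.deg b = 0}, Pi.single (M := fun _ => N) b.1 1 ∈ Deg0 P := fun b =>
    (MCx.mem_degSub N).2 fun c hc => Pi.single_eq_of_ne (fun e => hc (by simp [e, b.2])) _
  have e : w = ∑ b : {b // P.deg b = 0}, (w : P.β → N) b.1 • (⟨_, hs b⟩ : Deg0 P) := by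
    refine Subtype.ext (funext fun c => ?_)
    by_cases hc : P.deg c = 0
    · rw [Submodule.coe_sum, Finset.sum_apply, Finset.sum_eq_single ⟨c, hc⟩]
      · simp
      · intro b _ hb
        simp [Pi.single_eq_of_ne (fun e => hb (Subtype.ext e.symm))]
      · simp
    · rw [(MCx.mem_degSub N).1 w.2 c (by exact_mod_cast hc), Submodule.coe_sum, Finset.sum_apply]
      refine (Finset.sum_eq_zero fun b _ => ?_).symm
      simp [Pi.single_eq_of_ne (show c ≠ b.1 from fun e => hc (by rw [e, b.2]))]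
  rw [e, ← Submodule.mkQ_apply, map_sum]
  refine sum_mem fun b _ => ?_
  rw [map_smul]
  exact Submodule.smul_mem_smul (h b.1) Submodule.mem_top

/-- A null homotopy on the cone moves `H_0` into `y H_0`. -/
theorem smul_mem_powSub0 {P : MCx N} {y r : N} (hr : (cone y P).IsNullHtpic r) (z : H0 P) :
    r • z ∈ powSub0 P y 1 := by
  classical
  obtain ⟨h, hdeg, hh⟩ := hr
  obtain ⟨u, rfl⟩ := Submodule.Quotient.mk_surjective _ z
  set v : (cone y P).β → N := Sum.elim (u : P.β → N) 0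
  have hv : v ∈ Deg0 (cone y P) := (MCx.mem_degSub N).2 fun b hb => by
    rcases b with b | b
    · exact (MCx.mem_degSub N).1 u.2 b hb
    · rfl
  set w := mlin N h v
  have hw : w ∈ (cone y P).degSub N (0 + 1) :=
    MCx.mlin_deg N h 1 0 (fun a b hab => by rw [hdeg a b hab]; push_cast; rfl) hv
  have hDw : mlin N (cone y P).D w = r • v := by
    have := congrArg (fun Q => mlin N Q v) hh
    simpa [mlin_add, mlin_mul, dlin_deg0 _ hv, mlin_smul, mlin_one] using this
  rw [zero_add, MCx.mem_degSub] at hw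
  let x2 : Deg0 P := ⟨fun b => w (Sum.inr b), (MCx.mem_degSub N).2 fun b hb =>
    hw (Sum.inr b) (by show ((P.deg b + 1 : ℕ) : ℤ) ≠ 1; omega)⟩
  refine mem_powSub0.2 ⟨Submodule.Quotient.mk x2, ?_⟩
  rw [pow_one, ← Submodule.Quotient.mk_smul, ← Submodule.Quotient.mk_smul, eq_comm,
    Submodule.Quotient.eq, mem_img0]
  refine ⟨fun b => w (Sum.inl b), (MCx.mem_degSub N).2 fun b hb => hw (Sum.inl b) hb,
    funext fun a => ?_⟩
  have := congrFun hDw (Sum.inl a)
  rw [(cone_apply y P w a).1] at this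
  simpa [x2, eq_sub_iff_add_eq] using
    this.trans (show (r • v) (Sum.inl a) = r * u.1 a from rfl)

variable {T : Type u} [CommRing T] {n : ℕ} {U : Fin (n + 1) → T} {β : T} {L : ℕ}

theorem pow_le_span_pow (U : Fin (n + 1) → T) (m : ℕ) :
    aI U ^ ((n + 1) * m) ≤ Ideal.span (Set.range fun l => U l ^ m) := by
  intro w hw
  obtain ⟨f, hf, rfl⟩ := exists_homog hw
  rw [MvPolynomial.eval_eq']
  refine sum_mem fun γ hγ => Ideal.mul_mem_left _ _ ?_
  have hdeg : γ.degree = (n + 1) * m := by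
    rw [Finsupp.degree_eq_weight_one]
    exact hf (MvPolynomial.mem_support_iff.1 hγ)
  obtain ⟨l, hl⟩ : ∃ l, m ≤ γ l := by
    by_contra hcon
    have hlt : ∑ l, γ l < ∑ _l : Fin (n + 1), m := Finset.sum_lt_sum_of_nonempty
      Finset.univ_nonempty fun l _ => not_le.1 fun h => hcon ⟨l, h⟩
    rw [← Finsupp.degree_eq_sum] at hlt
    simp [hdeg] at hlt
  rw [← Finset.mul_prod_erase _ _ (Finset.mem_univ l), ← Nat.add_sub_cancel' hl, pow_add, mul_assoc]
  exact Ideal.mul_mem_right _ _ (Ideal.subset_span ⟨l, rfl⟩)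

/-- The exponent of `β` lost in a scaling step. -/
def sExp (n L a : ℕ) : ℕ := (n + 1) * (1 + L * (L + 1)) + a

/-- Torsion for `y` in `H_0` is moved into `y ^ a H_0` by a power of `β`. -/
theorem torsion_mem (hreg : RegUpTo U β L) {P : MCx (T ⧸ aI U ^ L)} {y : T ⧸ aI U ^ L} {M a : ℕ}
    (hP : ∀ b, P.deg b ≤ n)
    (hnull : ∀ l, (cone y P).IsNullHtpic (Ideal.Quotient.mk (aI U ^ L) (β * U l ^ M)))
    (hL : (n + 1) * M * (a + 1) ≤ L) {t : H0 P} (ht : y • t = 0) :
    Ideal.Quotient.mk (aI U ^ L) (β ^ sExp n L a) • t ∈ powSub0 P y a := by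
  classical
  set mk := Ideal.Quotient.mk (aI U ^ L)
  -- multiples by `(β U_l ^ M) ^ a`
  have hpow : ∀ (k : ℕ) l (z : H0 P), mk (β * U l ^ M) ^ k • z ∈ powSub0 P y k := by
    intro k l
    induction k with
    | zero => intro z; exact mem_powSub0.2 ⟨z, by simp⟩
    | succ k ih =>
      intro z
      obtain ⟨h1, hh1⟩ := mem_powSub0.1 (ih z)
      obtain ⟨h2, hh2⟩ := mem_powSub0.1 (smul_mem_powSub0 (hnull l) h1)
      refine mem_powSub0.2 ⟨h2, ?_⟩
      rw [pow_succ y, mul_smul, ← pow_one y, hh2, pow_one, smul_comm, hh1, ← mul_smul, ← pow_succ']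
  have hJ : ∀ z ∈ (aI U ^ (L - (n + 1) * M)).map mk • (⊤ : Submodule (T ⧸ aI U ^ L) (H0 P)),
      mk (β ^ a) • z ∈ powSub0 P y a := by
    intro z hz
    refine Submodule.smul_induction_on hz (fun r hr h _ => ?_)
      fun z z' hz hz' => by rw [smul_add]; exact add_mem hz hz'
    obtain ⟨r, hr', rfl⟩ :=
      (Ideal.mem_map_iff_of_surjective mk Ideal.Quotient.mk_surjective).1 hr
    have hle : (n + 1) * (M * a) ≤ L - (n + 1) * M :=
      Nat.le_sub_of_add_le (le_trans (le_of_eq (by ring)) hL)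
    obtain ⟨c, rfl⟩ := Ideal.mem_span_range_iff_exists_fun.1
      (pow_le_span_pow U (M * a) (Ideal.pow_le_pow_right hle hr'))
    rw [map_sum, Finset.sum_smul, Finset.smul_sum]
    refine sum_mem fun l _ => ?_
    rw [smul_smul, ← map_mul, show β ^ a * (c l * U l ^ (M * a)) = c l * (β * U l ^ M) ^ a by
      rw [mul_pow, pow_mul]; ring, map_mul, mul_smul, map_pow]
    exact Submodule.smul_mem _ _ (hpow a l h)
  obtain ⟨u, rfl⟩ := Submodule.Quotient.mk_surjective _ t
  rw [← Submodule.Quotient.mk_smul, Submodule.Quotient.mk_eq_zero, mem_img0] at ht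
  obtain ⟨x, hx, hxe⟩ := ht
  set v : (cone y P).β → (T ⧸ aI U ^ L) := Sum.elim (-x) (u : P.β → (T ⧸ aI U ^ L))
  have hv : v ∈ (cone y P).degSub (T ⧸ aI U ^ L) ((0 + 1 : ℕ) : ℤ) := (MCx.mem_degSub (T ⧸ aI U ^ L)).2 fun b hb => by
    rcases b with b | b
    · exact neg_eq_zero.2 ((MCx.mem_degSub (T ⧸ aI U ^ L)).1 hx b (by simpa [cone] using hb))
    · exact (MCx.mem_degSub (T ⧸ aI U ^ L)).1 u.2 b (fun h => hb (by simp [cone] at h ⊢; omega))
  have hDv : (cone y P).dlin (T ⧸ aI U ^ L) v = 0 := by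
    show mlin (T ⧸ aI U ^ L) (cone y P).D v = 0
    funext b
    rcases b with b | b
    · rw [(cone_apply y P v b).1]
      have : mlin (T ⧸ aI U ^ L) P.D (fun c => v (Sum.inl c)) = -mlin (T ⧸ aI U ^ L) P.D x := by
        rw [← map_neg]; rfl
      rw [this, hxe]
      simp [v]
      rfl
    · rw [(cone_apply y P v b).2]
      simp [v, dlin_deg0 P u.2]
      rfl
  obtain ⟨X, hX, hXe⟩ := acyclic hreg (cone y P) (cone_deg_le hP) hnull 0 v hv hDv
  rw [MCx.mem_degSub] at hX
  set E := (n + 1) * (1 + L * (L + 1))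
  let x2 : P.β → (T ⧸ aI U ^ L) := fun b => X (Sum.inr b)
  have hx2 : x2 ∈ P.degSub (T ⧸ aI U ^ L) 1 := (MCx.mem_degSub (T ⧸ aI U ^ L)).2 fun b hb =>
    hX (Sum.inr b) (by show ((P.deg b + 1 : ℕ) : ℤ) ≠ _; push_cast; omega)
  have hD2 : mlin (T ⧸ aI U ^ L) P.D x2 ∈ Deg0 P :=
    (MCx.mlin_deg (T ⧸ aI U ^ L) P.D (-1) 1 (fun a b hab => by have := P.homog a b hab; omega) hx2 :)
  have hw : ∀ b, (mk (β ^ E) • u + ⟨_, hD2⟩ : Deg0 P).1 b ∈
      (aI U ^ (L - (n + 1) * M)).map mk := fun b => by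
    have := hXe (Sum.inr b)
    rw [show (cone y P).dlin (T ⧸ aI U ^ L) X (Sum.inr b) = _ from (cone_apply y P X b).2, sub_neg_eq_add] at this
    simpa [v, x2] using this
  have h1 := mem_smul_top _ hw
  rw [Submodule.Quotient.mk_add, (Submodule.Quotient.mk_eq_zero _).2
    (show (⟨_, hD2⟩ : Deg0 P) ∈ img0 P from mem_img0.2 ⟨x2, hx2, rfl⟩), add_zero, Submodule.Quotient.mk_smul] at h1
  have h2 := hJ _ h1
  rwa [smul_smul, ← map_mul, ← pow_add, Nat.add_comm a] at h2

section Lam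

variable {A₀ B : Type*} [CommRing A₀] [CommRing B] [Algebra A₀ B] [IsNoetherianRing A₀]
  [Algebra A₀ T] [Algebra B T] [IsScalarTower A₀ B T]
variable {A : ℕ → Subalgebra A₀ B} {c : ℕ}

section Killed

variable [Algebra A₀ N] [Algebra B N] [IsScalarTower A₀ B N]
variable {F G : Type*} [AddCommGroup F] [Module N F] [Module A₀ F] [Module B F]
  [IsScalarTower A₀ B F] [IsScalarTower B N F]
  [AddCommGroup G] [Module N G] [Module A₀ G] [Module B G]
  [IsScalarTower A₀ B G] [IsScalarTower B N G]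

/-- Kernel and cokernel of an endomorphism. -/
theorem lam_ker_eq (h : IsTower A c) (φ : F →ₗ[B] F) (hF : lam A c F ≠ ⊤) :
    lam A c (LinearMap.ker φ) = lam A c (F ⧸ LinearMap.range φ) := by
  have h1 := lam_eq_add h φ.ker.subtype φ.rangeRestrict φ.ker.subtype_injective
    φ.surjective_rangeRestrict (LinearMap.exact_iff.2 (by simp))
  have h2 := lam_eq_add h φ.range.subtype φ.range.mkQ φ.range.subtype_injective
    φ.range.mkQ_surjective (LinearMap.exact_subtype_mkQ _)
  have hR : lam A c φ.range ≠ ⊤ :=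
    ne_top_of_le_ne_top hF (lam_le_of_injective _ φ.range.subtype_injective)
  rw [h1, add_comm] at h2
  exact (ENNReal.add_right_inj hR).1 h2

/-- An exact sequence `X → Y → Z → 0`. -/
theorem lam_right_exact {X Y Z : Type*} [AddCommGroup X] [Module A₀ X] [Module B X]
    [IsScalarTower A₀ B X] [AddCommGroup Y] [Module A₀ Y] [Module B Y] [IsScalarTower A₀ B Y]
    [AddCommGroup Z] [Module A₀ Z] [Module B Z] [IsScalarTower A₀ B Z]
    (h : IsTower A c) (f : X →ₗ[B] Y) (g : Y →ₗ[B] Z) (hg : Function.Surjective g)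
    (hex : LinearMap.ker g = LinearMap.range f) :
    lam A c X + lam A c Z ≤ lam A c Y + lam A c (LinearMap.ker f) := by
  rw [lam_eq_add h f.ker.subtype f.rangeRestrict f.ker.subtype_injective
    f.surjective_rangeRestrict (LinearMap.exact_iff.2 (by simp)), add_assoc,
    add_comm (lam A c Y)]
  refine add_le_add le_rfl (lam_add_le f.range.subtype g f.range.subtype_injective hg ?_)
  rw [LinearMap.exact_iff, hex, Submodule.range_subtype]

omit [Algebra A₀ N] [IsScalarTower A₀ B N] in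
/-- A submodule of a quotient killed by `e` is at most as long as the cotorsion of `e`. -/
theorem lam_sub_killed (h : IsTower A c) (q : F →ₗ[N] G) (hq : Function.Surjective q)
    (hF : lam A c F ≠ ⊤) (e : N) (K : Submodule B G) (hK : ∀ z ∈ K, e • z = 0) :
    lam A c K ≤ lam A c (F ⧸ LinearMap.range ((LinearMap.lsmul N F e).restrictScalars B)) := by
  set φ := (LinearMap.lsmul N F e).restrictScalars B
  set Z := K.comap (q.restrictScalars B)
  have hφZ : ∀ z ∈ Z, φ z ∈ Z := fun z hz => by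
    show q (e • z) ∈ K
    rw [map_smul, hK (q z) hz]
    exact zero_mem K
  set ψ : Z →ₗ[B] Z := φ.restrict hφZ
  let r : Z →ₗ[B] K := (q.restrictScalars B).restrict fun z hz => hz
  have hr : Function.Surjective r := fun k => by
    obtain ⟨f, hf⟩ := hq k
    exact ⟨⟨f, show q f ∈ K from hf ▸ k.2⟩, Subtype.ext hf⟩
  have hle : LinearMap.range ψ ≤ LinearMap.ker r := by
    rintro _ ⟨z, rfl⟩
    refine LinearMap.mem_ker.2 (Subtype.ext ?_)
    show q (e • (z : F)) = 0
    rw [map_smul, hK (q (z : F)) z.2]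
  have hs : Function.Surjective ((LinearMap.range ψ).liftQ r hle) := fun k => by
    obtain ⟨z, hz⟩ := hr k
    exact ⟨Submodule.Quotient.mk z, hz⟩
  refine (lam_le_of_surjective _ hs).trans ?_
  rw [← lam_ker_eq h ψ (ne_top_of_le_ne_top hF (lam_le_of_injective _ Z.subtype_injective)),
    ← lam_ker_eq h φ hF]
  refine lam_le_of_injective ((Z.subtype ∘ₗ (LinearMap.ker ψ).subtype).codRestrict _ fun z => ?_) ?_
  · exact LinearMap.mem_ker.2 (congrArg Subtype.val (LinearMap.mem_ker.1 z.2))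
  · intro x x' hxx
    exact Subtype.ext (Subtype.ext (congrArg Subtype.val hxx :))

/-- The quotient by a power is at most a multiple of the quotient. -/
theorem lam_pow_quot (h : IsTower A c) (b : N) (E : ℕ) :
    lam A c (N ⧸ Ideal.span {b ^ E}) ≤ (E : ℝ≥0∞) * lam A c (N ⧸ Ideal.span {b}) := by
  induction E with
  | zero =>
    have : Subsingleton (N ⧸ Ideal.span {b ^ 0}) :=
      Ideal.Quotient.subsingleton_iff.2 (by simp)
    simp [lam_of_subsingleton]
  | succ E ih =>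
    have hle : Ideal.span {b ^ (E + 1)} ≤ Ideal.span {b ^ E} :=
      Ideal.span_singleton_le_span_singleton.2 (pow_dvd_pow b E.le_succ)
    set π : (N ⧸ Ideal.span {b ^ (E + 1)}) →ₗ[B] N ⧸ Ideal.span {b ^ E} :=
      (Ideal.Quotient.factorₐ B hle).toLinearMap
    refine (lam_le_add h (LinearMap.ker π).subtype π (Submodule.subtype_injective _)
      (LinearMap.exact_subtype_ker_map π)).trans ?_
    rw [Nat.cast_add, Nat.cast_one, add_mul, one_mul, add_comm]
    refine add_le_add ih ?_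
    let g : (N ⧸ Ideal.span {b}) →ₗ[N] N ⧸ Ideal.span {b ^ (E + 1)} :=
      (Ideal.span {b}).liftQ (LinearMap.toSpanSingleton N _ (Ideal.Quotient.mk _ (b ^ E))) (by
        intro x hx
        obtain ⟨d, rfl⟩ := Ideal.mem_span_singleton'.1 hx
        show (d * b) • Ideal.Quotient.mk _ (b ^ E) = 0
        refine Ideal.Quotient.eq_zero_iff_mem.2 (Ideal.mem_span_singleton'.2 ⟨d, ?_⟩)
        simp [pow_succ]; ring)
    have hg : LinearMap.ker π ≤ LinearMap.range (g.restrictScalars B) := by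
      intro z hz
      obtain ⟨z, rfl⟩ := Ideal.Quotient.mk_surjective z
      obtain ⟨d, rfl⟩ := Ideal.mem_span_singleton'.1
        (Ideal.Quotient.eq_zero_iff_mem.1 (show Ideal.Quotient.mk _ z = 0 from hz))
      exact ⟨Ideal.Quotient.mk _ d, rfl⟩
    exact (lam_le_of_injective (Submodule.inclusion hg) (Submodule.inclusion_injective hg)).trans
      (lam_le_of_surjective _ (g.restrictScalars B).surjective_rangeRestrict)

end Killed

/-- The error term. -/
noncomputable abbrev errQ (A : ℕ → Subalgebra A₀ B) (c : ℕ) (U : Fin (n + 1) → T) (β : T)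
    (L : ℕ) : ℝ≥0∞ := lam A c (T ⧸ (Ideal.span {β} ⊔ aI U ^ L))

omit [IsNoetherianRing A₀] in
theorem lam_beta_quot :
    lam A c ((T ⧸ aI U ^ L) ⧸ Ideal.span {Ideal.Quotient.mk (aI U ^ L) β}) ≤ errQ A c U β L := by
  set I := Ideal.span {β} ⊔ aI U ^ L
  refine lam_quotient_le_of_ker (M := T ⧸ aI U ^ L)
    (Ideal.Quotient.factorₐ B (le_sup_right : aI U ^ L ≤ I)).toLinearMap
    (I := (Ideal.span {Ideal.Quotient.mk (aI U ^ L) β}).restrictScalars B) ?_
  intro z hz
  obtain ⟨z, rfl⟩ := Ideal.Quotient.mk_surjective z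
  obtain ⟨u, hu, w, hw, rfl⟩ := Submodule.mem_sup.1
    (Ideal.Quotient.eq_zero_iff_mem.1 (show Ideal.Quotient.mk I z = 0 from hz))
  obtain ⟨d, rfl⟩ := Ideal.mem_span_singleton'.1 hu
  rw [map_add, Ideal.Quotient.eq_zero_iff_mem.2 hw, add_zero, map_mul]
  exact Ideal.mem_span_singleton'.2 ⟨_, rfl⟩

theorem lam_deg0_quot (h : IsTower A c) (P : MCx (T ⧸ aI U ^ L)) (E : ℕ) :
    lam A c (Deg0 P ⧸ LinearMap.range ((LinearMap.lsmul (T ⧸ aI U ^ L) (Deg0 P)
      (Ideal.Quotient.mk (aI U ^ L) β ^ E)).restrictScalars B)) ≤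
        (P.rank 0 : ℝ≥0∞) * (E * errQ A c U β L) := by
  classical
  set e := Ideal.Quotient.mk (aI U ^ L) β ^ E
  let ι := {b // P.deg b = 0}
  let f : Fin (Fintype.card ι) → P.β := fun i => ((Fintype.equivFin ι).symm i).1
  let g : Deg0 P →ₗ[T ⧸ aI U ^ L]
      (Fin (Fintype.card ι) → (T ⧸ aI U ^ L) ⧸ Ideal.span {e}) :=
    LinearMap.pi fun i => (Ideal.Quotient.mkₐ (T ⧸ aI U ^ L) (Ideal.span {e})).toLinearMap ∘ₗ LinearMap.proj (f i) ∘ₗ (Deg0 P).subtype
  refine (lam_quotient_le_of_ker (g.restrictScalars B) ?_).trans ?_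
  · intro v hv
    have hb : ∀ b, P.deg b = 0 → ∃ w, w * e = (v : P.β → T ⧸ aI U ^ L) b := fun b hb => by
      have := congrFun (show g v = 0 from hv) ((Fintype.equivFin ι) ⟨b, hb⟩)
      have : (v : P.β → T ⧸ aI U ^ L) b ∈ Ideal.span {e} :=
        Ideal.Quotient.eq_zero_iff_mem.1 (by simpa [g, f] using this)
      exact Ideal.mem_span_singleton'.1 this
    choose w hw using hb
    refine ⟨⟨fun b => if hb : P.deg b = 0 then w b hb else 0,
      (MCx.mem_degSub _).2 fun b hb => dif_neg fun h => hb (by simp [h])⟩,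
      Subtype.ext (funext fun b => ?_)⟩
    show e * (if hb : P.deg b = 0 then w b hb else 0) = _
    split_ifs with hb
    · rw [mul_comm]; exact hw b hb
    · rw [mul_zero, (MCx.mem_degSub _).1 v.2 b (by exact_mod_cast hb)]
  · rw [lam_pi h, show P.rank 0 = Fintype.card ι from (Fintype.card_subtype _).symm]
    refine mul_le_mul_right ?_ _
    exact (lam_pow_quot h (Ideal.Quotient.mk (aI U ^ L) β) E).trans
      (mul_le_mul_right lam_beta_quot _)

/-- Submodules of `H_0 / y ^ a` killed by a power of `β`. -/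
theorem lam_killed_H0pow (h : IsTower A c) (P : MCx (T ⧸ aI U ^ L)) (y : T ⧸ aI U ^ L) (a E : ℕ)
    (hfin : lam A c (Deg0 P) ≠ ⊤) (K : Submodule B (H0pow P y a))
    (hK : ∀ z ∈ K, Ideal.Quotient.mk (aI U ^ L) β ^ E • z = 0) :
    lam A c K ≤ (P.rank 0 : ℝ≥0∞) * (E * errQ A c U β L) :=
  (lam_sub_killed h ((powSub0 P y a).mkQ ∘ₗ (img0 P).mkQ)
    ((Submodule.mkQ_surjective _).comp (Submodule.mkQ_surjective _)) hfin _ K hK).trans
      (lam_deg0_quot h P E)

/-- One step of scaling. -/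
theorem scale_step (h : IsTower A c) (hreg : RegUpTo U β L) (P : MCx (T ⧸ aI U ^ L))
    (y : T ⧸ aI U ^ L) {M a : ℕ} (hP : ∀ b, P.deg b ≤ n)
    (hnull : ∀ l, (cone y P).IsNullHtpic (Ideal.Quotient.mk (aI U ^ L) (β * U l ^ M)))
    (hL : (n + 1) * M * (a + 1) ≤ L) (hfin : lam A c (Deg0 P) ≠ ⊤) :
    lam A c (H0pow P y a) + lam A c (H0pow P y 1) ≤ lam A c (H0pow P y (a + 1)) +
      (P.rank 0 : ℝ≥0∞) * (sExp n L a * errQ A c U β L) := by
  set μ : H0pow P y a →ₗ[B] H0pow P y (a + 1) := (mulMap P y a).restrictScalars B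
  have hker : ∀ z ∈ LinearMap.ker μ, Ideal.Quotient.mk (aI U ^ L) β ^ sExp n L a • z = 0 := by
    intro z hz
    obtain ⟨z, rfl⟩ := Submodule.Quotient.mk_surjective _ z
    obtain ⟨w, hw⟩ := mem_powSub0.1
      ((Submodule.Quotient.mk_eq_zero _).1
        ((mulMap_mk P y a z).symm.trans (show mulMap P y a (Submodule.Quotient.mk z) = 0 from hz)))
    have ht : y • (z - y ^ a • w) = 0 := by
      rw [smul_sub, ← mul_smul, ← pow_succ', hw, sub_self]
    rw [← map_pow, ← Submodule.Quotient.mk_smul, Submodule.Quotient.mk_eq_zero,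
      show z = (z - y ^ a • w) + y ^ a • w by abel, smul_add]
    refine add_mem (torsion_mem hreg hP hnull hL ht) (Submodule.smul_mem _ _ ?_)
    exact mem_powSub0.2 ⟨w, rfl⟩
  have hK := lam_killed_H0pow h P y a (sExp n L a) hfin (LinearMap.ker μ) hker
  refine (lam_right_exact h μ ((projMap P y a).restrictScalars B) (projMap_surjective P y a) ?_).trans
    (add_le_add le_rfl hK)
  ext z
  exact SetLike.ext_iff.1 (ker_projMap P y a) z

/-- Scaling in one Koszul variable. -/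
theorem scale (h : IsTower A c) (hreg : RegUpTo U β L) (P : MCx (T ⧸ aI U ^ L))
    (y : T ⧸ aI U ^ L) {M : ℕ} (hP : ∀ b, P.deg b ≤ n)
    (hnull : ∀ l, (cone y P).IsNullHtpic (Ideal.Quotient.mk (aI U ^ L) (β * U l ^ M)))
    (hfin : lam A c (Deg0 P) ≠ ⊤) : ∀ a : ℕ, (n + 1) * M * a ≤ L →
    (a : ℝ≥0∞) * lam A c (H0pow P y 1) ≤ lam A c (H0pow P y a) +
      (a : ℝ≥0∞) * ((P.rank 0 : ℝ≥0∞) * (sExp n L a * errQ A c U β L)) := by
  intro a
  induction a with
  | zero => simp
  | succ a ih =>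
    intro hL
    have h1 := scale_step h hreg P y hP hnull hL hfin
    have h2 := ih (le_trans (Nat.mul_le_mul_left _ a.le_succ) hL)
    set X := lam A c (H0pow P y 1)
    set e : ℕ → ℝ≥0∞ := fun a => (P.rank 0 : ℝ≥0∞) * (sExp n L a * errQ A c U β L)
    have he : e a ≤ e (a + 1) :=
      mul_le_mul_right (mul_le_mul_left (Nat.cast_le.2 (by simp [sExp])) _) _
    calc ((a + 1 : ℕ) : ℝ≥0∞) * X = (a : ℝ≥0∞) * X + X := by push_cast; ring
      _ ≤ lam A c (H0pow P y a) + (a : ℝ≥0∞) * e a + X := add_le_add h2 le_rfl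
      _ = (lam A c (H0pow P y a) + X) + (a : ℝ≥0∞) * e a := by ring
      _ ≤ (lam A c (H0pow P y (a + 1)) + e a) + (a : ℝ≥0∞) * e a := add_le_add h1 le_rfl
      _ = lam A c (H0pow P y (a + 1)) + ((a + 1 : ℕ) : ℝ≥0∞) * e a := by push_cast; ring
      _ ≤ _ := add_le_add le_rfl (mul_le_mul_right he _)

omit [IsNoetherianRing A₀] in
/-- `H_0` of the cone. -/
theorem lam_H0_cone (y : T ⧸ aI U ^ L) (P : MCx (T ⧸ aI U ^ L)) :
    lam A c (H0 (cone y P)) = lam A c (H0pow P y 1) := by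
  let res : Deg0 (cone y P) →ₗ[(T ⧸ aI U ^ L)] Deg0 P :=
    (LinearMap.funLeft (T ⧸ aI U ^ L) (T ⧸ aI U ^ L) Sum.inl ∘ₗ (Deg0 (cone y P)).subtype).codRestrict (Deg0 P)
      fun v => (MCx.mem_degSub (T ⧸ aI U ^ L)).2 fun b hb => (MCx.mem_degSub (T ⧸ aI U ^ L)).1 v.2 (Sum.inl b) hb
  let Φ : Deg0 (cone y P) →ₗ[(T ⧸ aI U ^ L)] H0pow P y 1 := (powSub0 P y 1).mkQ ∘ₗ (img0 P).mkQ ∘ₗ res
  have hinr : ∀ v : Deg0 (cone y P), ∀ b, v.1 (Sum.inr b) = 0 := fun v b =>
    (MCx.mem_degSub (T ⧸ aI U ^ L)).1 v.2 (Sum.inr b) (by show ((P.deg b + 1 : ℕ) : ℤ) ≠ 0; omega)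
  have hsurj : Function.Surjective Φ := by
    refine ((Submodule.mkQ_surjective _).comp (Submodule.mkQ_surjective _)).comp fun u =>
      ⟨⟨Sum.elim u.1 0, (MCx.mem_degSub (T ⧸ aI U ^ L)).2 fun b hb => ?_⟩, rfl⟩
    rcases b with b | b
    · exact (MCx.mem_degSub (T ⧸ aI U ^ L)).1 u.2 b hb
    · rfl
  have hker : LinearMap.ker Φ = img0 (cone y P) := by
    ext v
    rw [LinearMap.mem_ker, mem_img0]
    constructor
    · intro hv
      obtain ⟨w, hw⟩ := mem_powSub0.1 ((Submodule.Quotient.mk_eq_zero _).1 hv)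
      obtain ⟨w, rfl⟩ := Submodule.Quotient.mk_surjective _ w
      rw [← Submodule.Quotient.mk_smul, pow_one, eq_comm, LinearMap.comp_apply, Submodule.mkQ_apply,
        Submodule.Quotient.eq, mem_img0] at hw
      obtain ⟨x, hx, hxe⟩ := hw
      refine ⟨Sum.elim x w.1, (MCx.mem_degSub (T ⧸ aI U ^ L)).2 fun b hb => ?_, funext fun b => ?_⟩
      · rcases b with b | b
        · exact (MCx.mem_degSub (T ⧸ aI U ^ L)).1 hx b hb
        · exact (MCx.mem_degSub (T ⧸ aI U ^ L)).1 w.2 b fun h => hb (by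
            show ((P.deg b + 1 : ℕ) : ℤ) = 1; omega)
      · rcases b with b | b
        · refine (cone_apply y P _ b).1.trans ?_
          have := congrFun hxe b
          simp only [Sum.elim_inl, Sum.elim_inr]
          rw [this]
          simp [res]
          rfl
        · refine (cone_apply y P _ b).2.trans ?_
          rw [hinr v b]
          simp [dlin_deg0 P w.2]
    · rintro ⟨X, hX, hXe⟩
      rw [MCx.mem_degSub] at hX
      let w : Deg0 P := ⟨fun b => X (Sum.inr b), (MCx.mem_degSub (T ⧸ aI U ^ L)).2 fun b hb =>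
        hX (Sum.inr b) (by show ((P.deg b + 1 : ℕ) : ℤ) ≠ 1; omega)⟩
      refine (Submodule.Quotient.mk_eq_zero _).2 (mem_powSub0.2 ⟨Submodule.Quotient.mk w, ?_⟩)
      rw [← Submodule.Quotient.mk_smul, pow_one, eq_comm, LinearMap.comp_apply, Submodule.mkQ_apply,
        Submodule.Quotient.eq, mem_img0]
      refine ⟨fun b => X (Sum.inl b), (MCx.mem_degSub (T ⧸ aI U ^ L)).2 fun b hb => hX (Sum.inl b) hb,
        funext fun b => ?_⟩
      have := congrFun hXe (Sum.inl b)
      rw [(cone_apply y P X b).1] at this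
      simp [w, res, eq_sub_iff_add_eq]
      exact this
  exact lam_congr ((Submodule.quotEquivOfEq _ _ hker.symm ≪≫ₗ
    Φ.quotKerEquivOfSurjective hsurj).restrictScalars B)

omit [IsNoetherianRing A₀] in
/-- `H_0 / y ^ a` as the `H_0` of a cone. -/
theorem lam_H0_cone_pow (y : T ⧸ aI U ^ L) (P : MCx (T ⧸ aI U ^ L)) (a : ℕ) :
    lam A c (H0 (cone (y ^ a) P)) = lam A c (H0pow P y a) := by
  rw [lam_H0_cone]
  exact lam_congr ((Submodule.quotEquivOfEq (powSub0 P (y ^ a) 1) (powSub0 P y a)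
    (by rw [powSub0, powSub0, pow_one])).restrictScalars B)

/-- Scaling, in terms of cones. -/
theorem scale_cone (h : IsTower A c) (hreg : RegUpTo U β L) (P : MCx (T ⧸ aI U ^ L))
    (y : T ⧸ aI U ^ L) {M : ℕ} (hP : ∀ b, P.deg b ≤ n)
    (hnull : ∀ l, (cone y P).IsNullHtpic (Ideal.Quotient.mk (aI U ^ L) (β * U l ^ M)))
    (hfin : lam A c (Deg0 P) ≠ ⊤) (a : ℕ) (hL : (n + 1) * M * a ≤ L) :
    (a : ℝ≥0∞) * lam A c (H0 (cone y P)) ≤ lam A c (H0 (cone (y ^ a) P)) +
      (a : ℝ≥0∞) * ((P.rank 0 : ℝ≥0∞) * (sExp n L a * errQ A c U β L)) := by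
  rw [lam_H0_cone, lam_H0_cone_pow]
  exact scale h hreg P y hP hnull hfin a hL

/-- The degree zero tuples have finite normalised length. -/
theorem lam_deg0_ne_top (h : IsTower A c) (P : MCx (T ⧸ aI U ^ L))
    (hT : lam A c (T ⧸ aI U ^ L) ≠ ⊤) : lam A c (Deg0 P) ≠ ⊤ := by
  refine ne_top_of_le_ne_top (b := lam A c (Fin (Fintype.card P.β) → T ⧸ aI U ^ L)) ?_ ?_
  · rw [lam_pi h]
    exact ENNReal.mul_ne_top (ENNReal.natCast_ne_top _) hT
  · refine lam_le_of_injective
      (((LinearMap.funLeft (T ⧸ aI U ^ L) (T ⧸ aI U ^ L) (Fintype.equivFin P.β).symm) ∘ₗ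
        (Deg0 P).subtype).restrictScalars B) fun v w hvw => Subtype.ext (funext fun b => ?_)
    simpa using congrFun hvw (Fintype.equivFin P.β b)

end Lam

end Vale.Agent.P202.Mixed2
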