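import Vale.Agent.P202.Mixed2.CoreBuild
import Vale.Agent.P202.Mixed2.Gonfle
import Vale.Agent.P202.Ext.Setup
import Vale.Agent.P202.Mixed2.Cover.Dim
import Mathlib.LinearAlgebra.TensorProduct.Pi

/-!
P202 mixed characteristic: the setting of the core. The flat extension `T` of a complete domain
`R` with closed fibre `K[[Z]]`, mapping onto a complete algebra `S` with algebraically closed
residue field `K`.
-/

namespace Vale.Agent.P202.Mixed2.Setup

open IsLocalRing Vale.Agent.P202.Char Vale.Agent.P202.Zero
open scoped TensorProduct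

set_option linter.unusedSectionVars false

universe u

variable {p : ℕ} [hp : Fact p.Prime]

/-- Maps of the bases are local. -/
theorem isLocalHom_base {V W : Type u} [CommRing V] [IsDomain V] [IsDiscreteValuationRing V]
    [CommRing W] [IsDomain W] [IsDiscreteValuationRing W] (hV : Irreducible (p : V))
    (hW : Irreducible (p : W)) {d D : ℕ}
    (ι : MvPowerSeries (Fin d) V →+* MvPowerSeries (Fin D) W) (e : Fin d → Fin D)
    (hX : ∀ i, ι (MvPowerSeries.X i) = MvPowerSeries.X (e i)) : IsLocalHom ι := by
  refine ((local_hom_TFAE ι).out 0 2).mpr ?_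
  refine (Ideal.map_mono (Choices.maximalIdeal_base_le hV)).trans ?_
  rw [Ideal.map_span, Ideal.span_le]
  rintro _ ⟨_, ⟨_ | i, rfl⟩, rfl⟩ <;>
    rw [SetLike.mem_coe, mem_maximalIdeal, mem_nonunits_iff,
      MvPowerSeries.isUnit_iff_constantCoeff] <;>
    simp [hX, hW.not_isUnit]

variable (K : Type u) [Field K] [CharP K p]

/-- The embedding of the fibre variables. -/
def emb (n h : ℕ) : Fin h ↪ Fin (n + h) := ⟨Fin.natAdd n, Fin.natAdd_injective h n⟩

/-- Reduction to the closed fibre of the base. -/
noncomputable def pi0 (n h : ℕ) : Base p K (n + h) →+* PS K h :=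
  (MvPowerSeries.map (WittVector.constantCoeff (p := p) (R := K))).comp
    (MvPowerSeries.killCompl (R := WittVector p K) (emb n h)).toRingHom

theorem pi0_apply (n h : ℕ) (f : Base p K (n + h)) : pi0 K n h f =
    MvPowerSeries.map (WittVector.constantCoeff (p := p) (R := K))
      (MvPowerSeries.killCompl (emb n h) f) := rfl

theorem pi0_surjective (n h : ℕ) : Function.Surjective (pi0 (p := p) K n h) := fun f => by
  choose g hg using fun a => WittVector.constantCoeff_surjective p (MvPowerSeries.coeff a f)
  let G : Base p K h := fun a => g a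
  refine ⟨MvPowerSeries.rename (emb n h) G, ?_⟩
  rw [pi0_apply, MvPowerSeries.killCompl_rename_app]
  exact MvPowerSeries.ext fun a =>
    (MvPowerSeries.coeff_map (WittVector.constantCoeff) a G).trans (hg a)

theorem pi0_C (n h : ℕ) (w : WittVector p K) :
    pi0 K n h (MvPowerSeries.C w) = MvPowerSeries.C (WittVector.constantCoeff w) := by
  rw [pi0_apply, MvPowerSeries.killCompl_C, MvPowerSeries.map_C]

theorem pi0_X_castAdd (n h : ℕ) (i : Fin n) :
    pi0 (p := p) K n h (MvPowerSeries.X (Fin.castAdd h i)) = 0 := by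
  rw [pi0_apply, MvPowerSeries.killCompl_X_eq_zero, map_zero]
  rintro ⟨j, hj⟩
  have := congrArg Fin.val hj
  simp [emb] at this
  omega

theorem pi0_ker (n h : ℕ) [PerfectRing K p] {f : Base p K (n + h)} (hf : pi0 K n h f = 0) :
    f ∈ Ideal.span {(p : Base p K (n + h))} ⊔
      Ideal.span (Set.range fun i : Fin n => MvPowerSeries.X (Fin.castAdd h i)) := by
  set W := WittVector p K
  set red := MvPowerSeries.map (σ := Fin (n + h)) (WittVector.constantCoeff (p := p) (R := K))
  have h1 : red f ∈ Ideal.span
      (Set.range fun i : Fin n => (MvPowerSeries.X (Fin.castAdd h i) : PS K (n + h))) := by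
    refine Ext.Setting.mem_span_of_coeff _ fun α hα => ?_
    obtain ⟨β, rfl⟩ : α ∈ Set.range
        (Finsupp.embDomain (emb n h)) := by
      rw [Finsupp.mem_range_embDomain_iff]
      intro y hy
      induction y using Fin.addCases with
      | left i => exact absurd (hα i) (Finsupp.mem_support_iff.1 hy)
      | right j => exact ⟨j, rfl⟩
    have h2 := congrArg (MvPowerSeries.coeff β) hf
    rw [map_zero] at h2
    exact h2
  obtain ⟨q, hq⟩ := Ideal.mem_span_range_iff_exists_fun.1 h1
  have hsurj : Function.Surjective red := fun g => by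
    choose w hw using fun a =>
      WittVector.constantCoeff_surjective p (MvPowerSeries.coeff a g)
    let G : Base p K (n + h) := fun a => w a
    exact ⟨G, MvPowerSeries.ext fun a => (MvPowerSeries.coeff_map _ a G).trans (hw a)⟩
  choose Q hQ using fun i => hsurj (q i)
  rw [← sub_add_cancel f (∑ i, Q i * MvPowerSeries.X (Fin.castAdd h i))]
  refine Submodule.add_mem_sup ?_ (Ideal.sum_mem _ fun i _ =>
    Ideal.mul_mem_left _ _ (Ideal.subset_span ⟨i, rfl⟩))
  obtain ⟨g, hg⟩ := BaseFlat.exists_of_map_eq_zero (WittVector.irreducible (k := K) p)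
    (f := f - ∑ i, Q i * MvPowerSeries.X (Fin.castAdd h i)) (by
      refine MvPowerSeries.ext fun a => ?_
      rw [MvPowerSeries.coeff_map, map_zero, residue_eq_zero_iff,
        ← IsLocalRing.eq_maximalIdeal (RingHom.ker_isMaximal_of_surjective
          (WittVector.constantCoeff (p := p) (R := K)) (WittVector.constantCoeff_surjective p)),
        RingHom.mem_ker, ← MvPowerSeries.coeff_map]
      change MvPowerSeries.coeff a (red _) = 0
      rw [map_sub, map_sum]
      simp only [map_mul, hQ]
      simp [red, ← hq])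
  rw [hg]
  exact Ideal.mul_mem_right _ _ (Ideal.mem_span_singleton_self _)

/-- Independent families stay independent after a flat change of rings. -/
theorem indep {A B R : Type u} [CommRing A] [CommRing B] [CommRing R] [Algebra A B] [Algebra A R]
    [Module.Flat A B] {r : ℕ} (v : Fin r → R)
    (hv : ∀ a : Fin r → A, ∑ i, a i • v i = 0 → a = 0) (b : Fin r → B)
    (hb : ∑ i, b i ⊗ₜ[A] v i = 0) : b = 0 := by
  classical
  have hinj : Function.Injective (Fintype.linearCombination A v) := by
    rw [injective_iff_map_eq_zero]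
    intro a ha
    exact hv a (by rwa [Fintype.linearCombination_apply] at ha)
  have h1 := Module.Flat.lTensor_preserves_injective_linearMap (M := B)
    (Fintype.linearCombination A v) hinj
  set x : B ⊗[A] (Fin r → A) := ∑ i, b i ⊗ₜ[A] Pi.single i 1
  have h2 : LinearMap.lTensor B (Fintype.linearCombination A v) x = 0 := by
    simp [x, map_sum, LinearMap.lTensor_tmul, Fintype.linearCombination_apply, Pi.single_apply,
      hb]
  have h3 : x = 0 := h1 (h2.trans (map_zero _).symm)
  have h4 := congrArg (TensorProduct.piScalarRight A A B (Fin r)) h3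
  rw [map_zero, map_sum] at h4
  refine Eq.trans ?_ h4
  funext j
  simp [Finset.sum_apply, Pi.single_apply]

variable [IsAlgClosed K]

/-- The setting from a map of the bases. -/
theorem exists_tensor {V R S : Type u} [CommRing V] [IsDomain V] [IsDiscreteValuationRing V]
    [CommRing R] [IsDomain R] [IsLocalRing R] [IsNoetherianRing R]
    [IsAdicComplete (maximalIdeal R) R] [CharP (ResidueField R) p] [CommRing S] [IsLocalRing S]
    [Algebra R S] (hV : Irreducible (p : V)) {n h : ℕ} (hdR : ringKrullDim R = (n + 1 : ℕ))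
    (Ch : Choices V R n) (ι : MvPowerSeries (Fin n) V →+* Base p K (n + h))
    (hιX : ∀ i, ι (MvPowerSeries.X i) = MvPowerSeries.X (Fin.castAdd h i))
    (ρ : ResidueField R →+* PS K h)
    (hρ : ∀ v, ρ (residue R (Ch.φ (MvPowerSeries.C v))) = pi0 K n h (ι (MvPowerSeries.C v)))
    (ψB : Base p K (n + h) →+* S) (hψB : Function.Surjective ψB)
    (hψι : ∀ a, ψB (ι a) = algebraMap R S (Ch.φ a)) :
    ∃ (T : Type u) (_ : CommRing T) (_ : IsLocalRing T) (_ : IsNoetherianRing T)
      (_ : IsAdicComplete (maximalIdeal T) T) (_ : CharP (ResidueField T) p)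
      (_ : IsAlgClosed (ResidueField T)) (_ : Algebra R T) (_ : Module.Flat R T)
      (_ : IsLocalHom (algebraMap R T)) (D : CoreData p T (n + h)) (π : T →+* PS K h)
      (ψ : T →+* S) (a : R), ringKrullDim T = (n + h + 1 : ℕ) ∧ a ≠ 0 ∧
        D.φ D.Φ.discr = algebraMap R T a ∧ Function.Surjective π ∧
        RingHom.ker π = (maximalIdeal R).map (algebraMap R T) ∧ Function.Surjective ψ ∧
        ∀ r, ψ (algebraMap R T r) = algebraMap R S r := by
  classical
  have hW : Irreducible (p : WittVector p K) := WittVector.irreducible p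
  let A := MvPowerSeries (Fin n) V
  let B := Base p K (n + h)
  let _ : Algebra A B := ι.toAlgebra
  let _ : Algebra A R := Ch.φ.toAlgebra
  have : Module.Finite A R := Ch.φ_finite
  have : Module.Flat A B := BaseFlat.flat hW hV ι _ (Fin.castAdd_injective _ _) hιX
  let T := B ⊗[A] R
  let ia : R →+* T := (Algebra.TensorProduct.includeRight (R := A) (A := B) (B := R)).toRingHom
  let ib : B →+* T := algebraMap B T
  have hia : ∀ r, ia r = (1 : B) ⊗ₜ[A] r := fun r => rfl
  have hib : ∀ b, ib b = b ⊗ₜ[A] (1 : R) := fun b => rfl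
  have hcomm : ∀ a, ib (ι a) = ia (Ch.φ a) := fun a => by
    rw [hia, hib]
    change algebraMap A B a ⊗ₜ[A] (1 : R) = (1 : B) ⊗ₜ[A] algebraMap A R a
    rw [Algebra.TensorProduct.tmul_one_eq_one_tmul]
  -- the fibre
  have : IsHausdorff (zI K h) (PS K h) := by
    have h0 : IsAdicComplete (Ideal.span (Set.range MvPowerSeries.X) : Ideal (PS K h)) (PS K h) :=
      inferInstance
    exact h0.toIsHausdorff
  have hres0 : ∀ i, residue R (Ch.φ (MvPowerSeries.X i)) = 0 := fun i =>
    (residue_eq_zero_iff _).2 (Ch.φ_X_mem i)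
  have hcompat : (pi0 K n h).comp ι = (ρ.comp (residue R)).comp Ch.φ :=
    Gonfle.hom_ext (zI K h) _ _ (fun v => (hρ v).symm)
      (fun i => by simp [hιX, pi0_X_castAdd, hres0])
      (fun i => by simp [hιX, pi0_X_castAdd])
  obtain ⟨π, hπ⟩ := Ext.Setup.exists_lift (pi0 (p := p) K n h) (ρ.comp (residue R))
    (RingHom.congr_fun hcompat)
  have hπb : ∀ b, π (ib b) = pi0 K n h b := fun b => by rw [hib, hπ, map_one, mul_one]
  have hπa : ∀ r, π (ia r) = ρ (residue R r) := fun r => by rw [hia, hπ, map_one, one_mul]; rfl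
  obtain ⟨ψ, hψ⟩ := Ext.Setup.exists_lift ψB (algebraMap R S) hψι
  have hπsurj : Function.Surjective π := fun f => by
    obtain ⟨b, rfl⟩ := pi0_surjective (p := p) K n h f
    exact ⟨ib b, hπb b⟩
  have : Nontrivial T := π.domain_nontrivial
  set J := (maximalIdeal R).map ia with hJ
  have hJker : J ≤ RingHom.ker π := Ideal.map_le_iff_le_comap.2 fun r hr => by
    rw [Ideal.mem_comap, RingHom.mem_ker, hπa, (residue_eq_zero_iff _).2 hr, map_zero]
  have hgen : ∀ t : T, t ∈ AddSubgroup.closure {y : T | ∃ b r, y = ib b * ia r} := fun t => by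
    induction t using TensorProduct.induction_on with
    | zero => exact zero_mem _
    | add a b ha hb => exact add_mem ha hb
    | tmul b r => exact AddSubgroup.subset_closure ⟨b, r, by
        rw [hia, hib, Algebra.TensorProduct.tmul_mul_tmul, mul_one, one_mul]⟩
  have hdec : ∀ t, ∃ b, t - ib b ∈ J := fun t => by
    induction hgen t using AddSubgroup.closure_induction with
    | mem y hy =>
      obtain ⟨b, r, rfl⟩ := hy
      obtain ⟨v, hv⟩ := Ch.residue_φ_surjective (residue R r)
      refine ⟨b * ι (MvPowerSeries.C v), ?_⟩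
      rw [map_mul, hcomm, ← mul_sub, ← map_sub]
      exact J.mul_mem_left _ (Ideal.mem_map_of_mem ia ((residue_eq_zero_iff _).1 (by
        rw [map_sub, show residue R (Ch.φ (MvPowerSeries.C v)) = residue R r from hv, sub_self])))
    | zero => exact ⟨0, by simp⟩
    | add a b _ _ ha hb =>
      obtain ⟨x, hx⟩ := ha
      obtain ⟨y, hy⟩ := hb
      exact ⟨x + y, by rw [map_add, add_sub_add_comm]; exact add_mem hx hy⟩
    | neg a _ ha =>
      obtain ⟨x, hx⟩ := ha
      exact ⟨-x, by rw [map_neg, ← neg_sub']; exact neg_mem hx⟩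
  have hpJ : ib (p : B) ∈ J := by
    rw [map_natCast, ← map_natCast ia]
    exact Ideal.mem_map_of_mem ia (WittMap.natCast_mem p)
  have hxJ : ∀ i, ib (MvPowerSeries.X (Fin.castAdd h i)) ∈ J := fun i => by
    rw [← hιX, hcomm]
    exact Ideal.mem_map_of_mem ia (Ch.φ_X_mem i)
  have hker : RingHom.ker π = J := by
    refine le_antisymm (fun t ht => ?_) hJker
    obtain ⟨b, hb⟩ := hdec t
    have h3 : pi0 K n h b = 0 := by
      have := hJker hb
      rwa [RingHom.mem_ker, map_sub, RingHom.mem_ker.1 ht, zero_sub, neg_eq_zero, hπb] at this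
    have h4 : ib b ∈ J := by
      have h5 := Ideal.mem_map_of_mem ib (pi0_ker K n h h3)
      rw [Ideal.map_sup, Ideal.map_span, Set.image_singleton, Ideal.map_span,
        ← Set.range_comp] at h5
      refine (sup_le ((Ideal.span_singleton_le_iff_mem _).2 hpJ) (Ideal.span_le.2 ?_)) h5
      rintro _ ⟨i, rfl⟩
      exact hxJ i
    have := add_mem hb h4
    rwa [sub_add_cancel] at this
  -- locality
  set Z := Ideal.span (Set.range fun j : Fin h => ib (MvPowerSeries.X (Fin.natAdd n j))) with hZ
  have hmB : (maximalIdeal B).map ib ≤ J ⊔ Z := by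
    refine (Ideal.map_mono (Choices.maximalIdeal_base_le hW)).trans ?_
    rw [Ideal.map_span, Ideal.span_le]
    rintro _ ⟨_, ⟨_ | i, rfl⟩, rfl⟩
    · exact Ideal.mem_sup_left hpJ
    · induction i using Fin.addCases with
      | left i => exact Ideal.mem_sup_left (hxJ i)
      | right j => exact Ideal.mem_sup_right (Ideal.subset_span ⟨j, rfl⟩)
  have hall : ∀ P : Ideal T, P.IsMaximal → J ⊔ Z ≤ P := by
    intro P hP
    have : Algebra.IsIntegral B T := inferInstance
    have h1 := Ideal.isMaximal_comap_of_isIntegral_of_isMaximal (R := B) P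
    have hBP : maximalIdeal B ≤ P.comap ib := (IsLocalRing.eq_maximalIdeal h1).ge
    have : IsLocalHom ι := isLocalHom_base hV hW ι _ hιX
    have hRP : ((P.comap ia).comap Ch.φ).IsMaximal := by
      rw [Ideal.comap_comap, show ia.comp Ch.φ = ib.comp ι from RingHom.ext fun a => (hcomm a).symm,
        ← Ideal.comap_comap]
      have h2 : P.comap ib = maximalIdeal B := IsLocalRing.eq_maximalIdeal h1
      have h4 : (maximalIdeal B).comap ι = maximalIdeal A := ((local_hom_TFAE ι).out 0 4).mp this
      rw [h2, h4]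
      exact maximalIdeal.isMaximal A
    have : (P.comap ia).IsPrime := hP.isPrime.comap _
    have : Algebra.IsIntegral A R := inferInstance
    have h3 : (P.comap ia).IsMaximal :=
      Ideal.isMaximal_of_isIntegral_of_isMaximal_comap (R := A) _ hRP
    refine sup_le (Ideal.map_le_iff_le_comap.2 (IsLocalRing.eq_maximalIdeal h3).ge) ?_
    rw [hZ, Ideal.span_le]
    rintro _ ⟨j, rfl⟩
    refine hBP ?_
    rw [mem_maximalIdeal, mem_nonunits_iff, MvPowerSeries.isUnit_iff_constantCoeff]
    simp
  have hres : ∀ t, ∃ w : WittVector p K, t - ib (MvPowerSeries.C w) ∈ J ⊔ Z := fun t => by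
    obtain ⟨b, hb⟩ := hdec t
    refine ⟨MvPowerSeries.constantCoeff b, ?_⟩
    have h1 : ib (b - MvPowerSeries.C (MvPowerSeries.constantCoeff b)) ∈ J ⊔ Z :=
      hmB (Ideal.mem_map_of_mem ib (by
        rw [mem_maximalIdeal, mem_nonunits_iff, MvPowerSeries.isUnit_iff_constantCoeff]
        simp))
    have h2 := add_mem (Ideal.mem_sup_left hb : _ ∈ J ⊔ Z) h1
    rwa [map_sub, sub_add_sub_cancel] at h2
  let κ₀ : K →+* T ⧸ (J ⊔ Z) := (WittVector.constantCoeff (p := p)).liftOfSurjective
    (WittVector.constantCoeff_surjective p)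
    ⟨(Ideal.Quotient.mk (J ⊔ Z)).comp (ib.comp MvPowerSeries.C), fun w hw => by
      rw [RingHom.mem_ker, RingHom.comp_apply, Ideal.Quotient.eq_zero_iff_mem]
      refine hmB (Ideal.mem_map_of_mem ib ?_)
      rw [mem_maximalIdeal, mem_nonunits_iff, MvPowerSeries.isUnit_iff_constantCoeff]
      change ¬IsUnit (MvPowerSeries.constantCoeff (MvPowerSeries.C w))
      rw [MvPowerSeries.constantCoeff_C, ← mem_nonunits_iff, ← mem_maximalIdeal,
        ← IsLocalRing.eq_maximalIdeal (RingHom.ker_isMaximal_of_surjective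
          (WittVector.constantCoeff (p := p) (R := K)) (WittVector.constantCoeff_surjective p))]
      exact hw⟩
  have hκ₀ : ∀ w, κ₀ (WittVector.constantCoeff w) =
      Ideal.Quotient.mk (J ⊔ Z) (ib (MvPowerSeries.C w)) := fun w =>
    RingHom.liftOfRightInverse_comp_apply _ _ _ _ w
  obtain ⟨P₀, hP₀⟩ := Ideal.exists_maximal T
  have hne : J ⊔ Z ≠ ⊤ := ne_top_of_le_ne_top hP₀.ne_top (hall P₀ hP₀)
  have : Nontrivial (T ⧸ (J ⊔ Z)) := Ideal.Quotient.nontrivial_iff.2 hne
  have hκbij : Function.Bijective κ₀ := ⟨κ₀.injective, fun y => by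
    obtain ⟨t, rfl⟩ := Ideal.Quotient.mk_surjective y
    obtain ⟨w, hw⟩ := hres t
    exact ⟨WittVector.constantCoeff w, (hκ₀ w).trans (Ideal.Quotient.eq.2 hw).symm⟩⟩
  have hmaxI : (J ⊔ Z).IsMaximal := Ideal.Quotient.maximal_of_isField _
    ((RingEquiv.ofBijective κ₀ hκbij).symm.toMulEquiv.isField (Field.toIsField K))
  have hlocT : IsLocalRing T := IsLocalRing.of_unique_max_ideal
    ⟨J ⊔ Z, hmaxI, fun P hP => (hmaxI.eq_of_le hP.ne_top (hall P hP)).symm⟩
  have hm : maximalIdeal T = J ⊔ Z := (IsLocalRing.eq_maximalIdeal hmaxI).symm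
  let κ : K ≃+* ResidueField T :=
    (RingEquiv.ofBijective κ₀ hκbij).trans (Ideal.quotEquivOfEq hm.symm)
  have hκ : ∀ w, κ (WittVector.constantCoeff w) = residue T (ib (MvPowerSeries.C w)) := fun w => by
    change Ideal.quotEquivOfEq hm.symm (κ₀ (WittVector.constantCoeff w)) = _
    rw [hκ₀]
    exact Ideal.quotEquivOfEq_mk _ _
  have : IsNoetherianRing T := IsNoetherianRing.of_finite B T
  have : IsAdicComplete (maximalIdeal (WittVector p K)) (WittVector p K) :=
    Gonfle.isAdicComplete_witt (p := p) K
  have : IsAdicComplete (maximalIdeal B) B := PSComplete.isAdicComplete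
  have : IsLocalHom ib := ((local_hom_TFAE ib).out 0 2).mpr (hmB.trans hm.ge)
  have : IsLocalHom (algebraMap B T) := this
  have : IsAdicComplete (maximalIdeal T) T := Zero.adicComplete_finite B T
  let _ : Algebra R T := ia.toAlgebra
  have : IsLocalHom (algebraMap R T) :=
    ((local_hom_TFAE ia).out 0 2).mpr (le_sup_left.trans hm.ge)
  have hflat : Module.Flat R T := by
    let c := (Algebra.TensorProduct.comm A R B).toRingEquiv
    have h1 : (algebraMap R (R ⊗[A] B)).Flat := RingHom.flat_algebraMap_iff.2 inferInstance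
    have h2 : ia = c.toRingHom.comp (algebraMap R (R ⊗[A] B)) := RingHom.ext fun r => by
      change (1 : B) ⊗ₜ[A] r = Algebra.TensorProduct.comm A R B (r ⊗ₜ[A] (1 : B))
      rw [Algebra.TensorProduct.comm_tmul]
    have h3 : ia.Flat := h2 ▸ RingHom.Flat.comp h1 (RingHom.Flat.of_bijective c.bijective)
    exact h3
  have : CharP (ResidueField T) p := charP_of_injective_ringHom (f := κ.toRingHom) κ.injective p
  have : IsAlgClosed (ResidueField T) := IsAlgClosed.of_ringEquiv _ _ κ
  have hdT : ringKrullDim T = (n + h + 1 : ℕ) := by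
    obtain ⟨d', e', hd', -, -⟩ := exists_multiplicity T
    have h1 : ringKrullDim (T ⧸ (maximalIdeal R).map (algebraMap R T)) = (h : ℕ) := by
      rw [ringKrullDim_eq_of_ringEquiv ((Ideal.quotEquivOfEq hker.symm).trans
        (RingHom.quotientKerEquivOfSurjective hπsurj))]
      exact le_antisymm Stage2.dim_ps_le (le_ringKrullDim_ps h)
    rw [hd', Stage2.dim_eq_add hdR hd' h1]
    exact_mod_cast congrArg (Nat.cast (R := WithBot ℕ∞)) (show n + 1 + h = n + h + 1 by omega)
  -- transport of the base to the residue field of `T`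
  let cW : WittVector p K ≃+* WittVector p (ResidueField T) :=
    RingEquiv.ofRingHom (WittVector.map κ.toRingHom) (WittVector.map κ.symm.toRingHom)
      (RingHom.ext fun w => WittVector.ext fun i => by
        simp [WittVector.map_coeff])
      (RingHom.ext fun w => WittVector.ext fun i => by
        simp [WittVector.map_coeff])
  let cB : Base p (ResidueField T) (n + h) →+* B := MvPowerSeries.map cW.symm.toRingHom
  let φ := ib.comp cB
  let ι' : A →+* Base p (ResidueField T) (n + h) :=
    (MvPowerSeries.map cW.toRingHom).comp ι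
  have hcB : ∀ b : B, cB (MvPowerSeries.map cW.toRingHom b) = b := fun b =>
    MvPowerSeries.ext fun a => by
      rw [MvPowerSeries.coeff_map, MvPowerSeries.coeff_map]
      exact cW.symm_apply_apply _
  have hι'X : ∀ i, ι' (MvPowerSeries.X i) = MvPowerSeries.X (Fin.castAdd h i) := fun i => by
    simp [ι', hιX]
  have hW' : Irreducible (p : WittVector p (ResidueField T)) := WittVector.irreducible p
  have hcBsurj : Function.Surjective cB := fun b => ⟨_, hcB b⟩
  have hcBinj : Function.Injective cB := fun a b hab => MvPowerSeries.ext fun i =>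
    cW.symm.injective (by
      have h1 := congrArg (MvPowerSeries.coeff i) hab
      rw [MvPowerSeries.coeff_map, MvPowerSeries.coeff_map] at h1
      exact h1)
  obtain ⟨D, hDφ, hDΦ⟩ := CoreBuild.exists_coreData (h := h) hdR hdT Ch φ
    (RingHom.Finite.comp (RingHom.finite_algebraMap.2 inferInstance)
      (RingHom.Finite.of_surjective cB hcBsurj))
    (fun w => by
      have h1 := hκ (cW.symm w)
      rw [← κ.eq_symm_apply] at h1
      change residue T (ib (MvPowerSeries.map cW.symm.toRingHom (MvPowerSeries.C w))) = _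
      rw [MvPowerSeries.map_C, ← κ.apply_symm_apply (residue T _)]
      change κ (κ.symm (residue T (ib (MvPowerSeries.C (cW.symm w))))) = _
      rw [← h1]
      exact κ.apply_symm_apply _)
    ι' (BaseFlat.flat hW' hV ι' _ (Fin.castAdd_injective _ _) hι'X)
    (isLocalHom_base hV hW' ι' _ hι'X)
    (fun a => by
      change ib (cB (MvPowerSeries.map cW.toRingHom (ι a))) = _
      rw [hcB, hcomm]
      rfl)
    hι'X
    (fun t => AddSubgroup.closure_mono (by
      rintro y ⟨b, r, rfl⟩
      exact ⟨MvPowerSeries.map cW.toRingHom b, r, by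
        change _ = ib (cB (MvPowerSeries.map cW.toRingHom b)) * ia r
        rw [hcB]⟩) (hgen t))
    (fun r v hv b hb => by
      have h1 := indep (A := A) (B := B) v (fun a ha => hv a (by
        simpa [Algebra.smul_def, RingHom.algebraMap_toAlgebra] using ha)) (fun i => cB (b i)) (by
        refine Eq.trans ?_ hb
        refine Finset.sum_congr rfl fun i _ => ?_
        change _ = ib (cB (b i)) * ia (v i)
        rw [hia, hib, Algebra.TensorProduct.tmul_mul_tmul, mul_one, one_mul])
      funext i
      exact hcBinj ((congrFun h1 i).trans (map_zero cB).symm))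
    (by
      rw [hm]
      refine congrArg (fun f => (maximalIdeal R).map (algebraMap R T) ⊔
        Ideal.span (Set.range f)) (funext fun j => ?_)
      change _ = ib (cB (MvPowerSeries.X (Fin.natAdd n j)))
      exact congrArg ib (MvPowerSeries.map_X _ _).symm)
  refine ⟨T, inferInstance, hlocT, inferInstance, inferInstance, inferInstance, inferInstance,
    ia.toAlgebra, hflat, inferInstance, D, π, ψ, Ch.φ Ch.Φ.discr, hdT, ?_, ?_, hπsurj, hker,
    fun s => ?_, fun r => ?_⟩
  · exact (map_ne_zero_iff Ch.φ Ch.φ_injective).2 Ch.discr_ne_zero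
  · rw [hDφ, hDΦ, CoreBuild.discr_map ι' Ch.monic Ch.natDegree_pos]
    change ib (cB (MvPowerSeries.map cW.toRingHom (ι Ch.Φ.discr))) = _
    rw [hcB, hcomm]
    rfl
  · obtain ⟨b, rfl⟩ := hψB s
    exact ⟨b ⊗ₜ 1, by rw [hψ, map_one, mul_one]⟩
  · change ψ ((1 : B) ⊗ₜ[A] r) = _
    rw [hψ, map_one, one_mul]

end Vale.Agent.P202.Mixed2.Setup
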