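import Vale.Agent.P202.Mixed2.Cover.Nilpotent
import Vale.Agent.P202.Mixed2.Cover.Loss

/-!
# The almost multiplicative maps of the cover

For every root `t` of the equation modulo `p ^ K`, `K` large, there is a map `σ : R → E.O` which is,
modulo `p ^ L`, additive, semilinear over the evaluation at `t` and multiplicative up to `β = σ 1`,
and which sends the maximal ideal below `(τ, ζ)` at every point. The loss `β` is the image of an
almost unit of the base, chosen before `K` and before the cover.
-/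

namespace Vale.Agent.P202.Mixed2

open Ideal IsLocalRing Polynomial Filter Vale.Agent.P202.Perf.Base BaseTower

universe u

section Val

variable {O : Type*} [CommRing O] {Γ : Type*} [LinearOrderedCommGroupWithZero Γ] {w : Valuation O Γ}

/-- An approximate root of a monic polynomial is bounded by its coefficients. -/
theorem val_le_of_root (P : O[X]) (hP : P.Monic) {y : O} {X r : Γ}
    (hcoeff : ∀ l < P.natDegree, w (P.coeff l) ≤ X ^ (P.natDegree - l))
    (hval : w (P.eval y) ≤ r ^ P.natDegree) (hD : 0 < P.natDegree) : w y ≤ max X r := by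
  by_contra hlt
  rw [not_le, max_lt_iff] at hlt
  have hy : 0 < w y := lt_of_le_of_lt zero_le hlt.1
  set D := P.natDegree with hDdef
  have heval : y ^ D = P.eval y - ∑ l ∈ Finset.range D, P.coeff l * y ^ l := by
    rw [eval_eq_sum_range, ← hDdef, Finset.sum_range_succ, hDdef, hP.coeff_natDegree]
    ring
  have h : w (y ^ D) < w y ^ D := by
    rw [heval]
    refine lt_of_le_of_lt (w.map_sub _ _) (max_lt ?_ ?_)
    · exact lt_of_le_of_lt hval (pow_lt_pow_left₀ hlt.2 zero_le hD.ne')
    · refine w.map_sum_lt (pow_ne_zero _ hy.ne') fun l hl => ?_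
      rw [Finset.mem_range] at hl
      rw [map_mul, map_pow]
      calc w (P.coeff l) * w y ^ l ≤ X ^ (D - l) * w y ^ l := mul_le_mul_left (hcoeff l hl) _
        _ < w y ^ (D - l) * w y ^ l := mul_lt_mul_of_pos_right
              (pow_lt_pow_left₀ hlt.1 zero_le (by omega)) (pow_pos hy _)
        _ = w y ^ D := by rw [← pow_add, Nat.sub_add_cancel hl.le]
  rw [map_pow] at h
  exact lt_irrefl _ h

/-- Elements of a power of an ideal at a point. -/
theorem val_le_of_mem_pow (hw : ∀ y, w y ≤ 1) {A : Type*} [CommRing A] (f : A →+* O) {I : Ideal A}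
    {X : Γ} (hI : ∀ x ∈ I, w (f x) ≤ X) : ∀ (n : ℕ) x, x ∈ I ^ n → w (f x) ≤ X ^ n := by
  intro n
  induction n with
  | zero => intro x _; rw [pow_zero]; exact hw _
  | succ n ih =>
    intro x hx
    rw [pow_succ] at hx ⊢
    induction hx using Submodule.mul_induction_on' with
    | mem_mul_mem a ha b hb =>
      rw [map_mul, map_mul]
      exact mul_le_mul' (ih a ha) (hI b hb)
    | add a _ b _ ha hb =>
      rw [map_add]
      exact w.map_add_le ha hb

theorem le_of_mul_le_pow {h z q : Γ} {A B : ℕ} (hh : q ^ A < h) (h1 : h * z ≤ q ^ (A + B)) :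
    z ≤ q ^ B := by
  by_contra hz
  rw [not_le] at hz
  refine lt_irrefl (q ^ (A + B)) (lt_of_lt_of_le ?_ h1)
  rw [pow_add]
  exact mul_lt_mul'' hh hz zero_le zero_le

end Val

namespace CoverExt

variable {p : ℕ} [hp : Fact p.Prime] {k : Type u} [Field k] [CharP k p] [PerfectRing k p] {d : ℕ}
variable (E : CoverExt p k (d + 1)) (t : E.B) {Γ : Type u} [LinearOrderedCommGroupWithZero Γ]

/-- The size of the second parameters at a point. -/
noncomputable def sideVal (w : Valuation E.O Γ) : Γ :=
  Finset.univ.sup' Finset.univ_nonempty fun l => w (sharp (E.inB (cX 0)) (E.sideY t l))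

theorem val_le_sideVal {w : Valuation E.O Γ} (hw : ∀ y, w y ≤ 1) {z : E.O} (hz : z ∈ E.sideI t) :
    w z ≤ E.sideVal t w := by
  induction hz using Submodule.span_induction with
  | mem z hz =>
    obtain ⟨l, rfl⟩ := hz
    exact Finset.le_sup' (fun l => w (sharp (E.inB (cX 0)) (E.sideY t l))) (Finset.mem_univ l)
  | zero => simp
  | add a b _ _ ha hb => exact w.map_add_le ha hb
  | smul c z _ hz =>
    rw [smul_eq_mul, map_mul]
    exact (mul_le_of_le_one_left' (hw c)).trans hz

omit [PerfectRing k p] in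
theorem sharp_sideVal {w : Valuation E.O Γ} : ∃ l, E.sideVal t w = w (sharp (E.inB (cX 0)) (E.sideY t l)) := by
  obtain ⟨l, -, hl⟩ := Finset.exists_mem_eq_sup' Finset.univ_nonempty
    fun l => w (sharp (E.inB (cX 0)) (E.sideY t l))
  exact ⟨l, hl⟩

/-- An approximation on the base is one on the cover. -/
theorem approximates_cover {h : Base p k d} {b : Cinf p k (d + 1)} {M : ℕ} (hb : Approximates h b M)
    {w : Valuation E.O Γ} (hw : IsPt w) :
    w (E.baseToO h - sharp (E.inB (cX 0)) (E.inB b)) ≤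
      w (p : E.O) * max (w (sharp (E.inB (cX 0)) (E.inB b))) (w (p : E.O) ^ M) := by
  have h1 := hb Γ _ (hw.comap E.inB)
  simpa [Valuation.comap_apply, map_sub, mapUntilt_sharp, E.baseToO_apply] using h1

end CoverExt

namespace CoreData

variable {p : ℕ} [hp : Fact p.Prime] {R : Type u} [CommRing R] [IsLocalRing R] {n : ℕ}
variable (C : CoreData p R n) [CharP (ResidueField R) p] [PerfectRing (ResidueField R) p]

/-- `t` is a root of the equation modulo `p ^ K`. -/
def IsRootAt (E : CoverExt p (ResidueField R) (n + 1)) (t : E.B) (K : ℕ) : Prop :=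
  (p : E.O) ^ K ∣ E.evQ t C.Φ

theorem isRootAt_of_split {E : CoverExt p (ResidueField R) (n + 1)} {K r : ℕ} {τ : Fin r → E.B}
    (h : (C.Φ.map (baseIso p (ResidueField R) n)).map
        (algebraMap (An p (ResidueField R) (Fin n) 0) (E.TK K)) =
      ∏ i, (Polynomial.X - Polynomial.C (E.sharpT K (τ i)))) (i : Fin r) :
    C.IsRootAt E (τ i) K := by
  have h1 : ((C.Φ.map (baseIso p (ResidueField R) n)).map
      (algebraMap (An p (ResidueField R) (Fin n) 0) (E.TK K))).eval (E.sharpT K (τ i)) = 0 := by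
    rw [h, eval_prod]
    exact Finset.prod_eq_zero (Finset.mem_univ i) (by simp)
  rw [IsRootAt, ← mem_span_singleton, ← Ideal.Quotient.eq_zero_iff_mem, ← h1, Polynomial.map_map,
    eval_map, CoverExt.evQ, coe_eval₂RingHom, Polynomial.hom_eval₂]
  rfl

/-- A representative of `h x`. -/
noncomputable def qOf (x : R) : (Base p (ResidueField R) n)[X] := (C.h_mul_mem x).choose

omit [CharP (ResidueField R) p] [PerfectRing (ResidueField R) p] in
theorem qOf_spec (x : R) : (C.qOf x).eval₂ C.φ C.θ = C.φ C.h * x := (C.h_mul_mem x).choose_spec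

theorem evQ_congr {E : CoverExt p (ResidueField R) (n + 1)} {t : E.B} {K : ℕ}
    (h : C.IsRootAt E t K) {P Q : (Base p (ResidueField R) n)[X]}
    (hPQ : P.eval₂ C.φ C.θ = Q.eval₂ C.φ C.θ) : (p : E.O) ^ K ∣ E.evQ t P - E.evQ t Q := by
  obtain ⟨c, hc⟩ := C.dvd_of_root (P - Q) (by rw [eval₂_sub, hPQ, sub_self])
  rw [← map_sub, hc, map_mul]
  exact dvd_mul_of_dvd_left h _

/-- A bound from a monic equation with coefficients in powers of an ideal. -/
theorem val_evQ_le {E : CoverExt p (ResidueField R) (n + 1)} {t : E.B} {K : ℕ}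
    (hroot : C.IsRootAt E t K) {Γ : Type u} [LinearOrderedCommGroupWithZero Γ]
    {w : Valuation E.O Γ} (hw : IsPt w) {Q : (Base p (ResidueField R) n)[X]}
    {P : ((Base p (ResidueField R) n)[X])[X]} (hP : P.Monic) (hdvd : C.Φ ∣ P.eval Q) {X : Γ}
    (hX : ∀ l < P.natDegree, w (E.evQ t (P.coeff l)) ≤ X ^ (P.natDegree - l)) {K' : ℕ}
    (hK : P.natDegree * K' ≤ K) : w (E.evQ t Q) ≤ max X (w (p : E.O) ^ K') := by
  have hD : 0 < P.natDegree := by
    by_contra h0
    rw [not_lt, Nat.le_zero] at h0
    rw [hP.natDegree_eq_zero] at h0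
    rw [h0, eval_one] at hdvd
    exact (Polynomial.Monic.natDegree_eq_zero C.monic).not.1 C.natDegree_pos.ne'
      (C.monic.eq_one_of_isUnit (isUnit_of_dvd_one hdvd))
  have : Nontrivial E.O := nontrivial_of_ne (1 : E.O) 0 fun h => hw.p_ne_zero (by
    rw [← mul_one (p : E.O), h, mul_zero, map_zero])
  have hdeg : (P.map (E.evQ t)).natDegree = P.natDegree := hP.natDegree_map (E.evQ t)
  refine val_le_of_root (P.map (E.evQ t)) (hP.map _) (fun l hl => ?_) ?_ (by rwa [hdeg])
  · rw [hdeg] at hl ⊢
    rw [coeff_map]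
    exact hX l hl
  · rw [hdeg, ← pow_mul, Polynomial.eval_map, Polynomial.eval₂_at_apply]
    obtain ⟨c, hc⟩ := hdvd
    rw [hc, map_mul]
    refine (Perf.val_le_of_dvd w hw.le_one (dvd_mul_of_dvd_left
      ((pow_dvd_pow _ hK).trans hroot) _)).trans ?_
    rw [map_pow, mul_comm]

theorem exists_bounds :
    ∃ D : ℕ, ∀ (E : CoverExt p (ResidueField R) (n + 1)) (t : E.B) (K K' : ℕ),
      C.IsRootAt E t K → D * K' + K' ≤ K →
      ∀ (Γ : Type u) [LinearOrderedCommGroupWithZero Γ] (w : Valuation E.O Γ), IsPt w →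
        (∀ x, w (E.evQ t (C.qOf x)) ≤ max (w (E.baseToO C.h)) (w (p : E.O) ^ K')) ∧
          ∀ i, w (E.evQ t (C.qOf (C.gen i))) ≤
            max (w (E.baseToO C.h) * E.sideVal t w) (w (p : E.O) ^ K') := by
  classical
  let : Algebra (Base p (ResidueField R) n) R := C.φ.toAlgebra
  have hfin : Module.Finite (Base p (ResidueField R) n) R := C.φ_finite
  obtain ⟨g, e, he⟩ := Module.Finite.exists_fin (R := Base p (ResidueField R) n) (M := R)
  choose Pe hPe hPe0 using fun i => (Algebra.IsIntegral.isIntegral (R := Base p (ResidueField R) n) (e i))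
  choose Qg hQg Pg hPg hPgc hPgd using C.bound
  refine ⟨(∑ i, (Pe i).natDegree) + ∑ i, (Pg i).natDegree, fun E t K K' hroot hK Γ _ w hw => ?_⟩
  set H := E.baseToO C.h with hH
  constructor
  · intro x
    have hgen : ∀ i, w (E.evQ t (C.qOf (e i))) ≤ max (w H) (w (p : E.O) ^ K') := by
      intro i
      set P := ((Pe i).scaleRoots C.h).map (Polynomial.C : Base p (ResidueField R) n →+* _)
      have hm : P.Monic := ((monic_scaleRoots_iff C.h).2 (hPe i)).map _
      have hd : P.natDegree = (Pe i).natDegree := by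
        rw [((monic_scaleRoots_iff C.h).2 (hPe i)).natDegree_map, natDegree_scaleRoots]
      refine C.val_evQ_le hroot hw hm ?_ (fun l hl => ?_) ?_
      · refine C.dvd_of_root _ ?_
        rw [eval_map, ← coe_eval₂RingHom, Polynomial.hom_eval₂,
          show (eval₂RingHom C.φ C.θ).comp Polynomial.C = C.φ from RingHom.ext fun a => by simp,
          coe_eval₂RingHom, C.qOf_spec]
        exact scaleRoots_eval₂_eq_zero C.φ (hPe0 i)
      · rw [hd] at hl ⊢
        rw [coeff_map, coeff_scaleRoots, E.evQ_C, map_mul, map_pow, map_mul, map_pow]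
        exact mul_le_of_le_one_left' (hw.le_one _)
      · rw [hd]
        refine le_trans (Nat.mul_le_mul_right K' ?_) (le_trans (Nat.le_add_right _ _) hK)
        exact le_add_right (Finset.single_le_sum (f := fun i => (Pe i).natDegree)
          (fun _ _ => Nat.zero_le _) (Finset.mem_univ i))
    obtain ⟨a, ha⟩ := (Submodule.mem_span_range_iff_exists_fun _).1 (he ▸ Submodule.mem_top (x := x))
    have hcong := C.evQ_congr hroot (P := C.qOf x)
      (Q := ∑ i, Polynomial.C (a i) * C.qOf (e i)) (by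
        rw [C.qOf_spec, eval₂_finsetSum, ← ha, Finset.mul_sum]
        refine Finset.sum_congr rfl fun i _ => ?_
        rw [eval₂_mul, eval₂_C, C.qOf_spec, Algebra.smul_def, RingHom.algebraMap_toAlgebra]
        ring)
    rw [show E.evQ t (C.qOf x) = (E.evQ t (C.qOf x) - E.evQ t (∑ i, Polynomial.C (a i) * C.qOf (e i)))
      + E.evQ t (∑ i, Polynomial.C (a i) * C.qOf (e i)) by ring]
    refine w.map_add_le ?_ ?_
    · refine le_max_of_le_right ((Perf.val_le_of_dvd w hw.le_one hcong).trans ?_)
      rw [map_pow]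
      exact pow_le_pow_right_of_le_one' (hw.le_one _) (le_trans (Nat.le_add_left _ _) hK)
    · rw [map_sum]
      refine w.map_sum_le fun i _ => ?_
      rw [map_mul, map_mul]
      exact (mul_le_of_le_one_left' (hw.le_one _)).trans (hgen i)
  · intro i
    have hcong := C.evQ_congr hroot (P := C.qOf (C.gen i)) (Q := Qg i)
      ((C.qOf_spec _).trans (hQg i).symm)
    have hQ : w (E.evQ t (Qg i)) ≤ max (w H * E.sideVal t w) (w (p : E.O) ^ K') := by
      refine C.val_evQ_le hroot hw (hPg i) (hPgd i) (fun l _ => ?_) ?_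
      · refine val_le_of_mem_pow hw.le_one (E.evQ t) (fun z hz => ?_) _ _ (hPgc i l)
        obtain ⟨z', hz', rfl⟩ := Ideal.mem_span_singleton_mul.1 hz
        rw [map_mul, map_mul, E.evQ_C]
        exact mul_le_mul_right (E.val_le_sideVal t hw.le_one (E.evQ_zIdeal t hz')) _
      · refine le_trans (Nat.mul_le_mul_right K' ?_) (le_trans (Nat.le_add_right _ _) hK)
        exact le_add_left (Finset.single_le_sum (f := fun i => (Pg i).natDegree)
          (fun _ _ => Nat.zero_le _) (Finset.mem_univ i))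
    rw [show E.evQ t (C.qOf (C.gen i)) =
      (E.evQ t (C.qOf (C.gen i)) - E.evQ t (Qg i)) + E.evQ t (Qg i) by ring]
    refine w.map_add_le (le_max_of_le_right ((Perf.val_le_of_dvd w hw.le_one hcong).trans ?_)) hQ
    rw [map_pow]
    exact pow_le_pow_right_of_le_one' (hw.le_one _) (le_trans (Nat.le_add_left _ _) hK)

/-- The map `σ` of a root, modulo `p ^ L`, with loss `β`. -/
structure SigmaMap (E : CoverExt p (ResidueField R) (n + 1)) (t : E.B) (L : ℕ) (β : E.O) where
  /-- the map -/
  toFun : R → E.O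
  map_add : ∀ x y, (p : E.O) ^ L ∣ toFun (x + y) - (toFun x + toFun y)
  map_smul : ∀ Q x, (p : E.O) ^ L ∣ toFun (eval₂ C.φ C.θ Q * x) - E.evQ t Q * toFun x
  map_one : (p : E.O) ^ L ∣ toFun 1 - β
  map_mul : ∀ x y, (p : E.O) ^ L ∣ toFun x * toFun y - β * toFun (x * y)
  bound : ∀ x ∈ maximalIdeal R, ∀ (Γ : Type u) [LinearOrderedCommGroupWithZero Γ]
    (w : Valuation E.O Γ), IsPt w → w (β * toFun x) ≤ E.sideVal t w
  bound_p : ∀ (Γ : Type u) [LinearOrderedCommGroupWithZero Γ] (w : Valuation E.O Γ), IsPt w →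
    w (β * β * (p : E.O)) ≤ E.sideVal t w

end CoreData

end Vale.Agent.P202.Mixed2
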