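import Vale.Agent.P202.Mixed2.WinAugCol

/-!
P202, mixed characteristic, windows: the complex tensor the Cech complex of the slice `0` and the
complex tensor the resolution of the sections evaluated at `U` have, between any two levels,
images in homology of the same measure.
-/

open scoped ENNReal

namespace Vale.Agent.P202.Mixed2

universe u v

namespace Gd

variable {T : Type u} [CommRing T] {V : Type*} [AddCommGroup V] [Module T V] (C : Gd T V)
  {V' : Type*} [AddCommGroup V'] [Module T V'] (C' : Gd T V')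

theorem move_conn {X Y W X₁ Y₁ : Submodule T V} (hb : C.bot ≤ X) (hb₁ : C.bot ≤ X₁) (hX : X ≤ X₁)
    (hY : Y ≤ Y₁) (hW : W ≤ C.top) (k : ℤ) (z : C.H Y W k) :
    C.conn (X := X₁) (Y := Y₁) hb₁ hW k (C.move hY (le_refl W) k z) =
      C.move hX hY (k - 1) (C.conn hb hW k z) := by
  induction z using Submodule.Quotient.induction_on with | _ z
  rfl

theorem move_hMap {X Y X₁ Y₁ : Submodule T V} {X' Y' X₁' Y₁' : Submodule T V'}
    (f : V →ₗ[T] V') {k m : ℤ}
    (hc : C.cyc X Y k ≤ (C'.cyc X' Y' m).comap f) (hb : C.bd X Y k ≤ (C'.bd X' Y' m).comap f)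
    (hc₁ : C.cyc X₁ Y₁ k ≤ (C'.cyc X₁' Y₁' m).comap f)
    (hb₁ : C.bd X₁ Y₁ k ≤ (C'.bd X₁' Y₁' m).comap f)
    (hX : X ≤ X₁) (hY : Y ≤ Y₁) (hX' : X' ≤ X₁') (hY' : Y' ≤ Y₁') (z : C.H X Y k) :
    C.hMap C' f hc₁ hb₁ (C.move hX hY k z) = C'.move hX' hY' m (C.hMap C' f hc hb z) := by
  induction z using Submodule.Quotient.induction_on with | _ z
  rfl

end Gd

namespace Meas

variable {T : Type u} [CommRing T] (μ : Meas T)

/-- Maps which agree up to negligible modules have ranges of the same measure. -/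
theorem range_eq_of_almost {M₂ M₁ N₂ N₁ : Type u} [AddCommGroup M₂] [Module T M₂]
    [AddCommGroup M₁] [Module T M₁] [AddCommGroup N₂] [Module T N₂] [AddCommGroup N₁]
    [Module T N₁] (r : M₂ →ₗ[T] M₁) (r' : N₂ →ₗ[T] N₁) (e₂ : M₂ →ₗ[T] N₂) (e₁ : M₁ →ₗ[T] N₁)
    (h : ∀ z, e₁ (r z) = r' (e₂ z)) (hk : μ.val (LinearMap.ker e₁) = 0)
    (hc : μ.val (N₂ ⧸ LinearMap.range e₂) = 0) :
    μ.val (LinearMap.range r') = μ.val (LinearMap.range r) := by
  set R₀ := LinearMap.range (r' ∘ₗ e₂)
  have h1 : μ.val (LinearMap.range r) = μ.val R₀ := by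
    set g := e₁ ∘ₗ (LinearMap.range r).subtype
    have hg : μ.val (LinearMap.ker g) = 0 := by
      refine μ.null_of_le (μ.le_of_injective
        (((LinearMap.range r).subtype ∘ₗ (LinearMap.ker g).subtype).codRestrict
          (LinearMap.ker e₁) fun x => x.2) fun x y hxy => ?_) hk
      refine Subtype.ext (Subtype.ext ?_)
      have h' := congrArg Subtype.val hxy
      exact h'
    rw [μ.eq_ker_add_range g, hg, zero_add]
    have hr : LinearMap.range g = R₀ := by
      rw [LinearMap.range_comp, Submodule.range_subtype, ← LinearMap.range_comp]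
      congr 1
      exact LinearMap.ext h
    rw [hr]
  refine le_antisymm ?_ (h1.trans_le (μ.mono (LinearMap.range_comp_le_range _ _)))
  set g := R₀.mkQ ∘ₗ (LinearMap.range r').subtype
  have hg : μ.val (LinearMap.range g) = 0 := by
    let l : (N₂ ⧸ LinearMap.range e₂) →ₗ[T] N₁ ⧸ R₀ :=
      Submodule.liftQ _ (R₀.mkQ ∘ₗ r') (by
        rintro _ ⟨z, rfl⟩
        exact (Submodule.Quotient.mk_eq_zero _).2 ⟨z, rfl⟩)
    refine μ.null_of_le ((μ.mono ?_).trans (μ.range_le l)) hc
    rintro _ ⟨⟨_, z, rfl⟩, rfl⟩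
    exact ⟨Submodule.Quotient.mk z, rfl⟩
  rw [h1, μ.eq_ker_add_range g, hg, add_zero]
  refine μ.le_of_injective
    (((LinearMap.range r').subtype ∘ₗ (LinearMap.ker g).subtype).codRestrict R₀ fun x =>
      (Submodule.Quotient.mk_eq_zero R₀).1 (LinearMap.mem_ker.1 x.2)) fun x y hxy => ?_
  refine Subtype.ext (Subtype.ext ?_)
  have h' := congrArg Subtype.val hxy
  exact h'

theorem range_eq_of_bij {M₂ M₁ N₂ N₁ : Type u} [AddCommGroup M₂] [Module T M₂]
    [AddCommGroup M₁] [Module T M₁] [AddCommGroup N₂] [Module T N₂] [AddCommGroup N₁]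
    [Module T N₁] (r : M₂ →ₗ[T] M₁) (r' : N₂ →ₗ[T] N₁) (e₂ : M₂ →ₗ[T] N₂) (e₁ : M₁ →ₗ[T] N₁)
    (h : ∀ z, e₁ (r z) = r' (e₂ z)) (h₁ : Function.Bijective e₁) (h₂ : Function.Bijective e₂) :
    μ.val (LinearMap.range r') = μ.val (LinearMap.range r) := by
  refine μ.range_eq_of_almost r r' e₂ e₁ h (μ.zero _ ?_) (μ.zero _ ?_)
  · exact ⟨fun x y => Subtype.ext (h₁.1 ((LinearMap.mem_ker.1 x.2).trans
      (LinearMap.mem_ker.1 y.2).symm))⟩
  · exact Submodule.Quotient.subsingleton_iff.2 (LinearMap.range_eq_top.2 h₂.2)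

end Meas

namespace Win

open Vale.Agent.P202.Char

variable {T : Type u} [CommRing T] {n : ℕ} {U : Fin (n + 1) → T} {β : T} {L J M : ℕ}
  (P : Lift U β L J M)

namespace Lift

theorem withCol_sq_add {V : Type*} [AddCommGroup V] [Module T V] (d : V →ₗ[T] V) (x : P.ι → V)
    (b : P.ι) : P.withCol d (P.withCol d x) b =
      (∑ b'', (P.D * P.D) b b'' • x b'') + d (d (x b)) := by
  rw [withCol_apply]
  have h1 : d (P.withCol d x b) =
      (∑ b', P.D b b' • d (x b')) + ((-1 : T) ^ P.deg b) • d (d (x b)) := by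
    rw [withCol_apply, map_add, map_sum, map_smul]
    simp only [map_smul]
  have hsign : ((-1 : T) ^ P.deg b) * (-1 : T) ^ P.deg b = 1 := by
    rw [← mul_pow, neg_one_mul, neg_neg, one_pow]
  rw [h1, smul_add, smul_smul, hsign, one_smul, ← add_assoc]
  congr 1
  simp only [withCol_apply, smul_add, Finset.sum_add_distrib, Finset.smul_sum, smul_smul]
  rw [add_assoc, ← Finset.sum_add_distrib, Finset.sum_eq_zero (f := fun b' =>
    (P.D b b' * (-1) ^ P.deg b') • d (x b') + ((-1) ^ P.deg b * P.D b b') • d (x b')), add_zero,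
    Finset.sum_comm]
  · exact Finset.sum_congr rfl fun b'' _ => by rw [Matrix.mul_apply, Finset.sum_smul]
  · intro b' _
    rw [← add_smul]
    by_cases h : P.deg b' = P.deg b + 1
    · convert zero_smul T (d (x b'))
      rw [h, pow_succ]
      ring
    · simp [P.homog b b' h]

theorem withCol_stable {V : Type*} [AddCommGroup V] [Module T V] (d : V →ₗ[T] V)
    (S : Submodule T V) (h : ∀ v ∈ S, d v ∈ S) :
    (Submodule.pi Set.univ fun _ : P.ι => S).map (P.withCol d) ≤
      Submodule.pi Set.univ fun _ : P.ι => S := by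
  rintro _ ⟨x, hx, rfl⟩ b -
  rw [SetLike.mem_coe, withCol_apply]
  exact add_mem (sum_mem fun b' _ => Submodule.smul_mem _ _ (hx b' trivial))
    (Submodule.smul_mem _ _ (h _ (hx b trivial)))

variable (lam : Fin (n + 1) → T) {a : Fin n → ℤ} {Z : Type v} [CommRing Z] [Algebra Z T]
  {lamZ : Fin (n + 1) → Z} (R : WinRes.{v, u} lamZ a)

/-- The level `A` of the resolution and the level `B` of the slice, in every column. -/
noncomputable def augLev (A B : ℕ) :
    Submodule T (P.ι → (R.G.β → T) × (Chart n → Tot T n ℕ)) :=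
  Submodule.pi Set.univ fun _ => pairV U lam R A B

theorem augLev_anti {A B A' B' : ℕ} (h : A ≤ A') (h' : B ≤ B') :
    P.augLev lam R A' B' ≤ P.augLev lam R A B :=
  fun _ hx b _ => pairV_anti U R h h' (hx b trivial)

variable (hl : ∀ k, algebraMap Z T (lamZ k) = lam k)

/-- The complex tensor the cone of the augmentation, modulo the level `W`. -/
noncomputable def augTot {W : ℕ} (hW : W ≤ L) :
    Gd T (P.ι → (R.G.β → T) × (Chart n → Tot T n ℕ)) where
  D := P.withCol (coneD U R)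
  deg k := Submodule.pi Set.univ fun b => coneDeg R (k - P.deg b)
  bot := P.augLev lam R W W
  top := P.augLev lam R 0 0
  map_deg k := P.withCol_deg _ _ (coneD_deg U R) k
  sq x hx b _ := by
    rw [SetLike.mem_coe, P.withCol_sq_add]
    refine add_mem (sum_mem fun b'' _ => ?_) (coneD_coneD U R hl W _)
    refine ⟨(mem_resVec R).2 fun g => ?_, smul_mem_cut lam a hW (P.sq b b'') (hx b'' trivial).2⟩
    exact Ideal.mul_mem_right _ _
      (Ideal.pow_le_pow_right ((Nat.sub_le W _).trans hW) (P.sq b b''))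

variable {lam} {W : ℕ} (hW : W ≤ L)

theorem augTot_cols {A : ℕ} (hA : A + 1 ≤ W) :
    Gd.Cols (P.augTot lam R hl hW) (coneGd U R hl W) P.deg
      (fun _ => pairV U lam R (A + 1) (A + 1)) (fun _ => pairV U lam R A A) := by
  classical
  have hsingle : ∀ (b b' : P.ι) (x : (R.G.β → T) × (Chart n → Tot T n ℕ)),
      (P.augTot lam R hl hW).D (Pi.single b x) b' =
        P.D b' b • x + (if b' = b then ((-1 : T) ^ P.deg b') • coneD U R x else 0) := by
    intro b b' x
    show P.withCol (coneD U R) _ b' = _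
    rw [P.withCol_apply, Finset.sum_eq_single b (fun i _ hi => by simp [Pi.single_eq_of_ne hi])
      (by simp), Pi.single_eq_same]
    by_cases h : b' = b
    · subst h
      rw [if_pos rfl, Pi.single_eq_same]
    · rw [if_neg h, Pi.single_eq_of_ne h, map_zero, smul_zero]
  refine ⟨fun k => rfl, fun b => pairV_anti U R A.le_succ A.le_succ,
    P.augLev_anti lam R hA hA, P.augLev_anti lam R (Nat.zero_le A) (Nat.zero_le A),
    fun b x hx => ?_, fun b b' hne hd x _ => ?_, fun b b' hd x hx => ?_, fun b b' hd x hx => ?_,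
    fun b => ?_, fun b => ?_⟩
  · rw [hsingle, if_pos rfl, P.homog b b (by omega), zero_smul, zero_add]
    show ((-1 : T) ^ P.deg b) • coneD U R x - ((-1 : T) ^ P.deg b) • coneD U R x ∈ _
    rw [sub_self]
    exact zero_mem _
  · rw [hsingle, if_neg hne, add_zero, P.homog b' b hd, zero_smul]
  · have hne : b' ≠ b := fun h => by subst h; omega
    rw [hsingle, if_neg hne, add_zero]
    exact Submodule.smul_mem _ _ hx
  · have hne : b' ≠ b := fun h => by subst h; omega
    rw [hsingle, if_neg hne, add_zero]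
    exact Submodule.smul_mem _ _ hx
  · rintro _ ⟨v, hv, rfl⟩
    exact coneD_pairV U R le_rfl hv
  · rintro _ ⟨v, hv, rfl⟩
    exact coneD_pairV U R le_rfl hv

variable {μ : Meas T}

theorem augTot_null (hAl : Almost μ U) (hlam : Sep lam) (ha : ∀ j, 0 ≤ a j) {A : ℕ} (hA : A ≤ W)
    (k : ℤ) : μ.hm (P.augTot lam R hl hW) (P.augLev lam R A A) (P.augLev lam R 0 0) k = 0 := by
  have hlayer : ∀ s < A, ∀ m,
      μ.hm (P.augTot lam R hl hW) (P.augLev lam R (s + 1) (s + 1)) (P.augLev lam R s s) m = 0 := by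
    intro s hs m
    have hf := fun (_ : P.ι) k' => layer_null (U := U) R hl hAl hlam ha W s k'
    refine μ.null_of_le ((μ.columns (P.augTot_cols R hl hW (hs.trans_le hA))
      (fun b k' => by rw [hf b k']; exact ENNReal.zero_ne_top) 0).2.1 m) ?_
    exact Finset.sum_eq_zero fun b _ => hf b _
  refine μ.null_of_le (μ.hm_chain (P.augTot lam R hl hW) (fun s => P.augLev lam R s s)
    (fun s t h => P.augLev_anti lam R h h) (fun s hs => P.augLev_anti lam R (hs.trans hA) (hs.trans hA))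
    (fun s _ => P.augLev_anti lam R (Nat.zero_le s) (Nat.zero_le s)) 0 k
    (fun s hs => by rw [hlayer s hs]; exact ENNReal.zero_ne_top)).2.1 ?_
  exact Finset.sum_eq_zero fun s hs => hlayer s (Finset.mem_range.1 hs) k

/-- Into the part of the resolution. -/
noncomputable abbrev inRes :
    (P.ι → R.G.β → T) →ₗ[T] (P.ι → (R.G.β → T) × (Chart n → Tot T n ℕ)) :=
  (LinearMap.inl T (R.G.β → T) (Chart n → Tot T n ℕ)).compLeft P.ι

/-- Into the part of the slice. -/
noncomputable abbrev inFlat :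
    (P.ι → Chart n → Tot T n ℕ) →ₗ[T] (P.ι → (R.G.β → T) × (Chart n → Tot T n ℕ)) :=
  (LinearMap.inr T (R.G.β → T) (Chart n → Tot T n ℕ)).compLeft P.ι

theorem augTot_stable {A B : ℕ} (hB : B ≤ A) :
    (P.augLev lam R A B).map (P.augTot lam R hl hW).D ≤ P.augLev lam R A B :=
  P.withCol_stable _ _ fun _ hv => coneD_pairV U R hB hv

theorem inRes_bij (A : ℕ) (k : ℤ) :
    ∃ (hc : (P.res a R hW).cyc (P.resLev a R A) ⊤ k ≤
        ((P.augTot lam R hl hW).cyc (P.augLev lam R A 0) (P.augLev lam R 0 0) (k + 1)).comap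
          (P.inRes R))
      (hb : (P.res a R hW).bd (P.resLev a R A) ⊤ k ≤
        ((P.augTot lam R hl hW).bd (P.augLev lam R A 0) (P.augLev lam R 0 0) (k + 1)).comap
          (P.inRes R)),
      Function.Bijective ((P.res a R hW).hMap (P.augTot lam R hl hW) (P.inRes R) hc hb) := by
  have hfree : ∀ y : R.G.β → T, y ∈ resVec U R 0 := fun y => by rw [resVec_zero]; trivial
  refine (P.res a R hW).hMap_bijective (X := P.resLev a R A) (Y := ⊤)
    (X' := P.augLev lam R A 0) (Y' := P.augLev lam R 0 0) (P.augTot lam R hl hW) (P.inRes R) 1 1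
    (fun j x _ b _ => ?_) le_top (P.augTot_stable R hl hW (Nat.zero_le A)) (fun j => ?_) ?_ ?_
    (fun j => ?_) (fun j x hx => ?_) k
  · refine ⟨?_, ?_⟩
    · convert zero_mem (resVec U R A)
      simp [res, augTot, withCol_apply, Prod.fst_sum, coneD_apply]
    · show _ ∈ cut U lam a 0 0
      have h := augC_cut lam R (U := U) (hfree (x b))
      simp only [res, augTot, Units.val_one, one_smul, Pi.sub_apply, Prod.snd_sub, withCol_apply,
        Prod.snd_add, Prod.snd_sum, Prod.smul_snd, coneD_apply, LinearMap.compLeft_apply,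
        Function.comp_apply, LinearMap.inl_apply, smul_zero, Finset.sum_const_zero, zero_add,
        map_zero, add_zero, zero_sub]
      exact neg_mem (Submodule.smul_mem _ _ h)
  · rintro _ ⟨x, hx, rfl⟩ b -
    refine ⟨?_, zero_mem _⟩
    show x b ∈ resDeg a R (j + 1 - P.deg b - 1)
    rw [show j + 1 - (P.deg b : ℤ) - 1 = j - P.deg b by ring]
    exact hx b trivial
  · rintro _ ⟨x, hx, rfl⟩ b -
    exact ⟨hx b trivial, zero_mem _⟩
  · rintro _ ⟨x, -, rfl⟩ b -
    exact ⟨hfree _, zero_mem _⟩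
  · intro y hy
    refine Submodule.mem_sup.2 ⟨P.inRes R fun b => (y b).1,
      ⟨_, ⟨Submodule.mem_top, fun b _ => ?_⟩, rfl⟩, P.inFlat R fun b => (y b).2,
      ⟨fun b _ => ⟨zero_mem _, (hy.1 b trivial).2⟩,
        fun b _ => ⟨zero_mem _, (hy.2 b trivial).2⟩⟩, funext fun b => by simp⟩
    show (y b).1 ∈ resDeg a R (j - P.deg b)
    have h := (hy.2 b trivial).1
    rwa [show j + 1 - (P.deg b : ℤ) - 1 = j - P.deg b by ring] at h
  · exact fun b _ => (hx.2 b trivial).1

theorem inFlat_bij (A : ℕ) (k : ℤ) :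
    ∃ (hc : (P.flat lam a hW).cyc (P.flatLev lam a A) (P.flatLev lam a 0) k ≤
        ((P.augTot lam R hl hW).cyc (P.augLev lam R A A) (P.augLev lam R A 0) (k + 0)).comap
          (P.inFlat R))
      (hb : (P.flat lam a hW).bd (P.flatLev lam a A) (P.flatLev lam a 0) k ≤
        ((P.augTot lam R hl hW).bd (P.augLev lam R A A) (P.augLev lam R A 0) (k + 0)).comap
          (P.inFlat R)),
      Function.Bijective ((P.flat lam a hW).hMap (P.augTot lam R hl hW) (P.inFlat R) hc hb) := by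
  refine (P.flat lam a hW).hMap_bijective (X := P.flatLev lam a A) (Y := P.flatLev lam a 0)
    (X' := P.augLev lam R A A) (Y' := P.augLev lam R A 0) (P.augTot lam R hl hW) (P.inFlat R) 1 0
    (fun j x _ b _ => ?_) (P.withCol_stable _ _ fun v hv => cut_isSub U lam a 0 0 ⟨v, hv, rfl⟩)
    (P.augTot_stable R hl hW le_rfl) (fun j => ?_) ?_ ?_ (fun j => ?_) (fun j x hx => ?_) k
  · rw [SetLike.mem_coe]
    convert zero_mem (pairV U lam R A A)
    ext <;> simp [flat, augTot, withCol_apply, Prod.fst_sum, Prod.snd_sum, coneD_apply]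
  · rintro _ ⟨x, hx, rfl⟩ b -
    refine ⟨zero_mem _, ?_⟩
    rw [add_zero]
    exact hx b trivial
  · rintro _ ⟨x, hx, rfl⟩ b -
    exact ⟨zero_mem _, hx b trivial⟩
  · rintro _ ⟨x, hx, rfl⟩ b -
    exact ⟨zero_mem _, hx b trivial⟩
  · intro y hy
    refine Submodule.mem_sup.2 ⟨P.inFlat R fun b => (y b).2,
      ⟨_, ⟨fun b _ => (hy.1 b trivial).2, fun b _ => ?_⟩, rfl⟩, P.inRes R fun b => (y b).1,
      ⟨fun b _ => ⟨(hy.1 b trivial).1, zero_mem _⟩,
        fun b _ => ⟨(hy.2 b trivial).1, zero_mem _⟩⟩, funext fun b => by simp⟩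
    have h := (hy.2 b trivial).2
    simpa using h
  · exact fun b _ => (hx.2 b trivial).2

theorem conn_image (hAl : Almost μ U) (hlam : Sep lam) (ha : ∀ j, 0 ≤ a j) {C A : ℕ}
    (hAW : A ≤ W) (hCW : C ≤ W) (hll : P.augLev lam R A A ≤ P.augLev lam R C C)
    (hmm : P.augLev lam R A 0 ≤ P.augLev lam R C 0) (k : ℤ) :
    μ.val (LinearMap.range ((P.augTot lam R hl hW).move hll hmm (k + 1 - 1))) =
      μ.val (LinearMap.range
        ((P.augTot lam R hl hW).move hmm (le_refl (P.augLev lam R 0 0)) (k + 1))) := by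
  set G := P.augTot lam R hl hW
  have htop : P.augLev lam R 0 0 ≤ G.top := le_rfl
  have hbot : ∀ {B : ℕ}, B ≤ W → G.bot ≤ P.augLev lam R B B := fun h => P.augLev_anti lam R h h
  have hXY : ∀ B, P.augLev lam R B B ≤ P.augLev lam R B 0 := fun B =>
    P.augLev_anti lam R le_rfl (Nat.zero_le B)
  have hYW : ∀ B, P.augLev lam R B 0 ≤ P.augLev lam R 0 0 := fun B =>
    P.augLev_anti lam R (Nat.zero_le B) le_rfl
  have hnull := fun {B : ℕ} (hB : B ≤ W) m => P.augTot_null R hl hW hAl hlam ha hB m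
  refine μ.range_eq_of_almost _ _ (G.conn (hbot hAW) htop (k + 1))
    (G.conn (hbot hCW) htop (k + 1))
    (fun z => G.move_conn (hbot hAW) (hbot hCW) hll hmm htop (k + 1) z) ?_ ?_
  · rw [G.ker_conn (hbot hCW) (hXY C) (hYW C) htop]
    exact μ.null_of_le (μ.range_le _) (hnull hCW _)
  · rw [← G.ker_move_sub (hbot hAW) (hXY A) (hYW A) htop,
      μ.congr (LinearMap.quotKerEquivRange _)]
    exact μ.null_of_le (μ.sub_le _) (hnull hAW _)

theorem res_image {C A : ℕ} (h2 : P.resLev a R A ≤ P.resLev a R C)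
    (hmm : P.augLev lam R A 0 ≤ P.augLev lam R C 0) (k : ℤ) :
    μ.val (LinearMap.range
        ((P.augTot lam R hl hW).move hmm (le_refl (P.augLev lam R 0 0)) (k + 1))) =
      μ.val (Meas.imH (P.res a R hW) h2 ⊤ k) := by
  obtain ⟨c₁, b₁, e₁⟩ := P.inRes_bij R hl hW A k
  obtain ⟨c₁', b₁', e₁'⟩ := P.inRes_bij R hl hW C k
  exact μ.range_eq_of_bij _ _ _ _
    (fun z => (P.res a R hW).move_hMap (P.augTot lam R hl hW) (P.inRes R) c₁ b₁ c₁' b₁' h2
      le_rfl hmm le_rfl z) e₁' e₁

theorem flat_image {C A : ℕ} (h1 : P.flatLev lam a A ≤ P.flatLev lam a C)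
    (hll : P.augLev lam R A A ≤ P.augLev lam R C C)
    (hmm : P.augLev lam R A 0 ≤ P.augLev lam R C 0) (k : ℤ) :
    μ.val (LinearMap.range ((P.augTot lam R hl hW).move hll hmm k)) =
      μ.val (Meas.imH (P.flat lam a hW) h1 (P.flatLev lam a 0) k) := by
  obtain ⟨c₂, b₂, e₂⟩ := P.inFlat_bij R hl hW A k
  obtain ⟨c₂', b₂', e₂'⟩ := P.inFlat_bij R hl hW C k
  have h := μ.range_eq_of_bij _ _ _ _
    (fun z => (P.flat lam a hW).move_hMap (P.augTot lam R hl hW) (P.inFlat R) c₂ b₂ c₂' b₂' h1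
      (le_refl (P.flatLev lam a 0)) hll hmm z) e₂' e₂
  rw [add_zero] at h
  exact h

include hl in
/-- Between two levels the complex tensor the slice `0` and the complex tensor the resolution
have images of the same measure. -/
theorem flat_res (hAl : Almost μ U) (hlam : Sep lam) (ha : ∀ j, 0 ≤ a j) {C A : ℕ} (hCA : C ≤ A)
    (hAW : A ≤ W) (h1 : P.flatLev lam a A ≤ P.flatLev lam a C)
    (h2 : P.resLev a R A ≤ P.resLev a R C) (k : ℤ) :
    μ.val (Meas.imH (P.flat lam a hW) h1 (P.flatLev lam a 0) k) =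
      μ.val (Meas.imH (P.res a R hW) h2 ⊤ k) := by
  have hll : P.augLev lam R A A ≤ P.augLev lam R C C := P.augLev_anti lam R hCA hCA
  have hmm : P.augLev lam R A 0 ≤ P.augLev lam R C 0 := P.augLev_anti lam R hCA le_rfl
  have H := ((P.flat_image R hl hW (μ := μ) h1 hll hmm (k + 1 - 1)).symm.trans
    (P.conn_image R hl hW hAl hlam ha hAW (hCA.trans hAW) hll hmm k)).trans
    (P.res_image R hl hW h2 hmm k)
  rwa [add_sub_cancel_right] at H

end Lift

end Win

end Vale.Agent.P202.Mixed2
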