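import Vale.Agent.P202.Mixed2.WinFlatGd
import Vale.Agent.P202.Mixed2.Acyclic
import Vale.Agent.P202.Char.Band

/-!
P202, mixed characteristic, windows: the cone of the augmentation in one degree. Cuts by powers
of `u` read on Laurent polynomials, exactness over any ring, lifting along a surjection.
-/

namespace Vale.Agent.P202.Mixed2.Win

universe u v w

open Vale.Agent.P202.Char

section Lau

variable {T : Type u} [CommRing T] {n : ℕ} {U : Fin (n + 1) → T} (lam : Fin (n + 1) → T)
  {a : Fin n → ℤ} {ε : Chart n}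

theorem push_upBy_inComp (v s : ℕ) (μ : Lau T n) :
    push lam (upBy n (1 : T) v) (inComp s μ) = inComp (s + v) μ := by
  rw [push_inComp, upBy, emb_single, map_one, map_one, one_mul]

omit [CommRing T] in
theorem ideg_add (A : ℕ) : ideg A + (A : ℤ) = 0 := by simp [ideg]

theorem inComp_mem_cutS {A s : ℕ} (h : A ≤ s) {μ : Lau T n} (hμ : LauMem a ε s μ) :
    inComp s μ ∈ cutS U lam a A ε 0 := by
  refine Submodule.mem_sup_right ⟨inComp (s - A) μ, inComp_mem hμ ?_, ?_⟩
  · simp [ideg]; omega
  · rw [push_upBy_inComp, Nat.sub_add_cancel h]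

theorem lauMem_outComp {ι : Type} {δ : ι → ℤ} {N : ℤ} (i : ι) {x : Tot T n ι}
    (hx : x ∈ freeSlice T a ε δ N) : LauMem a ε (N - δ i) (outComp i x) := by
  classical
  intro e he
  rw [outComp, Finsupp.lsum_apply, Finsupp.sum] at he
  simp only [AddMonoidAlgebra.coeff_sum] at he
  obtain ⟨⟨j, f⟩, hj, hf⟩ := Finset.mem_biUnion.1 (Finsupp.support_finsetSum he)
  simp only [LinearMap.toSpanSingleton_apply] at hf
  by_cases h : j = i
  · subst h
    rw [if_pos rfl, AddMonoidAlgebra.smul_single', AddMonoidAlgebra.coeff_single] at hf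
    obtain rfl := Finset.mem_singleton.1 (Finsupp.support_single_subset hf)
    obtain ⟨hb, hd⟩ := hx hj
    exact ⟨hb, by simp only at hd; omega⟩
  · simp [h] at hf

/-- The part of index `A` of an element of a cut. -/
theorem exists_lead {A : ℕ} {y : Tot T n ℕ} (hy : y ∈ cutS U lam a A ε 0) :
    ∃ μ : Lau T n, LauMem a ε A μ ∧ y - inComp A μ ∈ cutS U lam a (A + 1) ε 0 := by
  obtain ⟨r, hr, _, ⟨z, hz, rfl⟩, rfl⟩ := Submodule.mem_sup.1 hy
  refine ⟨outComp 0 z, by simpa [ideg] using lauMem_outComp (0 : ℕ) hz, ?_⟩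
  rw [add_sub_assoc]
  refine add_mem (Submodule.mem_sup_left hr) ?_
  clear hr hy
  rw [freeSlice, Finsupp.supported_eq_span_single] at hz
  induction hz using Submodule.span_induction with
  | mem x hx =>
    obtain ⟨⟨s, e⟩, ⟨hb, hd⟩, rfl⟩ := hx
    simp only at hb hd ⊢
    rw [← inComp_single s e (1 : T), push_upBy_inComp, outComp_inComp]
    rcases Nat.eq_zero_or_pos s with rfl | hs
    · simp
    · rw [if_neg (by omega), map_zero, sub_zero]
      exact inComp_mem_cutS lam (by omega)
        (lauMem_single 1 hb (by simp [ideg] at hd; push_cast; omega))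
  | zero => simp
  | add p q _ _ hp hq =>
    rw [map_add, map_add, map_add, add_sub_add_comm]
    exact add_mem hp hq
  | smul c p _ hp =>
    rw [map_smul, map_smul, map_smul, ← smul_sub]
    exact Submodule.smul_mem _ c hp

/-- On the first cut, the part of index `0` is killed by `b` modulo the ideal. -/
theorem coeff_cut_one {b : T} (hb : ∀ L, RegUpTo U b L) {N : ℤ} {x : Tot T n ℕ}
    (hx : x ∈ cutS U lam a 1 ε N) (e : Expo n) : b * (outComp 0 x).coeff e ∈ aI U := by
  classical
  obtain ⟨r, hr, _, ⟨z, -, rfl⟩, rfl⟩ := Submodule.mem_sup.1 hx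
  rw [map_add, AddMonoidAlgebra.coeff_add, Finsupp.add_apply, mul_add]
  refine add_mem ?_ ?_
  · clear hx
    induction hr using Submodule.span_induction generalizing e with
    | mem y hy =>
      obtain ⟨p, ⟨-, hp0⟩, D, e', hD, -, -, rfl⟩ := hy
      rw [outComp_emb]
      rcases eq_or_ne (p 0) 0 with hp | hp
      · simp [hp]
      obtain ⟨c, hc⟩ := MvPolynomial.exists_coeff_ne_zero hp
      have hcD := hD 0 c (MvPolynomial.mem_support_iff.2 hc)
      obtain ⟨Dn, rfl⟩ : ∃ k : ℕ, D = k := ⟨D.toNat, by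
        have : (0 : ℤ) ≤ c.sum fun _ v => (v : ℤ) := Finset.sum_nonneg fun i _ => Nat.cast_nonneg _
        simp only [ideg, Nat.cast_zero, neg_zero, zero_add] at hcD
        omega⟩
      have hhom : ∀ s, ∀ γ ∈ (p s).support, γ.degree = Dn + s := fun s γ hγ => by
        have h := hD s γ hγ
        rw [Finsupp.degree_apply]
        simp only [Finsupp.sum, ideg] at h
        have : ((∑ i ∈ γ.support, γ i : ℕ) : ℤ) = ∑ i ∈ γ.support, (γ i : ℤ) := by push_cast; rfl
        omega
      have h0 : MvPolynomial.eval U (p 0) ∈ aI U ^ (Dn + 1) := by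
        have hsum : ev U (p.erase 0) + MvPolynomial.aeval U (p 0) = 0 := by
          rw [← ev_single (U := U) 0 (p 0), ← map_add, Finsupp.erase_add_single, hp0]
        rw [← MvPolynomial.aeval_eq_eval, eq_neg_of_add_eq_zero_right hsum, neg_mem_iff, ev,
          Finsupp.lsum_apply]
        refine sum_mem fun s hs => ?_
        rw [Finsupp.support_erase, Finset.mem_erase] at hs
        simp only [AlgHom.toLinearMap_apply, Finsupp.erase_ne hs.1, MvPolynomial.aeval_eq_eval]
        rw [MvPolynomial.eval_eq']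
        refine sum_mem fun γ hγ => Ideal.mul_mem_left _ _ ?_
        exact Ideal.pow_le_pow_right (by rw [hhom s γ hγ]; omega) (prod_pow_mem γ)
      have hcoef : ∀ γ, b * (p 0).coeff γ ∈ aI U := hb (Dn + 1) Dn (Nat.lt_succ_self _) (p 0)
        (fun γ hγ => by
          rw [Finsupp.weight_apply, Finsupp.sum]
          simp only [Pi.one_apply, smul_eq_mul, mul_one]
          rw [← Finsupp.degree_apply, hhom 0 γ (MvPolynomial.mem_support_iff.2 hγ), add_zero]) h0
      rw [(p 0).as_sum, map_sum, Finset.sum_mul, AddMonoidAlgebra.coeff_sum,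
        Finsupp.finsetSum_apply, Finset.mul_sum]
      refine sum_mem fun γ _ => ?_
      rw [show MvPolynomial.monomial γ ((p 0).coeff γ) =
          (p 0).coeff γ • MvPolynomial.monomial γ 1 by
        rw [MvPolynomial.smul_monomial, smul_eq_mul, mul_one], map_smul,
        smul_mul_assoc, AddMonoidAlgebra.coeff_smul, Finsupp.smul_apply, smul_eq_mul, ← mul_assoc]
      exact Ideal.mul_mem_right _ _ (hcoef γ)
    | zero => simp
    | add y y' _ _ hy hy' =>
      rw [map_add, AddMonoidAlgebra.coeff_add, Finsupp.add_apply, mul_add]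
      exact add_mem (hy e) (hy' e)
    | smul c y _ hy =>
      rw [map_smul, AddMonoidAlgebra.coeff_smul, Finsupp.smul_apply, smul_eq_mul, mul_left_comm]
      exact Ideal.mul_mem_left _ c (hy e)
  · have : outComp 0 (push lam (upBy n (1 : T) 1) z) = 0 := by
      clear hx hr
      induction z using tot_induction with
      | h0 => simp
      | hadd p q hp hq => simp [map_add, hp, hq]
      | hs i f r => rw [map_smul, push_upBy_inComp, map_smul, outComp_inComp, if_neg (by omega),
          smul_zero]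
    simp [this]

/-- An element of index `A` in the next cut has coefficients killed by `b` modulo the ideal. -/
theorem coeff_lead (hlam : Sep lam) (ha : ∀ j, 0 ≤ a j) {b : T} (hb : ∀ L, RegUpTo U b L) {A : ℕ}
    {μ : Lau T n} (hμ : LauMem a ε A μ) (h : inComp A μ ∈ cutS U lam a (A + 1) ε 0) (e : Expo n) :
    b * μ.coeff e ∈ aI U := by
  obtain ⟨r, hr, _, ⟨z, hz, rfl⟩, he⟩ := Submodule.mem_sup.1 h
  have hz' : push lam (upBy n (1 : T) 1) z ∈ freeSlice T a ε ideg (A : ℤ) := by
    have := (acts_upBy (U := U) (1 : T) 1).push_free lam hz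
    rwa [show (0 : ℤ) + ((A + 1 : ℕ) : ℤ) + -((1 : ℕ) : ℤ) = A by push_cast; ring] at this
  set x := inComp 0 μ - push lam (upBy n (1 : T) 1) z
  have hfree : x ∈ freeSlice T a ε ideg (A : ℤ) :=
    sub_mem (inComp_mem hμ (by simp [ideg])) hz'
  have hrel : x ∈ relSlice lam a ε ideg (rel U) (A : ℤ) := by
    refine push_sat lam hlam ha A hfree ?_
    rw [sub_self, map_sub, push_upBy_inComp, push_comp, compFam_upBy, zero_add, Nat.add_comm 1 A,
      ← he, add_sub_cancel_right]
    exact hr
  have hin : inComp 0 μ ∈ cutS U lam a 1 ε (A : ℤ) := by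
    rw [← sub_add_cancel (inComp 0 μ) (push lam (upBy n (1 : T) 1) z)]
    refine Submodule.add_mem_sup hrel (Submodule.mem_map_of_mem ?_)
    rwa [show (A : ℤ) + ((1 : ℕ) : ℤ) = 0 + ((A + 1 : ℕ) : ℤ) by push_cast; ring]
  have := coeff_cut_one lam hb hin e
  rwa [outComp_inComp, if_pos rfl] at this

/-- Scalars from a power of the ideal push free slices into cuts. -/
theorem smul_free_cutS {W : ℕ} {c : T} (hc : c ∈ aI U ^ W) {N : ℤ} {x : Tot T n ℕ}
    (hx : x ∈ freeSlice T a ε ideg N) : c • x ∈ cutS U lam a W ε N := by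
  have hA : Acts U ((0 : ℕ) : ℤ) c (upBy n c 0) := by
    simpa using acts_upBy (U := U) c 0
  have h := push_small lam hc (show W + 0 ≤ W by omega) hA hx
  rw [push_upBy_scalar, push_upBy_zero] at h
  simpa using h

/-- Scalars from the ideal push every cut into the next one. -/
theorem smul_cutS {A : ℕ} {c : T} (hc : c ∈ aI U) {x : Tot T n ℕ}
    (hx : x ∈ cutS U lam a A ε 0) : c • x ∈ cutS U lam a (A + 1) ε 0 := by
  obtain ⟨r, hr, _, ⟨z, hz, rfl⟩, rfl⟩ := Submodule.mem_sup.1 hx
  rw [smul_add, ← map_smul]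
  refine add_mem (Submodule.mem_sup_left (Submodule.smul_mem _ c hr)) ?_
  rw [Nat.add_comm A 1]
  exact up_cutS lam (smul_free_cutS lam (by rwa [pow_one]) hz)

/-- An element of index `A` with coefficients in the ideal lies in the next cut. -/
theorem inComp_cut_succ {A : ℕ} {μ : Lau T n} (hμ : LauMem a ε A μ)
    (h : ∀ e, μ.coeff e ∈ aI U) : inComp A μ ∈ cutS U lam a (A + 1) ε 0 := by
  classical
  rw [← AddMonoidAlgebra.sum_coeff_single μ, Finsupp.sum, map_sum]
  refine sum_mem fun e he => ?_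
  rw [← mul_one (μ.coeff e), ← AddMonoidAlgebra.smul_single', map_smul]
  obtain ⟨hb, hd⟩ := hμ e he
  exact smul_cutS lam (h e) (inComp_mem_cutS lam le_rfl (lauMem_single 1 hb hd))

end Lau

section Map

variable {T : Type u} [CommRing T] {S : Type v} [CommRing S] {n : ℕ}

theorem rho_map (φ : T →+* S) (lam : Fin (n + 1) → T) (p : MvPolynomial (Fin (n + 1)) T) :
    rho (fun k => φ (lam k)) (MvPolynomial.map φ p) =
      AddMonoidAlgebra.mapRingHom (Expo n) φ (rho lam p) := by
  induction p using MvPolynomial.induction_on with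
  | C r =>
    rw [MvPolynomial.map_C, rho, rho, MvPolynomial.aeval_C, MvPolynomial.aeval_C,
      AddMonoidAlgebra.coe_algebraMap, AddMonoidAlgebra.coe_algebraMap]
    simp
  | add p q hp hq => simp only [map_add, hp, hq]
  | mul_X p k hp =>
    rw [map_mul, map_mul, map_mul, map_mul, hp, MvPolynomial.map_X]
    congr 1
    rw [rho, rho, MvPolynomial.aeval_X, MvPolynomial.aeval_X, yImg, yImg, map_mul, map_prod]
    simp [AddMonoidAlgebra.mapRingHom_single]

theorem mapLau_smul (φ : T →+* S) (c : T) (μ : Lau T n) :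
    AddMonoidAlgebra.mapRingHom (Expo n) φ (c • μ) =
      φ c • AddMonoidAlgebra.mapRingHom (Expo n) φ μ := by
  ext e
  simp [AddMonoidAlgebra.coeff_mapRingHom]

theorem cechD_mapLau (φ : T →+* S) (x : Chart n → Lau T n) (ε : Chart n) :
    cechD S (fun η => AddMonoidAlgebra.mapRingHom (Expo n) φ (x η)) ε =
      AddMonoidAlgebra.mapRingHom (Expo n) φ (cechD T x ε) := by
  rw [cechD_apply, cechD_apply, map_sum]
  refine Finset.sum_congr rfl fun j _ => ?_
  rw [mapLau_smul, map_sub, map_pow, map_neg, map_one]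

theorem lauMem_map (φ : T →+* S) {a : Fin n → ℤ} {ε : Chart n} {m : ℤ} {μ : Lau T n}
    (h : LauMem a ε m μ) : LauMem a ε m (AddMonoidAlgebra.mapRingHom (Expo n) φ μ) := by
  intro e he
  refine h e (Finsupp.mem_support_iff.2 fun h0 => Finsupp.mem_support_iff.1 he ?_)
  rw [AddMonoidAlgebra.coeff_mapRingHom, h0, map_zero]

theorem exists_lauMem_lift (φ : T →+* S) (hφ : Function.Surjective φ) {a : Fin n → ℤ}
    {ε : Chart n} {m : ℤ} {ν : Lau S n} (h : LauMem a ε m ν) :
    ∃ μ : Lau T n, LauMem a ε m μ ∧ AddMonoidAlgebra.mapRingHom (Expo n) φ μ = ν := by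
  classical
  choose c hc using hφ
  refine ⟨∑ e ∈ ν.coeff.support, AddMonoidAlgebra.single e (c (ν.coeff e)), fun e he => ?_, ?_⟩
  · simp only [AddMonoidAlgebra.coeff_sum, AddMonoidAlgebra.coeff_single] at he
    obtain ⟨f, hf, hef⟩ := Finset.mem_biUnion.1 (Finsupp.support_finsetSum he)
    obtain rfl := Finset.mem_singleton.1 (Finsupp.support_single_subset hef)
    exact h e hf
  · simp only [map_sum, AddMonoidAlgebra.mapRingHom_single, hc]
    exact AddMonoidAlgebra.sum_coeff_single ν

theorem exists_hom_lift (φ : T →+* S) (hφ : Function.Surjective φ) {β : Type} {sg deg : β → ℕ}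
    {N k : ℕ} {g : β → MvPolynomial (Fin (n + 1)) S} (hg : Hom sg N g)
    (hk : ∀ b, deg b ≠ k → g b = 0) :
    ∃ f : β → MvPolynomial (Fin (n + 1)) T, Hom sg N f ∧ (∀ b, deg b ≠ k → f b = 0) ∧
      ∀ b, MvPolynomial.map φ (f b) = g b := by
  classical
  choose p hp using fun b => MvPolynomial.map_surjective φ hφ (g b)
  refine ⟨part deg k (hc sg N p), hom_part (hom_hc sg N p) k, fun b hb => if_neg hb, fun b => ?_⟩
  simp only [part]
  split_ifs with hb
  · rw [hc_apply]
    split_ifs with hs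
    · ext γ
      rw [MvPolynomial.coeff_map, MvPolynomial.coeff_homogeneousComponent]
      have hgb := congrArg (MvPolynomial.coeff γ)
        (MvPolynomial.homogeneousComponent_eq_self (hg b).1)
      rw [MvPolynomial.coeff_homogeneousComponent] at hgb
      rw [← hgb, ← hp b]
      split_ifs <;> simp [MvPolynomial.coeff_map]
    · rw [map_zero, (hg b).2 (not_le.1 hs)]
  · rw [map_zero, hk b hb]

end Map

section Exact

variable {S : Type u} [CommRing S] {n : ℕ}

theorem chartDeg_update {ε : Chart n} {j : Fin n} (hj : ε j = 2) {v : Fin 3} (hv : v ≠ 2) :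
    chartDeg (Function.update ε j v) + 1 = chartDeg ε := by
  classical
  simp only [chartDeg]
  rw [show (Finset.univ.filter fun l => Function.update ε j v l = 2) =
    (Finset.univ.filter fun l => ε l = 2).erase j by
      ext l
      by_cases hl : l = j
      · subst hl; simp [hv]
      · simp [hl]]
  exact Finset.card_erase_add_one (by simp [hj])

/-- Cocycles of Cech degree zero are constant. -/
theorem cocycle_const {M : Type v} [AddCommGroup M] [Module S M] {x : Chart n → M}
    (h : ∀ ε, chartDeg ε = 1 → cechD S x ε = 0) :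
    ∀ ε, chartDeg ε = 0 → x ε = x fun _ => 0 := by
  classical
  suffices H : ∀ (m : ℕ) (ε : Chart n), chartDeg ε = 0 →
      (Finset.univ.filter fun j => ε j = 1).card = m → x ε = x fun _ => 0 from
    fun ε hε => H _ ε hε rfl
  intro m
  induction m with
  | zero =>
    intro ε hε hm
    congr 1
    funext j
    have h1 : ε j ≠ 1 := fun h' => by
      have := Finset.card_eq_zero.1 hm
      exact Finset.notMem_empty j (this ▸ Finset.mem_filter.2 ⟨Finset.mem_univ j, h'⟩)
    have h2 : ε j ≠ 2 := fun h' => by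
      simp only [chartDeg, Finset.card_eq_zero] at hε
      exact Finset.notMem_empty j (hε ▸ Finset.mem_filter.2 ⟨Finset.mem_univ j, h'⟩)
    omega
  | succ m ih =>
    intro ε hε hm
    obtain ⟨j, hj⟩ := Finset.card_pos.1 (by omega :
      0 < (Finset.univ.filter fun j => ε j = 1).card)
    have hj1 : ε j = 1 := (Finset.mem_filter.1 hj).2
    set η := Function.update ε j 2 with hη
    have hu : Function.update η j 1 = ε := by
      rw [hη, Function.update_idem, ← hj1, Function.update_eq_self]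
    have hd0 : ∀ v : Fin 3, v ≠ 2 → chartDeg (Function.update η j v) + 1 = chartDeg η :=
      fun v hv => chartDeg_update (by simp [hη]) hv
    have hd : chartDeg η = 1 := by rw [← hd0 1 (by decide), hu, hε]
    have hs : (Finset.univ.filter fun l => η l = 2) = {j} := by
      refine (Finset.eq_of_subset_of_card_le (by simp [hη]) ?_).symm
      simp only [chartDeg] at hd
      simp [hd]
    have he := h η hd
    rw [cechD_apply, hs, Finset.sum_singleton, hu] at he
    have hu0 : Function.update η j 0 = Function.update ε j 0 := by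
      rw [hη, Function.update_idem]
    rw [hu0, IsUnit.smul_eq_zero ((isUnit_one.neg).pow _), sub_eq_zero] at he
    refine he.trans (ih _ ?_ ?_)
    · have := hd0 0 (by decide)
      rw [hu0, hd] at this
      omega
    · rw [show (Finset.univ.filter fun l => Function.update ε j 0 l = 1) =
        (Finset.univ.filter fun l => ε l = 1).erase j by
          ext l
          by_cases hl : l = j
          · subst hl; simp
          · simp [hl]]
      rw [Finset.card_erase_of_mem hj, hm]
      omega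

/-- Cocycles of positive Cech degree in a nonnegative slice are coboundaries. -/
theorem cech_exact {a : Fin n → ℤ} (ha : ∀ j, 0 ≤ a j) (A : ℕ) {k : ℤ} (hk : k < 0)
    {μ : Chart n → Lau S n} (hμ : ∀ ε, LauMem a ε A (μ ε))
    (hdeg : ∀ ε, -(chartDeg ε : ℤ) ≠ k → μ ε = 0) (hcyc : cechD S μ = 0) :
    ∃ ν : Chart n → Lau S n, (∀ ε, LauMem a ε A (ν ε)) ∧
      (∀ ε, -(chartDeg ε : ℤ) ≠ k + 1 → ν ε = 0) ∧ cechD S ν = μ := by
  classical
  obtain ⟨q, hq, rfl⟩ : ∃ q : ℕ, 0 < q ∧ k = -(q : ℤ) := ⟨(-k).toNat, by omega, by omega⟩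
  have hband : IsEmpty (Band a (fun _ : Unit => (0 : ℤ)) (A : ℤ) q) := by
    refine ⟨fun ⟨x, hN, s, hs, h1, _⟩ => ?_⟩
    obtain ⟨j, hj⟩ := Finset.card_pos.1 (hs ▸ hq)
    obtain ⟨h2, h3⟩ := h1 j hj
    simp only [zero_add] at hN
    have := ha j
    omega
  obtain ⟨E⟩ := free_cech_equiv (Z := S) a (fun _ : Unit => (0 : ℤ)) (A : ℤ) q
  set C := cechGC S n (Tot S n Unit)
  have hsub : Subsingleton (C.H ⊥ (freeCech S a (fun _ : Unit => (0 : ℤ)) (A : ℤ)) (-(q : ℤ))) :=
    E.toEquiv.subsingleton
  set x : Chart n → Tot S n Unit := fun ε => inComp () (μ ε)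
  have hxc : x ∈ C.cyc ⊥ (freeCech S a (fun _ : Unit => (0 : ℤ)) (A : ℤ)) (-(q : ℤ)) := by
    refine ⟨⟨fun ε _ => inComp_mem (hμ ε) (zero_add _), mem_cechDeg.2 fun ε hε => ?_⟩, ?_⟩
    · simp [x, hdeg ε hε]
    · refine (Submodule.mem_bot S).2 (funext fun ε => ?_)
      show cechD S x ε = 0
      rw [show cechD S x ε = inComp () (cechD S μ ε) from (cechD_map (inComp ()) μ ε).symm, hcyc,
        Pi.zero_apply, map_zero]
  have h0 : x ∈ C.bd ⊥ (freeCech S a (fun _ : Unit => (0 : ℤ)) (A : ℤ)) (-(q : ℤ)) := by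
    have h1 : (Submodule.Quotient.mk (⟨x, hxc⟩ :
        C.cyc ⊥ (freeCech S a (fun _ : Unit => (0 : ℤ)) (A : ℤ)) (-(q : ℤ))) :
        C.H ⊥ (freeCech S a (fun _ : Unit => (0 : ℤ)) (A : ℤ)) (-(q : ℤ))) = 0 :=
      Subsingleton.elim _ _
    have h2 := (Submodule.Quotient.mk_eq_zero _).1 h1
    exact h2
  obtain ⟨_, ⟨g, ⟨hgf, hgd⟩, rfl⟩, r, hr, hsum⟩ := Submodule.mem_sup.1 h0
  rw [(Submodule.mem_bot S).1 hr.1, add_zero] at hsum
  refine ⟨fun ε => outComp () (g ε), fun ε => ?_, fun ε hε => ?_, funext fun ε => ?_⟩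
  · simpa using lauMem_outComp () (hgf ε trivial)
  · show outComp () (g ε) = 0
    rw [mem_cechDeg.1 hgd ε hε, map_zero]
  · rw [← cechD_map (outComp ()) g ε, show cechD S g ε = x ε from congrFun hsum ε, outComp_inComp,
      if_pos rfl]

variable {Z : Type w} [CommRing Z] [Algebra Z S] {lamZ : Fin (n + 1) → Z} {a : Fin n → ℤ}

/-- The differential of the resolution after a change of the base. -/
noncomputable def polyD (S : Type u) [CommRing S] [Algebra Z S] (R : WinRes.{w, u} lamZ a) :
    (R.G.β → MvPolynomial (Fin (n + 1)) S) →ₗ[MvPolynomial (Fin (n + 1)) S]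
      (R.G.β → MvPolynomial (Fin (n + 1)) S) :=
  LinearMap.pi fun g => ∑ g', MvPolynomial.map (algebraMap Z S) (R.G.D g g') • LinearMap.proj g'

theorem polyD_apply (R : WinRes.{w, u} lamZ a) (f : R.G.β → MvPolynomial (Fin (n + 1)) S)
    (g : R.G.β) :
    polyD S R f g = ∑ g', MvPolynomial.map (algebraMap Z S) (R.G.D g g') * f g' := by
  simp [polyD]

/-- The augmentation on the charts of degree zero. -/
noncomputable def augCh (R : WinRes.{w, u} lamZ a) (f : R.G.β → MvPolynomial (Fin (n + 1)) S)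
    (ε : Chart n) : Lau S n :=
  if chartDeg ε = 0 then aug1 lamZ R.aug f else 0

/-- The cone of the augmentation is exact in every degree. -/
theorem cone_exact (ha : ∀ j, 0 ≤ a j) (R : WinRes.{w, u} lamZ a) (A : ℕ) (k : ℤ)
    {f : R.G.β → MvPolynomial (Fin (n + 1)) S} {μ : Chart n → Lau S n}
    (hf : Hom R.sg A f) (hfd : ∀ g, (R.G.deg g : ℤ) ≠ k - 1 → f g = 0)
    (hμ : ∀ ε, LauMem a ε A (μ ε)) (hμd : ∀ ε, -(chartDeg ε : ℤ) ≠ k → μ ε = 0)
    (hDf : polyD S R f = 0) (hcyc : ∀ ε, augCh R f ε + cechD S μ ε = 0) :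
    ∃ (g : R.G.β → MvPolynomial (Fin (n + 1)) S) (ν : Chart n → Lau S n),
      Hom R.sg A g ∧ (∀ b, (R.G.deg b : ℤ) ≠ k → g b = 0) ∧
      (∀ ε, LauMem a ε A (ν ε)) ∧ (∀ ε, -(chartDeg ε : ℤ) ≠ k + 1 → ν ε = 0) ∧
      polyD S R g = f ∧ ∀ ε, augCh R g ε + cechD S ν ε = μ ε := by
  classical
  have haug : ∀ g' : R.G.β → MvPolynomial (Fin (n + 1)) S,
      (∀ b, R.G.deg b = 0 → g' b = 0) → ∀ ε, augCh R g' ε = 0 := by
    intro g' h ε
    rw [augCh]
    split_ifs
    · rw [aug1, augLin_apply]
      refine Finset.sum_eq_zero fun b _ => ?_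
      by_cases hb : R.G.deg b = 0
      · rw [h b hb, map_zero, zero_mul]
      · rw [R.aug_deg b hb, map_zero, mul_zero]
    · rfl
  have hz : cechD S (fun _ : Chart n => (0 : Lau S n)) = 0 := map_zero _
  have hzero : ∀ ε, LauMem a ε A (0 : Lau S n) := fun ε e he => by simp at he
  rcases lt_trichotomy k 0 with hk | rfl | hk
  · have hf0 : f = 0 := funext fun g => hfd g (by omega)
    subst hf0
    obtain ⟨ν, h1, h2, h3⟩ := cech_exact ha A hk hμ hμd (funext fun ε => by
      simpa [haug 0 (fun _ _ => rfl) ε] using hcyc ε)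
    refine ⟨0, ν, hf, fun _ _ => rfl, h1, h2, map_zero _, fun ε => ?_⟩
    rw [haug 0 (fun _ _ => rfl) ε, zero_add, h3]
  · have hf0 : f = 0 := funext fun g => hfd g (by omega)
    subst hf0
    have hc : ∀ ε, cechD S μ ε = 0 := fun ε => by
      simpa [haug 0 (fun _ _ => rfl) ε] using hcyc ε
    have hconst := cocycle_const (x := μ) fun ε _ => hc ε
    have hν0 : DegP a A (μ fun _ => 0) := by
      intro e he
      have h1 := hconst (fun _ => 1) (by simp [chartDeg])
      have he' : e ∈ (μ fun _ => 1).coeff.support := by rw [h1]; exact he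
      exact ⟨fun j => ⟨((hμ (fun _ => 1) e he').1 j).1 rfl, ((hμ (fun _ => 0) e he).1 j).2 rfl⟩,
        (hμ (fun _ => 0) e he).2⟩
    obtain ⟨g, hg, hgd, hga⟩ := R.surj S A _ hν0
    refine ⟨g, fun _ => 0, hg, fun b hb => hgd b (by omega), hzero, fun _ _ => rfl, ?_, fun ε => ?_⟩
    · funext c
      rw [polyD_apply, Pi.zero_apply]
      refine Finset.sum_eq_zero fun b _ => ?_
      by_cases hD : R.G.D c b = 0
      · rw [hD, map_zero, zero_mul]
      · rw [hgd b (by have := R.G.homog c b hD; omega), mul_zero]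
    · rw [hz, Pi.zero_apply, add_zero, augCh]
      split_ifs with hε
      · rw [hga, hconst ε hε]
      · rw [hμd ε (by omega)]
  · obtain ⟨kk, rfl⟩ : ∃ kk : ℕ, k = (kk : ℤ) + 1 := ⟨(k - 1).toNat, by omega⟩
    have hμ0 : ∀ ε, μ ε = 0 := fun ε => hμd ε (by omega)
    obtain ⟨g, hg, hgd, hgD⟩ := R.exact S A kk f hf (fun b hb => hfd b (by omega))
      (by
        have : polyD S R f = 0 := hDf
        exact this)
      (fun hk0 => by
        have := hcyc fun _ => 0
        rw [show μ = fun _ => 0 from funext hμ0, hz, Pi.zero_apply, add_zero, augCh,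
          if_pos (by simp [chartDeg])] at this
        exact this)
    refine ⟨g, fun _ => 0, hg, fun b hb => hgd b (by omega), hzero, fun _ _ => rfl, hgD,
      fun ε => ?_⟩
    rw [hz, Pi.zero_apply, add_zero, hμ0, haug g (fun b hb => hgd b (by omega))]

end Exact

end Vale.Agent.P202.Mixed2.Win
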