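import Vale.Agent.P202.Mixed2.WinAugBase

/-!
P202, mixed characteristic, windows: one column of the cone of the augmentation, from the
resolution of the sections evaluated at `U` to the Cech complex of the slice `0`. Each layer of
its filtration by powers of the ideal is negligible.
-/

open scoped ENNReal

namespace Vale.Agent.P202.Mixed2.Win

universe u v

open Vale.Agent.P202.Char

section Small

variable {T : Type u} [CommRing T] {n : ℕ} {U : Fin (n + 1) → T}

theorem degree_of_hom {f : MvPolynomial (Fin (n + 1)) T} {d : ℕ} (hf : f.IsHomogeneous d)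
    {γ : Fin (n + 1) →₀ ℕ} (hγ : γ ∈ f.support) : γ.degree = d := by
  have h := hf (MvPolynomial.mem_support_iff.1 hγ)
  rw [Finsupp.weight_apply, Finsupp.sum] at h
  simp only [Pi.one_apply, smul_eq_mul, mul_one] at h
  rw [Finsupp.degree_apply]
  exact h

theorem eval_mem_pow {f : MvPolynomial (Fin (n + 1)) T} {d : ℕ} (hf : f.IsHomogeneous d) :
    MvPolynomial.eval U f ∈ aI U ^ d := by
  rw [MvPolynomial.eval_eq']
  refine sum_mem fun γ hγ => Ideal.mul_mem_left _ _ ?_
  exact degree_of_hom hf hγ ▸ prod_pow_mem γ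

theorem eval_mem_pow_succ {f : MvPolynomial (Fin (n + 1)) T} {d : ℕ} (hf : f.IsHomogeneous d)
    (h : ∀ γ, f.coeff γ ∈ aI U) : MvPolynomial.eval U f ∈ aI U ^ (d + 1) := by
  rw [MvPolynomial.eval_eq', pow_succ']
  refine sum_mem fun γ hγ => Ideal.mul_mem_mul (h γ) ?_
  exact degree_of_hom hf hγ ▸ prod_pow_mem γ

variable {a : Fin n → ℤ}

theorem lauMem_smul {ε : Chart n} {m : ℤ} {μ : Lau T n} (c : T) (h : LauMem a ε m μ) :
    LauMem a ε m (c • μ) := fun e he => by
  rw [AddMonoidAlgebra.coeff_smul] at he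
  exact h e (Finsupp.support_smul he)

theorem lauMem_cechD {m : ℤ} {μ : Chart n → Lau T n} (h : ∀ η, LauMem a η m (μ η)) (ε : Chart n) :
    LauMem a ε m (cechD T μ ε) := by
  classical
  have hup : ∀ (j : Fin n) (v : Fin 3), ε j = 2 → LauMem a ε m (μ (Function.update ε j v)) := by
    intro j v hj e he
    obtain ⟨hb, hd⟩ := h _ e he
    refine ⟨fun i => ?_, hd⟩
    rcases eq_or_ne i j with rfl | hi
    · exact ⟨fun h1 => absurd (h1.symm.trans hj) (by decide),
        fun h0 => absurd (h0.symm.trans hj) (by decide)⟩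
    · have := hb i
      rwa [Function.update_of_ne hi] at this
  rw [cechD_apply]
  refine Finset.sum_induction _ (fun ν => LauMem a ε m ν) (fun _ _ p q => p.add q)
    (fun e he => by simp at he) fun j hj => ?_
  have hj2 : ε j = 2 := (Finset.mem_filter.1 hj).2
  rw [sub_eq_add_neg]
  exact lauMem_smul _ ((hup j 1 hj2).add (hup j 0 hj2).neg)

theorem mapLau_comp {S : Type*} [CommRing S] {S' : Type*} [CommRing S'] (ψ : S →+* T) (φ : T →+* S')
    (μ : Lau S n) : AddMonoidAlgebra.mapRingHom (Expo n) φ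
      (AddMonoidAlgebra.mapRingHom (Expo n) ψ μ) =
      AddMonoidAlgebra.mapRingHom (Expo n) (φ.comp ψ) μ := by
  ext e
  simp [AddMonoidAlgebra.coeff_mapRingHom]

end Small

section Col

variable {T : Type u} [CommRing T] {n : ℕ} (U : Fin (n + 1) → T) (lam : Fin (n + 1) → T)
  {a : Fin n → ℤ} {Z : Type v} [CommRing Z] [Algebra Z T] {lamZ : Fin (n + 1) → Z}
  (R : WinRes.{v, u} lamZ a)

/-- The augmentation of a basis element, over `T`. -/
noncomputable def augT (g : R.G.β) : Lau T n :=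
  AddMonoidAlgebra.mapRingHom (Expo n) (algebraMap Z T) (R.aug g)

/-- The augmentation evaluated at `U`, on the charts of degree zero. -/
noncomputable def augC : (R.G.β → T) →ₗ[T] (Chart n → Tot T n ℕ) :=
  LinearMap.pi fun ε => if chartDeg ε = 0 then
    ∑ g, LinearMap.toSpanSingleton T _ (inComp (R.sg g) (augT R g)) ∘ₗ LinearMap.proj g else 0

theorem augC_apply (x : R.G.β → T) (ε : Chart n) :
    augC R x ε = if chartDeg ε = 0 then ∑ g, x g • inComp (R.sg g) (augT R g) else 0 := by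
  simp only [augC, LinearMap.pi_apply]
  split_ifs <;> simp

theorem augT_mem (g : R.G.β) (ε : Chart n) : LauMem a ε (R.sg g) (augT (T := T) R g) :=
  lauMem_map _ ((R.aug_supp g).lauMem ε)

theorem augC_cech (x : R.G.β → T) : cechD T (augC R x) = 0 := by
  classical
  funext η
  rw [cechD_apply, Pi.zero_apply]
  refine Finset.sum_eq_zero fun j hj => ?_
  have hj2 : η j = 2 := (Finset.mem_filter.1 hj).2
  have h1 := chartDeg_update hj2 (v := (1 : Fin 3)) (by decide)
  have h0 := chartDeg_update hj2 (v := (0 : Fin 3)) (by decide)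
  have he : chartDeg (Function.update η j 1) = chartDeg (Function.update η j 0) := by omega
  rw [augC_apply, augC_apply, he, sub_self, smul_zero]

theorem augC_deg {k : ℤ} {x : R.G.β → T} (hx : x ∈ Lift.resDeg a R (k - 1)) :
    augC R x ∈ cechDeg T (Tot T n ℕ) (k - 1) := by
  rw [mem_cechDeg]
  intro ε hε
  rw [augC_apply]
  split_ifs with h
  · refine Finset.sum_eq_zero fun g _ => ?_
    by_cases hg : R.G.deg g = 0
    · have h1 := hx g trivial
      simp only [SetLike.mem_coe] at h1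
      rw [if_neg (by omega), Submodule.mem_bot] at h1
      rw [h1, zero_smul]
    · rw [augT, R.aug_deg g hg, map_zero, map_zero, smul_zero]
  · rfl

theorem resD_apply (x : R.G.β → T) (g : R.G.β) :
    Lift.resD (U := U) a R x g = ∑ g', MvPolynomial.aeval U (R.G.D g g') * x g' := by
  simp [Lift.resD]

theorem eval_map_D (p : MvPolynomial (Fin (n + 1)) Z) :
    MvPolynomial.eval U (MvPolynomial.map (algebraMap Z T) p) = MvPolynomial.aeval U p := by
  rw [MvPolynomial.eval_map, MvPolynomial.aeval_def]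

/-- Evaluation of tuples of forms. -/
noncomputable def evF (f : R.G.β → MvPolynomial (Fin (n + 1)) T) : R.G.β → T :=
  fun g => MvPolynomial.eval U (f g)

theorem resD_evF (f : R.G.β → MvPolynomial (Fin (n + 1)) T) :
    Lift.resD (U := U) a R (evF U R f) = evF U R (polyD T R f) := by
  funext g
  rw [resD_apply, evF, polyD_apply, map_sum]
  refine Finset.sum_congr rfl fun g' _ => ?_
  rw [map_mul, eval_map_D]
  rfl

theorem hom_polyD {A : ℕ} {f : R.G.β → MvPolynomial (Fin (n + 1)) T} (hf : Hom R.sg A f) :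
    Hom R.sg A (polyD T R f) := by
  intro g
  rw [polyD_apply]
  have hz : ∀ g', (A < R.sg g' ∨ R.sg g' < R.sg g) →
      MvPolynomial.map (algebraMap Z T) (R.G.D g g') * f g' = 0 := fun g' h => by
    rcases h with h | h
    · rw [(hf g').2 h, mul_zero]
    · have h0 : R.G.D g g' = 0 := (R.D_homog g' g).2 h
      rw [h0, map_zero, zero_mul]
  refine ⟨MvPolynomial.IsHomogeneous.sum _ _ _ fun g' _ => ?_, fun h =>
    Finset.sum_eq_zero fun g' _ => hz g' (by omega)⟩
  by_cases h : A < R.sg g' ∨ R.sg g' < R.sg g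
  · rw [hz g' h]
    exact MvPolynomial.isHomogeneous_zero _ _ _
  · have h1 := ((R.D_homog g' g).1.map (algebraMap Z T)).mul (hf g').1
    rwa [show R.sg g' - R.sg g + (A - R.sg g') = A - R.sg g by omega] at h1

variable {U} (hl : ∀ k, algebraMap Z T (lamZ k) = lam k)

include hl in
/-- The augmentation of a tuple of forms is the leading part of its value. -/
theorem augSum_congr {A : ℕ} {f : R.G.β → MvPolynomial (Fin (n + 1)) T} (hf : Hom R.sg A f)
    (ε : Chart n) :
    (∑ g, MvPolynomial.eval U (f g) • inComp (R.sg g) (augT R g)) -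
      inComp A (aug1 lamZ R.aug f) ∈ relSlice lam a ε ideg (rel U) 0 := by
  rw [aug1, augLin_apply, funext hl, map_sum, ← Finset.sum_sub_distrib]
  refine sum_mem fun g _ => ?_
  by_cases hg : A < R.sg g
  · simp [(hf g).2 hg]
  set c := MvPolynomial.aeval U (f g)
  have hx : inComp (R.sg g) (augT R g) ∈ freeSlice T a ε ideg 0 :=
    inComp_mem (augT_mem R g ε) (ideg_add _)
  have hp : Acts U 0 c (compFam (upBy n (1 : T) (A - R.sg g)) (formBy (f g))) := by
    have := (acts_upBy (U := U) (1 : T) (A - R.sg g)).comp (acts_formBy (U := U) (hf g).1)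
    rwa [one_mul, neg_add_cancel] at this
  have hq : Acts U 0 c (upBy n c 0) := by simpa using acts_upBy (U := U) c 0
  have h := hq.push_congr lam hp hx
  rw [push_upBy_scalar, push_upBy_zero, ← push_comp, push_inComp, formBy, emb_single,
    push_upBy_inComp, add_zero, Nat.add_sub_cancel' (not_lt.1 hg)] at h
  exact h

include hl in
theorem augC_resD (x : R.G.β → T) :
    augC R (Lift.resD (U := U) a R x) ∈ relCech lam a ideg (rel U) 0 := by
  intro ε _
  rw [SetLike.mem_coe, augC_apply]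
  split_ifs
  · simp only [resD_apply, Finset.sum_smul]
    rw [Finset.sum_comm]
    refine sum_mem fun g' _ => ?_
    simp only [mul_comm _ (x g'), ← smul_smul, ← Finset.smul_sum]
    refine Submodule.smul_mem _ _ ?_
    have h := augSum_congr (U := U) lam R hl (hom_mapT T (R.D_homog g')) ε
    rw [aug1_mapT, augLin_apply, R.aug_D g', map_zero, map_zero, sub_zero] at h
    simpa only [mapT_apply, eval_map_D] using h
  · exact zero_mem _

variable (U) in
/-- The tuples with `x g` in the power `A - sg g` of the ideal. -/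
noncomputable def resVec (A : ℕ) : Submodule T (R.G.β → T) :=
  Submodule.pi Set.univ fun g => (aI U ^ (A - R.sg g) : Ideal T)

omit [Algebra Z T] in
theorem mem_resVec {A : ℕ} {x : R.G.β → T} :
    x ∈ resVec U R A ↔ ∀ g, x g ∈ aI U ^ (A - R.sg g) := by
  simp [resVec]

omit [Algebra Z T] in
theorem resVec_zero : resVec U R 0 = ⊤ := by simp [resVec]

omit [Algebra Z T] in
theorem resVec_anti {A B : ℕ} (h : A ≤ B) : resVec U R B ≤ resVec U R A := fun _ hx =>
  (mem_resVec R).2 fun g => Ideal.pow_le_pow_right (by omega) ((mem_resVec R).1 hx g)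

theorem resD_resVec {A : ℕ} {x : R.G.β → T} (hx : x ∈ resVec U R A) :
    Lift.resD (U := U) a R x ∈ resVec U R A := by
  refine (mem_resVec R).2 fun g => ?_
  rw [resD_apply]
  refine sum_mem fun g' _ => ?_
  by_cases h : R.sg g' < R.sg g
  · have h0 : R.G.D g g' = 0 := (R.D_homog g' g).2 h
    rw [h0, map_zero, zero_mul]
    exact zero_mem _
  · have h1 : MvPolynomial.aeval U (R.G.D g g') ∈ aI U ^ (R.sg g' - R.sg g) := by
      rw [← eval_map_D]
      exact eval_mem_pow ((R.D_homog g' g).1.map _)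
    have h2 := Ideal.mul_mem_mul h1 ((mem_resVec R).1 hx g')
    rw [← pow_add] at h2
    exact Ideal.pow_le_pow_right (by omega) h2

theorem augC_cut {A : ℕ} {x : R.G.β → T} (hx : x ∈ resVec U R A) :
    augC R x ∈ cut U lam a A 0 := by
  refine (mem_cut lam).2 fun ε => ?_
  rw [augC_apply]
  split_ifs
  · refine sum_mem fun g _ => ?_
    have h0 : inComp 0 (augT R g) ∈ freeSlice T a ε ideg (0 + (R.sg g : ℤ)) :=
      inComp_mem (augT_mem R g ε) (by simp [ideg])
    have h := up_cutS lam (smul_free_cutS (U := U) lam ((mem_resVec R).1 hx g) h0)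
    rw [map_smul, push_upBy_inComp, zero_add] at h
    exact cutS_anti lam (by omega) h
  · exact zero_mem _

variable (U)

/-- The cone of the augmentation. -/
noncomputable def coneD :
    ((R.G.β → T) × (Chart n → Tot T n ℕ)) →ₗ[T] ((R.G.β → T) × (Chart n → Tot T n ℕ)) :=
  (Lift.resD (U := U) a R ∘ₗ LinearMap.fst T _ _).prod
    (augC R ∘ₗ LinearMap.fst T _ _ + cechD T ∘ₗ LinearMap.snd T _ _)

/-- Degrees on the cone. -/
noncomputable def coneDeg (k : ℤ) : Submodule T ((R.G.β → T) × (Chart n → Tot T n ℕ)) :=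
  (Lift.resDeg a R (k - 1)).prod (cechDeg T (Tot T n ℕ) k)

/-- The level `A` of the resolution and the level `B` of the slice. -/
noncomputable def pairV (A B : ℕ) : Submodule T ((R.G.β → T) × (Chart n → Tot T n ℕ)) :=
  (resVec U R A).prod (cut U lam a B 0)

theorem coneD_apply (v : (R.G.β → T) × (Chart n → Tot T n ℕ)) :
    coneD U R v = (Lift.resD (U := U) a R v.1, augC R v.1 + cechD T v.2) := rfl

theorem coneD_deg (k : ℤ) : (coneDeg R k).map (coneD U R) ≤ coneDeg R (k - 1) := by
  rintro _ ⟨v, ⟨h1, h2⟩, rfl⟩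
  refine ⟨Lift.resD_deg (U := U) a R (k - 1) ⟨_, h1, rfl⟩, ?_⟩
  exact add_mem (augC_deg R h1) ((cechGC T n (Tot T n ℕ)).map_deg k ⟨_, h2, rfl⟩)

variable {lam}

theorem coneD_pairV {A B : ℕ} (hB : B ≤ A) {v : (R.G.β → T) × (Chart n → Tot T n ℕ)}
    (hv : v ∈ pairV U lam R A B) : coneD U R v ∈ pairV U lam R A B :=
  ⟨resD_resVec R hv.1, add_mem (cut_anti U lam a hB 0 (augC_cut lam R hv.1))
    (cut_isSub U lam a B 0 ⟨_, hv.2, rfl⟩)⟩

omit [Algebra Z T] in
theorem pairV_anti {A B A' B' : ℕ} (h : A ≤ A') (h' : B ≤ B') :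
    pairV U lam R A' B' ≤ pairV U lam R A B :=
  fun _ hv => ⟨resVec_anti R h hv.1, cut_anti U lam a h' 0 hv.2⟩

include hl in
theorem coneD_coneD (W : ℕ) (v : (R.G.β → T) × (Chart n → Tot T n ℕ)) :
    coneD U R (coneD U R v) ∈ pairV U lam R W W := by
  refine ⟨?_, ?_⟩
  · rw [coneD_apply, coneD_apply]
    simp only [Lift.resD_sq]
    exact zero_mem _
  · rw [coneD_apply, coneD_apply]
    simp only [map_add, augC_cech, show ∀ y : Chart n → Tot T n ℕ, cechD T (cechD T y) = 0 from
      Lift.cech_sq_apply, add_zero]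
    exact Submodule.mem_sup_left (augC_resD lam R hl v.1)

/-- One column of the cone, modulo the level `W`. -/
noncomputable def coneGd (hl : ∀ k, algebraMap Z T (lamZ k) = lam k) (W : ℕ) :
    Gd T ((R.G.β → T) × (Chart n → Tot T n ℕ)) where
  D := coneD U R
  deg := coneDeg R
  bot := pairV U lam R W W
  top := pairV U lam R 0 0
  map_deg := coneD_deg U R
  sq v _ := coneD_coneD U R hl W v

omit [Algebra Z T] in
theorem smul_pairV {A : ℕ} {c : T} (hc : c ∈ aI U) {v : (R.G.β → T) × (Chart n → Tot T n ℕ)}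
    (hv : v ∈ pairV U lam R A A) : c • v ∈ pairV U lam R (A + 1) (A + 1) := by
  refine ⟨(mem_resVec R).2 fun g => ?_, (mem_cut lam).2 fun ε =>
    smul_cutS lam hc ((mem_cut lam).1 hv.2 ε)⟩
  have h : c * v.1 g ∈ aI U ^ (A - R.sg g + 1) := by
    rw [pow_succ']
    exact Ideal.mul_mem_mul hc ((mem_resVec R).1 hv.1 g)
  exact Ideal.pow_le_pow_right (by omega) h

include hl in
/-- The leading part of the differential. -/
theorem cone_lead {A : ℕ} {f : R.G.β → MvPolynomial (Fin (n + 1)) T} (hf : Hom R.sg A f)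
    (μ : Chart n → Lau T n) (ε : Chart n) :
    (augC R (evF U R f) + cechD T fun η => inComp A (μ η)) ε -
      inComp A (augCh R f ε + cechD T μ ε) ∈ relSlice lam a ε ideg (rel U) 0 := by
  rw [Pi.add_apply, map_add, cechD_map (inComp A) μ ε, add_sub_add_right_eq_sub, augC_apply, augCh]
  split_ifs
  · exact augSum_congr lam R hl hf ε
  · simp

theorem augCh_mem {A : ℕ} {f : R.G.β → MvPolynomial (Fin (n + 1)) T} (hf : Hom R.sg A f)
    (ε : Chart n) : LauMem a ε A (augCh R f ε) := by
  rw [augCh]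
  split_ifs
  · exact (R.aug1_supp T A f hf).lauMem ε
  · intro e he
    simp at he

theorem augCh_smul (b : T) (f : R.G.β → MvPolynomial (Fin (n + 1)) T) (ε : Chart n) :
    augCh R (b • f) ε = b • augCh R f ε := by
  rw [augCh, augCh]
  split_ifs
  · exact map_smul _ _ _
  · rw [smul_zero]

theorem polyD_map (I : Ideal T) (f : R.G.β → MvPolynomial (Fin (n + 1)) T) :
    polyD (T ⧸ I) R (fun g => MvPolynomial.map (Ideal.Quotient.mk I) (f g)) =
      fun g => MvPolynomial.map (Ideal.Quotient.mk I) (polyD T R f g) := by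
  funext g
  rw [polyD_apply, polyD_apply, map_sum]
  refine Finset.sum_congr rfl fun g' _ => ?_
  rw [map_mul, MvPolynomial.map_map,
    show (Ideal.Quotient.mk I).comp (algebraMap Z T) = algebraMap Z (T ⧸ I) from rfl]

theorem augCh_map (I : Ideal T) (f : R.G.β → MvPolynomial (Fin (n + 1)) T) (ε : Chart n) :
    augCh R (fun g => MvPolynomial.map (Ideal.Quotient.mk I) (f g)) ε =
      AddMonoidAlgebra.mapRingHom (Expo n) (Ideal.Quotient.mk I) (augCh R f ε) := by
  rw [augCh, augCh]
  split_ifs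
  · rw [aug1, aug1, augLin_apply, augLin_apply, map_sum]
    refine Finset.sum_congr rfl fun g _ => ?_
    rw [map_mul, ← rho_map, mapLau_comp]
    rfl
  · rw [map_zero]

variable {U}

include hl in
/-- An almost unit kills each layer. -/
theorem layer_killed (hlam : Sep lam) (ha : ∀ j, 0 ≤ a j) {b : T} (hb : ∀ L, RegUpTo U b L)
    {A : ℕ} {k : ℤ} {v : (R.G.β → T) × (Chart n → Tot T n ℕ)}
    (hv : v ∈ pairV U lam R A A) (hk : v ∈ coneDeg R k)
    (hD : coneD U R v ∈ pairV U lam R (A + 1) (A + 1)) :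
    ∃ w ∈ pairV U lam R A A ⊓ coneDeg R (k + 1),
      b • v - coneD U R w ∈ pairV U lam R (A + 1) (A + 1) := by
  classical
  obtain ⟨x, y⟩ := v
  obtain ⟨hx, hy⟩ := hv
  obtain ⟨hxd, hyd⟩ := hk
  have hfex : ∀ g, ∃ p : MvPolynomial (Fin (n + 1)) T, p.IsHomogeneous (A - R.sg g) ∧
      (A < R.sg g → p = 0) ∧ ((R.G.deg g : ℤ) ≠ k - 1 → p = 0) ∧
      x g - MvPolynomial.eval U p ∈ aI U ^ (A + 1 - R.sg g) := by
    intro g
    by_cases h : A < R.sg g
    · refine ⟨0, MvPolynomial.isHomogeneous_zero _ _ _, fun _ => rfl, fun _ => rfl, ?_⟩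
      rw [show A + 1 - R.sg g = 0 by omega, pow_zero, Ideal.one_eq_top]
      trivial
    by_cases hd : (R.G.deg g : ℤ) = k - 1
    · obtain ⟨p, hp, hpx⟩ := exists_homog ((mem_resVec R).1 hx g)
      exact ⟨p, hp, fun h' => absurd h' h, fun h' => absurd hd h', by simp [hpx]⟩
    · have h0 := hxd g trivial
      simp only [SetLike.mem_coe] at h0
      rw [if_neg hd, Submodule.mem_bot] at h0
      exact ⟨0, MvPolynomial.isHomogeneous_zero _ _ _, fun _ => rfl, fun _ => rfl, by simp [h0]⟩
  choose f hf1 hf2 hfd hfx using hfex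
  have hf : Hom R.sg A f := fun g => ⟨hf1 g, hf2 g⟩
  have hμex : ∀ ε, ∃ μ : Lau T n, LauMem a ε A μ ∧ (-(chartDeg ε : ℤ) ≠ k → μ = 0) ∧
      y ε - inComp A μ ∈ cutS U lam a (A + 1) ε 0 := by
    intro ε
    by_cases hd : -(chartDeg ε : ℤ) = k
    · obtain ⟨μ, h1, h2⟩ := exists_lead lam ((mem_cut lam).1 hy ε)
      exact ⟨μ, h1, fun h => absurd hd h, h2⟩
    · have h0 : y ε = 0 := mem_cechDeg.1 hyd ε hd
      exact ⟨0, fun e he => by simp at he, fun _ => rfl, by simp [h0]⟩
  choose μ hμ hμd hμy using hμex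
  set v0 : (R.G.β → T) × (Chart n → Tot T n ℕ) := (evF U R f, fun ε => inComp A (μ ε))
  have hv0 : (x, y) - v0 ∈ pairV U lam R (A + 1) (A + 1) :=
    ⟨(mem_resVec R).2 hfx, (mem_cut lam).2 hμy⟩
  have hD0 : coneD U R v0 ∈ pairV U lam R (A + 1) (A + 1) := by
    have := sub_mem hD (coneD_pairV U R le_rfl hv0)
    rwa [map_sub, sub_sub_cancel] at this
  let φ := Ideal.Quotient.mk (aI U)
  have hbf : Hom R.sg A (b • f) :=
    mem_homSub.1 (Submodule.smul_mem _ b (mem_homSub.2 hf))
  have hcd : ∀ ε, LauMem a ε A (augCh R f ε + cechD T μ ε) := fun ε =>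
    (augCh_mem R hf ε).add (lauMem_cechD hμ ε)
  have hDf : polyD (T ⧸ aI U) R (fun g => MvPolynomial.map φ ((b • f) g)) = 0 := by
    rw [polyD_map, LinearMap.map_smul_of_tower]
    funext g
    ext γ
    rw [MvPolynomial.coeff_map, Pi.smul_apply, MvPolynomial.coeff_smul, smul_eq_mul,
      Pi.zero_apply, MvPolynomial.coeff_zero]
    refine Ideal.Quotient.eq_zero_iff_mem.2 ?_
    by_cases hg : A < R.sg g
    · rw [(hom_polyD R hf g).2 hg, MvPolynomial.coeff_zero, mul_zero]
      exact zero_mem _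
    · refine hb (A - R.sg g + 1) _ (Nat.lt_succ_self _) _ (hom_polyD R hf g).1 ?_ γ
      have h1 := (mem_resVec R).1 hD0.1 g
      rw [show A + 1 - R.sg g = A - R.sg g + 1 by omega] at h1
      simp only [v0, coneD_apply, resD_evF] at h1
      exact h1
  have hcyc : ∀ ε, augCh R (fun g => MvPolynomial.map φ ((b • f) g)) ε +
      cechD (T ⧸ aI U) (fun η => AddMonoidAlgebra.mapRingHom (Expo n) φ (b • μ η)) ε = 0 := by
    intro ε
    rw [augCh_map R, cechD_mapLau φ (fun η => b • μ η), ← map_add, augCh_smul,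
      show cechD T (fun η => b • μ η) ε = b • cechD T μ ε from
        congrFun (map_smul (cechD T) b μ) ε, ← smul_add]
    ext e
    rw [AddMonoidAlgebra.coeff_mapRingHom, AddMonoidAlgebra.coeff_smul, Finsupp.smul_apply,
      smul_eq_mul, AddMonoidAlgebra.coeff_zero, Finsupp.zero_apply]
    refine Ideal.Quotient.eq_zero_iff_mem.2 (coeff_lead lam hlam ha hb (hcd ε) ?_ e)
    have h1 : (augC R (evF U R f) + cechD T fun η => inComp A (μ η)) ε ∈
        cutS U lam a (A + 1) ε 0 := (mem_cut lam).1 hD0.2 ε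
    have h2 : _ ∈ cutS U lam a (A + 1) ε 0 :=
      Submodule.mem_sup_left (cone_lead U R hl hf μ ε)
    have h3 := sub_mem h1 h2
    rwa [sub_sub_cancel] at h3
  obtain ⟨g, ν, hg, hgd, hν, hνd, hgD, hgν⟩ := cone_exact (S := T ⧸ aI U) ha R A k
    (f := fun g => MvPolynomial.map φ ((b • f) g))
    (μ := fun η => AddMonoidAlgebra.mapRingHom (Expo n) φ (b • μ η))
    (fun g => ⟨(hbf g).1.map _, fun h => by simp [(hbf g).2 h]⟩)
    (fun g hg => by simp [hfd g hg])
    (fun ε => lauMem_map φ (lauMem_smul b (hμ ε)))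
    (fun ε hε => by simp [hμd ε hε]) hDf hcyc
  have hG : ∃ G : R.G.β → MvPolynomial (Fin (n + 1)) T, Hom R.sg A G ∧
      (∀ c, (R.G.deg c : ℤ) ≠ k → G c = 0) ∧ ∀ c, MvPolynomial.map φ (G c) = g c := by
    rcases lt_or_ge k 0 with hk | hk
    · refine ⟨0, fun c => ⟨MvPolynomial.isHomogeneous_zero _ _ _, fun _ => rfl⟩,
        fun _ _ => rfl, fun c => ?_⟩
      rw [Pi.zero_apply, map_zero, hgd c (by omega)]
    · obtain ⟨k, rfl⟩ := Int.eq_ofNat_of_zero_le hk
      obtain ⟨G, h1, h2, h3⟩ := exists_hom_lift φ Ideal.Quotient.mk_surjective (deg := R.G.deg)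
        (k := k) hg fun c hc => hgd c (by omega)
      exact ⟨G, h1, fun c hc => h2 c (by omega), h3⟩
  obtain ⟨G, hGh, hGd, hGg⟩ := hG
  have hNex : ∀ ε, ∃ N : Lau T n, LauMem a ε A N ∧ (-(chartDeg ε : ℤ) ≠ k + 1 → N = 0) ∧
      AddMonoidAlgebra.mapRingHom (Expo n) φ N = ν ε := by
    intro ε
    by_cases hd : -(chartDeg ε : ℤ) = k + 1
    · obtain ⟨N, h1, h2⟩ := exists_lauMem_lift φ Ideal.Quotient.mk_surjective (hν ε)
      exact ⟨N, h1, fun h => absurd hd h, h2⟩
    · exact ⟨0, fun e he => by simp at he, fun _ => rfl, by rw [map_zero, hνd ε hd]⟩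
  choose N hN hNd hNν using hNex
  refine ⟨(evF U R G, fun ε => inComp A (N ε)), ⟨⟨(mem_resVec R).2 fun c => ?_,
    (mem_cut lam).2 fun ε => inComp_mem_cutS lam le_rfl (hN ε)⟩, fun c _ => ?_,
    mem_cechDeg.2 fun ε hε => ?_⟩, ?_⟩
  · exact eval_mem_pow (hGh c).1
  · show evF U R G c ∈ (if (R.G.deg c : ℤ) = k + 1 - 1 then ⊤ else ⊥ : Submodule T T)
    split_ifs with hc
    · trivial
    · simp [evF, hGd c (by omega)]
  · simp [hNd ε hε]
  rw [← sub_add_cancel (x, y) v0, smul_add, add_sub_assoc]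
  refine add_mem (Submodule.smul_mem _ b hv0) ⟨(mem_resVec R).2 fun c => ?_,
    (mem_cut lam).2 fun ε => ?_⟩
  · simp only [v0, coneD_apply, resD_evF, Prod.fst_sub, Prod.smul_fst, Pi.sub_apply,
      Pi.smul_apply, evF, smul_eq_mul]
    rw [← MvPolynomial.smul_eval, ← map_sub]
    refine Ideal.pow_le_pow_right (show A + 1 - R.sg c ≤ A - R.sg c + 1 by omega)
      (eval_mem_pow_succ ((hbf c).1.sub (hom_polyD R hGh c).1) fun γ => ?_)
    rw [MvPolynomial.coeff_sub]
    refine Ideal.Quotient.eq.1 ?_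
    have h1 := congrArg (MvPolynomial.coeff γ) (congrFun hgD c)
    rw [← show (fun c => MvPolynomial.map φ (G c)) = g from funext hGg, polyD_map,
      MvPolynomial.coeff_map, MvPolynomial.coeff_map] at h1
    exact h1.symm
  · simp only [v0, coneD_apply, Prod.snd_sub, Prod.smul_snd, Pi.sub_apply, Pi.smul_apply]
    rw [← map_smul, ← sub_sub_sub_cancel_right _ _ (inComp A (augCh R G ε + cechD T N ε))]
    refine sub_mem ?_ (Submodule.mem_sup_left (cone_lead U R hl hGh N ε))
    rw [← map_sub]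
    refine inComp_cut_succ lam ?_ fun e => ?_
    · rw [sub_eq_add_neg]
      exact (lauMem_smul b (hμ ε)).add ((augCh_mem R hGh ε).add (lauMem_cechD hN ε)).neg
    · rw [AddMonoidAlgebra.coeff_sub, Finsupp.sub_apply]
      refine Ideal.Quotient.eq.1 ?_
      have h1 := congrArg (fun p : Lau (T ⧸ aI U) n => p.coeff e) (hgν ε)
      rw [← show (fun c => MvPolynomial.map φ (G c)) = g from funext hGg,
        ← show (fun η => AddMonoidAlgebra.mapRingHom (Expo n) φ (N η)) = ν from funext hNν,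
        augCh_map R, cechD_mapLau φ N, ← map_add, AddMonoidAlgebra.coeff_mapRingHom,
        AddMonoidAlgebra.coeff_mapRingHom] at h1
      exact h1.symm

include hl in
/-- Each layer is negligible. -/
theorem layer_null {μ : Meas T} (hA : Almost μ U) (hlam : Sep lam) (ha : ∀ j, 0 ≤ a j)
    (W A : ℕ) (k : ℤ) :
    μ.hm (coneGd U R hl W) (pairV U lam R (A + 1) (A + 1)) (pairV U lam R A A) k = 0 := by
  refine μ.val_eq_zero_of_killed hA.b (aI U) hA.tendsto (fun c hc z => ?_) fun j z => ?_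
  · exact (coneGd U R hl W).smul_H_eq_zero (fun v hv => smul_pairV U R hc hv) k z
  · induction z using Submodule.Quotient.induction_on with | _ z
    obtain ⟨v, ⟨hv, hd⟩, hD⟩ := z
    obtain ⟨w, hw, hvw⟩ := layer_killed R hl hlam ha (hA.reg j) hv hd hD
    rw [← Submodule.Quotient.mk_smul, Gd.mk_eq_zero]
    refine Submodule.mem_sup.2 ⟨_, ⟨w, hw, rfl⟩, _, ⟨hvw, ?_⟩, add_sub_cancel _ _⟩
    refine sub_mem (Submodule.smul_mem _ _ hd) ?_
    have := coneD_deg U R (k + 1) ⟨w, hw.2, rfl⟩
    rwa [add_sub_cancel_right] at this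

end Col

end Vale.Agent.P202.Mixed2.Win
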