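import Vale.Agent.P202.Char.Sat
import Vale.Agent.P202.Mixed2.Defs

/-!
P202, mixed characteristic, windows: the presentation of the extended Rees algebra of `T` for the
ideal of `U`, multiplication by forms, injectivity of `u` on slices, cuts by powers of `u`.

The generator `s : ℕ` stands for `u ^ s`; the relations are the homogeneous tuples with value `0`.
-/

namespace Vale.Agent.P202.Mixed2.Win

universe u

open Vale.Agent.P202.Char

variable {T : Type u} [CommRing T] {n : ℕ}

/-- Degree of `u ^ s`. -/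
def ideg (s : ℕ) : ℤ := -(s : ℤ)

/-- Evaluation at `Y_k = U_k`, forgetting `u`. -/
noncomputable def ev (U : Fin (n + 1) → T) : (ℕ →₀ MvPolynomial (Fin (n + 1)) T) →ₗ[T] T :=
  Finsupp.lsum T fun _ => (MvPolynomial.aeval U).toLinearMap

/-- The relations: homogeneous tuples with value `0`. -/
def rel (U : Fin (n + 1) → T) : Set (ℕ →₀ MvPolynomial (Fin (n + 1)) T) :=
  {p | (∃ D, IsHomog ideg p D) ∧ ev U p = 0}

variable {U : Fin (n + 1) → T}

theorem ev_single (s : ℕ) (f : MvPolynomial (Fin (n + 1)) T) :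
    ev U (Finsupp.single s f) = MvPolynomial.aeval U f := by
  simp [ev]

theorem ev_smul (f : MvPolynomial (Fin (n + 1)) T) (p : ℕ →₀ MvPolynomial (Fin (n + 1)) T) :
    ev U (f • p) = MvPolynomial.aeval U f * ev U p := by
  induction p using Finsupp.induction_linear with
  | zero => simp
  | add a b ha hb => rw [smul_add, map_add, map_add, ha, hb, mul_add]
  | single x g => rw [Finsupp.smul_single, ev_single, ev_single, smul_eq_mul, map_mul]

/-- The family `p` is multiplication by `a * t ^ J`. -/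
def Acts (U : Fin (n + 1) → T) (J : ℤ) (a : T)
    (p : ℕ → (ℕ →₀ MvPolynomial (Fin (n + 1)) T)) : Prop :=
  ∀ s, IsHomog ideg (p s) (ideg s + J) ∧ ev U (p s) = a

theorem Acts.ev_eq {J : ℤ} {a : T} {p : ℕ → (ℕ →₀ MvPolynomial (Fin (n + 1)) T)}
    (hp : Acts U J a p) (q : ℕ →₀ MvPolynomial (Fin (n + 1)) T) :
    ev U (q.sum fun x f => f • p x) = a * ev U q := by
  induction q using Finsupp.induction_linear with
  | zero => simp
  | add s t hs ht =>
    rw [Finsupp.sum_add_index' (fun i => by simp) (fun i f g => add_smul f g _), map_add, hs, ht,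
      map_add, mul_add]
  | single x f =>
    rw [Finsupp.sum_single_index (by simp), ev_smul, (hp x).2, ev_single, mul_comm]

theorem Acts.comp {J J' : ℤ} {a b : T} {p q : ℕ → (ℕ →₀ MvPolynomial (Fin (n + 1)) T)}
    (hp : Acts U J a p) (hq : Acts U J' b q) : Acts U (J + J') (a * b) (compFam p q) := by
  intro x
  refine ⟨?_, ?_⟩
  · have h := (hq x).1.comp fun l => (hp l).1
    rw [show ideg x + (J + J') = ideg x + J' + J by ring]
    exact h
  · rw [compFam, hp.ev_eq, (hq x).2]

/-- Multiplication by `a * u ^ v`. -/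
noncomputable def upBy (n : ℕ) (a : T) (v : ℕ) : ℕ → (ℕ →₀ MvPolynomial (Fin (n + 1)) T) :=
  fun s => Finsupp.single (s + v) (MvPolynomial.C a)

theorem acts_upBy (a : T) (v : ℕ) : Acts U (-(v : ℤ)) a (upBy n a v) := by
  classical
  intro x
  refine ⟨isHomog_single fun c hc => ?_, by simp [upBy, ev_single]⟩
  rw [MvPolynomial.C_apply] at hc
  obtain rfl := Finset.mem_singleton.1 (MvPolynomial.support_monomial_subset hc)
  simp [ideg]
  ring

/-- Multiplication by a form. -/
noncomputable def formBy (f : MvPolynomial (Fin (n + 1)) T) :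
    ℕ → (ℕ →₀ MvPolynomial (Fin (n + 1)) T) :=
  fun s => Finsupp.single s f

theorem acts_formBy {f : MvPolynomial (Fin (n + 1)) T} {D : ℕ} (hf : f.IsHomogeneous D) :
    Acts U (D : ℤ) (MvPolynomial.aeval U f) (formBy f) := by
  classical
  intro x
  refine ⟨isHomog_single fun c hc => ?_, by simp [formBy, ev_single]⟩
  have h := hf (MvPolynomial.mem_support_iff.1 hc)
  rw [Finsupp.weight_apply] at h
  simp only [Finsupp.sum, Pi.one_apply, smul_eq_mul, mul_one] at h
  simp only [Finsupp.sum, ← h]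
  push_cast
  rfl

variable (lam : Fin (n + 1) → T) {a : Fin n → ℤ} {ε : Chart n} {N : ℤ}

theorem Acts.push_free {J : ℤ} {c : T} {p : ℕ → (ℕ →₀ MvPolynomial (Fin (n + 1)) T)}
    (hp : Acts U J c p) {x : Tot T n ℕ}
    (hx : x ∈ freeSlice T a ε ideg N) : push lam p x ∈ freeSlice T a ε ideg (N + J) :=
  push_mem_free lam (fun l => (hp l).1) hx

theorem Acts.push_rel {J : ℤ} {c : T} {p : ℕ → (ℕ →₀ MvPolynomial (Fin (n + 1)) T)}
    (hp : Acts U J c p) {x : Tot T n ℕ} (hx : x ∈ relSlice lam a ε ideg (rel U) N) :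
    push lam p x ∈ relSlice lam a ε ideg (rel U) (N + J) := by
  refine Char.push_rel lam (K' := rel U) (J := J) (fun q hq D hD => ?_) hx
  have h := hD.comp fun l => (hp l).1
  exact ⟨⟨⟨D + J, h⟩, by rw [hp.ev_eq, hq.2, mul_zero]⟩, h⟩

/-- Families with the same value act in the same way modulo relations. -/
theorem Acts.push_congr {J : ℤ} {c : T} {p q : ℕ → (ℕ →₀ MvPolynomial (Fin (n + 1)) T)}
    (hp : Acts U J c p) (hq : Acts U J c q) {x : Tot T n ℕ}
    (hx : x ∈ freeSlice T a ε ideg N) :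
    push lam p x - push lam q x ∈ relSlice lam a ε ideg (rel U) (N + J) := by
  rw [← push_sub]
  refine push_mem_rel lam (fun l => ?_) (fun l => ?_) hx
  · refine ⟨⟨_, by simpa [sub_eq_add_neg] using (hp l).1.add (hq l).1.neg⟩, ?_⟩
    rw [Pi.sub_apply, map_sub, (hp l).2, (hq l).2, sub_self]
  · simpa [sub_eq_add_neg] using (hp l).1.add (hq l).1.neg

theorem compFam_upBy (v w : ℕ) :
    compFam (upBy n (1 : T) w) (upBy n 1 v) = upBy n 1 (v + w) := by
  funext x
  rw [compFam, upBy, Finsupp.sum_single_index (by simp)]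
  simp [upBy, add_assoc]

theorem push_upBy_zero (x : Tot T n ℕ) : push lam (upBy n (1 : T) 0) x = x := by
  induction x using tot_induction with
  | h0 => simp
  | hadd b c hb hc => rw [map_add, hb, hc]
  | hs i e r => simp [push_inComp, upBy, emb_single, rho]

/-- One step of injectivity on a chart. -/
theorem push_sat_one (hlam : Sep lam) (ha : ∀ j, 0 ≤ a j) {y : Tot T n ℕ}
    (hy : y ∈ freeSlice T a ε ideg (N + 1))
    (h : push lam (upBy n 1 1) y ∈ relSlice lam a ε ideg (rel U) N) :
    y ∈ relSlice lam a ε ideg (rel U) (N + 1) := by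
  classical
  obtain ⟨m, r, g, hg⟩ := Submodule.mem_span_set'.1 h
  choose p hp D e hD he hN hx using fun l => (g l).2
  let P : ℕ ⊕ Fin m → (ℕ →₀ MvPolynomial (Fin (n + 1)) T) := Sum.elim (upBy n 1 1) p
  let D' : ℕ ⊕ Fin m → ℤ := Sum.elim (fun x => ideg x - 1) D
  let Q : ℕ ⊕ Fin m → (ℕ →₀ MvPolynomial (Fin (n + 1)) T) :=
    Sum.elim (upBy n 1 0) fun _ => 0
  let X : Tot T n (ℕ ⊕ Fin m) :=
    y.mapDomain (fun x => (Sum.inl x.1, x.2)) -
      ∑ l, Finsupp.single (Sum.inr l, e l) (r l)
  have hPX : ∀ (F : ℕ ⊕ Fin m → (ℕ →₀ MvPolynomial (Fin (n + 1)) T))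
      (z : Tot T n ℕ), push lam F (z.mapDomain fun x => (Sum.inl x.1, x.2)) =
        push lam (fun x => F (Sum.inl x)) z := by
    intro F z
    induction z using Finsupp.induction_linear with
    | zero => simp
    | add b c hb hc => rw [Finsupp.mapDomain_add, map_add, map_add, hb, hc]
    | single x s => obtain ⟨i, f⟩ := x; rw [Finsupp.mapDomain_single, push_single, push_single]
  have hP : ∀ l, IsHomog ideg (P l) (D' l) := by
    rintro (x | l)
    · simpa [P, D', sub_eq_add_neg] using (acts_upBy (U := U) (1 : T) 1 x).1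
    · exact hD l
  have hX : X ∈ freeSlice T a ε D' N := by
    refine Submodule.sub_mem _ ?_ (Submodule.sum_mem _ fun l _ =>
      Finsupp.single_mem_supported T _ ⟨he l, hN l⟩)
    rw [freeSlice, Finsupp.mem_supported] at hy ⊢
    intro z hz
    obtain ⟨x, hx', rfl⟩ := Finset.mem_image.1 (Finsupp.mapDomain_support hz)
    obtain ⟨hb, hd⟩ := hy hx'
    refine ⟨hb, ?_⟩
    simp only [D', Sum.elim_inl]
    omega
  have h0 : push lam P X = 0 := by
    simp only [X, map_sub, map_sum, push_single, hPX, P, Sum.elim_inl, Sum.elim_inr]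
    rw [← hg, sub_eq_zero]
    exact Finset.sum_congr rfl fun l _ => by rw [hx l]
  have hsyz := push_ker lam hlam a ha ideg D' P hP ε N X hX h0
  have hQX : push lam Q X = y := by
    simp only [X, map_sub, map_sum, push_single, hPX, Q, Sum.elim_inl, Sum.elim_inr,
      emb_zero_left, smul_zero, Finset.sum_const_zero, sub_zero]
    exact push_upBy_zero lam y
  rw [← hQX]
  refine Char.push_rel lam (fun q hq E hE => ?_) hsyz
  have hQ : ∀ l, IsHomog ideg (Q l) (D' l + 1) := by
    rintro (x | l)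
    · simpa [Q, D'] using (acts_upBy (U := U) (1 : T) 0 x).1
    · exact isHomog_zero
  have hev : ∀ l, ev U (Q l) = ev U (P l) := by
    rintro (x | l)
    · simp [Q, P, (acts_upBy (U := U) (1 : T) 0 x).2, (acts_upBy (U := U) (1 : T) 1 x).2]
    · simp [Q, P, (hp l).2]
  refine ⟨⟨⟨E + 1, hE.comp hQ⟩, ?_⟩, hE.comp hQ⟩
  have : ev U (q.sum fun l f => f • P l) = 0 := by rw [hq, map_zero]
  simpa [map_finsuppSum, ev_smul, hev] using this

/-- `u ^ M` is injective modulo the relations on each chart. -/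
theorem push_sat (hlam : Sep lam) (ha : ∀ j, 0 ≤ a j) (M : ℕ) {x : Tot T n ℕ}
    (hx : x ∈ freeSlice T a ε ideg N)
    (h : push lam (upBy n 1 M) x ∈ relSlice lam a ε ideg (rel U) (N - M)) :
    x ∈ relSlice lam a ε ideg (rel U) N := by
  induction M generalizing x N with
  | zero => simpa [push_upBy_zero] using h
  | succ M ih =>
    refine ih hx ?_
    have hN : N - ((M + 1 : ℕ) : ℤ) + 1 = N - M := by push_cast; ring
    have h' := push_sat_one lam hlam ha (N := N - ((M + 1 : ℕ) : ℤ))
      (y := push lam (upBy n 1 M) x)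
      (by rw [hN]; exact (acts_upBy (U := U) 1 M).push_free lam hx)
      (by rw [push_comp, compFam_upBy]; exact h)
    rwa [hN] at h'

/-- `u ^ v` on families indexed by charts. -/
noncomputable def upC (v : ℕ) : (Chart n → Tot T n ℕ) →ₗ[T] (Chart n → Tot T n ℕ) :=
  LinearMap.pi fun ε => push lam (upBy n 1 v) ∘ₗ LinearMap.proj ε

theorem upC_apply (v : ℕ) (x : Chart n → Tot T n ℕ) (ε : Chart n) :
    upC lam v x ε = push lam (upBy n 1 v) (x ε) := rfl

theorem upC_free {v : ℕ} {x : Chart n → Tot T n ℕ}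
    (hx : x ∈ freeCech T a ideg (N + v)) : upC lam v x ∈ freeCech T a ideg N := by
  intro ε _
  simpa [upC_apply] using
    (acts_upBy (U := (0 : Fin (n + 1) → T)) 1 v).push_free lam (hx ε trivial)

theorem upC_rel {v : ℕ} {x : Chart n → Tot T n ℕ}
    (hx : x ∈ relCech lam a ideg (rel U) (N + v)) :
    upC lam v x ∈ relCech lam a ideg (rel U) N := by
  intro ε _
  simpa [upC_apply] using (acts_upBy (U := U) 1 v).push_rel lam (hx ε trivial)

theorem upC_cechD (v : ℕ) (x : Chart n → Tot T n ℕ) :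
    upC lam v (cechD T x) = cechD T (upC lam v x) :=
  funext fun ε => cechD_map (push lam (upBy n 1 v)) x ε

theorem upC_upC (v w : ℕ) (x : Chart n → Tot T n ℕ) :
    upC lam w (upC lam v x) = upC lam (v + w) x :=
  funext fun ε => by rw [upC_apply, upC_apply, upC_apply, push_comp, compFam_upBy]

theorem upC_zero : (upC lam 0 : _ →ₗ[T] (Chart n → Tot T n ℕ)) = LinearMap.id :=
  LinearMap.ext fun x => funext fun ε => push_upBy_zero lam (x ε)

/-- `u ^ v` is injective modulo the relations. -/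
theorem upC_sat (hlam : Sep lam) (ha : ∀ j, 0 ≤ a j) {v : ℕ} {x : Chart n → Tot T n ℕ}
    (hx : x ∈ freeCech T a ideg (N + v))
    (h : upC lam v x ∈ relCech lam a ideg (rel U) N) :
    x ∈ relCech lam a ideg (rel U) (N + v) := by
  intro ε _
  refine push_sat lam hlam ha v (hx ε trivial) ?_
  rw [add_sub_cancel_right]
  exact h ε trivial

variable (U a)

/-- The relations and the image of `u ^ w`, in degree `N`: the slice modulo `u ^ w`. -/
noncomputable def cut (w : ℕ) (N : ℤ) : Submodule T (Chart n → Tot T n ℕ) :=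
  relCech lam a ideg (rel U) N ⊔ (freeCech T a ideg (N + w)).map (upC lam w)

theorem cut_zero (N : ℤ) : cut U lam a 0 N = freeCech T a ideg N := by
  simp [cut, upC_zero, relCech_le_free]

theorem cut_le_free (w : ℕ) (N : ℤ) : cut U lam a w N ≤ freeCech T a ideg N := by
  refine sup_le (relCech_le_free lam) ?_
  rintro _ ⟨x, hx, rfl⟩
  exact upC_free lam hx

theorem cut_isSub (w : ℕ) (N : ℤ) : (cut U lam a w N).map (cechD T) ≤ cut U lam a w N := by
  rw [cut, Submodule.map_sup]
  refine sup_le_sup (cechD_mem_rel lam) ?_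
  rintro _ ⟨_, ⟨x, hx, rfl⟩, rfl⟩
  exact ⟨cechD T x, cechD_mem ⟨x, hx, rfl⟩, upC_cechD lam w x⟩

theorem cut_anti {j w : ℕ} (h : j ≤ w) (N : ℤ) : cut U lam a w N ≤ cut U lam a j N := by
  refine sup_le le_sup_left ?_
  rintro _ ⟨x, hx, rfl⟩
  refine Submodule.mem_sup_right ⟨upC lam (w - j) x, ?_, ?_⟩
  · exact upC_free lam
      (by rwa [show N + (j : ℤ) + ((w - j : ℕ) : ℤ) = N + w by omega])
  · rw [upC_upC, Nat.sub_add_cancel h]

/-- `u ^ v` carries the slice modulo `u ^ w` to the slice modulo `u ^ (w + v)`. -/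
theorem upC_cut {v w : ℕ} {N : ℤ} {x : Chart n → Tot T n ℕ} (hx : x ∈ cut U lam a w (N + v)) :
    upC lam v x ∈ cut U lam a (w + v) N := by
  obtain ⟨r, hr, _, ⟨z, hz, rfl⟩, rfl⟩ := Submodule.mem_sup.1 hx
  rw [map_add, upC_upC]
  refine Submodule.add_mem_sup (upC_rel lam hr) (Submodule.mem_map_of_mem ?_)
  rwa [show N + ((w + v : ℕ) : ℤ) = N + v + w by push_cast; ring]

/-- `u ^ v` is injective from the slice modulo `u ^ w` to the slice modulo `u ^ (w + v)`. -/
theorem mem_cut_of_upC (hlam : Sep lam) (ha : ∀ j, 0 ≤ a j) {v w : ℕ} {N : ℤ}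
    {x : Chart n → Tot T n ℕ} (hx : x ∈ freeCech T a ideg (N + v))
    (h : upC lam v x ∈ cut U lam a (w + v) N) : x ∈ cut U lam a w (N + v) := by
  obtain ⟨r, hr, _, ⟨z, hz, rfl⟩, he⟩ := Submodule.mem_sup.1 h
  have hz' : z ∈ freeCech T a ideg (N + v + w) := by
    rwa [show N + (v : ℤ) + w = N + ((w + v : ℕ) : ℤ) by push_cast; ring]
  have h2 : x - upC lam w z ∈ relCech lam a ideg (rel U) (N + v) := by
    refine upC_sat lam hlam ha (Submodule.sub_mem _ hx (upC_free lam hz')) ?_
    rw [map_sub, upC_upC, ← he, add_sub_cancel_right]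
    exact hr
  rw [← sub_add_cancel x (upC lam w z)]
  exact Submodule.add_mem_sup h2 (Submodule.mem_map_of_mem hz')

end Vale.Agent.P202.Mixed2.Win
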