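import Vale.Agent.P202.Mixed2.WinMeas
import Vale.Agent.P202.Char.Defs

/-!
P202, mixed characteristic, windows: complexes given by an endomorphism whose square sends `top`
into `bot`, homology of pairs of submodules between the two, and its long exact sequence.
-/

namespace Vale.Agent.P202.Mixed2

universe u v w

/-- A graded endomorphism squaring to zero from `top` to the quotient by `bot`. -/
structure Gd (T : Type u) [CommRing T] (V : Type v) [AddCommGroup V] [Module T V] where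
  /-- The differential. -/
  D : V →ₗ[T] V
  /-- The grading. -/
  deg : ℤ → Submodule T V
  /-- The smallest subcomplex considered. -/
  bot : Submodule T V
  /-- The largest subcomplex considered. -/
  top : Submodule T V
  map_deg : ∀ k, (deg k).map D ≤ deg (k - 1)
  sq : ∀ x ∈ top, D (D x) ∈ bot

namespace Gd

variable {T : Type u} [CommRing T] {V : Type v} [AddCommGroup V] [Module T V] (C : Gd T V)
  {V' : Type w} [AddCommGroup V'] [Module T V'] (C' : Gd T V')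

/-- Cycles of degree `k` of `Y / X`. -/
def cyc (X Y : Submodule T V) (k : ℤ) : Submodule T V := (Y ⊓ C.deg k) ⊓ X.comap C.D

/-- Boundaries of degree `k` of `Y / X`. -/
def bd (X Y : Submodule T V) (k : ℤ) : Submodule T V :=
  (Y ⊓ C.deg (k + 1)).map C.D ⊔ (X ⊓ C.deg k)

/-- Homology of `Y / X` in degree `k`. -/
abbrev H (X Y : Submodule T V) (k : ℤ) :=
  (C.cyc X Y k) ⧸ (C.bd X Y k).comap (C.cyc X Y k).subtype

variable {X Y W : Submodule T V} {X' Y' : Submodule T V'}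

theorem mk_eq_zero {k : ℤ} (x : C.cyc X Y k) :
    (Submodule.Quotient.mk x : C.H X Y k) = 0 ↔ (x : V) ∈ C.bd X Y k := by
  rw [Submodule.Quotient.mk_eq_zero]; rfl

theorem mk_eq {k : ℤ} (x y : C.cyc X Y k) :
    (Submodule.Quotient.mk x : C.H X Y k) = Submodule.Quotient.mk y ↔
      (x : V) - y ∈ C.bd X Y k := by
  rw [Submodule.Quotient.eq]; rfl

/-- The map induced on homology. -/
noncomputable def hMap (f : V →ₗ[T] V') {k m : ℤ}
    (hc : C.cyc X Y k ≤ (C'.cyc X' Y' m).comap f)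
    (hb : C.bd X Y k ≤ (C'.bd X' Y' m).comap f) : C.H X Y k →ₗ[T] C'.H X' Y' m :=
  Submodule.mapQ _ _ (f.restrict fun _ hx => hc hx) fun _ hx => hb hx

theorem hMap_mk (f : V →ₗ[T] V') {k m : ℤ} (hc : C.cyc X Y k ≤ (C'.cyc X' Y' m).comap f)
    (hb : C.bd X Y k ≤ (C'.bd X' Y' m).comap f) (x : C.cyc X Y k) :
    C.hMap C' f hc hb (Submodule.Quotient.mk x) = Submodule.Quotient.mk ⟨f x, hc x.2⟩ := rfl

/-- The map between two nested pairs. -/
noncomputable def move {X₁ Y₁ : Submodule T V} (hX : X ≤ X₁) (hY : Y ≤ Y₁) (k : ℤ) :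
    C.H X Y k →ₗ[T] C.H X₁ Y₁ k :=
  C.hMap C LinearMap.id (fun _ hx => ⟨⟨hY hx.1.1, hx.1.2⟩, hX hx.2⟩)
    (sup_le_sup (Submodule.map_mono (inf_le_inf_right _ hY)) (inf_le_inf_right _ hX))

theorem move_mk {X₁ Y₁ : Submodule T V} (hX : X ≤ X₁) (hY : Y ≤ Y₁) (k : ℤ) (x : C.cyc X Y k) :
    C.move hX hY k (Submodule.Quotient.mk x) =
      Submodule.Quotient.mk ⟨(x : V), ⟨hY x.2.1.1, x.2.1.2⟩, hX x.2.2⟩ := rfl

/-- The connecting map from `W / Y` to `Y / X`. -/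
noncomputable def conn (hX : C.bot ≤ X) (hW : W ≤ C.top) (k : ℤ) :
    C.H Y W k →ₗ[T] C.H X Y (k - 1) :=
  C.hMap C C.D
    (fun x hx => ⟨⟨hx.2, C.map_deg k ⟨x, hx.1.2, rfl⟩⟩, hX (C.sq x (hW hx.1.1))⟩)
    (sup_le (by
        rintro _ ⟨x, hx, rfl⟩
        refine Submodule.mem_sup_right ⟨hX (C.sq x (hW hx.1)), ?_⟩
        refine C.map_deg k ⟨C.D x, ?_, rfl⟩
        simpa using C.map_deg (k + 1) ⟨x, hx.2, rfl⟩)
      fun x hx => Submodule.mem_sup_left ⟨x, ⟨hx.1, by simpa using hx.2⟩, rfl⟩)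

theorem conn_mk (hX : C.bot ≤ X) (hW : W ≤ C.top) (k : ℤ) (x : C.cyc Y W k) :
    ((C.conn hX hW k) (Submodule.Quotient.mk x) : C.H X Y (k - 1)) =
      Submodule.Quotient.mk ⟨C.D x,
        ⟨x.2.2, C.map_deg k ⟨(x : V), x.2.1.2, rfl⟩⟩, hX (C.sq x (hW x.2.1.1))⟩ := rfl

variable (hX : C.bot ≤ X) (hXY : X ≤ Y) (hYW : Y ≤ W) (hW : W ≤ C.top)

include hX hW in
theorem ker_move_top (k : ℤ) : LinearMap.ker (C.move (Y := W) hXY le_rfl k) =
    LinearMap.range (C.move (X := X) le_rfl hYW k) := by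
  refine le_antisymm ?_ ?_
  · intro a ha
    induction a using Submodule.Quotient.induction_on with | _ x
    obtain ⟨x, hx⟩ := x
    have h : x ∈ C.bd Y W k := (C.mk_eq_zero _).1 ha
    obtain ⟨_, ⟨y, hy, rfl⟩, r, hr, hs⟩ := Submodule.mem_sup.1 h
    have hrc : r ∈ C.cyc X Y k := ⟨hr, by
      have e : C.D r = C.D x - C.D (C.D y) := by rw [← hs, map_add, add_sub_cancel_left]
      show C.D r ∈ X
      rw [e]
      exact sub_mem hx.2 (hX (C.sq y (hW hy.1)))⟩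
    refine ⟨Submodule.Quotient.mk ⟨r, hrc⟩, ?_⟩
    rw [move_mk, mk_eq]
    show r - x ∈ C.bd X W k
    rw [← hs, sub_add_cancel_right]
    exact neg_mem (Submodule.mem_sup_left ⟨y, hy, rfl⟩)
  · rintro _ ⟨a, rfl⟩
    induction a using Submodule.Quotient.induction_on with | _ x
    exact (C.mk_eq_zero _).2 (Submodule.mem_sup_right x.2.1)

include hXY hYW in
theorem ker_conn (k : ℤ) : LinearMap.ker (C.conn (Y := Y) hX hW k) =
    LinearMap.range (C.move (Y := W) hXY le_rfl k) := by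
  refine le_antisymm ?_ ?_
  · intro a ha
    induction a using Submodule.Quotient.induction_on with | _ x
    obtain ⟨x, hx⟩ := x
    have h : C.D x ∈ C.bd X Y (k - 1) := (C.mk_eq_zero _).1 ha
    obtain ⟨_, ⟨y, hy, rfl⟩, r, hr, hs⟩ := Submodule.mem_sup.1 h
    have hyd : y ∈ C.deg k := by simpa using hy.2
    have hxy : x - y ∈ C.cyc X W k := ⟨⟨W.sub_mem hx.1.1 (hYW hy.1), sub_mem hx.1.2 hyd⟩, by
      show C.D (x - y) ∈ X
      rw [map_sub, ← hs, add_sub_cancel_left]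
      exact hr.1⟩
    refine ⟨Submodule.Quotient.mk ⟨x - y, hxy⟩, ?_⟩
    rw [move_mk, mk_eq]
    show (x - y) - x ∈ C.bd Y W k
    rw [sub_sub_cancel_left]
    exact neg_mem (Submodule.mem_sup_right ⟨hy.1, hyd⟩)
  · rintro _ ⟨a, rfl⟩
    induction a using Submodule.Quotient.induction_on with | _ x
    exact (C.mk_eq_zero _).2
      (Submodule.mem_sup_right ⟨x.2.2, C.map_deg k ⟨x.1, x.2.1.2, rfl⟩⟩)

include hXY hYW in
theorem ker_move_sub (k : ℤ) : LinearMap.ker (C.move (X := X) le_rfl hYW (k + 1 - 1)) =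
    LinearMap.range (C.conn (Y := Y) hX hW (k + 1)) := by
  refine le_antisymm ?_ ?_
  · intro a ha
    induction a using Submodule.Quotient.induction_on with | _ x
    obtain ⟨x, hx⟩ := x
    have h : x ∈ C.bd X W (k + 1 - 1) := (C.mk_eq_zero _).1 ha
    obtain ⟨_, ⟨y, hy, rfl⟩, r, hr, hs⟩ := Submodule.mem_sup.1 h
    have hyc : y ∈ C.cyc Y W (k + 1) := ⟨⟨hy.1, by simpa using hy.2⟩, by
      show C.D y ∈ Y
      rw [eq_sub_of_add_eq hs]
      exact Y.sub_mem hx.1.1 (hXY hr.1)⟩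
    refine ⟨Submodule.Quotient.mk ⟨y, hyc⟩, ?_⟩
    rw [conn_mk, mk_eq]
    show C.D y - x ∈ C.bd X Y (k + 1 - 1)
    rw [← hs, sub_add_cancel_left]
    exact neg_mem (Submodule.mem_sup_right hr)
  · rintro _ ⟨a, rfl⟩
    induction a using Submodule.Quotient.induction_on with | _ x
    refine (C.mk_eq_zero _).2 (Submodule.mem_sup_left ⟨x.1, ⟨x.2.1.1, ?_⟩, rfl⟩)
    simpa using x.2.1.2

theorem H_self (X : Submodule T V) (k : ℤ) : Subsingleton (C.H X X k) :=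
  Submodule.Quotient.subsingleton_iff.2
    (eq_top_iff.2 fun x _ => Submodule.mem_sup_right x.2.1)

theorem H_of_deg {k : ℤ} (h : C.deg k = ⊥) : Subsingleton (C.H X Y k) := by
  refine Submodule.Quotient.subsingleton_iff.2 (eq_top_iff.2 fun x _ => ?_)
  have hz : (x : V) ∈ C.deg k := x.2.1.2
  rw [h, Submodule.mem_bot] at hz
  show (x : V) ∈ C.bd X Y k
  rw [hz]
  exact zero_mem _

/-- An element which kills all chains kills the homology. -/
theorem smul_H_eq_zero {b : T} (h : ∀ x ∈ Y, b • x ∈ X) (k : ℤ) (a : C.H X Y k) : b • a = 0 := by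
  induction a using Submodule.Quotient.induction_on with | _ x
  rw [← Submodule.Quotient.mk_smul, mk_eq_zero]
  exact Submodule.mem_sup_right ⟨h _ x.2.1.1, Submodule.smul_mem _ _ x.2.1.2⟩

/-- A map commuting with the differentials modulo `X'` up to a unit, bijective on `Y / X`. -/
theorem hMap_bijective (f : V →ₗ[T] V') (c : Tˣ) (s : ℤ)
    (hD : ∀ k, ∀ x ∈ Y ⊓ C.deg k, f (C.D x) - (c : T) • C'.D (f x) ∈ X')
    (hY : Y.map C.D ≤ Y) (hX' : X'.map C'.D ≤ X')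
    (hdeg : ∀ k, (C.deg k).map f ≤ C'.deg (k + s))
    (hmX : X.map f ≤ X') (hmY : Y.map f ≤ Y')
    (hsurj : ∀ k, Y' ⊓ C'.deg (k + s) ≤ (Y ⊓ C.deg k).map f ⊔ (X' ⊓ C'.deg (k + s)))
    (hinj : ∀ k, (Y ⊓ C.deg k) ⊓ X'.comap f ≤ X) (k : ℤ) :
    ∃ (hc : C.cyc X Y k ≤ (C'.cyc X' Y' (k + s)).comap f)
      (hb : C.bd X Y k ≤ (C'.bd X' Y' (k + s)).comap f),
      Function.Bijective (C.hMap C' f hc hb) := by
  have hE : ∀ k, ∀ x ∈ Y ⊓ C.deg k, (↑c⁻¹ : T) • f (C.D x) - C'.D (f x) ∈ X' := fun k x hx => by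
    have h := X'.smul_mem (↑c⁻¹ : T) (hD k x hx)
    rwa [smul_sub, smul_smul, Units.inv_mul, one_smul] at h
  have hc : C.cyc X Y k ≤ (C'.cyc X' Y' (k + s)).comap f := fun x hx =>
    ⟨⟨hmY ⟨x, hx.1.1, rfl⟩, hdeg k ⟨x, hx.1.2, rfl⟩⟩, by
      change C'.D (f x) ∈ X'
      have h := sub_mem (X'.smul_mem (↑c⁻¹ : T) (hmX ⟨C.D x, hx.2, rfl⟩)) (hE k x hx.1)
      rwa [sub_sub_cancel] at h⟩
  have hdy : ∀ y ∈ C.deg (k + 1), f y ∈ C'.deg (k + s + 1) ∧ C.D y ∈ C.deg k := fun y hy =>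
    ⟨by simpa [add_right_comm] using hdeg (k + 1) ⟨y, hy, rfl⟩,
      by simpa using C.map_deg (k + 1) ⟨y, hy, rfl⟩⟩
  have hb : C.bd X Y k ≤ (C'.bd X' Y' (k + s)).comap f := sup_le
    (by
      rintro _ ⟨y, hy, rfl⟩
      change f (C.D y) ∈ C'.bd X' Y' (k + s)
      obtain ⟨hy1, hy2⟩ := hdy y hy.2
      have hDd : C'.D (f y) ∈ C'.deg (k + s) := by
        simpa using C'.map_deg (k + s + 1) ⟨f y, hy1, rfl⟩
      rw [← sub_add_cancel (f (C.D y)) ((c : T) • C'.D (f y))]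
      exact add_mem (Submodule.mem_sup_right ⟨hD (k + 1) y hy,
          sub_mem (hdeg k ⟨_, hy2, rfl⟩) (Submodule.smul_mem _ _ hDd)⟩)
        (Submodule.smul_mem _ _ (Submodule.mem_sup_left ⟨f y, ⟨hmY ⟨y, hy.1, rfl⟩, hy1⟩, rfl⟩)))
    fun x hx => Submodule.mem_sup_right ⟨hmX ⟨x, hx.1, rfl⟩, hdeg k ⟨x, hx.2, rfl⟩⟩
  refine ⟨hc, hb, ?_, ?_⟩
  · rw [← LinearMap.ker_eq_bot, Submodule.eq_bot_iff]
    intro a ha
    induction a using Submodule.Quotient.induction_on with | _ x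
    obtain ⟨x, hx⟩ := x
    have h : f x ∈ C'.bd X' Y' (k + s) := (C'.mk_eq_zero _).1 ha
    obtain ⟨_, ⟨w', hw', rfl⟩, r, hr, hs⟩ := Submodule.mem_sup.1 h
    rw [add_right_comm] at hw'
    obtain ⟨_, ⟨y, hy, rfl⟩, r', hr', hs'⟩ := Submodule.mem_sup.1 (hsurj _ hw')
    have hd1 : (↑c⁻¹ : T) • C.D y ∈ C.deg k := Submodule.smul_mem _ _ (hdy y hy.2).2
    have hd2 : (↑c⁻¹ : T) • C.D y ∈ Y := Submodule.smul_mem _ _ (hY ⟨y, hy.1, rfl⟩)
    have hz : x - (↑c⁻¹ : T) • C.D y ∈ X :=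
      hinj k ⟨⟨Y.sub_mem hx.1.1 hd2, sub_mem hx.1.2 hd1⟩, by
        change f (x - (↑c⁻¹ : T) • C.D y) ∈ X'
        rw [map_sub, map_smul, ← hs, ← hs', map_add]
        have := sub_mem (add_mem (hX' ⟨r', hr'.1, rfl⟩) hr.1) (hE _ y hy)
        convert this using 1
        abel⟩
    refine (C.mk_eq_zero _).2 ?_
    exact Submodule.mem_sup.2 ⟨_, ⟨(↑c⁻¹ : T) • y, Submodule.smul_mem _ _ hy, map_smul _ _ _⟩,
      x - (↑c⁻¹ : T) • C.D y, ⟨hz, sub_mem hx.1.2 hd1⟩, add_sub_cancel _ _⟩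
  · intro a
    induction a using Submodule.Quotient.induction_on with | _ z
    obtain ⟨z, hz⟩ := z
    obtain ⟨_, ⟨y, hy, rfl⟩, r, hr, hs⟩ := Submodule.mem_sup.1 (hsurj k hz.1)
    have hDy : C.D y ∈ X := hinj (k - 1) ⟨⟨hY ⟨y, hy.1, rfl⟩, C.map_deg k ⟨y, hy.2, rfl⟩⟩, by
      change f (C.D y) ∈ X'
      have h1 : C'.D (f y) ∈ X' := by
        rw [eq_sub_of_add_eq hs, map_sub]
        exact sub_mem hz.2 (hX' ⟨r, hr.1, rfl⟩)
      have h := add_mem (hD k y hy) (X'.smul_mem (c : T) h1)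
      rwa [sub_add_cancel] at h⟩
    refine ⟨Submodule.Quotient.mk ⟨y, hy, hDy⟩, ?_⟩
    rw [hMap_mk, mk_eq]
    change f y - z ∈ C'.bd X' Y' (k + s)
    rw [← hs, sub_add_cancel_left]
    exact neg_mem (Submodule.mem_sup_right hr)

end Gd

end Vale.Agent.P202.Mixed2
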