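import Vale.Agent.P202.Mixed2.WinCore
import Vale.Agent.P202.Mixed2.WinGd
import Vale.Agent.P202.Char.SheafPiece

/-!
P202, mixed characteristic, windows: cuts chart by chart, the families which preserve them, and
scalars from high powers of the ideal, which act into high cuts.
-/

namespace Vale.Agent.P202.Mixed2.Win

universe u

open Vale.Agent.P202.Char

variable {T : Type u} [CommRing T] {n : ℕ} {U : Fin (n + 1) → T} (lam : Fin (n + 1) → T)
  {a : Fin n → ℤ} {ε : Chart n} {N : ℤ}

theorem acts_zero (J : ℤ) : Acts U J (0 : T) 0 := fun _ => ⟨isHomog_zero, by simp⟩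

theorem Acts.add {J : ℤ} {b c : T} {p q : ℕ → (ℕ →₀ MvPolynomial (Fin (n + 1)) T)}
    (hp : Acts U J b p) (hq : Acts U J c q) : Acts U J (b + c) (p + q) := fun x =>
  ⟨(hp x).1.add (hq x).1, by rw [Pi.add_apply, map_add, (hp x).2, (hq x).2]⟩

theorem acts_sum {J : ℤ} {κ : Type} (s : Finset κ) {c : κ → T}
    {p : κ → ℕ → (ℕ →₀ MvPolynomial (Fin (n + 1)) T)} (h : ∀ i ∈ s, Acts U J (c i) (p i)) :
    Acts U J (∑ i ∈ s, c i) (∑ i ∈ s, p i) := by
  classical
  induction s using Finset.induction_on with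
  | empty => simpa using acts_zero J
  | insert i s hi ih =>
    rw [Finset.sum_insert hi, Finset.sum_insert hi]
    exact (h i (Finset.mem_insert_self _ _)).add (ih fun j hj => h j (Finset.mem_insert_of_mem hj))

theorem push_zero_fam (x : Tot T n ℕ) :
    push lam (0 : ℕ → (ℕ →₀ MvPolynomial (Fin (n + 1)) T)) x = 0 := by
  induction x using tot_induction with
  | h0 => simp
  | hadd a b ha hb => rw [map_add, ha, hb, add_zero]
  | hs i e r => rw [map_smul, push_inComp, Pi.zero_apply, emb_zero_left, smul_zero]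

theorem push_add_fam (p q : ℕ → (ℕ →₀ MvPolynomial (Fin (n + 1)) T)) (x : Tot T n ℕ) :
    push lam (p + q) x = push lam p x + push lam q x := by
  have h := push_sub lam (p + q) q x
  rw [add_sub_cancel_right] at h
  rw [h]
  abel

theorem push_sum_fam {κ : Type} (s : Finset κ)
    (p : κ → ℕ → (ℕ →₀ MvPolynomial (Fin (n + 1)) T)) (x : Tot T n ℕ) :
    push lam (∑ i ∈ s, p i) x = ∑ i ∈ s, push lam (p i) x := by
  classical
  induction s using Finset.induction_on with
  | empty => simp [push_zero_fam]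
  | insert i s hi ih => rw [Finset.sum_insert hi, Finset.sum_insert hi, push_add_fam, ih]

theorem push_upBy_scalar (c : T) (v : ℕ) (x : Tot T n ℕ) :
    push lam (upBy n c v) x = c • push lam (upBy n (1 : T) v) x := by
  induction x using tot_induction with
  | h0 => simp
  | hadd p q hp hq => simp [map_add, hp, hq]
  | hs i e r =>
    rw [map_smul, push_inComp, map_smul, push_inComp, smul_comm c r]
    congr 1
    simp only [upBy, emb_single, map_one, one_mul, rho, MvPolynomial.aeval_C, ← Algebra.smul_def,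
      map_smul]

theorem push_formBy_X_pow (k : Fin (n + 1)) (s : ℕ) (x : Tot T n ℕ) :
    push lam (formBy (MvPolynomial.X k ^ s)) x = lmul (yImg lam k ^ s) x := by
  induction x using tot_induction with
  | h0 => simp
  | hadd p q hp hq => simp [map_add, hp, hq]
  | hs i e r =>
    rw [map_smul, push_inComp, map_smul, lmul_inComp, formBy, emb_single, map_pow, rho,
      MvPolynomial.aeval_X]

variable (U a)

/-- The relations and the image of `u ^ W` on one chart. -/
noncomputable def cutS (W : ℕ) (ε : Chart n) (N : ℤ) : Submodule T (Tot T n ℕ) :=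
  relSlice lam a ε ideg (rel U) N ⊔ (freeSlice T a ε ideg (N + W)).map (push lam (upBy n 1 W))

theorem cut_eq_pi (W : ℕ) (N : ℤ) :
    cut U lam a W N = Submodule.pi Set.univ fun ε => cutS U lam a W ε N := by
  refine le_antisymm (sup_le ?_ ?_) fun x hx => ?_
  · exact fun x hx ε _ => Submodule.mem_sup_left (hx ε trivial)
  · rintro _ ⟨x, hx, rfl⟩ ε -
    exact Submodule.mem_sup_right ⟨x ε, hx ε trivial, rfl⟩
  · have h : ∀ ε, ∃ r ∈ relSlice lam a ε ideg (rel U) N,
        ∃ y ∈ freeSlice T a ε ideg (N + W), r + push lam (upBy n 1 W) y = x ε := fun ε => by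
      obtain ⟨r, hr, _, ⟨y, hy, rfl⟩, he⟩ := Submodule.mem_sup.1 (hx ε trivial)
      exact ⟨r, hr, y, hy, he⟩
    choose r hr y hy he using h
    exact Submodule.mem_sup.2 ⟨r, fun ε _ => hr ε, upC lam W y,
      Submodule.mem_map_of_mem (fun ε _ => hy ε), funext he⟩

variable {U a}

theorem mem_cut {W : ℕ} {x : Chart n → Tot T n ℕ} :
    x ∈ cut U lam a W N ↔ ∀ ε, x ε ∈ cutS U lam a W ε N := by
  simp [cut_eq_pi]

theorem cutS_le_free (W : ℕ) : cutS U lam a W ε N ≤ freeSlice T a ε ideg N := by
  refine sup_le (relSlice_le_free lam a ε ideg (rel U) N) ?_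
  rintro _ ⟨y, hy, rfl⟩
  simpa using (acts_upBy (U := U) 1 W).push_free lam hy

theorem cutS_zero : cutS U lam a 0 ε N = freeSlice T a ε ideg N := by
  refine le_antisymm (cutS_le_free lam 0) fun x hx => ?_
  exact Submodule.mem_sup_right ⟨x, by simpa using hx, push_upBy_zero lam x⟩

theorem cutS_anti {j w : ℕ} (h : j ≤ w) : cutS U lam a w ε N ≤ cutS U lam a j ε N := by
  refine sup_le le_sup_left ?_
  rintro _ ⟨y, hy, rfl⟩
  refine Submodule.mem_sup_right ⟨push lam (upBy n 1 (w - j)) y, ?_, ?_⟩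
  · have := (acts_upBy (U := U) 1 (w - j)).push_free lam hy
    rwa [show N + (w : ℤ) + -((w - j : ℕ) : ℤ) = N + j by omega] at this
  · rw [push_comp, compFam_upBy, Nat.sub_add_cancel h]

theorem cutS_chart {η : Chart n} (h : ∀ j, η j = 2 ∨ η j = ε j) {W : ℕ} :
    cutS U lam a W ε N ≤ cutS U lam a W η N :=
  sup_le_sup (relSlice_mono lam h _ _ _) (Submodule.map_mono (freeSlice_mono h _ _))

/-- A family sends cuts into shallower cuts. -/
theorem push_cutS {J : ℤ} {c : T} {p : ℕ → (ℕ →₀ MvPolynomial (Fin (n + 1)) T)}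
    (hp : Acts U J c p) {W W' : ℕ} (hW : W' ≤ W) {x : Tot T n ℕ}
    (hx : x ∈ cutS U lam a W ε N) : push lam p x ∈ cutS U lam a W' ε (N + J) := by
  refine cutS_anti lam hW ?_
  obtain ⟨r, hr, _, ⟨y, hy, rfl⟩, rfl⟩ := Submodule.mem_sup.1 hx
  rw [map_add]
  refine add_mem (Submodule.mem_sup_left (hp.push_rel lam hr)) ?_
  have h1 : Acts U (-(W : ℤ) + J) c (compFam p (upBy n 1 W)) := by
    simpa [add_comm] using hp.comp (acts_upBy (U := U) 1 W)
  have h2 : Acts U (-(W : ℤ) + J) c (compFam (upBy n 1 W) p) := by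
    simpa using (acts_upBy (U := U) 1 W).comp hp
  have hd := h1.push_congr lam h2 hy
  rw [← push_comp, ← push_comp, show N + (W : ℤ) + (-(W : ℤ) + J) = N + J by ring] at hd
  rw [← sub_add_cancel (push lam p (push lam (upBy n 1 W) y))
    (push lam (upBy n 1 W) (push lam p y))]
  refine Submodule.add_mem_sup hd (Submodule.mem_map_of_mem ?_)
  have := hp.push_free lam hy
  rwa [show N + (W : ℤ) + J = N + J + W by ring] at this

/-- `u ^ v` shifts cuts. -/
theorem up_cutS {v W : ℕ} {x : Tot T n ℕ} (hx : x ∈ cutS U lam a W ε (N + v)) :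
    push lam (upBy n 1 v) x ∈ cutS U lam a (W + v) ε N := by
  obtain ⟨r, hr, _, ⟨y, hy, rfl⟩, rfl⟩ := Submodule.mem_sup.1 hx
  rw [map_add, push_comp, compFam_upBy]
  refine Submodule.add_mem_sup ?_ (Submodule.mem_map_of_mem ?_)
  · simpa using (acts_upBy (U := U) 1 v).push_rel lam hr
  · rwa [show N + ((W + v : ℕ) : ℤ) = N + v + W by push_cast; ring]

/-- A family whose value lies in a high power of the ideal sends a slice into a high cut. -/
theorem push_small {J m W : ℕ} {c : T} (hc : c ∈ aI U ^ m) (hW : W + J ≤ m)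
    {p : ℕ → (ℕ →₀ MvPolynomial (Fin (n + 1)) T)} (hp : Acts U (J : ℤ) c p) {x : Tot T n ℕ}
    (hx : x ∈ freeSlice T a ε ideg N) : push lam p x ∈ cutS U lam a W ε (N + J) := by
  obtain ⟨f, hf, hfc⟩ : ∃ f : MvPolynomial (Fin (n + 1)) T, f.IsHomogeneous (W + J) ∧
      MvPolynomial.aeval U f = c := by
    have hc' : c ∈ aI U ^ (W + J) := Ideal.pow_le_pow_right hW hc
    revert hc'
    generalize W + J = D
    intro hc'
    clear hp hc
    induction D generalizing c with
    | zero => exact ⟨MvPolynomial.C c, MvPolynomial.isHomogeneous_C _ _, by simp⟩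
    | succ D ih =>
      rw [pow_succ] at hc'
      refine Submodule.mul_induction_on hc' (fun y hy z hz => ?_) (fun y z hy hz => ?_)
      · obtain ⟨f, hf, rfl⟩ := ih hy
        obtain ⟨d, rfl⟩ := (Ideal.mem_span_range_iff_exists_fun).1 hz
        exact ⟨f * ∑ l, MvPolynomial.C (d l) * MvPolynomial.X l, hf.mul
          (MvPolynomial.IsHomogeneous.sum _ _ _ fun l _ => MvPolynomial.isHomogeneous_C_mul_X _ _),
          by simp [map_sum]⟩
      · obtain ⟨f, hf, rfl⟩ := hy
        obtain ⟨g, hg, rfl⟩ := hz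
        exact ⟨f + g, hf.add hg, map_add _ _ _⟩
  have hq : Acts U (J : ℤ) c (compFam (upBy n 1 W) (formBy f)) := by
    have := (acts_upBy (U := U) 1 W).comp (acts_formBy (U := U) hf)
    rwa [one_mul, hfc, show -(W : ℤ) + ((W + J : ℕ) : ℤ) = J by push_cast; ring] at this
  rw [← sub_add_cancel (push lam p x) (push lam (compFam (upBy n 1 W) (formBy f)) x)]
  refine Submodule.add_mem_sup (hp.push_congr lam hq hx) ?_
  rw [← push_comp]
  refine Submodule.mem_map_of_mem ?_
  have := (acts_formBy (U := U) hf).push_free lam hx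
  rwa [show N + ((W + J : ℕ) : ℤ) = N + J + W by push_cast; ring] at this

/-- Multiplication by a Laurent polynomial of degree `c` on a chart. -/
theorem lmul_cutS {μ : Lau T n} {c : ℤ} (hμ : LauMem (fun _ => 0) ε c μ) {W : ℕ} {x : Tot T n ℕ}
    (hx : x ∈ cutS U lam a W ε N) : lmul μ x ∈ cutS U lam a W ε (N + c) := by
  obtain ⟨r, hr, _, ⟨y, hy, rfl⟩, rfl⟩ := Submodule.mem_sup.1 hx
  rw [map_add, ← push_lmul]
  refine Submodule.add_mem_sup ?_ (Submodule.mem_map_of_mem ?_)
  · rw [add_comm N c]
    exact Sheaf.lmul_mem_rel lam a ε hμ ⟨r, hr, rfl⟩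
  · have hfree : (lmul μ y) ∈ freeSlice T a ε ideg (N + W + c) := by
      rw [freeSlice, Finsupp.supported_eq_span_single] at hy
      clear hx
      induction hy using Submodule.span_induction with
      | mem z hz =>
        obtain ⟨⟨i, e⟩, ⟨hb, hd⟩, rfl⟩ := hz
        simp only at hb hd ⊢
        rw [← inComp_single i e (1 : T), lmul_inComp]
        have := hμ.mul (lauMem_single (a := a) (m := e.2) (1 : T) hb rfl)
        rw [show ((fun _ => 0) + a : Fin n → ℤ) = a by ext; simp] at this
        exact inComp_mem this (by omega)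
      | zero => simp
      | add p q _ _ hp hq => rw [map_add]; exact Submodule.add_mem _ hp hq
      | smul r p _ hp => rw [map_smul]; exact Submodule.smul_mem _ r hp
    rwa [show N + c + (W : ℤ) = N + W + c by ring]

end Vale.Agent.P202.Mixed2.Win
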