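import Vale.Agent.P202.Mixed2.WinPow
import Vale.Agent.P202.Char.Band

/-!
P202, mixed characteristic, windows: one layer of the Cech complex cut by powers of `u` has, up to
negligible modules, the cohomology of `O (N + s + a)` over `T ⧸ (U)`; windows made of several layers.
-/

open scoped ENNReal

namespace Vale.Agent.P202.Mixed2

universe u

open Vale.Agent.P202.Char

namespace Win

variable {T : Type u} [CommRing T] {n : ℕ} {U : Fin (n + 1) → T} (lam : Fin (n + 1) → T)
  {a : Fin n → ℤ}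

section Proj

variable (U)

/-- The component `s = 0` modulo the ideal. -/
noncomputable def proj0 : Tot T n ℕ →ₗ[T] Tot (T ⧸ aI U) n Unit :=
  Finsupp.lsum T fun x => if x.1 = 0 then
    (Finsupp.lsingle ((), x.2)) ∘ₗ (Ideal.Quotient.mkₐ T (aI U)).toLinearMap else 0

variable {U}

theorem proj0_single (s : ℕ) (e : Expo n) (r : T) :
    proj0 U (Finsupp.single (s, e) r) =
      if s = 0 then Finsupp.single ((), e) (Ideal.Quotient.mk (aI U) r) else 0 := by
  rw [proj0, Finsupp.lsum_single]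
  split_ifs <;> rfl

theorem proj0_apply (x : Tot T n ℕ) (e : Expo n) :
    proj0 U x ((), e) = Ideal.Quotient.mk (aI U) (x (0, e)) := by
  classical
  induction x using Finsupp.induction_linear with
  | zero => simp
  | add f g hf hg => simp [hf, hg]
  | single y r =>
    obtain ⟨s, e'⟩ := y
    rw [proj0_single]
    by_cases hs : s = 0
    · subst hs
      by_cases he : e' = e
      · subst he; simp
      · simp [he]
    · simp [hs]

theorem proj0_up (x : Tot T n ℕ) : proj0 U (push lam (upBy n 1 1) x) = 0 := by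
  induction x using tot_induction with
  | h0 => simp
  | hadd b c hb hc => rw [map_add, map_add, hb, hc, add_zero]
  | hs i e r =>
    rw [map_smul, map_smul, push_inComp, upBy, emb_single, map_one, map_one, one_mul,
      inComp_single, proj0_single, if_neg (Nat.succ_ne_zero i), smul_zero]

theorem aeval_mem_pow {f : MvPolynomial (Fin (n + 1)) T} {d : ℕ}
    (hd : ∀ c ∈ f.support, d ≤ c.sum fun _ v => v) : MvPolynomial.aeval U f ∈ aI U ^ d := by
  rw [MvPolynomial.as_sum f, map_sum]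
  refine Submodule.sum_mem _ fun c hc => ?_
  rw [MvPolynomial.aeval_monomial]
  refine Ideal.mul_mem_left _ _ (Ideal.pow_le_pow_right (hd c hc) ?_)
  rw [Finsupp.prod, Finsupp.sum, ← Finset.prod_pow_eq_pow_sum]
  exact Ideal.prod_mem_prod fun i _ => Ideal.pow_mem_pow (Ideal.subset_span (Set.mem_range_self i)) _

theorem proj0_inComp_eq_zero {f : MvPolynomial (Fin (n + 1)) T} (hf : ∀ c, f.coeff c ∈ aI U)
    (ν : Lau T n) : proj0 U (inComp 0 (rho lam f * ν)) = 0 := by
  rw [MvPolynomial.as_sum f, map_sum, Finset.sum_mul, map_sum, map_sum]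
  refine Finset.sum_eq_zero fun c _ => ?_
  rw [show MvPolynomial.monomial c (f.coeff c) = f.coeff c • MvPolynomial.monomial c (1 : T) by
      rw [MvPolynomial.smul_monomial, smul_eq_mul, mul_one], map_smul, smul_mul_assoc, map_smul,
    map_smul]
  refine Finsupp.ext fun x => ?_
  rw [Finsupp.smul_apply, Algebra.smul_def, Ideal.Quotient.algebraMap_eq,
    Ideal.Quotient.eq_zero_iff_mem.2 (hf c), zero_mul, Finsupp.zero_apply]

/-- An almost unit kills the image of the relations. -/
theorem smul_proj0_emb {μ : Meas T} (hA : Almost μ U) (j : ℕ)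
    {p : ℕ →₀ MvPolynomial (Fin (n + 1)) T} {D : ℤ} (hp : IsHomog ideg p D) (hev : ev U p = 0)
    (ν : Lau T n) : hA.b j • proj0 U (emb lam p ν) = 0 := by
  classical
  have key : proj0 U (emb lam p ν) = proj0 U (inComp 0 (rho lam (p 0) * ν)) := by
    rw [emb, map_finsuppSum, Finsupp.sum]
    refine Finset.sum_eq_single (0 : ℕ) (fun s _ hs => ?_) fun h => ?_
    · induction rho lam (p s) * ν using lau_induction with
      | h0 => simp
      | hadd b c hb hc => rw [map_add, map_add, hb, hc, add_zero]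
      | hs e r => rw [map_smul, inComp_single, map_smul, proj0_single, if_neg hs, smul_zero]
    · rw [Finsupp.notMem_support_iff.1 h, map_zero, zero_mul, map_zero, map_zero]
  rw [key, ← map_smul, ← map_smul, ← smul_mul_assoc, ← map_smul]
  refine proj0_inComp_eq_zero lam (fun c => ?_) ν
  rw [MvPolynomial.coeff_smul, smul_eq_mul]
  by_cases h0 : p 0 = 0
  · simp [h0]
  obtain ⟨c₀, hc₀⟩ := MvPolynomial.support_nonempty.2 h0
  obtain ⟨d, rfl⟩ : ∃ d : ℕ, D = d := ⟨c₀.sum fun _ v => v, by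
    have := hp 0 c₀ hc₀
    simp only [ideg, Nat.cast_zero, neg_zero, zero_add] at this
    rw [← this]
    simp [Finsupp.sum]⟩
  have hdeg : ∀ s, ∀ c' ∈ (p s).support, (c'.sum fun _ v => v) = d + s := fun s c' hc' => by
    have := hp s c' hc'
    simp only [ideg, Finsupp.sum, ← Nat.cast_sum] at this ⊢
    omega
  have hhom : (p 0).IsHomogeneous d := by
    intro c' hc'
    have := hdeg 0 c' (MvPolynomial.mem_support_iff.2 hc')
    rw [Finsupp.weight_apply]
    simpa [Finsupp.sum] using this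
  have hval : MvPolynomial.eval U (p 0) ∈ aI U ^ (d + 1) := by
    have h1 : ev U p = p.sum fun _ f => MvPolynomial.aeval U f := by
      rw [ev, Finsupp.lsum_apply]
      rfl
    rw [hev, Finsupp.sum] at h1
    have h2 : MvPolynomial.aeval U (p 0) +
        ∑ s ∈ p.support.erase 0, MvPolynomial.aeval U (p s) = 0 := by
      rw [Finset.add_sum_erase _ (fun s => MvPolynomial.aeval U (p s)) (Finsupp.mem_support_iff.2 h0),
        ← h1]
    rw [show MvPolynomial.eval U (p 0) = MvPolynomial.aeval U (p 0) from rfl,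
      eq_neg_of_add_eq_zero_left h2]
    refine neg_mem (Submodule.sum_mem _ fun s hs => aeval_mem_pow fun c' hc' => ?_)
    have := Finset.ne_of_mem_erase hs
    rw [hdeg s c' hc']
    omega
  exact hA.reg j (d + 1) d d.lt_succ_self (p 0) hhom hval c

end Proj

section Layer

variable (U) in
/-- The Cech complex over `T ⧸ (U)`, over `T`. -/
noncomputable def quotGd (n : ℕ) : Gd T (Chart n → Tot (T ⧸ aI U) n Unit) where
  D := (cechD (T ⧸ aI U)).restrictScalars T
  deg k := (cechDeg (T ⧸ aI U) (Tot (T ⧸ aI U) n Unit) k).restrictScalars T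
  bot := ⊥
  top := ⊤
  map_deg k := by
    rintro _ ⟨x, hx, rfl⟩
    exact (cechGC (T ⧸ aI U) n _).map_deg k ⟨x, hx, rfl⟩
  sq x _ := (Submodule.mem_bot T).2 (LinearMap.congr_fun cechD_sq x)

variable (U a) in
/-- The free slice over `T ⧸ (U)`. -/
noncomputable def quotFree (M : ℤ) : Submodule T (Chart n → Tot (T ⧸ aI U) n Unit) :=
  (freeCech (T ⧸ aI U) a (fun _ : Unit => 0) M).restrictScalars T

theorem quot_free_equiv (M : ℤ) (q : ℕ) :
    Nonempty ((quotGd U n).H ⊥ (quotFree U a M) (-(q : ℤ)) ≃ₗ[T]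
      (Band a (fun _ : Unit => 0) M q →₀ T ⧸ aI U)) := by
  set δ : Unit → ℤ := fun _ => 0
  let Φ : (quotGd U n).cyc ⊥ (quotFree U a M) (-(q : ℤ)) →ₗ[T]
      (Band a δ M q →₀ T ⧸ aI U) :=
    (bandRead a δ M q).restrictScalars T ∘ₗ Submodule.subtype _
  have hker : LinearMap.ker Φ = ((quotGd U n).bd ⊥ (quotFree U a M) (-(q : ℤ))).comap
      (Submodule.subtype _) := by
    refine le_antisymm (fun f hf => ?_) (fun f hf => ?_)
    · have hcyc : (f : Chart n → Tot (T ⧸ aI U) n Unit) ∈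
          (cechGC (T ⧸ aI U) n (Tot (T ⧸ aI U) n Unit)).cyc ⊥ (freeCech (T ⧸ aI U) a δ M)
            (-(q : ℤ)) := by
        refine ⟨f.2.1, ?_⟩
        show cechD (T ⧸ aI U) (f : Chart n → Tot (T ⧸ aI U) n Unit) ∈ (⊥ : Submodule (T ⧸ aI U) _)
        exact (Submodule.mem_bot (T ⧸ aI U)).2 ((Submodule.mem_bot T).1 f.2.2)
      obtain ⟨g, hg, hgd, hgf⟩ := exists_boundary hcyc hf
      exact Submodule.mem_sup_left ⟨g, ⟨hg, hgd⟩, hgf⟩
    · obtain ⟨z, ⟨g, hg, rfl⟩, b, hb, hsum⟩ := Submodule.mem_sup.1 hf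
      rw [(Submodule.mem_bot T).1 hb.1, add_zero] at hsum
      rw [LinearMap.mem_ker]
      show bandRead a δ M q (f : Chart n → Tot (T ⧸ aI U) n Unit) = 0
      rw [show (f : Chart n → Tot (T ⧸ aI U) n Unit) = cechD (T ⧸ aI U) g from hsum.symm]
      exact bandRead_cechD hg.1
  have hsurj : Function.Surjective Φ := fun v =>
    ⟨⟨bandRep a δ M q v, (bandRep_mem v).1, (Submodule.mem_bot T).2
      ((Submodule.mem_bot (T ⧸ aI U)).1 (bandRep_mem v).2)⟩, bandRead_bandRep a δ M q v⟩
  exact ⟨(Submodule.quotEquivOfEq _ _ hker.symm).trans (Φ.quotKerEquivOfSurjective hsurj)⟩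

theorem quot_free_measure (μ : Meas T) (M : ℤ) (q : ℕ) (β : T) :
    μ.hm (quotGd U n) ⊥ (quotFree U a M) (-(q : ℤ)) = hP a M q * μ.val (T ⧸ aI U) ∧
      μ.hk (quotGd U n) β ⊥ (quotFree U a M) (-(q : ℤ)) ≤ hP a M q * μ.kb β (T ⧸ aI U) := by
  obtain ⟨e⟩ := quot_free_equiv (U := U) (a := a) M q
  obtain ⟨hfin, hcard⟩ := band_card a (fun _ : Unit => (0 : ℤ)) M q
  have := hfin.fintype
  have hc : Fintype.card (Band a (fun _ : Unit => (0 : ℤ)) M q) = hP a M q := by
    rw [← Nat.card_eq_fintype_card, Nat.card_coe_set_eq, hcard]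
    simp
  have e' := e.trans (Finsupp.linearEquivFunOnFinite T (T ⧸ aI U) _)
  constructor
  · rw [Meas.hm, μ.congr e', μ.pi_fintype, hc]
  · rw [Meas.hk, μ.kb_congr β e']
    exact (μ.kb_pi_le β _).trans (by rw [hc])

/-- `u ^ s` identifies the first layer of the slice `N + s` with the layer `s` of the slice `N`. -/
theorem layer_shift (hlam : Sep lam) (ha : ∀ j, 0 ≤ a j) (W₀ : ℕ) (N₀ : ℤ) (s : ℕ) (N k₀ : ℤ) :
    Nonempty ((colGd U lam a W₀ N₀).H (cut U lam a 1 (N + s)) (cut U lam a 0 (N + s)) k₀ ≃ₗ[T]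
      (colGd U lam a W₀ N₀).H (cut U lam a (s + 1) N) (cut U lam a s N) k₀) := by
  classical
  set C := colGd U lam a W₀ N₀
  set M := N + (s : ℤ)
  set X := cut U lam a 1 M
  set Y := cut U lam a 0 M
  obtain ⟨hc1, hb1, hbij1⟩ := C.hMap_bijective C (X := X) (Y := Y)
    (X' := cut U lam a (s + 1) N) (Y' := cut U lam a s N) (upC lam s) 1 0
    (fun k x _ => by
      rw [show C.D = cechD T from rfl, upC_cechD, Units.val_one, one_smul, sub_self]
      exact zero_mem _)
    (cut_isSub U lam a 0 M) (cut_isSub U lam a (s + 1) N)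
    (fun k => by
      rintro _ ⟨x, hx, rfl⟩
      rw [add_zero]
      refine mem_cechDeg.2 fun ε hε => ?_
      rw [upC_apply, mem_cechDeg.1 hx ε hε, map_zero])
    (by
      rintro _ ⟨x, hx, rfl⟩
      have := upC_cut (v := s) (w := 1) lam (U := U) (a := a) hx
      rwa [add_comm 1 s] at this)
    (by
      rintro _ ⟨x, hx, rfl⟩
      have := upC_cut (v := s) (w := 0) lam (U := U) (a := a) hx
      rwa [zero_add] at this)
    (fun k => by
      intro y hy
      obtain ⟨hy, hyd⟩ := hy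
      rw [add_zero] at hyd ⊢
      obtain ⟨r, hr, _, ⟨z, hz, rfl⟩, rfl⟩ := Submodule.mem_sup.1 hy
      let z' : Chart n → Tot T n ℕ := fun ε => if -(chartDeg ε : ℤ) = k then z ε else 0
      let r' : Chart n → Tot T n ℕ := fun ε => if -(chartDeg ε : ℤ) = k then r ε else 0
      have he : r + upC lam s z = upC lam s z' + r' := funext fun ε => by
        rw [Pi.add_apply, Pi.add_apply, upC_apply, upC_apply]
        simp only [z', r']
        split_ifs with h
        · exact add_comm _ _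
        · rw [map_zero, add_zero]
          exact mem_cechDeg.1 hyd ε h
      rw [he]
      refine Submodule.add_mem_sup (Submodule.mem_map_of_mem ⟨?_, ?_⟩) ⟨?_, ?_⟩
      · show z' ∈ cut U lam a 0 M
        rw [cut_zero]
        intro ε _
        simp only [z']
        split_ifs
        · exact hz ε trivial
        · exact zero_mem _
      · exact mem_cechDeg.2 fun ε h => if_neg h
      · refine Submodule.mem_sup_left fun ε _ => ?_
        simp only [r']
        split_ifs
        · exact hr ε trivial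
        · exact zero_mem _
      · exact mem_cechDeg.2 fun ε h => if_neg h)
    (fun k x hx => by
      have hx1 : x ∈ freeCech T a ideg (N + s) := cut_zero U lam a M ▸ hx.1.1
      exact mem_cut_of_upC U lam a hlam ha hx1 (by rw [add_comm 1 s]; exact hx.2))
    k₀
  have key : ∀ m, m = k₀ + 0 → Nonempty (C.H X Y k₀ ≃ₗ[T]
      C.H (cut U lam a (s + 1) N) (cut U lam a s N) m) := by
    rintro m rfl
    exact ⟨LinearEquiv.ofBijective _ hbij1⟩
  exact key k₀ (add_zero k₀).symm

variable (U a) in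
/-- The image of the first cut over `T ⧸ (U)`. -/
noncomputable def quotRel (M : ℤ) : Submodule T (Chart n → Tot (T ⧸ aI U) n Unit) :=
  (cut U lam a 1 M).map ((proj0 U).compLeft (Chart n))

/-- The first layer is the component `s = 0` over `T ⧸ (U)`. -/
theorem layer_proj (W₀ : ℕ) (N₀ M k₀ : ℤ) :
    quotRel U lam a M ≤ quotFree U a M ∧
    Nonempty ((colGd U lam a W₀ N₀).H (cut U lam a 1 M) (cut U lam a 0 M) k₀ ≃ₗ[T]
      (quotGd U n).H (quotRel U lam a M) (quotFree U a M) k₀) := by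
  classical
  set C := colGd U lam a W₀ N₀
  set C' := quotGd U n
  set X := cut U lam a 1 M
  set Y := cut U lam a 0 M
  let F : (Chart n → Tot T n ℕ) →ₗ[T] (Chart n → Tot (T ⧸ aI U) n Unit) :=
    (proj0 U).compLeft (Chart n)
  set X' := X.map F
  set Y' := quotFree U a M
  have hX'Y' : X' ≤ Y' := by
    rintro _ ⟨x, hx, rfl⟩ ε -
    have h := mem_freeSlice_iff.1 (cutS_le_free lam 1 ((mem_cut lam).1 hx ε))
    refine mem_freeSlice_iff.2 fun y hy => ?_
    obtain ⟨⟨⟩, e⟩ := y
    show proj0 U (x ε) ((), e) = 0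
    rw [proj0_apply, h (0, e) (by simpa [ideg] using hy), map_zero]
  have hFD : ∀ x, F (cechD T x) = cechD (T ⧸ aI U) (F x) := fun x => funext fun ε => by
    show proj0 U (cechD T x ε) = _
    rw [cechD_map, cechD_tower (K := T ⧸ aI U)]
    rfl
  refine ⟨hX'Y', ?_⟩
  obtain ⟨hc2, hb2, hbij2⟩ := C.hMap_bijective C' (X := X) (Y := Y) (X' := X') (Y' := Y') F 1 0
    (fun k x _ => by
      rw [show C.D x = cechD T x from rfl, hFD, Units.val_one, one_smul,
        show C'.D (F x) = cechD (T ⧸ aI U) (F x) from rfl, sub_self]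
      exact zero_mem _)
    (cut_isSub U lam a 0 M)
    (by
      rintro _ ⟨_, ⟨x, hx, rfl⟩, rfl⟩
      exact ⟨cechD T x, cut_isSub U lam a 1 M ⟨x, hx, rfl⟩, hFD x⟩)
    (fun k => by
      rintro _ ⟨x, hx, rfl⟩
      rw [add_zero]
      refine mem_cechDeg.2 fun ε hε => ?_
      show proj0 U (x ε) = 0
      rw [mem_cechDeg.1 hx ε hε, map_zero])
    le_rfl
    (by
      rintro _ ⟨x, hx, rfl⟩ ε -
      have h := (mem_cut lam).1 hx ε
      rw [cutS_zero] at h
      refine mem_freeSlice_iff.2 fun y hy => ?_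
      obtain ⟨⟨⟩, e⟩ := y
      show proj0 U (x ε) ((), e) = 0
      rw [proj0_apply, mem_freeSlice_iff.1 h (0, e) (by simpa [ideg] using hy), map_zero])
    (fun k => by
      intro y hy
      obtain ⟨hy, hyd⟩ := hy
      rw [add_zero] at hyd ⊢
      let x : Chart n → Tot T n ℕ := fun ε => (y ε).sum fun z r =>
        Finsupp.single (0, z.2) r.out
      have hxF : F x = y := funext fun ε => by
        show proj0 U ((y ε).sum fun z r => Finsupp.single (0, z.2) r.out) = y ε
        rw [map_finsuppSum]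
        conv_rhs => rw [← Finsupp.sum_single (y ε)]
        refine Finsupp.sum_congr fun z _ => ?_
        rw [proj0_single, if_pos rfl, Ideal.Quotient.mk_out]
      rw [← hxF]
      refine Submodule.mem_sup_left (Submodule.mem_map_of_mem ⟨?_, ?_⟩)
      · show x ∈ cut U lam a 0 M
        rw [cut_zero]
        intro ε _
        refine Submodule.sum_mem _ fun z hz => Finsupp.single_mem_supported T _ ?_
        have hz' := (Finsupp.mem_supported (T ⧸ aI U) (y ε)).1 (hy ε trivial) hz
        exact ⟨hz'.1, by simpa [ideg] using hz'.2⟩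
      · refine mem_cechDeg.2 fun ε h => ?_
        simp only [x, mem_cechDeg.1 hyd ε h, Finsupp.sum_zero_index])
    (fun k x hx => by
      obtain ⟨c, hc, hcx⟩ := hx.2
      have hcY : c ∈ Y := cut_anti U lam a zero_le_one M hc
      rw [← sub_add_cancel x c]
      refine add_mem ?_ hc
      refine (mem_cut lam).2 fun ε => ?_
      have hfree := (mem_cut lam).1 (sub_mem hx.1.1 hcY) ε
      rw [cutS_zero] at hfree
      have hzero : ∀ e, Ideal.Quotient.mk (aI U) ((x - c) ε (0, e)) = 0 := fun e => by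
        rw [← proj0_apply]
        show F (x - c) ε ((), e) = 0
        rw [map_sub, hcx, sub_self]
        rfl
      rw [← Finsupp.sum_single ((x - c) ε)]
      refine Submodule.sum_mem _ fun z hz => ?_
      obtain ⟨t, e⟩ := z
      have hz' := (Finsupp.mem_supported T _).1 hfree hz
      rcases t with _ | t
      · have hm : (x - c) ε (0, e) ∈ aI U ^ 1 := by
          rw [pow_one]; exact Ideal.Quotient.eq_zero_iff_mem.1 (hzero e)
        have hA : Acts U ((0 : ℕ) : ℤ) ((x - c) ε (0, e)) (upBy n ((x - c) ε (0, e)) 0) := by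
          simpa using acts_upBy (U := U) ((x - c) ε (0, e)) 0
        have h := push_small lam hm (show 1 + 0 ≤ 1 by omega) hA
          (Finsupp.single_mem_supported T (1 : T) hz' : _ ∈ freeSlice T a ε ideg M)
        rw [push_upBy_scalar, push_upBy_zero, Finsupp.smul_single, smul_eq_mul, mul_one] at h
        simpa using h
      · refine Submodule.mem_sup_right ⟨Finsupp.single (t, e) ((x - c) ε (t + 1, e)),
          Finsupp.single_mem_supported T _ ⟨hz'.1, ?_⟩, ?_⟩
        · have := hz'.2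
          simp only [ideg] at this ⊢
          push_cast at this ⊢
          omega
        · rw [← mul_one ((x - c) ε (t + 1, e)), ← smul_eq_mul, ← Finsupp.smul_single, map_smul,
            ← inComp_single t e (1 : T), push_inComp, upBy, emb_single, map_one, map_one, one_mul,
            inComp_single, Finsupp.smul_single])
    k₀
  have key : ∀ m, m = k₀ + 0 → Nonempty (C.H X Y k₀ ≃ₗ[T] C'.H X' Y' m) := by
    rintro m rfl
    exact ⟨LinearEquiv.ofBijective _ hbij2⟩
  exact key k₀ (add_zero k₀).symm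

/-- The image of the relations is negligible. -/
theorem quotRel_null (μ : Meas T) (hA : Almost μ U) (M k : ℤ) :
    μ.hm (quotGd U n) ⊥ (quotRel U lam a M) k = 0 := by
  classical
  set C' := quotGd U n
  set X := cut U lam a 1 M
  let F : (Chart n → Tot T n ℕ) →ₗ[T] (Chart n → Tot (T ⧸ aI U) n Unit) :=
    (proj0 U).compLeft (Chart n)
  set X' := quotRel U lam a M
  have hX'0 : ∀ c ∈ aI U, ∀ x ∈ X', c • x ∈ (⊥ : Submodule T _) := fun c hc x _ => by
    rw [Submodule.mem_bot]
    funext ε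
    refine Finsupp.ext fun y => ?_
    rw [Pi.smul_apply, Finsupp.smul_apply, Algebra.smul_def, Ideal.Quotient.algebraMap_eq,
      Ideal.Quotient.eq_zero_iff_mem.2 hc, zero_mul]
    rfl
  have hX'b : ∀ j, ∀ x ∈ X', hA.b j • x ∈ (⊥ : Submodule T _) := by
    rintro j _ ⟨x, hx, rfl⟩
    rw [Submodule.mem_bot]
    funext ε
    show hA.b j • proj0 U (x ε) = 0
    obtain ⟨r, hr, _, ⟨y, -, rfl⟩, he⟩ := Submodule.mem_sup.1 ((mem_cut lam).1 hx ε)
    rw [← he, map_add, proj0_up, add_zero]
    clear he hx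
    induction hr using Submodule.span_induction with
    | mem z hz =>
      obtain ⟨p, ⟨-, hev⟩, D, e, hD, -, -, rfl⟩ := hz
      exact smul_proj0_emb lam hA j hD hev _
    | zero => simp
    | add z w _ _ hz hw => rw [map_add, smul_add, hz, hw, add_zero]
    | smul t z _ hz => rw [map_smul, smul_comm, hz, smul_zero]
  refine μ.val_eq_zero_of_killed hA.b (aI U) hA.tendsto (fun c hc v => ?_) fun j v => ?_
  · exact C'.smul_H_eq_zero (hX'0 c hc) k v
  · exact C'.smul_H_eq_zero (hX'b j) k v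

/-- The layer between `u ^ s` and `u ^ (s + 1)`. -/
theorem layer (μ : Meas T) (hA : Almost μ U) (hlam : Sep lam) (ha : ∀ j, 0 ≤ a j) (W₀ : ℕ)
    (N₀ : ℤ) (s : ℕ) (N : ℤ) (q : ℕ) (β : T) :
    μ.hm (colGd U lam a W₀ N₀) (cut U lam a (s + 1) N) (cut U lam a s N) (-(q : ℤ)) =
        hP a (N + s) q * μ.val (T ⧸ aI U) ∧
      μ.hk (colGd U lam a W₀ N₀) β (cut U lam a (s + 1) N) (cut U lam a s N) (-(q : ℤ)) ≤
        hP a (N + s) q * μ.kb β (T ⧸ aI U) := by
  obtain ⟨e1⟩ := layer_shift lam (U := U) hlam ha W₀ N₀ s N (-(q : ℤ))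
  obtain ⟨hle, ⟨e2⟩⟩ := layer_proj lam (U := U) (a := a) W₀ N₀ (N + s) (-(q : ℤ))
  obtain ⟨hfree, hfreek⟩ := quot_free_measure (U := U) (a := a) μ (N + s) q β
  obtain ⟨hm, hk⟩ := μ.hm_of_null_bot (quotGd U n) (X := ⊥) bot_le bot_le hle le_top
    (quotRel_null lam μ hA (N + s)) (-(q : ℤ))
    (by rw [hfree]; exact ENNReal.mul_ne_top (ENNReal.natCast_ne_top _) hA.fin) β
  exact ⟨((μ.congr e1).symm.trans (μ.congr e2)).trans (hm.trans hfree),
    (((μ.kb_congr β e1).symm.trans (μ.kb_congr β e2)).le.trans hk).trans hfreek⟩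

theorem hm_colGd (μ : Meas T) (W₀ W₁ : ℕ) (N₀ N₁ : ℤ) (X Y : Submodule T (Chart n → Tot T n ℕ))
    (k : ℤ) : μ.hm (colGd U lam a W₀ N₀) X Y k = μ.hm (colGd U lam a W₁ N₁) X Y k :=
  (μ.hm_same (C := colGd U lam a W₀ N₀) (C' := colGd U lam a W₁ N₁) rfl rfl 1 X Y k).1

theorem hk_colGd (μ : Meas T) (β : T) (W₀ W₁ : ℕ) (N₀ N₁ : ℤ)
    (X Y : Submodule T (Chart n → Tot T n ℕ)) (k : ℤ) :
    μ.hk (colGd U lam a W₀ N₀) β X Y k = μ.hk (colGd U lam a W₁ N₁) β X Y k :=
  (μ.hm_same (C := colGd U lam a W₀ N₀) (C' := colGd U lam a W₁ N₁) rfl rfl β X Y k).2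

theorem hchi_colGd (μ : Meas T) (W₀ W₁ : ℕ) (N₀ N₁ : ℤ) (t : Finset ℤ)
    (X Y : Submodule T (Chart n → Tot T n ℕ)) :
    μ.hchi (colGd U lam a W₀ N₀) t X Y = μ.hchi (colGd U lam a W₁ N₁) t X Y := by
  simp only [Meas.hchi, hm_colGd lam μ W₀ W₁ N₀ N₁]

/-- Several layers. -/
theorem window (μ : Meas T) (hA : Almost μ U) (hlam : Sep lam) (ha : ∀ j, 0 ≤ a j) (W₀ : ℕ)
    (N₀ : ℤ) (w j : ℕ) (N : ℤ) (β : T) :
    (∀ k, μ.hm (colGd U lam a W₀ N₀) (cut U lam a (j + w) N) (cut U lam a j N) k ≠ ∞) ∧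
    (∀ q : ℕ, μ.hm (colGd U lam a W₀ N₀) (cut U lam a (j + w) N) (cut U lam a j N) (-(q : ℤ)) ≤
      (∑ s ∈ Finset.range w, hP a (N + j + s) q : ℕ) * μ.val (T ⧸ aI U)) ∧
    (∀ q : ℕ, μ.hk (colGd U lam a W₀ N₀) β (cut U lam a (j + w) N) (cut U lam a j N) (-(q : ℤ)) ≤
      (∑ s ∈ Finset.range w, hP a (N + j + s) q : ℕ) * μ.kb β (T ⧸ aI U)) ∧
    (∀ k : ℤ, 0 < k →
      μ.hm (colGd U lam a W₀ N₀) (cut U lam a (j + w) N) (cut U lam a j N) k = 0) ∧
    μ.hchi (colGd U lam a W₀ N₀) (Finset.Icc (-(n : ℤ)) 0)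
        (cut U lam a (j + w) N) (cut U lam a j N) =
      ∑ s ∈ Finset.range w, ∑ q ∈ Finset.range (n + 1),
        (-1 : ℝ) ^ q * (hP a (N + j + s) q : ℝ) * (μ.val (T ⧸ aI U)).toReal := by
  have h := μ.hm_windows (colGd U lam a (j + w) N) (fun t => cut U lam a (j + t) N)
    (fun t t' htt => cut_anti U lam a (Nat.add_le_add_left htt j) N) w n
    (fun t ht => cut_anti U lam a (Nat.add_le_add_left ht j) N)
    (fun t => cut_le_free U lam a _ N) (fun k hk => cechDeg_eq_bot hk)
    (fun s q => hP a (N + j + s) q) (μ.val (T ⧸ aI U)) (μ.kb β (T ⧸ aI U)) hA.fin β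
    (fun s q => by
      have h := layer lam μ hA hlam ha (j + w) N (j + s) N q β
      rw [show N + ((j + s : ℕ) : ℤ) = N + j + s by push_cast; ring] at h
      exact h)
  simp only [hm_colGd lam μ W₀ (j + w) N₀ N, hk_colGd lam μ β W₀ (j + w) N₀ N,
    hchi_colGd lam μ W₀ (j + w) N₀ N]
  exact h

end Layer

end Win

end Vale.Agent.P202.Mixed2
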