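import Vale.Agent.P202.Mixed2.WinSys
import Vale.Agent.P202.Mixed2.WinAug
import Vale.Agent.P202.Mixed2.WinLayer

/-!
P202, mixed characteristic, windows: the facts on the windows of cut slices, and the identification
of the deep part of the total complex with the complex tensor the slice `0`.
-/

open scoped ENNReal

namespace Vale.Agent.P202.Mixed2.Win

universe u

open Vale.Agent.P202.Char

variable {T : Type u} [CommRing T] {n : ℕ} {U : Fin (n + 1) → T} {lam : Fin (n + 1) → T}
  {a : Fin n → ℤ}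

theorem winFacts (μ : Meas T) (hA : Almost μ U) (hlam : Sep lam) (ha : ∀ j, 0 ≤ a j) :
    WinFacts μ U lam a := by
  intro W₀ N₀ w j N
  have h := fun γ : T => window lam μ hA hlam ha W₀ N₀ w j N γ
  refine ⟨(h 1).1, (h 1).2.2.2.1, fun q => ?_, fun γ k => ?_, ?_⟩
  · exact ((h 1).2.1 q).trans_eq (by push_cast; rfl)
  · rcases lt_trichotomy k 0 with hk | rfl | hk
    · by_cases hn : -(n : ℤ) ≤ k
      · obtain ⟨q, rfl⟩ : ∃ q : ℕ, k = -(q : ℤ) := ⟨k.natAbs, by omega⟩
        refine ((h γ).2.2.1 q).trans ?_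
        push_cast
        gcongr with s
        exact Finset.single_le_sum (f := fun q => (hP a (N + j + s) q : ℝ≥0∞)) (fun _ _ => zero_le)
          (Finset.mem_range.2 (by omega))
      · refine le_trans (μ.kb_le_val γ) (le_trans (le_of_eq (μ.hm_of_deg _ ?_)) zero_le)
        exact cechDeg_eq_bot (by simp only [Finset.mem_Icc]; omega)
    · refine (((h γ).2.2.1 0)).trans ?_
      push_cast
      gcongr with s
      exact Finset.single_le_sum (f := fun q => (hP a (N + j + s) q : ℝ≥0∞)) (fun _ _ => zero_le)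
        (Finset.mem_range.2 (by omega))
    · exact le_trans (μ.kb_le_val γ) (le_trans (le_of_eq ((h γ).2.2.2.1 k hk)) zero_le)
  · rw [(h 1).2.2.2.2]
    simp only [← Finset.sum_mul]

namespace Lift

variable {β : T} {L J M : ℕ} (P : Lift U β L J M) {W : ℕ} (hWL : W ≤ L)
  (hW : P.shift + W + (n + 3) * J ≤ L)

variable (lam) in
/-- The slice `0` of each column moved into the slice of the total complex at the base. -/
noncomputable def toSys : (P.ι → Chart n → Tot T n ℕ) →ₗ[T] (P.ι → Chart n → Tot T n ℕ) :=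
  LinearMap.pi fun b => upC lam (P.shift + P.deg b * J) ∘ₗ LinearMap.proj b

theorem toSys_apply (x : P.ι → Chart n → Tot T n ℕ) (b : P.ι) :
    P.toSys lam x b = upC lam (P.shift + P.deg b * J) (x b) := rfl

theorem slot_base (b : P.ι) :
    P.slot (-(P.shift : ℤ)) b + ((P.shift + P.deg b * J : ℕ) : ℤ) = 0 := by
  simp only [slot]
  push_cast
  ring

theorem toSys_bij (hlam : Sep lam) (ha : ∀ j, 0 ≤ a j) {i : ℕ} (k : ℤ) :
    ∃ (hc : (P.flat lam a hWL).cyc (P.flatLev lam a i) (P.flatLev lam a 0) k ≤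
        ((P.sys lam a hW).cyc (P.fl lam a i) (P.fl lam a 0) (k + 0)).comap (P.toSys lam))
      (hb : (P.flat lam a hWL).bd (P.flatLev lam a i) (P.flatLev lam a 0) k ≤
        ((P.sys lam a hW).bd (P.fl lam a i) (P.fl lam a 0) (k + 0)).comap (P.toSys lam)),
      Function.Bijective ((P.flat lam a hWL).hMap (P.sys lam a hW) (P.toSys lam) hc hb) := by
  classical
  have hmap : ∀ m, (P.flatLev lam a m).map (P.toSys lam) ≤ P.fl lam a m := by
    intro m
    rintro _ ⟨x, hx, rfl⟩ b -
    show P.toSys lam x b ∈ cut U lam a (P.shift + m + P.deg b * J) (P.slot (-(P.shift : ℤ)) b)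
    rw [toSys_apply, show P.shift + m + P.deg b * J = m + (P.shift + P.deg b * J) by ring]
    refine upC_cut U lam a ?_
    rw [P.slot_base b]
    exact hx b trivial
  refine (P.flat lam a hWL).hMap_bijective (X := P.flatLev lam a i) (Y := P.flatLev lam a 0)
    (X' := P.fl lam a i) (Y' := P.fl lam a 0) (P.sys lam a hW) (P.toSys lam) 1 0
    (fun j x hx => ?_) (P.withCol_stable _ _ fun v hv => cut_isSub U lam a 0 0 ⟨v, hv, rfl⟩)
    (P.lev_stable (P.fl_mono i)) (fun j => ?_) (hmap i) (hmap 0) (fun j => ?_)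
    (fun j x hx => ?_) k
  · refine P.mem_lev.2 fun b ε => ?_
    show (P.toSys lam (P.withCol (cechD T) x) - (1 : T) • P.D0 lam (P.toSys lam x)) b ε ∈ _
    have h1 : upC lam (P.shift + P.deg b * J) (cechD T (x b)) ε =
        cechD T (P.toSys lam x b) ε := by rw [upC_cechD, toSys_apply]
    rw [one_smul, Pi.sub_apply, Pi.sub_apply, toSys_apply, withCol_apply, D0_apply, map_add,
      map_sum, map_smul, Pi.add_apply, Finset.sum_apply, Pi.smul_apply, h1,
      add_sub_add_right_eq_sub, ← Finset.sum_sub_distrib]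
    refine sum_mem fun b' _ => ?_
    rw [map_smul, Pi.smul_apply, upC_apply, ← push_upBy_scalar]
    unfold entry
    split_ifs with h
    · have hx0 : x b' ε ∈ freeSlice T a ε ideg 0 := by
        have h' := (mem_cut lam).1 (hx.1 b' trivial) ε
        rwa [cutS_zero] at h'
      rw [toSys_apply, upC_apply, push_comp]
      refine Submodule.mem_sup_left ?_
      have e1 : Acts U (-((P.shift + P.deg b * J : ℕ) : ℤ)) (P.D b b')
          (upBy n (P.D b b') (P.shift + P.deg b * J)) := acts_upBy _ _
      have e2 : Acts U (-((P.shift + P.deg b * J : ℕ) : ℤ)) (P.D b b')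
          (compFam (P.fam b b') (upBy n 1 (P.shift + P.deg b' * J))) := by
        have e := (P.fam_acts b b').comp (acts_upBy (U := U) 1 (P.shift + P.deg b' * J))
        rw [mul_one] at e
        convert e using 1
        rw [h]
        push_cast
        ring
      have := e1.push_congr lam e2 hx0
      rwa [show (0 : ℤ) + -((P.shift + P.deg b * J : ℕ) : ℤ) = P.slot (-(P.shift : ℤ)) b by
        have := P.slot_base b
        omega] at this
    · by_cases hD : P.D b b' = 0
      · rw [hD, push_upBy_scalar, zero_smul, LinearMap.zero_apply, sub_zero]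
        exact zero_mem _
      · exact absurd (not_not.1 fun hne => hD (P.homog b b' hne)) h
  · rintro _ ⟨x, hx, rfl⟩ b -
    refine mem_cechDeg.2 fun ε hε => ?_
    rw [add_zero] at hε
    rw [toSys_apply, upC_apply, mem_cechDeg.1 (hx b trivial) ε hε, map_zero]
  · intro y hy
    have h : ∀ b ε, ∃ z ∈ freeSlice T a ε ideg 0,
        y b ε - push lam (upBy n 1 (P.shift + P.deg b * J)) z ∈
          relSlice lam a ε ideg (rel U) (P.slot (-(P.shift : ℤ)) b) ∧ (y b ε = 0 → z = 0) := by
      intro b ε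
      by_cases h0 : y b ε = 0
      · exact ⟨0, zero_mem _, by rw [h0, map_zero, sub_zero]; exact zero_mem _, fun _ => rfl⟩
      · obtain ⟨r, hr, _, ⟨z, hz, rfl⟩, he⟩ := Submodule.mem_sup.1 (P.mem_lev.1 hy.1 b ε)
        simp only [add_zero] at hz he
        rw [P.slot_base b] at hz
        exact ⟨z, hz, by rw [← he, add_sub_cancel_right]; exact hr, fun h => absurd h h0⟩
    choose z hz hzr hz0 using h
    have hzd : z ∈ (Submodule.pi Set.univ fun b => cechDeg T (Tot T n ℕ) (j - P.deg b) :
        Submodule T (P.ι → Chart n → Tot T n ℕ)) := fun b _ =>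
      mem_cechDeg.2 fun ε hε => hz0 b ε (mem_cechDeg.1 (hy.2 b trivial) ε (by rwa [add_zero]))
    refine Submodule.mem_sup.2 ⟨P.toSys lam z,
      ⟨z, ⟨fun b _ => (mem_cut lam).2 fun ε => ?_, hzd⟩, rfl⟩, y - P.toSys lam z,
      ⟨P.mem_lev.2 fun b ε => Submodule.mem_sup_left (hzr b ε), ?_⟩, add_sub_cancel _ _⟩
    · rw [cutS_zero]
      exact hz b ε
    · refine sub_mem hy.2 fun b _ => mem_cechDeg.2 fun ε hε => ?_
      rw [add_zero] at hε
      rw [toSys_apply, upC_apply, mem_cechDeg.1 (hzd b trivial) ε hε, map_zero]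
  · intro b _
    show x b ∈ cut U lam a i 0
    have h0 : x b ∈ cut U lam a 0 0 := hx.1.1 b trivial
    rw [cut_zero] at h0
    have hb : upC lam (P.shift + P.deg b * J) (x b) ∈
        cut U lam a (P.shift + i + P.deg b * J) (P.slot (-(P.shift : ℤ)) b) := hx.2 b trivial
    rw [show P.shift + i + P.deg b * J = i + (P.shift + P.deg b * J) by ring] at hb
    have h := mem_cut_of_upC (U := U) (a := a) lam hlam ha
      (N := P.slot (-(P.shift : ℤ)) b) (v := P.shift + P.deg b * J) (w := i)
      (by rw [P.slot_base b]; exact h0) hb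
    rwa [P.slot_base b] at h

/-- Between two flat levels the total complex and the complex tensor the slice `0` have images of
the same measure. -/
theorem sys_flat (μ : Meas T) (hlam : Sep lam) (ha : ∀ j, 0 ≤ a j) {C A : ℕ}
    (hf : P.fl lam a A ≤ P.fl lam a C) (h1 : P.flatLev lam a A ≤ P.flatLev lam a C) (k : ℤ) :
    μ.val (Meas.imH (P.sys lam a hW) hf (P.fl lam a 0) k) =
      μ.val (Meas.imH (P.flat lam a hWL) h1 (P.flatLev lam a 0) k) := by
  obtain ⟨c₂, b₂, e₂⟩ := P.toSys_bij hWL hW hlam ha (i := A) k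
  obtain ⟨c₁, b₁, e₁⟩ := P.toSys_bij hWL hW hlam ha (i := C) k
  have h := μ.range_eq_of_bij _ _ _ _
    (fun z => (P.flat lam a hWL).move_hMap (P.sys lam a hW) (P.toSys lam) c₂ b₂ c₁ b₁ h1
      (le_refl (P.flatLev lam a 0)) hf le_rfl z) e₁ e₂
  rw [add_zero] at h
  exact h

end Lift

end Vale.Agent.P202.Mixed2.Win
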