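import Mathlib
import Vale.Agent.P202.Char.Defs

/-!
P202, mixed characteristic: graded syzygies over the polynomials over a principal ideal domain.
The kernels of a chain of homogeneous maps of free modules become pure for more and more
variables, and a graded submodule which is pure for all variables is free.
-/

namespace Vale.Agent.P202.Mixed2

open MvPolynomial

universe u v

variable {Z : Type u} [CommRing Z] {d : ℕ} {β γ : Type}

/-- Tuples of degree `N` for the shifts `sg`. -/
def Hom (sg : β → ℕ) (N : ℕ) (x : β → MvPolynomial (Fin d) Z) : Prop :=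
  ∀ b, (x b).IsHomogeneous (N - sg b) ∧ (N < sg b → x b = 0)

/-- The part of degree `N`. -/
noncomputable def hc (sg : β → ℕ) (N : ℕ) :
    (β → MvPolynomial (Fin d) Z) →ₗ[Z] (β → MvPolynomial (Fin d) Z) :=
  LinearMap.pi fun b =>
    if sg b ≤ N then homogeneousComponent (N - sg b) ∘ₗ LinearMap.proj b else 0

theorem hc_apply (sg : β → ℕ) (N : ℕ) (x : β → MvPolynomial (Fin d) Z) (b : β) :
    hc sg N x b = if sg b ≤ N then homogeneousComponent (N - sg b) (x b) else 0 := by
  simp only [hc, LinearMap.pi_apply]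
  split_ifs <;> rfl

theorem hom_hc (sg : β → ℕ) (N : ℕ) (x : β → MvPolynomial (Fin d) Z) :
    Hom sg N (hc sg N x) := by
  intro b
  rw [hc_apply]
  split_ifs with h
  · exact ⟨homogeneousComponent_isHomogeneous _ _, fun h' => by omega⟩
  · exact ⟨isHomogeneous_zero _ _ _, fun _ => rfl⟩

theorem hc_eq_self {sg : β → ℕ} {N : ℕ} {x : β → MvPolynomial (Fin d) Z} (hx : Hom sg N x) :
    hc sg N x = x := by
  funext b
  rw [hc_apply]
  split_ifs with h
  · exact homogeneousComponent_eq_self (hx b).1
  · exact ((hx b).2 (not_le.1 h)).symm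

theorem exists_sum_hc [Fintype β] (sg : β → ℕ) (x : β → MvPolynomial (Fin d) Z) :
    ∃ B, ∀ M, B ≤ M → ∑ N ∈ Finset.range M, hc sg N x = x := by
  classical
  refine ⟨Finset.univ.sup fun b => sg b + (x b).totalDegree + 1, fun M hM => funext fun b => ?_⟩
  have hb : sg b + (x b).totalDegree + 1 ≤ M :=
    le_trans (Finset.le_sup (f := fun b => sg b + (x b).totalDegree + 1) (Finset.mem_univ b)) hM
  obtain ⟨c, rfl⟩ : ∃ c, M = sg b + ((x b).totalDegree + 1 + c) :=
    ⟨M - (sg b + (x b).totalDegree + 1), by omega⟩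
  rw [Finset.sum_apply, Finset.sum_range_add, Finset.sum_eq_zero, zero_add, Finset.sum_range_add]
  · rw [Finset.sum_eq_zero (s := Finset.range c), add_zero]
    · conv_rhs => rw [← sum_homogeneousComponent (x b)]
      exact Finset.sum_congr rfl fun i _ => by
        rw [hc_apply, if_pos (by omega), Nat.add_sub_cancel_left]
    · intro i _
      rw [hc_apply, if_pos (by omega), Nat.add_sub_cancel_left,
        homogeneousComponent_eq_zero _ _ (by omega)]
  · intro i hi
    rw [hc_apply, if_neg (by have := Finset.mem_range.1 hi; omega)]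

theorem homogeneousComponent_mul_homogeneous {p q : MvPolynomial (Fin d) Z} {e : ℕ}
    (hq : q.IsHomogeneous e) (m : ℕ) :
    homogeneousComponent m (p * q) =
      if e ≤ m then homogeneousComponent (m - e) p * q else 0 := by
  classical
  have key : ∀ i, homogeneousComponent m (homogeneousComponent i p * q) =
      if i + e = m then homogeneousComponent i p * q else 0 := fun i => by
    rw [homogeneousComponent_of_mem ((homogeneousComponent_isHomogeneous i p).mul hq)]
    simp only [eq_comm]
  conv_lhs => rw [← sum_homogeneousComponent p, Finset.sum_mul, map_sum]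
  simp only [key]
  split_ifs with h
  · rw [Finset.sum_eq_single (m - e) (fun i _ hi => if_neg (by omega)) fun hm => ?_,
      if_pos (by omega)]
    rw [if_pos (by omega), homogeneousComponent_eq_zero _ _
      (by simp only [Finset.mem_range] at hm; omega), zero_mul]
  · exact Finset.sum_eq_zero fun i _ => if_neg (by omega)

/-- Homogeneous maps commute with the projections. -/
theorem hc_lc [Fintype γ] (sg : β → ℕ) (sg' : γ → ℕ) {w : γ → β → MvPolynomial (Fin d) Z}
    (hw : ∀ c, Hom sg (sg' c) (w c)) (N : ℕ) (p : γ → MvPolynomial (Fin d) Z) :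
    hc sg N (Fintype.linearCombination (MvPolynomial (Fin d) Z) w p) =
      Fintype.linearCombination (MvPolynomial (Fin d) Z) w (hc sg' N p) := by
  simp only [Fintype.linearCombination_apply, map_sum]
  refine Finset.sum_congr rfl fun c _ => funext fun b => ?_
  simp only [hc_apply, Pi.smul_apply, smul_eq_mul]
  by_cases hb : sg b ≤ N
  · by_cases hbc : sg b ≤ sg' c
    · rw [if_pos hb, homogeneousComponent_mul_homogeneous (hw c b).1]
      by_cases hc' : sg' c ≤ N
      · rw [if_pos (by omega), if_pos hc', show N - sg b - (sg' c - sg b) = N - sg' c by omega]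
      · rw [if_neg (by omega), if_neg hc', zero_mul]
    · simp [(hw c b).2 (not_le.1 hbc)]
  · rw [if_neg hb]
    by_cases hc' : sg' c ≤ N
    · simp [(hw c b).2 (by omega)]
    · simp [hc']

theorem hc_X_smul (sg : β → ℕ) (N : ℕ) (j : Fin d) (x : β → MvPolynomial (Fin d) Z) :
    hc sg N ((X j : MvPolynomial (Fin d) Z) • x) =
      if N = 0 then 0 else (X j : MvPolynomial (Fin d) Z) • hc sg (N - 1) x := by
  funext b
  rcases Nat.eq_zero_or_pos N with rfl | hN
  · rw [if_pos rfl, hc_apply, Pi.smul_apply, smul_eq_mul, mul_comm,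
      homogeneousComponent_mul_homogeneous (isHomogeneous_X Z j)]
    simp
  · rw [if_neg (by omega), hc_apply, Pi.smul_apply, Pi.smul_apply, hc_apply, smul_eq_mul,
      smul_eq_mul, mul_comm (X j) (x b),
      homogeneousComponent_mul_homogeneous (isHomogeneous_X Z j)]
    by_cases hb : sg b + 1 ≤ N
    · rw [if_pos (by omega), if_pos (by omega), if_pos (by omega),
        show N - sg b - 1 = N - 1 - sg b by omega, mul_comm]
    · rw [if_neg (show ¬ sg b ≤ N - 1 by omega), mul_zero]
      split_ifs
      · omega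
      · rfl
      · rfl

/-- Graded submodules of a free module. -/
def Gr (sg : β → ℕ) (K : Submodule (MvPolynomial (Fin d) Z) (β → MvPolynomial (Fin d) Z)) : Prop :=
  ∀ N, ∀ x ∈ K, hc sg N x ∈ K

/-- The kernel of a homogeneous map is graded. -/
theorem gr_ker [Fintype γ] {W : Type v} [AddCommGroup W] [Module (MvPolynomial (Fin d) Z) W]
    (sg' : γ → ℕ) (f : (γ → MvPolynomial (Fin d) Z) →ₗ[MvPolynomial (Fin d) Z] W)
    (P : ℕ → W →+ W) (hP : ∀ N u, f (hc sg' N u) = P N (f u)) :
    Gr sg' (LinearMap.ker f) := fun N u hu => by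
  rw [LinearMap.mem_ker] at hu ⊢
  rw [hP, hu, map_zero]

/-- The ideal of the first `i` variables. -/
noncomputable def J (Z : Type u) [CommRing Z] (d i : ℕ) : Ideal (MvPolynomial (Fin d) Z) :=
  Ideal.span (X '' {j : Fin d | (j : ℕ) < i})

theorem mem_smul_top_pi [Fintype β] {A : Type v} [CommRing A] (I : Ideal A) (x : β → A) :
    x ∈ I • (⊤ : Submodule A (β → A)) ↔ ∀ b, x b ∈ I := by
  classical
  refine ⟨fun h b => ?_, fun h => ?_⟩
  · refine Submodule.smul_induction_on h (fun r hr y _ => ?_) fun y z hy hz => ?_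
    · exact I.mul_mem_right _ hr
    · exact I.add_mem hy hz
  · rw [pi_eq_sum_univ x]
    exact sum_mem fun b _ => Submodule.smul_mem_smul (h b) trivial

theorem J_zero : J Z d 0 = ⊥ := by simp [J]

theorem J_succ {i : ℕ} (h : i < d) :
    J Z d (i + 1) = J Z d i ⊔ Ideal.span {(X ⟨i, h⟩ : MvPolynomial (Fin d) Z)} := by
  rw [J, J, ← Ideal.span_union, ← Set.image_singleton, ← Set.image_union]
  congr 2
  ext j
  simp [Fin.ext_iff]
  omega

theorem J_top : J Z d d = Ideal.span (Set.range (X : Fin d → MvPolynomial (Fin d) Z)) := by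
  rw [J, ← Set.image_univ]
  congr 2
  ext j
  simp

theorem mem_J_top {p : MvPolynomial (Fin d) Z} (h : constantCoeff p = 0) : p ∈ J Z d d := by
  classical
  rw [J, mem_ideal_span_X_image]
  intro m hm
  by_contra hne
  refine (mem_support_iff.1 hm) ?_
  rw [show m = 0 from Finsupp.ext fun j => by_contra fun hj => hne ⟨j, j.2, hj⟩]
  exact h

theorem constantCoeff_of_mem_J {i : ℕ} {p : MvPolynomial (Fin d) Z} (h : p ∈ J Z d i) :
    constantCoeff p = 0 := by
  have hle : J Z d i ≤ RingHom.ker (constantCoeff (σ := Fin d) (R := Z)) := by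
    rw [J, Ideal.span_le]
    rintro _ ⟨j, -, rfl⟩
    simp
  exact hle h

theorem X_mul_mem {i : ℕ} (h : i < d) {p : MvPolynomial (Fin d) Z}
    (hp : X ⟨i, h⟩ * p ∈ J Z d i) : p ∈ J Z d i := by
  classical
  rw [J, mem_ideal_span_X_image] at hp ⊢
  intro m hm
  obtain ⟨j, hj, hne⟩ := hp (m + Finsupp.single ⟨i, h⟩ 1) (by
    rw [mem_support_iff, add_comm, coeff_X_mul]
    exact mem_support_iff.1 hm)
  have hji : (⟨i, h⟩ : Fin d) ≠ j := fun e => by
    rw [← e] at hj
    exact lt_irrefl i hj
  refine ⟨j, hj, ?_⟩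
  simpa [hji] using hne

/-- Purity for the first `i` variables. -/
def Pure [Fintype β] (i : ℕ)
    (K : Submodule (MvPolynomial (Fin d) Z) (β → MvPolynomial (Fin d) Z)) : Prop :=
  ∀ j, j ≤ i → K ⊓ J Z d j • (⊤ : Submodule (MvPolynomial (Fin d) Z)
    (β → MvPolynomial (Fin d) Z)) ≤ J Z d j • K

theorem pure_zero [Fintype β]
    (K : Submodule (MvPolynomial (Fin d) Z) (β → MvPolynomial (Fin d) Z)) : Pure 0 K := by
  intro j hj
  obtain rfl : j = 0 := by omega
  simp [J_zero]

/-- Purity of an image makes the kernel pure for one more variable. -/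
theorem pure_ker [Fintype β] [Fintype γ] {i : ℕ}
    (f : (γ → MvPolynomial (Fin d) Z) →ₗ[MvPolynomial (Fin d) Z] (β → MvPolynomial (Fin d) Z))
    (hf : Pure i (LinearMap.range f)) {k : ℕ} (hk : k ≤ i + 1) (hkd : k ≤ d) :
    Pure k (LinearMap.ker f) := by
  intro j
  induction j with
  | zero => intro _; simp [J_zero]
  | succ j ih =>
    intro hj
    have hjd : j < d := by omega
    rintro v ⟨hv, hvJ⟩
    rw [J_succ hjd, Submodule.sup_smul] at hvJ ⊢
    obtain ⟨w, hw, t, ht, rfl⟩ := Submodule.mem_sup.1 hvJ
    rw [Submodule.ideal_span_singleton_smul] at ht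
    obtain ⟨u, -, rfl⟩ := ht
    have hv' : f w + (X ⟨j, hjd⟩ : MvPolynomial (Fin d) Z) • f u = 0 := by
      rw [← map_smul, ← map_add]
      exact LinearMap.mem_ker.1 hv
    have hfu : f u ∈ J Z d j •
        (⊤ : Submodule (MvPolynomial (Fin d) Z) (β → MvPolynomial (Fin d) Z)) := by
      rw [mem_smul_top_pi]
      intro b
      refine X_mul_mem hjd ?_
      have h0 : f w b + X ⟨j, hjd⟩ * f u b = 0 := congrFun hv' b
      rw [show X ⟨j, hjd⟩ * f u b = -f w b by linear_combination h0]
      refine neg_mem ((mem_smul_top_pi _ _).1 ?_ b)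
      have : f w ∈ (J Z d j •
          (⊤ : Submodule (MvPolynomial (Fin d) Z) (γ → MvPolynomial (Fin d) Z))).map f :=
        ⟨w, hw, rfl⟩
      rw [Submodule.map_smul''] at this
      exact Submodule.smul_mono le_rfl le_top this
    obtain ⟨u', hu', hfu'⟩ : f u ∈ (J Z d j •
        (⊤ : Submodule (MvPolynomial (Fin d) Z) (γ → MvPolynomial (Fin d) Z))).map f := by
      rw [Submodule.map_smul'', Submodule.map_top]
      exact hf j (by omega) ⟨LinearMap.mem_range_self f u, hfu⟩
    have hker : u - u' ∈ LinearMap.ker f := by rw [LinearMap.mem_ker, map_sub, hfu', sub_self]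
    refine Submodule.mem_sup.2 ⟨w + (X ⟨j, hjd⟩ : MvPolynomial (Fin d) Z) • u', ?_,
      (X ⟨j, hjd⟩ : MvPolynomial (Fin d) Z) • (u - u'),
      Submodule.smul_mem_smul (Ideal.mem_span_singleton_self _) hker, ?_⟩
    · refine ih (by omega) ⟨?_, add_mem hw (Submodule.smul_mem _ _ hu')⟩
      rw [SetLike.mem_coe, LinearMap.mem_ker, map_add, map_smul, hfu']
      exact hv'
    · rw [smul_sub]
      simp only [DistribSMul.toLinearMap_apply]
      abel

/-- A free resolution of a graded submodule. -/
structure Res {W : Type v} [AddCommGroup W] [Module (MvPolynomial (Fin d) Z) W]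
    (K : Submodule (MvPolynomial (Fin d) Z) W) (P : ℕ → W → Prop) where
  G : Char.MCx (MvPolynomial (Fin d) Z)
  sg : G.β → ℕ
  v : G.β → W
  v_deg : ∀ b, G.deg b ≠ 0 → v b = 0
  v_hom : ∀ b, G.deg b = 0 → P (sg b) (v b)
  D_hom : ∀ b, Hom sg (sg b) fun a => G.D a b
  vD : ∀ b, ∑ a, G.D a b • v a = 0
  range_eq : LinearMap.range (Fintype.linearCombination (MvPolynomial (Fin d) Z) v) = K
  exact : ∀ x, G.dlin (MvPolynomial (Fin d) Z) x = 0 →
    Fintype.linearCombination (MvPolynomial (Fin d) Z) v x = 0 →
      x ∈ LinearMap.range (G.dlin (MvPolynomial (Fin d) Z))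
  euler : ∑ b, (-1 : ℤ) ^ G.deg b = (Module.finrank (MvPolynomial (Fin d) Z) K : ℤ)

variable [IsDomain Z]

theorem card_eq_finrank_add {W : Type v} [AddCommGroup W] [Module (MvPolynomial (Fin d) Z) W]
    [Fintype γ] (w : γ → W) : (Fintype.card γ : ℤ) =
      (Module.finrank (MvPolynomial (Fin d) Z)
          (LinearMap.range (Fintype.linearCombination (MvPolynomial (Fin d) Z) w)) : ℤ) +
        Module.finrank (MvPolynomial (Fin d) Z)
          (LinearMap.ker (Fintype.linearCombination (MvPolynomial (Fin d) Z) w)) := by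
  set f := Fintype.linearCombination (MvPolynomial (Fin d) Z) w
  rw [← f.quotKerEquivRange.finrank_eq, ← Nat.cast_add, Submodule.finrank_quotient_add_finrank,
    Module.finrank_fintype_fun_eq_card]

/-- The block complex of a cover and a resolution of its kernel. -/
noncomputable abbrev coneG [Fintype γ] [DecidableEq γ] {sg' : γ → ℕ}
    {K : Submodule (MvPolynomial (Fin d) Z) (γ → MvPolynomial (Fin d) Z)}
    (R : Res K (Hom sg')) : Char.MCx (MvPolynomial (Fin d) Z) where
  β := γ ⊕ R.G.β
  deg := Sum.elim (fun _ => 0) (fun b => R.G.deg b + 1)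
  D := Matrix.fromBlocks 0 (Matrix.of fun c b => R.v b c) 0 R.G.D
  sq := by
    rw [Matrix.fromBlocks_multiply]
    simp only [Matrix.zero_mul, Matrix.mul_zero, add_zero, zero_add, R.G.sq]
    have : (Matrix.of fun c b => R.v b c) * R.G.D = 0 := by
      ext1 c b
      rw [Matrix.mul_apply, Matrix.zero_apply]
      have := congrFun (R.vD b) c
      simpa [Finset.sum_apply, mul_comm] using this
    rw [this]
    exact Matrix.fromBlocks_zero
  homog := by
    rintro (c | a) (c' | b) h
    · simp at h
    · by_cases h0 : R.G.deg b = 0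
      · simp [h0]
      · simp [R.v_deg b h0] at h
    · simp at h
    · simp only [Matrix.fromBlocks_apply₂₂] at h
      simp [R.G.homog a b h]

omit [IsDomain Z] in
theorem coneG_dlin [Fintype γ] [DecidableEq γ] {sg' : γ → ℕ}
    {K : Submodule (MvPolynomial (Fin d) Z) (γ → MvPolynomial (Fin d) Z)}
    (R : Res K (Hom sg')) (y : γ ⊕ R.G.β → MvPolynomial (Fin d) Z) :
    (coneG R).dlin (MvPolynomial (Fin d) Z) y =
      Sum.elim (Fintype.linearCombination (MvPolynomial (Fin d) Z) R.v fun b => y (Sum.inr b))
        (R.G.dlin (MvPolynomial (Fin d) Z) fun b => y (Sum.inr b)) := by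
  funext a
  simp only [Char.MCx.dlin, LinearMap.pi_apply, LinearMap.coe_sum, Finset.sum_apply,
    LinearMap.smul_apply, LinearMap.proj_apply, smul_eq_mul]
  rcases a with c | a
  · simp [Fintype.linearCombination_apply, Finset.sum_apply, mul_comm]
  · simp

theorem coneG_exact {W : Type v} [AddCommGroup W] [Module (MvPolynomial (Fin d) Z) W]
    [Fintype γ] [DecidableEq γ] {sg' : γ → ℕ} (w : γ → W)
    (R : Res (LinearMap.ker (Fintype.linearCombination (MvPolynomial (Fin d) Z) w)) (Hom sg'))
    (x : γ ⊕ R.G.β → MvPolynomial (Fin d) Z)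
    (hD : (coneG R).dlin (MvPolynomial (Fin d) Z) x = 0)
    (hv : Fintype.linearCombination (MvPolynomial (Fin d) Z) w (fun c => x (Sum.inl c)) = 0) :
    x ∈ LinearMap.range ((coneG R).dlin (MvPolynomial (Fin d) Z)) := by
  classical
  rw [coneG_dlin] at hD
  obtain ⟨y, hy⟩ := R.exact (fun b => x (Sum.inr b))
    (funext fun a => congrFun hD (Sum.inr a)) (funext fun c => congrFun hD (Sum.inl c))
  obtain ⟨z, hz⟩ : (fun c => x (Sum.inl c)) -
      Fintype.linearCombination (MvPolynomial (Fin d) Z) R.v y ∈
      LinearMap.range (Fintype.linearCombination (MvPolynomial (Fin d) Z) R.v) :=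
    R.range_eq.ge (sub_mem hv (R.range_eq.le (LinearMap.mem_range_self _ y)))
  set z₀ : R.G.β → MvPolynomial (Fin d) Z := fun b => if R.G.deg b = 0 then z b else 0
  have hz₀ : Fintype.linearCombination (MvPolynomial (Fin d) Z) R.v z₀ =
      Fintype.linearCombination (MvPolynomial (Fin d) Z) R.v z := by
    simp only [Fintype.linearCombination_apply]
    refine Finset.sum_congr rfl fun b _ => ?_
    by_cases h : R.G.deg b = 0 <;> simp [z₀, h, R.v_deg b]
  have hDz₀ : R.G.dlin (MvPolynomial (Fin d) Z) z₀ = 0 := by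
    funext a
    simp only [Char.MCx.dlin, LinearMap.pi_apply, LinearMap.coe_sum, Finset.sum_apply,
      LinearMap.smul_apply, LinearMap.proj_apply, Pi.zero_apply, smul_eq_mul]
    refine Finset.sum_eq_zero fun b _ => ?_
    by_cases h : R.G.deg b = 0
    · by_cases hab : R.G.D a b = 0
      · simp [hab]
      · have := R.G.homog a b hab
        omega
    · simp [z₀, h]
  refine ⟨Sum.elim 0 (y + z₀), ?_⟩
  rw [coneG_dlin]
  simp only [Sum.elim_inr]
  rw [show (fun b => (y + z₀) b) = y + z₀ from rfl, map_add, map_add, hz₀, hz, hy, hDz₀,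
    add_zero, add_sub_cancel]
  funext a
  rcases a with c | a <;> rfl

/-- One cover and a resolution of its kernel. -/
noncomputable def Res.cone {W : Type v} [AddCommGroup W] [Module (MvPolynomial (Fin d) Z) W]
    {K : Submodule (MvPolynomial (Fin d) Z) W} {P : ℕ → W → Prop} [Fintype γ] [DecidableEq γ]
    (sg' : γ → ℕ) (w : γ → W) (hw : ∀ c, P (sg' c) (w c))
    (hK : LinearMap.range (Fintype.linearCombination (MvPolynomial (Fin d) Z) w) = K)
    (R : Res (LinearMap.ker (Fintype.linearCombination (MvPolynomial (Fin d) Z) w)) (Hom sg')) :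
    Res K P where
  G := coneG R
  sg := Sum.elim sg' R.sg
  v := Sum.elim w fun _ => 0
  v_deg := by
    rintro (c | b) h
    · exact absurd rfl h
    · rfl
  v_hom := by
    rintro (c | b) h
    · exact hw c
    · exact absurd h (Nat.succ_ne_zero _)
  D_hom := by
    rintro (c' | b) (c | a)
    · simp [isHomogeneous_zero]
    · simp [isHomogeneous_zero]
    · by_cases h0 : R.G.deg b = 0
      · simpa using R.v_hom b h0 c
      · simp [R.v_deg b h0, isHomogeneous_zero]
    · simpa using R.D_hom b a
  vD := by
    rintro (c' | b)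
    · simp
    · have : R.v b ∈ LinearMap.ker (Fintype.linearCombination (MvPolynomial (Fin d) Z) w) := by
        exact R.range_eq.le ⟨Pi.single b 1, by simp [Fintype.linearCombination_apply_single]⟩
      simpa [Fintype.linearCombination_apply] using this
  range_eq := by
    rw [← hK]
    apply le_antisymm
    · rintro _ ⟨x, rfl⟩
      exact ⟨fun c => x (Sum.inl c), by simp [Fintype.linearCombination_apply]⟩
    · rintro _ ⟨x, rfl⟩
      exact ⟨Sum.elim x 0, by simp [Fintype.linearCombination_apply]⟩
  exact := fun x hD hv => coneG_exact w R x hD (by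
    simpa [Fintype.linearCombination_apply] using hv)
  euler := by
    have h := card_eq_finrank_add (Z := Z) (d := d) w
    rw [hK] at h
    simp [pow_succ, Finset.sum_neg_distrib, R.euler, h]

variable [IsPrincipalIdealRing Z]

/-- Homogeneous generators. -/
theorem exists_gens [Fintype β] (sg : β → ℕ)
    (K : Submodule (MvPolynomial (Fin d) Z) (β → MvPolynomial (Fin d) Z)) (hgr : Gr sg K) :
    ∃ (γ : Type) (_ : Fintype γ) (sg' : γ → ℕ) (w : γ → β → MvPolynomial (Fin d) Z),
      (∀ c, Hom sg (sg' c) (w c)) ∧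
        LinearMap.range (Fintype.linearCombination (MvPolynomial (Fin d) Z) w) = K := by
  classical
  obtain ⟨r, g, hg⟩ := Submodule.fg_iff_exists_fin_generating_family.1 (IsNoetherian.noetherian K)
  choose B hB using fun i => exists_sum_hc sg (g i)
  set M := Finset.univ.sup B
  refine ⟨Fin r × Fin M, inferInstance, fun c => (c.2 : ℕ), fun c => hc sg c.2 (g c.1),
    fun c => hom_hc _ _ _, ?_⟩
  rw [Fintype.range_linearCombination]
  refine le_antisymm (Submodule.span_le.2 ?_) ?_
  · rintro _ ⟨c, rfl⟩
    exact hgr _ _ (hg ▸ Submodule.subset_span ⟨c.1, rfl⟩)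
  · rw [← hg]
    refine Submodule.span_le.2 ?_
    rintro _ ⟨i, rfl⟩
    rw [SetLike.mem_coe, ← hB i M (Finset.le_sup (Finset.mem_univ i))]
    exact sum_mem fun N hN => Submodule.subset_span ⟨(i, ⟨N, Finset.mem_range.1 hN⟩), rfl⟩

/-- Constant coefficients. -/
noncomputable def cc0 : (β → MvPolynomial (Fin d) Z) →ₗ[Z] (β → Z) :=
  (lcoeff Z 0).compLeft β

omit [IsDomain Z] [IsPrincipalIdealRing Z] in
theorem cc0_apply (x : β → MvPolynomial (Fin d) Z) (b : β) : cc0 x b = constantCoeff (x b) := rfl

omit [IsDomain Z] [IsPrincipalIdealRing Z] in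
theorem cc0_hom {sg : β → ℕ} {N : ℕ} {x : β → MvPolynomial (Fin d) Z} (hx : Hom sg N x) {b : β}
    (hb : sg b ≠ N) : cc0 x b = 0 := by
  rw [cc0_apply]
  rcases lt_or_gt_of_ne hb with h | h
  · exact (hx b).1.coeff_eq_zero (by simpa using (by omega : 0 ≠ N - sg b))
  · simp [(hx b).2 h]

/-- A graded submodule pure for all variables is free on a homogeneous basis. -/
theorem exists_basis_of_pure [Fintype β] (sg : β → ℕ)
    (K : Submodule (MvPolynomial (Fin d) Z) (β → MvPolynomial (Fin d) Z)) (hgr : Gr sg K)
    (hp : Pure d K) :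
    ∃ (γ : Type) (_ : Fintype γ) (sg' : γ → ℕ) (w : γ → β → MvPolynomial (Fin d) Z),
      (∀ c, Hom sg (sg' c) (w c)) ∧
        LinearMap.range (Fintype.linearCombination (MvPolynomial (Fin d) Z) w) = K ∧
        LinearMap.ker (Fintype.linearCombination (MvPolynomial (Fin d) Z) w) = ⊥ := by
  classical
  set M := (Finset.univ.sup sg) + 1
  let HN : ℕ → Submodule Z (β → MvPolynomial (Fin d) Z) := fun N =>
    K.restrictScalars Z ⊓ LinearMap.range (hc sg N)
  let Q : ℕ → Submodule Z (β → Z) := fun N => (HN N).map cc0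
  let bq : ∀ N, Module.Basis (Fin (Module.finrank Z (Q N))) Z (Q N) := fun N => Module.finBasis Z _
  have hex : ∀ N i, ∃ x, x ∈ HN N ∧ cc0 x = (bq N i : β → Z) := fun N i => (bq N i).2
  choose wl hwl hccw using hex
  have hhom : ∀ N, ∀ x ∈ HN N, Hom sg N x := by
    rintro N _ ⟨-, y, rfl⟩
    exact hom_hc _ _ _
  refine ⟨Σ N : Fin M, Fin (Module.finrank Z (Q N)), inferInstance, fun c => (c.1 : ℕ),
    fun c => wl c.1 c.2, fun c => hhom _ _ (hwl _ _), ?_⟩
  set f := Fintype.linearCombination (MvPolynomial (Fin d) Z)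
    fun c : Σ N : Fin M, Fin (Module.finrank Z (Q N)) => wl c.1 c.2
  have hr : LinearMap.range f = K := by
    apply le_antisymm
    · rw [Fintype.range_linearCombination, Submodule.span_le]
      rintro _ ⟨c, rfl⟩
      exact (hwl c.1 c.2).1
    · have key : ∀ N, ∀ x ∈ K, hc sg N x ∈ LinearMap.range f := by
        intro N
        induction N using Nat.strong_induction_on with
        | _ N ih =>
          intro x hx
          have hxN : hc sg N x ∈ HN N := ⟨hgr N x hx, LinearMap.mem_range_self _ x⟩
          have happrox : ∃ y ∈ LinearMap.range f, y ∈ K ∧ cc0 y = cc0 (hc sg N x) := by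
            by_cases hN : N < M
            · refine ⟨∑ i, (C ((bq N).repr ⟨_, Submodule.mem_map_of_mem hxN⟩ i) :
                MvPolynomial (Fin d) Z) • wl N i, sum_mem fun i _ => Submodule.smul_mem _ _
                  ⟨Pi.single ⟨⟨N, hN⟩, i⟩ 1, by simp [f, Fintype.linearCombination_apply_single]⟩,
                sum_mem fun i _ => Submodule.smul_mem _ _ (hwl N i).1, ?_⟩
              rw [map_sum]
              have h1 := congrArg Subtype.val ((bq N).sum_repr ⟨_, Submodule.mem_map_of_mem hxN⟩)
              rw [Submodule.coe_sum] at h1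
              refine Eq.trans (Finset.sum_congr rfl fun i _ => ?_) h1
              rw [Submodule.coe_smul, ← hccw N i, ← map_smul]
              congr 1
              funext b
              simp [MvPolynomial.smul_eq_C_mul]
            · refine ⟨0, zero_mem _, zero_mem _, funext fun b => ?_⟩
              have : sg b ≤ Finset.univ.sup sg := Finset.le_sup (Finset.mem_univ b)
              rw [map_zero, Pi.zero_apply, cc0_hom (hom_hc sg N x) (by omega)]
          obtain ⟨y, ⟨p, hpy⟩, hyK, hy⟩ := happrox
          have hJ : hc sg N x - y ∈ J Z d d • K := by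
            refine hp d le_rfl ⟨sub_mem hxN.1 hyK, (mem_smul_top_pi _ _).2 fun b => mem_J_top ?_⟩
            rw [← cc0_apply, map_sub, hy, sub_self, Pi.zero_apply]
          have hrest : ∀ z ∈ J Z d d • K, hc sg N z ∈ LinearMap.range f := by
            intro z hz
            refine Submodule.smul_induction_on hz (fun r hr k hk => ?_) fun a b ha hb => ?_
            · rw [J_top] at hr
              obtain ⟨c, rfl⟩ := Ideal.mem_span_range_iff_exists_fun.1 hr
              rw [Finset.sum_smul, map_sum]
              refine sum_mem fun j _ => ?_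
              rw [mul_comm, mul_smul, hc_X_smul]
              split_ifs with hN
              · exact zero_mem _
              · exact Submodule.smul_mem _ _ (ih (N - 1) (by omega) _ (K.smul_mem _ hk))
            · rw [map_add]
              exact add_mem ha hb
          have h2 := hrest _ hJ
          rw [map_sub, hc_eq_self (hom_hc sg N x), ← hpy,
            hc_lc sg (fun c : Σ N : Fin M, Fin (Module.finrank Z (Q N)) => (c.1 : ℕ))
              (fun c => hhom _ _ (hwl _ _))] at h2
          have := add_mem h2 (LinearMap.mem_range_self f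
            (hc (fun c : Σ N : Fin M, Fin (Module.finrank Z (Q N)) => (c.1 : ℕ)) N p))
          rwa [sub_add_cancel] at this
      intro x hx
      obtain ⟨B, hB⟩ := exists_sum_hc sg x
      rw [← hB B le_rfl]
      exact sum_mem fun N _ => key N x hx
  refine ⟨hr, ?_⟩
  have hJ : LinearMap.ker f ≤ J Z d d • LinearMap.ker f := by
    intro u hu
    refine pure_ker f (i := d) (hr ▸ hp) (Nat.le_succ d) le_rfl d le_rfl
      ⟨hu, (mem_smul_top_pi _ _).2 fun c => mem_J_top ?_⟩
    obtain ⟨N, i⟩ := c
    have h1 : ∑ i' : Fin (Module.finrank Z (Q N)),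
        constantCoeff (u ⟨N, i'⟩) • (bq N i' : β → Z) = 0 := by
      funext b
      have h0 := congrArg constantCoeff (congrFun (LinearMap.mem_ker.1 hu) b)
      simp only [f, Fintype.linearCombination_apply, Finset.sum_apply, Pi.smul_apply,
        smul_eq_mul, map_sum, map_mul, Pi.zero_apply, map_zero] at h0
      simp only [Finset.sum_apply, Pi.smul_apply, smul_eq_mul, Pi.zero_apply]
      by_cases hb : sg b = N
      · rw [Fintype.sum_sigma, Finset.sum_eq_single N] at h0
        · simpa [← hccw, cc0_apply] using h0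
        · intro N' _ hN'
          refine Finset.sum_eq_zero fun i' _ => ?_
          rw [← cc0_apply (wl (N' : ℕ) i') b, cc0_hom (hhom _ _ (hwl _ _))
            (fun h => hN' (Fin.ext (h.symm.trans hb))), mul_zero]
        · simp
      · exact Finset.sum_eq_zero fun i' _ => by
          rw [← hccw, cc0_hom (hhom _ _ (hwl _ _)) hb, mul_zero]
    have h2 := Fintype.linearIndependent_iff.1 (bq N).linearIndependent
      (fun i' => constantCoeff (u ⟨N, i'⟩)) (Subtype.ext (by simpa using h1))
    exact h2 i
  have hpow : ∀ k, LinearMap.ker f ≤ J Z d d ^ k •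
      (⊤ : Submodule (MvPolynomial (Fin d) Z) _) := by
    intro k
    induction k with
    | zero => rw [pow_zero, Ideal.one_eq_top, Submodule.top_smul]; exact le_top
    | succ k ih =>
      rw [pow_succ', Submodule.mul_smul]
      exact hJ.trans (Submodule.smul_mono le_rfl ih)
  have hne : J Z d d ≠ ⊤ := fun h => by
    have := constantCoeff_of_mem_J (h ▸ Submodule.mem_top : (1 : MvPolynomial (Fin d) Z) ∈ _)
    simp at this
  rw [eq_bot_iff]
  intro u hu
  rw [Submodule.mem_bot]
  funext c
  have : u c ∈ ⨅ k, J Z d d ^ k := by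
    rw [Ideal.mem_iInf]
    exact fun k => (mem_smul_top_pi _ _).1 (hpow k hu) c
  rwa [Ideal.iInf_pow_eq_bot_of_isDomain _ hne, Ideal.mem_bot] at this

/-- Resolutions of graded pure submodules. -/
theorem exists_res : ∀ (k i : ℕ), i + k = d → ∀ (β : Type) [Fintype β] (sg : β → ℕ)
    (K : Submodule (MvPolynomial (Fin d) Z) (β → MvPolynomial (Fin d) Z)),
    Gr sg K → Pure i K → Nonempty (Res K (Hom sg)) := by
  classical
  intro k
  induction k with
  | zero =>
    intro i hi β _ sg K hgr hp
    obtain rfl : i = d := by omega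
    obtain ⟨γ, _, sg', w, hw, hr, hk⟩ := exists_basis_of_pure sg K hgr hp
    refine ⟨{
      G := { β := γ, deg := fun _ => 0, D := 0, sq := by simp, homog := by simp }
      sg := sg'
      v := w
      v_deg := fun b h => absurd rfl h
      v_hom := fun b _ => hw b
      D_hom := fun b a => by simp [isHomogeneous_zero]
      vD := fun b => by simp
      range_eq := hr
      exact := fun x _ hx => by
        have : x ∈ LinearMap.ker (Fintype.linearCombination (MvPolynomial (Fin i) Z) w) := hx
        rw [hk, Submodule.mem_bot] at this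
        rw [this]
        exact zero_mem _
      euler := ?_ }⟩
    have h := card_eq_finrank_add (Z := Z) (d := i) w
    rw [hr, hk, finrank_bot] at h
    simp [h]
  | succ k ih =>
    intro i hi β _ sg K hgr hp
    obtain ⟨γ, _, sg', w, hw, hr⟩ := exists_gens sg K hgr
    obtain ⟨R⟩ := ih (i + 1) (by omega) γ sg'
      (LinearMap.ker (Fintype.linearCombination (MvPolynomial (Fin d) Z) w))
      (gr_ker sg' _ (fun N => (hc sg N).toAddMonoidHom) fun N u => (hc_lc sg sg' hw N u).symm)
      (pure_ker _ (hr.symm ▸ hp) le_rfl (by omega))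
    exact ⟨R.cone sg' w hw hr⟩

end Vale.Agent.P202.Mixed2
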