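import Vale.Agent.P202.Mixed2.WinGd

/-!
P202, mixed characteristic, windows: the measure of homology, along exact sequences and chains,
Euler characteristics, and the splicing of a window with the stable homology of the part below it.
-/

open scoped ENNReal

namespace Vale.Agent.P202.Mixed2

universe u

namespace Meas

variable {T : Type u} [CommRing T] (μ : Meas T)

section General

variable {M N P : Type u} [AddCommGroup M] [Module T M] [AddCommGroup N] [Module T N]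
  [AddCommGroup P] [Module T P]

theorem toReal_split (f : M →ₗ[T] N) (g : N →ₗ[T] P) (h : LinearMap.ker g = LinearMap.range f)
    (hN : μ.val N ≠ ∞) :
    (μ.val N).toReal =
      (μ.val (LinearMap.range f)).toReal + (μ.val (LinearMap.range g)).toReal := by
  have e := μ.eq_ker_add_range g
  rw [h] at e
  rw [e] at hN ⊢
  exact ENNReal.toReal_add (ENNReal.add_ne_top.1 hN).1 (ENNReal.add_ne_top.1 hN).2

/-- A submodule which `β` pushes into `G`. -/
theorem val_le_add_kb (β : T) (hN : μ.val N ≠ ∞) {S G : Submodule T N}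
    (h : ∀ x ∈ S, β • x ∈ G) : μ.val S ≤ μ.val G + μ.kb β N := by
  have h1 := μ.eq_ker_add_range (G.mkQ ∘ₗ S.subtype)
  rw [h1]
  refine add_le_add ?_ ?_
  · refine μ.le_of_injective
      ((S.subtype ∘ₗ (LinearMap.ker (G.mkQ ∘ₗ S.subtype)).subtype).codRestrict G fun x => ?_)
      fun x y hxy => by
        refine Subtype.ext (Subtype.ext ?_)
        have h' := congrArg Subtype.val hxy
        exact h'
    exact (Submodule.Quotient.mk_eq_zero G).1 (LinearMap.mem_ker.1 x.2)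
  · set R := LinearMap.range (G.mkQ ∘ₗ S.subtype)
    have hQ : μ.val (N ⧸ G) ≠ ∞ := ne_top_of_le_ne_top hN (μ.quot_le G)
    refine (le_of_eq ?_).trans ((μ.kb_inj_le β hQ R.subtype R.injective_subtype).trans
      (μ.kb_quot_le β G.mkQ G.mkQ_surjective))
    rw [μ.kb_eq_ker β (ne_top_of_le_ne_top hQ (μ.sub_le R)),
      show LinearMap.ker (LinearMap.lsmul T R β) = ⊤ from eq_top_iff.2 ?_,
      μ.congr Submodule.topEquiv]
    rintro ⟨_, x, rfl⟩ -
    refine LinearMap.mem_ker.2 (Subtype.ext ?_)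
    show β • G.mkQ (x : N) = 0
    rw [← map_smul]
    exact (Submodule.Quotient.mk_eq_zero G).2 (h _ x.2)

/-- A submodule on which a map has kernel killed by `β`. -/
theorem val_le_of_killed_ker (β : T) (hN : μ.val N ≠ ∞) (g : N →ₗ[T] P) (S : Submodule T N)
    (h : ∀ x ∈ S, g x = 0 → β • x = 0) : μ.val S ≤ μ.val P + μ.kb β N := by
  rw [μ.eq_ker_add_range (g ∘ₗ S.subtype), add_comm]
  refine add_le_add (μ.sub_le _) ?_
  set K := LinearMap.ker (g ∘ₗ S.subtype)
  refine (le_of_eq ?_).trans (μ.kb_inj_le β hN (S.subtype ∘ₗ K.subtype)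
    fun x y hxy => Subtype.ext (Subtype.ext hxy))
  have hK : μ.val K ≠ ∞ := ne_top_of_le_ne_top hN ((μ.sub_le K).trans (μ.sub_le S))
  rw [μ.kb_eq_ker β hK,
    show LinearMap.ker (LinearMap.lsmul T K β) = ⊤ from eq_top_iff.2 fun x _ =>
      LinearMap.mem_ker.2 (Subtype.ext (Subtype.ext (h _ x.1.2 (LinearMap.mem_ker.1 x.2)))),
    μ.congr Submodule.topEquiv]

theorem null_of_le {c : ℝ≥0∞} (h : μ.val M ≤ c) (hc : c = 0) : μ.val M = 0 :=
  le_antisymm (h.trans hc.le) zero_le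

end General

variable {V : Type u} [AddCommGroup V] [Module T V] (C : Gd T V) {X Y W : Submodule T V}

/-- The measure of the homology of `Y / X` in degree `k`. -/
noncomputable def hm (X Y : Submodule T V) (k : ℤ) : ℝ≥0∞ := μ.val (C.H X Y k)

/-- What `β` can kill in it. -/
noncomputable def hk (β : T) (X Y : Submodule T V) (k : ℤ) : ℝ≥0∞ := μ.kb β (C.H X Y k)

theorem hm_self (X : Submodule T V) (k : ℤ) : μ.hm C X X k = 0 := μ.zero _ (C.H_self X k)

theorem hm_of_deg {k : ℤ} (h : C.deg k = ⊥) : μ.hm C X Y k = 0 := μ.zero _ (C.H_of_deg h)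

theorem hk_self (β : T) (X : Submodule T V) (k : ℤ) : μ.hk C β X X k = 0 :=
  le_antisymm ((μ.kb_le_val β).trans_eq (μ.hm_self C X k)) zero_le

variable (hX : C.bot ≤ X) (hXY : X ≤ Y) (hYW : Y ≤ W) (hW : W ≤ C.top)

include hX hXY hYW hW in
theorem hm_mid (k : ℤ) : μ.hm C X W k ≤ μ.hm C X Y k + μ.hm C Y W k :=
  μ.le_of_exact (C.ker_move_top hX hXY hYW hW k).le

include hX hXY hYW hW in
theorem hk_mid (β : T) (k : ℤ) (h1 : μ.hm C X Y k ≠ ∞)
    (h2 : μ.hm C Y W k ≠ ∞) : μ.hk C β X W k ≤ μ.hk C β X Y k + μ.hk C β Y W k :=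
  μ.kb_le_of_exact β
    (ne_top_of_le_ne_top (ENNReal.add_ne_top.2 ⟨h1, h2⟩) (μ.hm_mid C hX hXY hYW hW k))
    h2 (C.ker_move_top hX hXY hYW hW k).le

include hX hXY hYW hW in
theorem hm_sub (k : ℤ) : μ.hm C X Y (k + 1 - 1) ≤ μ.hm C Y W (k + 1) + μ.hm C X W (k + 1 - 1) :=
  μ.le_of_exact (C.ker_move_sub hX hXY hYW hW k).le

/-- Bounds along a chain. -/
theorem hm_chain {w : ℕ} (A : ℕ → Submodule T V) (anti : Antitone A)
    (hbot : ∀ s ≤ w, C.bot ≤ A s) (htop : ∀ s ≤ w, A s ≤ C.top) (β : T) (k : ℤ)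
    (hf : ∀ s < w, μ.hm C (A (s + 1)) (A s) k ≠ ∞) :
    μ.hm C (A w) (A 0) k ≠ ∞ ∧
    μ.hm C (A w) (A 0) k ≤ ∑ s ∈ Finset.range w, μ.hm C (A (s + 1)) (A s) k ∧
    μ.hk C β (A w) (A 0) k ≤ ∑ s ∈ Finset.range w, μ.hk C β (A (s + 1)) (A s) k := by
  induction w with
  | zero => simp [hm_self, hk_self]
  | succ w ih =>
    obtain ⟨h1, h2, h3⟩ := ih (fun s hs => hbot s (hs.trans w.le_succ))
      (fun s hs => htop s (hs.trans w.le_succ)) fun s hs => hf s (hs.trans w.lt_succ_self)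
    have hb := hbot _ (le_refl (w + 1))
    have ht := htop 0 (Nat.zero_le _)
    have hle := μ.hm_mid C hb (anti w.le_succ) (anti (Nat.zero_le w)) ht k
    refine ⟨ne_top_of_le_ne_top (ENNReal.add_ne_top.2 ⟨hf w w.lt_succ_self, h1⟩) hle, ?_, ?_⟩
    · rw [Finset.sum_range_succ, add_comm (Finset.sum _ _)]
      exact hle.trans (add_le_add le_rfl h2)
    · rw [Finset.sum_range_succ, add_comm (Finset.sum _ _)]
      exact (μ.hk_mid C hb (anti w.le_succ) (anti (Nat.zero_le w)) ht β k (hf w w.lt_succ_self)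
        h1).trans (add_le_add le_rfl h3)

/-- Euler characteristic over a range of degrees. -/
noncomputable def hchi (s : Finset ℤ) (X Y : Submodule T V) : ℝ :=
  ∑ k ∈ s, (-1 : ℝ) ^ k.natAbs * (μ.hm C X Y k).toReal

theorem neg_one_natAbs_succ (k : ℤ) : (-1 : ℝ) ^ (k + 1).natAbs = -(-1 : ℝ) ^ k.natAbs := by
  rcases Int.even_or_odd k with h | h
  · rw [(Int.natAbs_even.2 h).neg_one_pow, (Int.natAbs_odd.2 h.add_one).neg_one_pow]
  · rw [(Int.natAbs_odd.2 h).neg_one_pow, (Int.natAbs_even.2 h.add_one).neg_one_pow, neg_neg]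

theorem sum_sign_telescopeR (f : ℤ → ℝ) (lo hi : ℤ) (h0 : f lo = 0) (h1 : f (hi + 1) = 0) :
    ∑ k ∈ Finset.Icc lo hi, (-1 : ℝ) ^ k.natAbs * (f k + f (k + 1)) = 0 := by
  rcases lt_or_ge hi lo with h | h
  · simp [Finset.Icc_eq_empty (not_le.2 h)]
  have key : ∀ m : ℕ, ∑ k ∈ Finset.Icc lo (lo + m), (-1 : ℝ) ^ k.natAbs * (f k + f (k + 1)) =
      (-1 : ℝ) ^ lo.natAbs * f lo - (-1 : ℝ) ^ (lo + m + 1).natAbs * f (lo + m + 1) := by
    intro m
    induction m with
    | zero => simp [neg_one_natAbs_succ]; ring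
    | succ m ih =>
      have hins : Finset.Icc lo (lo + (m + 1 : ℕ)) =
          insert (lo + (m + 1 : ℕ)) (Finset.Icc lo (lo + m)) := by
        ext k
        simp only [Finset.mem_Icc, Finset.mem_insert]
        omega
      rw [hins, Finset.sum_insert (by simp), ih,
        show lo + ((m + 1 : ℕ) : ℤ) = lo + m + 1 by push_cast; ring,
        neg_one_natAbs_succ (lo + m + 1)]
      ring
  obtain ⟨m, rfl⟩ := Int.le.dest h
  rw [key, h0, h1]
  simp

include hX hXY hYW hW in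
theorem hchi_add (lo hi : ℤ) (hdeg : ∀ k, k ∉ Finset.Icc lo hi → C.deg k = ⊥)
    (h1 : ∀ k, μ.hm C X Y k ≠ ∞) (h2 : ∀ k, μ.hm C Y W k ≠ ∞) :
    μ.hchi C (Finset.Icc lo hi) X W =
      μ.hchi C (Finset.Icc lo hi) X Y + μ.hchi C (Finset.Icc lo hi) Y W := by
  have hfin : ∀ k, μ.hm C X W k ≠ ∞ := fun k =>
    ne_top_of_le_ne_top (ENNReal.add_ne_top.2 ⟨h1 k, h2 k⟩) (μ.hm_mid C hX hXY hYW hW k)
  set c : ℤ → ℝ := fun k =>
    (μ.val ↥(LinearMap.range (C.conn (Y := Y) hX hW k))).toReal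
  set i : ℤ → ℝ := fun k => (μ.val ↥(LinearMap.range (C.move (X := X) le_rfl hYW k))).toReal
  set p : ℤ → ℝ := fun k =>
    (μ.val ↥(LinearMap.range (C.move (Y := W) hXY le_rfl k))).toReal
  have eW : ∀ k, (μ.hm C X W k).toReal = i k + p k := fun k =>
    μ.toReal_split _ _ (C.ker_move_top hX hXY hYW hW k) (hfin k)
  have eT : ∀ k, (μ.hm C Y W k).toReal = p k + c k := fun k =>
    μ.toReal_split _ _ (C.ker_conn hX hXY hYW hW k) (h2 k)
  have eY : ∀ k, (μ.hm C X Y k).toReal = c (k + 1) + i k := fun k => by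
    have key : ∀ m, m = k + 1 - 1 → (μ.hm C X Y m).toReal = c (k + 1) + i m := by
      rintro m rfl
      exact μ.toReal_split _ _ (C.ker_move_sub hX hXY hYW hW k) (h1 _)
    exact key k (by omega)
  have hc0 : c lo = 0 := by
    have h0 : μ.val ↥(LinearMap.range (C.conn (Y := Y) hX hW lo)) = 0 :=
      μ.null_of_le (μ.sub_le _) (μ.hm_of_deg C (hdeg (lo - 1) (by simp)))
    simp [c, h0]
  have hc1 : c (hi + 1) = 0 := by
    have h0 : μ.val ↥(LinearMap.range (C.conn (Y := Y) hX hW (hi + 1))) = 0 :=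
      μ.null_of_le (μ.range_le _) (μ.hm_of_deg C (hdeg (hi + 1) (by simp)))
    simp [c, h0]
  rw [eq_comm, ← sub_eq_zero, ← sum_sign_telescopeR c lo hi hc0 hc1]
  simp only [hchi, eW, eY, eT, ← Finset.sum_add_distrib, ← Finset.sum_sub_distrib]
  exact Finset.sum_congr rfl fun k _ => by ring

/-- The image of `H (X₂, Y)` in `H (X₁, Y)`. -/
noncomputable abbrev imH {X₂ X₁ : Submodule T V} (h : X₂ ≤ X₁) (Y : Submodule T V) (k : ℤ) :
    Submodule T (C.H X₁ Y k) :=
  LinearMap.range (C.move (Y := Y) h le_rfl k)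

/-- A window `Y / P` and the stable homology of `P` below it: if the images in the higher term
are small outside degree `0`, the two Euler characteristics almost add up to something positive. -/
theorem splice {X₂ X₁ P : Submodule T V} (h21 : X₂ ≤ X₁) (h1P : X₁ ≤ P) (hPY : P ≤ Y)
    (hbot : C.bot ≤ X₂) (htop : Y ≤ C.top)
    (lo hi : ℤ) (hdeg : ∀ k, k ∉ Finset.Icc lo hi → C.deg k = ⊥)
    (hPYfin : ∀ k, μ.hm C P Y k ≠ ∞) (h1Pfin : ∀ k, μ.hm C X₁ P k ≠ ∞) (S : ℝ≥0∞) (hS : S ≠ ∞)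
    (hbig : ∀ k, k ≠ 0 → μ.val (imH C h21 Y k) ≤ S)
    (hwin : ∀ k, k ≠ 0 → μ.val (imH C h1P Y k) ≤ S) :
    -((Finset.Icc lo hi).card * (2 * S.toReal)) ≤ μ.hchi C (Finset.Icc lo hi) P Y +
      ∑ k ∈ Finset.Icc lo hi, (-1 : ℝ) ^ k.natAbs * (μ.val (imH C h21 P k)).toReal := by
  have hb1 : C.bot ≤ X₁ := hbot.trans h21
  set δ := fun k => C.conn (Y := P) (W := Y) hb1 htop k
  set c : ℤ → ℝ := fun k => (μ.val ↥(LinearMap.range (δ k))).toReal with hc
  set p : ℤ → ℝ := fun k => (μ.val ↥(imH C h1P Y k)).toReal with hp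
  have h1Yfin : ∀ k, μ.hm C X₁ Y k ≠ ∞ := fun k => ne_top_of_le_ne_top
    (ENNReal.add_ne_top.2 ⟨h1Pfin k, hPYfin k⟩) (μ.hm_mid C hb1 h1P hPY htop k)
  have eT : ∀ k, (μ.hm C P Y k).toReal = p k + c k := fun k =>
    μ.toReal_split _ _ (C.ker_conn hb1 h1P hPY htop k) (hPYfin k)
  have eY : ∀ k, ∃ s : ℝ, 0 ≤ s ∧ (k ≠ 0 → s ≤ S.toReal) ∧
      (μ.val ↥(imH C h21 P k)).toReal = c (k + 1) + s := by
    have key : ∀ k m, m = k + 1 - 1 → ∃ s : ℝ, 0 ≤ s ∧ (m ≠ 0 → s ≤ S.toReal) ∧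
        (μ.val ↥(imH C h21 P m)).toReal = c (k + 1) + s := by
      rintro k m rfl
      set R := imH C h21 P (k + 1 - 1)
      set g : R →ₗ[T] C.H X₁ Y (k + 1 - 1) :=
        C.move (X := X₁) le_rfl hPY (k + 1 - 1) ∘ₗ R.subtype
      have hle : LinearMap.range g ≤ imH C h21 Y (k + 1 - 1) := by
        rintro _ ⟨⟨_, y, rfl⟩, rfl⟩
        refine ⟨C.move (X := X₂) le_rfl hPY _ y, ?_⟩
        induction y using Submodule.Quotient.induction_on with | _ y
        rfl
      have hker : μ.val (LinearMap.ker g) = μ.val (LinearMap.range (δ (k + 1))) := by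
        refine μ.congr (LinearEquiv.ofBijective ((R.subtype ∘ₗ (LinearMap.ker g).subtype).codRestrict
          (LinearMap.range (δ (k + 1))) fun x => ?_) ⟨fun x y hxy => ?_, fun y => ?_⟩)
        · rw [← C.ker_move_sub hb1 h1P hPY htop k]
          exact LinearMap.mem_ker.1 x.2
        · refine Subtype.ext (Subtype.ext ?_)
          have h' := congrArg Subtype.val hxy
          exact h'
        · obtain ⟨y, z, rfl⟩ := y
          have hy : (δ (k + 1)) z ∈ R := by
            refine ⟨C.conn (Y := P) (W := Y) hbot htop (k + 1) z, ?_⟩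
            induction z using Submodule.Quotient.induction_on with | _ z
            rfl
          refine ⟨⟨⟨_, hy⟩, LinearMap.mem_ker.2 ?_⟩, rfl⟩
          have : (δ (k + 1)) z ∈ LinearMap.ker (C.move (X := X₁) le_rfl hPY (k + 1 - 1)) :=
            (C.ker_move_sub hb1 h1P hPY htop k).ge ⟨z, rfl⟩
          exact LinearMap.mem_ker.1 this
      refine ⟨(μ.val (LinearMap.range g)).toReal, ENNReal.toReal_nonneg, fun hm => ?_, ?_⟩
      · exact ENNReal.toReal_mono hS ((μ.mono hle).trans (hbig _ hm))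
      · have hfin : μ.val R ≠ ∞ := ne_top_of_le_ne_top (h1Pfin _) (μ.sub_le R)
        rw [μ.eq_ker_add_range g] at hfin ⊢
        rw [ENNReal.toReal_add (ENNReal.add_ne_top.1 hfin).1 (ENNReal.add_ne_top.1 hfin).2, hker]
    exact fun k => key k k (by omega)
  choose s hs0 hsS hs using eY
  have hc0 : c lo = 0 := by
    have h0 : μ.val ↥(LinearMap.range (δ lo)) = 0 :=
      μ.null_of_le (μ.sub_le _) (μ.hm_of_deg C (hdeg (lo - 1) (by simp)))
    simp [c, h0]
  have hc1 : c (hi + 1) = 0 := by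
    have h0 : μ.val ↥(LinearMap.range (δ (hi + 1))) = 0 :=
      μ.null_of_le (μ.range_le _) (μ.hm_of_deg C (hdeg (hi + 1) (by simp)))
    simp [c, h0]
  have hterm : ∀ k ∈ Finset.Icc lo hi, -(2 * S.toReal) ≤ (-1 : ℝ) ^ k.natAbs * (p k + s k) := by
    intro k _
    have hp0 : 0 ≤ p k := ENNReal.toReal_nonneg
    have hS0 : 0 ≤ S.toReal := ENNReal.toReal_nonneg
    rcases eq_or_ne k 0 with rfl | hk
    · simp only [Int.natAbs_zero, pow_zero, one_mul]
      linarith [hs0 0]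
    · have : p k ≤ S.toReal := ENNReal.toReal_mono hS (hwin k hk)
      rcases neg_one_pow_eq_or ℝ k.natAbs with h | h <;> rw [h] <;> linarith [hsS k hk, hs0 k]
  refine le_trans (le_of_eq ?_) ((Finset.card_nsmul_le_sum _ _ _ hterm).trans (le_of_eq ?_))
  · rw [nsmul_eq_mul, mul_neg]
  · rw [← sub_eq_zero, ← neg_eq_zero]
    rw [← sum_sign_telescopeR c lo hi hc0 hc1]
    simp only [hchi, eT, hs, ← Finset.sum_add_distrib, ← Finset.sum_sub_distrib,
      ← Finset.sum_neg_distrib]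
    exact Finset.sum_congr rfl fun k _ => by ring

end Meas

end Vale.Agent.P202.Mixed2
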