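import Vale.Agent.P202.Mixed2.WinTot
import Vale.Agent.P202.Char.Flat

/-!
P202, mixed characteristic, windows: raising the level by `n * M + M` kills the homology of the
total complex up to a power of `β`, by induction over the Cech degree.
-/

namespace Vale.Agent.P202.Mixed2.Win

universe u

open Vale.Agent.P202.Char

variable {T : Type u} [CommRing T] {n : ℕ} {U : Fin (n + 1) → T} {β : T} {L J M : ℕ}
  (P : Lift U β L J M) (lam : Fin (n + 1) → T) {a : Fin n → ℤ}

namespace Lift

/-- A homotopy on one chart. -/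
noncomputable def theta (l : Fin (n + 1)) : (P.ι → Tot T n ℕ) →ₗ[T] (P.ι → Tot T n ℕ) :=
  LinearMap.pi fun b => ∑ b', (if P.deg b = P.deg b' + 1 then
    push lam (upBy n (P.h l b b') J) else 0) ∘ₗ LinearMap.proj b'

/-- The entries on one chart. -/
noncomputable def ent : (P.ι → Tot T n ℕ) →ₗ[T] (P.ι → Tot T n ℕ) :=
  LinearMap.pi fun b => ∑ b', P.entry lam b b' ∘ₗ LinearMap.proj b'

theorem theta_apply (l : Fin (n + 1)) (x : P.ι → Tot T n ℕ) (b : P.ι) :
    P.theta lam l x b = ∑ b', (if P.deg b = P.deg b' + 1 then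
      push lam (upBy n (P.h l b b') J) else 0) (x b') := by
  simp [theta]

theorem ent_apply (x : P.ι → Tot T n ℕ) (b : P.ι) :
    P.ent lam x b = ∑ b', P.entry lam b b' (x b') := by
  simp [ent]

variable {lam} {c : ℤ} {ε : Chart n}

theorem theta_cut {W : ℕ} {l : Fin (n + 1)} {x : P.ι → Tot T n ℕ}
    (hx : ∀ b, x b ∈ cutS U lam a (W + P.deg b * J) ε (P.slot c b)) (b : P.ι) :
    P.theta lam l x b ∈ cutS U lam a (W + P.deg b * J) ε (P.slot c b) := by
  rw [theta_apply]
  refine sum_mem fun b' _ => ?_
  split_ifs with h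
  · rw [push_upBy_scalar, show W + P.deg b * J = W + P.deg b' * J + J by rw [h]; ring]
    refine Submodule.smul_mem _ _ (up_cutS lam ?_)
    rw [← P.slot_step h]
    exact hx b'
  · exact zero_mem _

theorem theta_free {l : Fin (n + 1)} {x : P.ι → Tot T n ℕ}
    (hx : ∀ b, x b ∈ freeSlice T a ε ideg (P.slot c b)) (b : P.ι) :
    P.theta lam l x b ∈ freeSlice T a ε ideg (P.slot c b) := by
  rw [theta_apply]
  refine sum_mem fun b' _ => ?_
  split_ifs with h
  · have h1 := (acts_upBy (U := U) (P.h l b b') J).push_free lam (hx b')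
    rwa [P.slot_step h, show P.slot c b + (J : ℤ) + -(J : ℤ) = P.slot c b by ring] at h1
  · exact zero_mem _

/-- The homotopy identity on one chart, modulo the cut. -/
theorem theta_htpy {W : ℕ} (hW : W + (n + 1) * J ≤ L) (l : Fin (n + 1)) {x : P.ι → Tot T n ℕ}
    (hx : ∀ b, x b ∈ freeSlice T a ε ideg (P.slot c b)) (b : P.ι) :
    P.ent lam (P.theta lam l x) b + P.theta lam l (P.ent lam x) b -
        push lam (compFam (upBy n β M) (formBy (MvPolynomial.X l ^ M))) (x b) ∈
      cutS U lam a (W + P.deg b * J) ε (P.slot c b) := by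
  classical
  set e := fun (i j : P.ι) => P.deg j = P.deg i + 1 with he
  set p := fun b'' : P.ι =>
    (∑ b' ∈ Finset.univ.filter fun b' => e b b' ∧ e b'' b',
      compFam (P.fam b b') (upBy n (P.h l b' b'') J)) +
    ∑ b' ∈ Finset.univ.filter fun b' => e b' b ∧ e b' b'',
      compFam (upBy n (P.h l b b') J) (P.fam b' b'')
  have hp : ∀ b'', Acts U ((0 : ℕ) : ℤ) ((P.D * P.h l + P.h l * P.D) b b'') (p b'') := by
    intro b''
    have h1 := acts_sum (U := U) (J := ((0 : ℕ) : ℤ))
      (Finset.univ.filter fun b' => e b b' ∧ e b'' b')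
      (c := fun b' => P.D b b' * P.h l b' b'') fun b' _ => by
        simpa using (P.fam_acts b b').comp (acts_upBy (U := U) (P.h l b' b'') J)
    have h2 := acts_sum (U := U) (J := ((0 : ℕ) : ℤ))
      (Finset.univ.filter fun b' => e b' b ∧ e b' b'')
      (c := fun b' => P.h l b b' * P.D b' b'') fun b' _ => by
        simpa using (acts_upBy (U := U) (P.h l b b') J).comp (P.fam_acts b' b'')
    convert h1.add h2 using 1
    rw [Matrix.add_apply, Matrix.mul_apply, Matrix.mul_apply]
    congr 1 <;> refine (Finset.sum_subset (Finset.subset_univ _) fun i _ hi => ?_).symm <;>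
      simp only [he, Finset.mem_filter, Finset.mem_univ, true_and, not_and_or] at hi <;>
      rcases hi with hi | hi
    · rw [P.homog b i hi, zero_mul]
    · rw [P.h_deg l i b'' hi, mul_zero]
    · rw [P.h_deg l b i hi, zero_mul]
    · rw [P.homog i b'' hi, mul_zero]
  have hsum : P.ent lam (P.theta lam l x) b + P.theta lam l (P.ent lam x) b =
      ∑ b'', push lam (p b'') (x b'') := by
    simp only [p, push_add_fam, push_sum_fam, Finset.sum_add_distrib]
    congr 1
    · simp only [ent_apply, theta_apply, map_sum]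
      rw [Finset.sum_comm]
      refine Finset.sum_congr rfl fun b'' _ => ?_
      rw [Finset.sum_filter]
      refine Finset.sum_congr rfl fun b' _ => ?_
      simp only [he, entry]
      by_cases h1 : P.deg b' = P.deg b + 1
      · by_cases h2 : P.deg b' = P.deg b'' + 1
        · rw [if_pos h1, if_pos h2, if_pos ⟨h1, h2⟩, push_comp]
        · rw [if_pos h1, if_neg h2, if_neg fun h => h2 h.2, LinearMap.zero_apply, map_zero]
      · rw [if_neg h1, LinearMap.zero_apply, if_neg fun h => h1 h.1]
    · simp only [ent_apply, theta_apply, map_sum]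
      rw [Finset.sum_comm]
      refine Finset.sum_congr rfl fun b'' _ => ?_
      rw [Finset.sum_filter]
      refine Finset.sum_congr rfl fun b' _ => ?_
      simp only [he, entry]
      by_cases h1 : P.deg b = P.deg b' + 1
      · by_cases h2 : P.deg b'' = P.deg b' + 1
        · rw [if_pos h1, if_pos h2, if_pos ⟨h1, h2⟩, push_comp]
        · rw [if_pos h1, if_neg h2, if_neg fun h => h2 h.2, LinearMap.zero_apply, map_zero]
      · rw [if_neg h1, LinearMap.zero_apply, if_neg fun h => h1 h.1]
  set d := fun b'' : P.ι => if b = b'' then β * U l ^ M else 0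
  set q := compFam (upBy n β M) (formBy (MvPolynomial.X l ^ M))
  have hq : Acts U ((0 : ℕ) : ℤ) (β * U l ^ M) q := by
    have h := (acts_upBy (U := U) β M).comp
      (acts_formBy (U := U) (MvPolynomial.isHomogeneous_X_pow l M))
    simpa using h
  have hrhs : push lam q (x b) = ∑ b'', if b = b'' then push lam q (x b'') else 0 := by
    rw [Finset.sum_ite_eq, if_pos (Finset.mem_univ b)]
  rw [hsum, hrhs, ← Finset.sum_sub_distrib]
  refine sum_mem fun b'' _ => ?_
  rcases ne_or_eq (P.deg b'') (P.deg b) with hd | hd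
  · have h0 : p b'' = 0 := by
      simp only [p, he]
      rw [Finset.filter_eq_empty_iff.2 fun i _ => by omega,
        Finset.filter_eq_empty_iff.2 fun i _ => by omega]
      simp
    rw [h0, push_zero_fam, if_neg fun h => hd (by rw [h]), sub_zero]
    exact zero_mem _
  · have hdb : P.slot c b'' = P.slot c b := by simp [slot, hd]
    have hxs : x b'' ∈ freeSlice T a ε ideg (P.slot c b) := hdb ▸ hx b''
    have hz : (P.D * P.h l + P.h l * P.D) b b'' - d b'' ∈ aI U ^ L := P.htpy l b b''
    set v := (P.D * P.h l + P.h l * P.D) b b'' - d b''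
    have hr : Acts U ((0 : ℕ) : ℤ) v (upBy n v 0) := by simpa using acts_upBy (U := U) v 0
    have hWb : W + P.deg b * J + 0 ≤ L :=
      le_trans (by have := Nat.mul_le_mul_right J (P.deg_le b); omega) hW
    have hsmall := push_small lam hz hWb hr hxs
    have hqd : Acts U ((0 : ℕ) : ℤ) (d b'') (if b = b'' then q else 0) := by
      simp only [d]
      split_ifs
      · exact hq
      · exact acts_zero _
    have hboth : Acts U ((0 : ℕ) : ℤ) ((P.D * P.h l + P.h l * P.D) b b'')
        ((if b = b'' then q else 0) + upBy n v 0) := by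
      simpa [v] using hqd.add hr
    have hc := (hp b'').push_congr lam hboth hxs
    have hre : push lam (p b'') (x b'') - (if b = b'' then push lam q (x b'') else 0) =
        (push lam (p b'') (x b'') - push lam ((if b = b'' then q else 0) + upBy n v 0) (x b'')) +
          push lam (upBy n v 0) (x b'') := by
      rw [push_add_fam lam (if b = b'' then q else 0) (upBy n v 0), sub_add, add_sub_cancel_right]
      by_cases hbb : b = b''
      · rw [if_pos hbb, if_pos hbb]
      · rw [if_neg hbb, if_neg hbb, push_zero_fam]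
    rw [hre]
    simp only [Nat.cast_zero, add_zero] at hc hsmall
    exact add_mem (Submodule.mem_sup_left hc) hsmall

/-- One chart: `β * u ^ M` times a cycle is a boundary. -/
theorem layer (hlam : Sep lam) {W : ℕ} (hW : W + (n + 1) * J ≤ L) {x : P.ι → Tot T n ℕ}
    (hx : ∀ b, x b ∈ freeSlice T a ε ideg (P.slot c b))
    (hc : ∀ b, P.ent lam x b ∈ cutS U lam a (W + P.deg b * J) ε (P.slot c b)) :
    ∃ y : P.ι → Tot T n ℕ, (∀ b, y b ∈ freeSlice T a ε ideg (P.slot (c - M) b)) ∧
      (∀ b, (∀ b', P.deg b = P.deg b' + 1 → x b' = 0) → y b = 0) ∧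
      ∀ b, β • push lam (upBy n 1 M) (x b) - P.ent lam y b ∈
        cutS U lam a (W + P.deg b * J) ε (P.slot (c - M) b) := by
  classical
  obtain ⟨g, hg, hsum⟩ := exists_unit lam hlam ε M
  have hg' : ∀ l, LauMem (fun _ => 0) ε (-(M : ℤ)) (g l) := hg
  have hslot : ∀ b, P.slot (c - M) b = P.slot c b + -(M : ℤ) := fun b => by simp [slot]; ring
  refine ⟨fun b => ∑ l, lmul (g l) (P.theta lam l x b), fun b => ?_, fun b hb => ?_, fun b => ?_⟩
  · refine sum_mem fun l _ => ?_
    rw [hslot, ← cutS_zero (U := U) lam]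
    exact lmul_cutS lam (hg' l) (by rw [cutS_zero]; exact P.theta_free hx b)
  · refine Finset.sum_eq_zero fun l _ => ?_
    rw [theta_apply, Finset.sum_eq_zero fun b' _ => ?_, map_zero]
    split_ifs with h
    · rw [hb b' h, map_zero]
    · rfl
  · have he : P.ent lam (fun b => ∑ l, lmul (g l) (P.theta lam l x b)) b =
        ∑ l, lmul (g l) (P.ent lam (P.theta lam l x) b) := by
      simp only [ent_apply, map_sum]
      rw [Finset.sum_comm]
      refine Finset.sum_congr rfl fun l _ => Finset.sum_congr rfl fun b' _ => ?_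
      simp only [entry]
      split_ifs
      · exact push_lmul lam _ _ _
      · simp
    have hmain : ∑ l, lmul (g l) (push lam (compFam (upBy n β M) (formBy (MvPolynomial.X l ^ M)))
        (x b)) = β • push lam (upBy n 1 M) (x b) := by
      simp only [← push_comp, push_upBy_scalar lam β, push_formBy_X_pow, map_smul, push_lmul,
        ← Finset.smul_sum]
      congr 1
      generalize push lam (upBy n (1 : T) M) (x b) = z
      induction z using tot_induction with
      | h0 => simp
      | hadd p q hp hq => simp only [map_add, Finset.sum_add_distrib, hp, hq]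
      | hs i e r =>
        simp only [map_smul, lmul_inComp, ← Finset.smul_sum, ← map_sum, ← mul_assoc,
          ← Finset.sum_mul]
        rw [show ∑ l, g l * yImg lam l ^ M = ∑ l, yImg lam l ^ M * g l from
          Finset.sum_congr rfl fun l _ => mul_comm _ _, hsum, one_mul]
    rw [he, ← hmain, ← Finset.sum_sub_distrib, hslot]
    refine sum_mem fun l _ => ?_
    rw [← map_sub]
    refine lmul_cutS lam (hg' l) ?_
    have h1 := P.theta_htpy (lam := lam) hW l hx b
    have h2 := P.theta_cut (l := l) hc b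
    have h3 := sub_mem h2 h1
    convert h3 using 1
    abel

variable (lam)

/-- `u ^ v` on the total cochains. -/
noncomputable def up (v : ℕ) : (P.ι → Chart n → Tot T n ℕ) →ₗ[T] (P.ι → Chart n → Tot T n ℕ) :=
  (upC lam v).compLeft P.ι

theorem up_apply (v : ℕ) (x : P.ι → Chart n → Tot T n ℕ) (b : P.ι) (ε : Chart n) :
    P.up lam v x b ε = push lam (upBy n 1 v) (x b ε) := rfl

theorem up_up (v w : ℕ) (x : P.ι → Chart n → Tot T n ℕ) :
    P.up lam w (P.up lam v x) = P.up lam (v + w) x :=
  funext fun b => upC_upC lam v w (x b)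

theorem up_zero (x : P.ι → Chart n → Tot T n ℕ) : P.up lam 0 x = x :=
  funext fun b => funext fun ε => push_upBy_zero lam (x b ε)

variable {lam}

theorem slot_sub (c : ℤ) (v : ℕ) (b : P.ι) : P.slot c b = P.slot (c - v) b + (v : ℤ) := by
  simp [slot]
  ring

/-- `u ^ v` sends a level to the level `v` lower, cut `v` deeper. -/
theorem up_lev {f : P.ι → ℕ} {v : ℕ} {x : P.ι → Chart n → Tot T n ℕ}
    (hx : x ∈ P.lev lam a c f) : P.up lam v x ∈ P.lev lam a (c - v) fun b => f b + v := by
  refine P.mem_lev.2 fun b ε => ?_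
  rw [up_apply]
  refine up_cutS lam ?_
  rw [← P.slot_sub]
  exact P.mem_lev.1 hx b ε

theorem up_tail {W v : ℕ} {x : P.ι → Chart n → Tot T n ℕ} (hx : x ∈ P.tail lam a c W) :
    P.up lam v x ∈ P.tail lam a (c - v) W :=
  P.lev_anti (fun _ => Nat.le_add_right _ _) (P.up_lev hx)

theorem up_free {v : ℕ} {x : P.ι → Chart n → Tot T n ℕ} (hx : x ∈ P.free lam a c) :
    P.up lam v x ∈ P.free lam a (c - v) :=
  P.lev_anti (fun _ => Nat.zero_le _) (P.up_lev hx)

/-- `u ^ v` commutes with the differential modulo the relations. -/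
theorem up_D0 (f : P.ι → ℕ) {v : ℕ} {x : P.ι → Chart n → Tot T n ℕ} (hx : x ∈ P.free lam a c) :
    P.up lam v (P.D0 lam x) - P.D0 lam (P.up lam v x) ∈ P.lev lam a (c - v) f := by
  refine P.mem_lev.2 fun b ε => ?_
  have h1 : cechD T (P.up lam v x b) ε = push lam (upBy n 1 v) (cechD T (x b) ε) :=
    (cechD_map (push lam (upBy n 1 v)) (x b) ε).symm
  simp only [Pi.sub_apply, up_apply, D0_apply, map_add, map_sum, map_smul, h1,
    add_sub_add_right_eq_sub, ← Finset.sum_sub_distrib]
  refine sum_mem fun b' _ => ?_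
  unfold entry
  split_ifs with h
  · have hb' : x b' ε ∈ freeSlice T a ε ideg (P.slot c b') := by
      have h' := P.mem_lev.1 hx b' ε
      rwa [cutS_zero] at h'
    have e1 : Acts U ((J : ℤ) + -(v : ℤ)) (P.D b b')
        (compFam (upBy n 1 v) (P.fam b b')) := by
      simpa [add_comm] using (acts_upBy (U := U) 1 v).comp (P.fam_acts b b')
    have e2 : Acts U ((J : ℤ) + -(v : ℤ)) (P.D b b')
        (compFam (P.fam b b') (upBy n 1 v)) := by
      simpa using (P.fam_acts b b').comp (acts_upBy (U := U) 1 v)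
    rw [push_comp, push_comp]
    refine Submodule.mem_sup_left ?_
    have := e1.push_congr lam e2 hb'
    rwa [show P.slot c b' + ((J : ℤ) + -(v : ℤ)) = P.slot (c - v) b by
      rw [← add_assoc, show P.slot c b' + (J : ℤ) = P.slot c b from (P.slot_step h).symm,
        P.slot_sub c v b]
      ring] at this
  · simp

/-- The cochains of degree `k`. -/
noncomputable abbrev degP (k : ℤ) : Submodule T (P.ι → Chart n → Tot T n ℕ) :=
  Submodule.pi Set.univ fun b => cechDeg T (Tot T n ℕ) (k - P.deg b)

theorem cechD_low {q : ℕ} {z : Chart n → Tot T n ℕ} (hz : ∀ η, chartDeg η < q → z η = 0)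
    (hε : chartDeg ε ≤ q) : cechD T z ε = 0 := by
  rw [cechD_apply]
  refine Finset.sum_eq_zero fun l hl => ?_
  have hl2 := (Finset.mem_filter.1 hl).2
  have hv : ∀ v : Fin 3, v ≠ 2 → chartDeg (Function.update ε l v) < q := by
    intro v hv
    refine lt_of_lt_of_le ?_ hε
    refine Finset.card_lt_card (Finset.ssubset_iff_subset_ne.2 ⟨?_, ?_⟩)
    · intro i hi
      simp only [Finset.mem_filter, Finset.mem_univ, true_and] at hi ⊢
      by_cases hil : i = l <;> simp_all
    · intro heq
      have : l ∈ Finset.univ.filter fun i => Function.update ε l v i = 2 := by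
        rw [heq]
        simp [hl2]
      simp [hv] at this
  rw [hz _ (hv 1 (by decide)), hz _ (hv 0 (by decide)), sub_zero, smul_zero]

/-- Cycles supported in Cech degrees `≥ q`, `j` steps before the end. -/
theorem killed_aux (hlam : Sep lam) {W : ℕ} (hW : W + (n + 3) * J ≤ L) (k : ℤ) :
    ∀ (j q : ℕ), q + j = n + 1 → ∀ (c : ℤ), ∀ x ∈ P.free lam a c ⊓ P.degP k,
      (∀ b ε, chartDeg ε < q → x b ε = 0) → P.D0 lam x ∈ P.tail lam a c W →
        ∃ y ∈ P.free lam a (c - ((j * M : ℕ) : ℤ)) ⊓ P.degP (k + 1),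
          β ^ j • P.up lam (j * M) x - P.D0 lam y ∈ P.tail lam a (c - ((j * M : ℕ) : ℤ)) W := by
  classical
  intro j
  induction j with
  | zero =>
    intro q hq c x _ hlow _
    refine ⟨0, zero_mem _, ?_⟩
    have hx0 : x = 0 := funext fun b => funext fun ε => hlow b ε (by
      have h1 : chartDeg ε ≤ n := by
        simpa [chartDeg] using
          Finset.card_filter_le (Finset.univ : Finset (Fin n)) fun j => ε j = 2
      omega)
    subst hx0
    simp
  | succ j ih =>
    intro q hq c x hx hlow hcyc
    have hW1 : W + (n + 1) * J ≤ L := by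
      have : (n + 1) * J ≤ (n + 3) * J := Nat.mul_le_mul_right J (by omega)
      omega
    have hxf : ∀ b ε, x b ε ∈ freeSlice T a ε ideg (P.slot c b) := fun b ε => by
      have h' := P.mem_lev.1 hx.1 b ε
      rwa [cutS_zero] at h'
    have hxd : ∀ b ε, -(chartDeg ε : ℤ) ≠ k - P.deg b → x b ε = 0 := fun b ε h =>
      mem_cechDeg.1 (hx.2 b trivial) ε h
    have hlayer : ∀ ε : Chart n, ∃ y : P.ι → Tot T n ℕ,
        (∀ b, y b ∈ freeSlice T a ε ideg (P.slot (c - M) b)) ∧
        (∀ b, (chartDeg ε ≠ q ∨ -(chartDeg ε : ℤ) ≠ k + 1 - P.deg b) → y b = 0) ∧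
        (chartDeg ε = q → ∀ b, β • push lam (upBy n 1 M) (x b ε) -
          P.ent lam y b ∈ cutS U lam a (W + P.deg b * J) ε (P.slot (c - M) b)) := by
      intro ε
      by_cases hε : chartDeg ε = q
      · have hc : ∀ b, P.ent lam (fun b' => x b' ε) b ∈
            cutS U lam a (W + P.deg b * J) ε (P.slot c b) := by
          intro b
          have h := P.mem_lev.1 hcyc b ε
          rw [D0_apply, cechD_low (hlow b) hε.le, smul_zero, add_zero] at h
          rwa [ent_apply]
        obtain ⟨y, hy, hy0, hyx⟩ := P.layer hlam hW1 (fun b => hxf b ε) hc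
        refine ⟨y, hy, fun b hb => ?_, fun _ => hyx⟩
        rcases hb with hb | hb
        · exact absurd hε hb
        · refine hy0 b fun b' hb' => hxd b' ε ?_
          rw [hb'] at hb
          push_cast at hb
          omega
      · exact ⟨0, fun b => zero_mem _, fun b _ => rfl, fun h => absurd h hε⟩
    choose y hy hy0 hyx using hlayer
    set Y : P.ι → Chart n → Tot T n ℕ := fun b ε => y ε b
    have hYl : Y ∈ P.free lam a (c - M) := P.mem_lev.2 fun b ε => by
      rw [cutS_zero]
      exact hy ε b
    have hYd : Y ∈ P.degP (k + 1) := fun b _ => mem_cechDeg.2 fun ε hne => hy0 ε b (Or.inr hne)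
    set x1 := β • P.up lam M x - P.D0 lam Y
    set x2 : P.ι → Chart n → Tot T n ℕ := fun b ε => if chartDeg ε ≤ q then 0 else x1 b ε
    have hx1l : x1 ∈ P.free lam a (c - M) :=
      sub_mem (Submodule.smul_mem _ _ (P.up_free hx.1))
        (P.lev_stable (fun _ _ _ => le_rfl) ⟨Y, hYl, rfl⟩)
    have hYd' := P.D0_deg (lam := lam) (k + 1) (Submodule.mem_map_of_mem (f := P.D0 lam) hYd)
    rw [add_sub_cancel_right] at hYd'
    have hx1d : x1 ∈ P.degP k := by
      refine sub_mem (Submodule.smul_mem _ _ fun b _ => mem_cechDeg.2 fun ε hne => ?_) hYd'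
      rw [up_apply, hxd b ε hne, map_zero]
    have hdiff : x1 - x2 ∈ P.tail lam a (c - M) W := by
      refine P.mem_lev.2 fun b ε => ?_
      simp only [Pi.sub_apply, x2]
      split_ifs with h
      · rw [sub_zero]
        have hz : cechD T (Y b) ε = 0 := cechD_low (q := q) (fun η hη => hy0 η b (Or.inl hη.ne)) h
        simp only [x1, Pi.sub_apply, Pi.smul_apply, up_apply, D0_apply, hz, smul_zero, add_zero]
        rcases lt_or_eq_of_le h with hlt | heq
        · rw [hlow b ε hlt, map_zero, smul_zero, zero_sub]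
          refine neg_mem (sum_mem fun b' _ => ?_)
          rw [show Y b' ε = 0 from hy0 ε b' (Or.inl hlt.ne), map_zero]
          exact zero_mem _
        · have h1 := hyx ε heq b
          rwa [ent_apply] at h1
      · rw [sub_self]
        exact zero_mem _
    have hx2 : x2 ∈ P.free lam a (c - M) ⊓ P.degP k := by
      refine ⟨P.mem_lev.2 fun b ε => ?_, fun b _ => mem_cechDeg.2 fun ε hne => ?_⟩
      · simp only [x2]
        split_ifs
        · exact zero_mem _
        · exact P.mem_lev.1 hx1l b ε
      · simp only [x2]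
        split_ifs
        · rfl
        · exact mem_cechDeg.1 (hx1d b trivial) ε hne
    have hcyc2 : P.D0 lam x2 ∈ P.tail lam a (c - M) W := by
      have h1 : P.D0 lam x1 ∈ P.tail lam a (c - M) W := by
        rw [map_sub, map_smul]
        refine sub_mem (Submodule.smul_mem _ _ ?_) (P.sq_cut hW hYl)
        have h2 := sub_mem (P.up_tail (v := M) hcyc)
          (P.up_D0 (fun b => W + P.deg b * J) (v := M) hx.1)
        rwa [sub_sub_cancel] at h2
      have h2 : P.D0 lam (x1 - x2) ∈ P.tail lam a (c - M) W :=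
        P.lev_stable (fun b b' hb => by rw [hb]; gcongr; omega) ⟨_, hdiff, rfl⟩
      have h3 := sub_mem h1 h2
      rwa [← map_sub, sub_sub_cancel] at h3
    obtain ⟨y', hy', hxy'⟩ := ih (q + 1) (by omega) (c - M) x2 hx2
      (fun b ε h => by simp only [x2]; rw [if_pos (by omega)]) hcyc2
    have hc' : c - (M : ℤ) - ((j * M : ℕ) : ℤ) = c - (((j + 1) * M : ℕ) : ℤ) := by
      push_cast
      ring
    have hup : P.up lam (j * M) (β • P.up lam M x) = β • P.up lam ((j + 1) * M) x := by
      rw [map_smul, up_up, show M + j * M = (j + 1) * M by ring]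
    refine ⟨β ^ j • P.up lam (j * M) Y + y', ⟨add_mem (Submodule.smul_mem _ _ ?_) ?_,
      add_mem (Submodule.smul_mem _ _ fun b _ => mem_cechDeg.2 fun ε hne => ?_) hy'.2⟩, ?_⟩
    · rw [← hc']
      exact P.up_free hYl
    · rw [← hc']
      exact hy'.1
    · rw [up_apply, show Y b ε = 0 from hy0 ε b (Or.inr hne), map_zero]
    · rw [← hc']
      have h1 := Submodule.smul_mem (P.tail lam a (c - M - ((j * M : ℕ) : ℤ)) W) (β ^ j)
        (add_mem (P.up_tail (v := j * M) hdiff) (P.up_D0 (fun b => W + P.deg b * J) (v := j * M) hYl))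
      have h2 := add_mem h1 hxy'
      refine (congrArg (· ∈ P.tail lam a (c - M - ((j * M : ℕ) : ℤ)) W) ?_).mp h2
      have hx1 : P.up lam (j * M) x1 =
          β • P.up lam ((j + 1) * M) x - P.up lam (j * M) (P.D0 lam Y) := by
        rw [map_sub, hup]
      rw [map_sub (P.up lam (j * M)) x1, hx1, map_add, map_smul (P.D0 lam), pow_succ, mul_smul,
        smul_add, smul_sub, smul_sub, smul_sub]
      generalize β ^ j • β • P.up lam ((j + 1) * M) x = A
      generalize β ^ j • P.up lam (j * M) (P.D0 lam Y) = B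
      generalize β ^ j • P.up lam (j * M) x2 = C
      generalize β ^ j • P.D0 lam (P.up lam (j * M) Y) = E
      generalize P.D0 lam y' = F
      abel

/-- Raising the level by `n * M + M` kills the homology up to `β ^ (n + 1)`. -/
theorem killed (hlam : Sep lam) {W : ℕ} (hW : W + (n + 3) * J ≤ L) {k : ℤ}
    {x : P.ι → Chart n → Tot T n ℕ} (hx : x ∈ P.free lam a c ⊓ P.degP k)
    (hcyc : P.D0 lam x ∈ P.tail lam a c W) :
    ∃ y ∈ P.free lam a (c - (((n + 1) * M : ℕ) : ℤ)) ⊓ P.degP (k + 1),
      β ^ (n + 1) • P.up lam ((n + 1) * M) x - P.D0 lam y ∈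
        P.tail lam a (c - (((n + 1) * M : ℕ) : ℤ)) W :=
  P.killed_aux hlam hW k (n + 1) 0 (by omega) c x hx
    (fun _ _ h => absurd h (Nat.not_lt_zero _)) hcyc

end Lift

end Vale.Agent.P202.Mixed2.Win
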