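import Mathlib

/-!
P202, mixed characteristic, windows: an additive measure on modules, negligible modules, almost
isomorphisms, and the size `kb β M` of what `β` can kill in a module of finite measure.
-/

open scoped ENNReal

namespace Vale.Agent.P202.Mixed2

universe u

/-- An additive measure on the modules over `T`, determined by finitely generated submodules. -/
structure Meas (T : Type u) [CommRing T] where
  /-- The measure of a module. -/
  val : ∀ (M : Type u) [AddCommGroup M] [Module T M], ℝ≥0∞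
  zero : ∀ (M : Type u) [AddCommGroup M] [Module T M], Subsingleton M → val M = 0
  add : ∀ {M' M M'' : Type u} [AddCommGroup M'] [Module T M'] [AddCommGroup M] [Module T M]
    [AddCommGroup M''] [Module T M''] (i : M' →ₗ[T] M) (π : M →ₗ[T] M''),
    Function.Injective i → Function.Surjective π → Function.Exact i π →
      val M = val M' + val M''
  le_of_fg : ∀ {M : Type u} [AddCommGroup M] [Module T M] (c : ℝ≥0∞),
    (∀ S : Submodule T M, S.FG → val S ≤ c) → val M ≤ c

namespace Meas

variable {T : Type u} [CommRing T] (μ : Meas T)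
  {M N P : Type u} [AddCommGroup M] [Module T M] [AddCommGroup N] [Module T N]
  [AddCommGroup P] [Module T P]

theorem quot_add (S : Submodule T M) : μ.val M = μ.val S + μ.val (M ⧸ S) :=
  μ.add S.subtype S.mkQ S.injective_subtype S.mkQ_surjective
    (LinearMap.exact_subtype_mkQ S)

theorem congr (e : M ≃ₗ[T] N) : μ.val M = μ.val N := by
  have h := μ.add (0 : PUnit.{u + 1} →ₗ[T] M) e.toLinearMap
    (fun x y _ => Subsingleton.elim x y) e.surjective
    (fun y => ⟨fun hy => ⟨PUnit.unit, by simpa using (LinearEquiv.map_eq_zero_iff e).1 hy |>.symm⟩,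
      by rintro ⟨x, rfl⟩; simp⟩)
  rw [h, μ.zero _ inferInstance, zero_add]

theorem sub_le (S : Submodule T M) : μ.val S ≤ μ.val M :=
  (le_add_right le_rfl).trans (μ.quot_add S).symm.le

theorem quot_le (S : Submodule T M) : μ.val (M ⧸ S) ≤ μ.val M :=
  (le_add_left le_rfl).trans (μ.quot_add S).symm.le

theorem le_of_injective (f : M →ₗ[T] N) (hf : Function.Injective f) : μ.val M ≤ μ.val N := by
  rw [μ.congr (LinearEquiv.ofInjective f hf)]
  exact μ.sub_le _

theorem le_of_surjective (f : M →ₗ[T] N) (hf : Function.Surjective f) : μ.val N ≤ μ.val M := by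
  rw [← μ.congr (f.quotKerEquivOfSurjective hf)]
  exact μ.quot_le _

theorem eq_ker_add_range (f : M →ₗ[T] N) :
    μ.val M = μ.val (LinearMap.ker f) + μ.val (LinearMap.range f) := by
  rw [μ.quot_add (LinearMap.ker f), μ.congr f.quotKerEquivRange]

theorem range_le (f : M →ₗ[T] N) : μ.val (LinearMap.range f) ≤ μ.val M :=
  (le_add_left le_rfl).trans (μ.eq_ker_add_range f).symm.le

theorem mono {S S' : Submodule T M} (h : S ≤ S') : μ.val S ≤ μ.val S' :=
  μ.le_of_injective _ (Submodule.inclusion_injective h)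

/-- The middle term of an exact sequence. -/
theorem le_of_exact {f : M →ₗ[T] N} {g : N →ₗ[T] P} (h : LinearMap.ker g ≤ LinearMap.range f) :
    μ.val N ≤ μ.val M + μ.val P := by
  rw [μ.eq_ker_add_range g]
  exact add_le_add ((μ.mono h).trans (μ.range_le f)) (μ.sub_le _)

theorem prod : μ.val (M × N) = μ.val M + μ.val N :=
  μ.add (LinearMap.inl T M N) (LinearMap.snd T M N) LinearMap.inl_injective
    LinearMap.snd_surjective Function.Exact.inl_snd

theorem pi_fin (r : ℕ) : μ.val (Fin r → M) = r * μ.val M := by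
  induction r with
  | zero => rw [μ.zero _ inferInstance, Nat.cast_zero, zero_mul]
  | succ r ih =>
    rw [← μ.congr (Fin.consLinearEquiv T fun _ : Fin (r + 1) => M), μ.prod, ih, Nat.cast_succ,
      add_mul, one_mul, add_comm]

theorem pi_fintype (ι : Type) [Fintype ι] : μ.val (ι → M) = Fintype.card ι * μ.val M := by
  rw [← μ.pi_fin, μ.congr (LinearEquiv.funCongrLeft T M (Fintype.equivFin ι).symm)]

/-- What `β` can kill. -/
noncomputable def kb (β : T) (M : Type u) [AddCommGroup M] [Module T M] : ℝ≥0∞ :=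
  μ.val (M ⧸ LinearMap.range (LinearMap.lsmul T M β))

variable (β : T)

theorem kb_le_val : μ.kb β M ≤ μ.val M := μ.quot_le _

theorem kb_eq_ker (h : μ.val M ≠ ∞) :
    μ.kb β M = μ.val (LinearMap.ker (LinearMap.lsmul T M β)) := by
  set R := LinearMap.range (LinearMap.lsmul T M β)
  have h1 := μ.quot_add R
  have h2 := μ.eq_ker_add_range (LinearMap.lsmul T M β)
  rw [h2, add_comm (μ.val R)] at h1
  exact ((ENNReal.add_left_inj (ne_top_of_le_ne_top h (μ.sub_le R))).1 h1).symm

theorem kb_congr (e : M ≃ₗ[T] N) : μ.kb β M = μ.kb β N :=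
  μ.congr (Submodule.Quotient.equiv _ _ e (by
    ext y
    simp only [Submodule.mem_map, LinearMap.mem_range, LinearMap.lsmul_apply]
    constructor
    · rintro ⟨_, ⟨x, rfl⟩, rfl⟩
      exact ⟨e x, (map_smul e β x).symm⟩
    · rintro ⟨x, rfl⟩
      exact ⟨_, ⟨e.symm x, rfl⟩, by simp⟩))

theorem kb_quot_le (f : M →ₗ[T] N) (hf : Function.Surjective f) : μ.kb β N ≤ μ.kb β M := by
  refine μ.le_of_surjective (Submodule.mapQ _ _ f ?_) ?_
  · rintro _ ⟨x, rfl⟩
    exact ⟨f x, (map_smul f β x).symm⟩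
  · intro y
    obtain ⟨y, rfl⟩ := Submodule.mkQ_surjective _ y
    obtain ⟨x, rfl⟩ := hf y
    exact ⟨Submodule.mkQ _ x, rfl⟩

theorem kb_inj_le (h : μ.val N ≠ ∞) (f : M →ₗ[T] N) (hf : Function.Injective f) :
    μ.kb β M ≤ μ.kb β N := by
  rw [μ.kb_eq_ker β h, μ.kb_eq_ker β (ne_top_of_le_ne_top h (μ.le_of_injective f hf))]
  refine μ.le_of_injective
    ((f ∘ₗ (LinearMap.ker (LinearMap.lsmul T M β)).subtype).codRestrict _ fun x => ?_)
    fun x y hxy => Subtype.ext (hf (congrArg Subtype.val hxy))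
  rw [LinearMap.mem_ker]
  show β • f x.1 = 0
  rw [← map_smul]
  exact (congrArg f (LinearMap.mem_ker.1 x.2)).trans (map_zero f)

theorem kb_le_of_exact (hN : μ.val N ≠ ∞) (hP : μ.val P ≠ ∞) {f : M →ₗ[T] N} {g : N →ₗ[T] P}
    (h : LinearMap.ker g ≤ LinearMap.range f) : μ.kb β N ≤ μ.kb β M + μ.kb β P := by
  have h1 : μ.kb β N ≤ μ.kb β (LinearMap.ker g) + μ.kb β (LinearMap.range g) := by
    set i := (LinearMap.ker g).subtype
    set p := g.rangeRestrict
    refine μ.le_of_exact (f := Submodule.mapQ _ _ i ?_) (g := Submodule.mapQ _ _ p ?_) ?_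
    · rintro _ ⟨x, rfl⟩; exact ⟨i x, (map_smul i β x).symm⟩
    · rintro _ ⟨x, rfl⟩; exact ⟨p x, (map_smul p β x).symm⟩
    intro y hy
    obtain ⟨y, rfl⟩ := Submodule.mkQ_surjective _ y
    obtain ⟨z, hz⟩ := (Submodule.Quotient.mk_eq_zero _).1 (LinearMap.mem_ker.1 hy)
    obtain ⟨_, x, rfl⟩ := z
    refine ⟨Submodule.mkQ _ ⟨y - β • x, ?_⟩, ?_⟩
    · have := congrArg Subtype.val hz
      simp only [LinearMap.lsmul_apply, p] at this
      rw [LinearMap.mem_ker, map_sub, map_smul, sub_eq_zero]
      exact this.symm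
    · exact (Submodule.Quotient.eq _).2 ⟨-x, by simp [i]⟩
  refine h1.trans (add_le_add ?_ (μ.kb_inj_le β hP _ (Submodule.injective_subtype _)))
  exact (μ.kb_inj_le β (ne_top_of_le_ne_top hN (μ.sub_le _)) _
    (Submodule.inclusion_injective h)).trans (μ.kb_quot_le β f.rangeRestrict
      f.surjective_rangeRestrict)

/-- A subquotient killed by `β` is no bigger than what `β` can kill. -/
theorem killed_le (h : μ.val M ≠ ∞) (f : M →ₗ[T] N) (K : Submodule T (LinearMap.range f))
    (hK : ∀ y ∈ K, β • y = 0) : μ.val K ≤ μ.kb β M := by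
  have h1 : μ.kb β K ≤ μ.kb β M :=
    (μ.kb_inj_le β (ne_top_of_le_ne_top h (μ.range_le f)) _ K.injective_subtype).trans
      (μ.kb_quot_le β _ f.surjective_rangeRestrict)
  refine le_trans (le_of_eq ?_) h1
  rw [μ.kb_eq_ker β (ne_top_of_le_ne_top h ((μ.sub_le K).trans (μ.range_le f))),
    show LinearMap.ker (LinearMap.lsmul T K β) = ⊤ from
      eq_top_iff.2 fun y _ => Subtype.ext (hK y y.2), μ.congr Submodule.topEquiv]

/-- A module killed by elements which generate ever smaller ideals with its annihilator is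
negligible. -/
theorem val_eq_zero_of_killed (b : ℕ → T) (I : Ideal T)
    (hb : Filter.Tendsto (fun j => μ.val (T ⧸ (Ideal.span {b j} ⊔ I))) Filter.atTop (nhds 0))
    (hI : ∀ a ∈ I, ∀ x : M, a • x = 0) (hx : ∀ j, ∀ x : M, b j • x = 0) : μ.val M = 0 := by
  refine le_antisymm (μ.le_of_fg 0 fun S hS => ?_) zero_le
  obtain ⟨r, v, rfl⟩ := Submodule.fg_iff_exists_fin_generating_family.1 hS
  have h1 : ∀ j, μ.val (Submodule.span T (Set.range v)) ≤
      r * μ.val (T ⧸ (Ideal.span {b j} ⊔ I)) := by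
    intro j
    have hk : Ideal.span {b j} ⊔ I ≤ Module.annihilator T M := by
      refine sup_le (Ideal.span_le.2 ?_) fun a ha => Module.mem_annihilator.2 (hI a ha)
      rintro _ rfl
      exact Module.mem_annihilator.2 (hx j)
    rw [← μ.pi_fin]
    let g : Fin r → (T ⧸ (Ideal.span {b j} ⊔ I)) →ₗ[T] M := fun i =>
      Submodule.liftQ _ (LinearMap.toSpanSingleton T M (v i)) fun a ha => by
        simpa using Module.mem_annihilator.1 (hk ha) (v i)
    let F : (Fin r → T ⧸ (Ideal.span {b j} ⊔ I)) →ₗ[T] M :=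
      ∑ i, g i ∘ₗ LinearMap.proj i
    refine (μ.mono ?_).trans (μ.range_le F)
    rw [Submodule.span_le]
    rintro _ ⟨i, rfl⟩
    refine ⟨Pi.single i 1, ?_⟩
    rw [LinearMap.sum_apply, Finset.sum_eq_single i (fun l _ hl => by simp [hl])
      (fun h => absurd (Finset.mem_univ i) h), LinearMap.comp_apply, LinearMap.proj_apply,
      Pi.single_eq_same]
    exact one_smul T (v i)
  have h2 := ENNReal.Tendsto.const_mul (a := (r : ℝ≥0∞)) hb (Or.inr (ENNReal.natCast_ne_top r))
  rw [mul_zero] at h2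
  exact ge_of_tendsto h2 (Filter.Eventually.of_forall h1)

/-- The measure does not see negligible kernels and cokernels. -/
theorem eq_of_almost_iso (f : M →ₗ[T] N) (hk : μ.val (LinearMap.ker f) = 0)
    (hc : μ.val (N ⧸ LinearMap.range f) = 0) : μ.val M = μ.val N := by
  rw [μ.eq_ker_add_range f, hk, zero_add, μ.quot_add (LinearMap.range f), hc, add_zero]

end Meas

end Vale.Agent.P202.Mixed2
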