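import Vale.Agent.P202.Mixed2.WinHm

/-!
P202, mixed characteristic, windows: a complex made of columns, filtered column by column.
-/

open scoped ENNReal

namespace Vale.Agent.P202.Mixed2

universe u

namespace Gd

variable {T : Type u} [CommRing T] {ι : Type} [Fintype ι] [DecidableEq ι] {F : Type u}
  [AddCommGroup F] [Module T F] {deg : ι → ℕ} {A : Gd T (ι → F)} {C : Gd T F}

/-- `A` is made of copies of `C`, shifted by `deg`, between `X` and `Y`. -/
structure Cols (A : Gd T (ι → F)) (C : Gd T F) (deg : ι → ℕ) (X Y : ι → Submodule T F) : Prop where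
  deg_eq : ∀ k, A.deg k = Submodule.pi Set.univ fun b => C.deg (k - deg b)
  le : ∀ b, X b ≤ Y b
  bot_le : A.bot ≤ Submodule.pi Set.univ X
  le_top : Submodule.pi Set.univ Y ≤ A.top
  diag : ∀ b, ∀ x ∈ Y b, A.D (Pi.single b x) b - ((-1 : T) ^ deg b) • C.D x ∈ X b
  off : ∀ b b', b' ≠ b → deg b ≠ deg b' + 1 → ∀ x ∈ Y b, A.D (Pi.single b x) b' = 0
  next_X : ∀ b b', deg b = deg b' + 1 → ∀ x ∈ X b, A.D (Pi.single b x) b' ∈ X b'
  next_Y : ∀ b b', deg b = deg b' + 1 → ∀ x ∈ Y b, A.D (Pi.single b x) b' ∈ Y b'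
  stable_X : ∀ b, (X b).map C.D ≤ X b
  stable_Y : ∀ b, (Y b).map C.D ≤ Y b

variable {X Y : ι → Submodule T F} (hA : Cols A C deg X Y)

/-- `X` on the columns of `S`, `Y` on the others. -/
def mixS (X Y : ι → Submodule T F) (S : Finset ι) : Submodule T (ι → F) :=
  Submodule.pi Set.univ fun b => if b ∈ S then X b else Y b

omit [Fintype ι] in
theorem mixS_empty : mixS X Y ∅ = Submodule.pi Set.univ Y := by simp [mixS]

theorem mixS_univ : mixS X Y Finset.univ = Submodule.pi Set.univ X := by simp [mixS]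

omit [Fintype ι] in
theorem mixS_anti (hle : ∀ b, X b ≤ Y b) {S S' : Finset ι} (h : S ⊆ S') :
    mixS X Y S' ≤ mixS X Y S := by
  intro x hx b _
  have h1 := hx b trivial
  simp only [SetLike.mem_coe] at h1 ⊢
  by_cases hb : b ∈ S
  · rw [if_pos hb]; rwa [if_pos (h hb)] at h1
  · rw [if_neg hb]
    by_cases hb' : b ∈ S'
    · rw [if_pos hb'] at h1; exact hle b h1
    · rwa [if_neg hb'] at h1

/-- Closed under going up by one degree. -/
def UpClosed (deg : ι → ℕ) (S : Finset ι) : Prop :=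
  ∀ b b', b' ∈ S → deg b = deg b' + 1 → b ∈ S

include hA in
theorem mixS_stable {S : Finset ι} (hS : UpClosed deg S) :
    (mixS X Y S).map A.D ≤ mixS X Y S := by
  classical
  rintro _ ⟨x, hx, rfl⟩
  rw [← Finset.univ_sum_single x, map_sum]
  refine sum_mem fun b _ => ?_
  intro b' _
  have hxb := hx b trivial
  simp only [SetLike.mem_coe] at hxb ⊢
  have hY : x b ∈ Y b := by
    by_cases hb : b ∈ S
    · rw [if_pos hb] at hxb; exact hA.le b hxb
    · rwa [if_neg hb] at hxb
  by_cases hbb : b' = b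
  · subst hbb
    have h1 := hA.diag b' _ hY
    rw [← sub_add_cancel (A.D (Pi.single b' (x b')) b') (((-1 : T) ^ deg b') • C.D (x b'))]
    by_cases hb : b' ∈ S
    · rw [if_pos hb] at hxb ⊢
      exact add_mem h1 (Submodule.smul_mem _ _ (hA.stable_X b' ⟨_, hxb, rfl⟩))
    · rw [if_neg hb] at hxb ⊢
      exact add_mem (hA.le b' h1) (Submodule.smul_mem _ _ (hA.stable_Y b' ⟨_, hxb, rfl⟩))
  · by_cases hd : deg b = deg b' + 1
    · by_cases hb' : b' ∈ S
      · rw [if_pos hb']
        rw [if_pos (hS b b' hb' hd)] at hxb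
        exact hA.next_X b b' hd _ hxb
      · rw [if_neg hb']
        exact hA.next_Y b b' hd _ hY
    · rw [hA.off b b' hbb hd _ hY]
      exact zero_mem _

include hA in
theorem mixS_bot {S : Finset ι} : A.bot ≤ mixS X Y S :=
  hA.bot_le.trans ((mixS_univ (X := X) (Y := Y)).ge.trans (mixS_anti hA.le (Finset.subset_univ S)))

include hA in
theorem mixS_top {S : Finset ι} : mixS X Y S ≤ A.top :=
  ((mixS_anti hA.le (Finset.empty_subset S)).trans mixS_empty.le).trans hA.le_top

include hA in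
/-- One column. -/
theorem piece_equiv {S : Finset ι} {b : ι} (hb : b ∉ S) (hS : UpClosed deg S)
    (hS' : UpClosed deg (insert b S)) (k : ℤ) :
    Nonempty (C.H (X b) (Y b) k ≃ₗ[T]
      A.H (mixS X Y (insert b S)) (mixS X Y S) (k + deg b)) := by
  classical
  let u : Tˣ := Units.mk ((-1) ^ deg b) ((-1) ^ deg b) (by rw [← mul_pow]; simp)
    (by rw [← mul_pow]; simp)
  refine ⟨LinearEquiv.ofBijective _ (C.hMap_bijective A (X := X b) (Y := Y b)
    (X' := mixS X Y (insert b S)) (Y' := mixS X Y S)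
    (LinearMap.single T (fun _ : ι => F) b) u (deg b) ?_ (hA.stable_Y b) (mixS_stable hA hS')
    ?_ ?_ ?_ ?_ ?_ k).choose_spec.choose_spec⟩
  · rintro j x ⟨hx, -⟩ b' -
    simp only [SetLike.mem_coe, Pi.sub_apply, Pi.smul_apply, LinearMap.coe_single,
      show (u : T) = (-1) ^ deg b from rfl]
    by_cases hbb : b' = b
    · subst hbb
      rw [if_pos (Finset.mem_insert_self _ _), Pi.single_eq_same]
      have h1 := Submodule.smul_mem (X b') (-((-1 : T) ^ deg b')) (hA.diag b' x hx)
      rw [neg_smul, smul_sub, smul_smul, ← mul_pow, neg_one_mul, neg_neg, one_pow, one_smul,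
        neg_sub] at h1
      exact h1
    · rw [Pi.single_eq_of_ne hbb, zero_sub]
      refine neg_mem (Submodule.smul_mem _ _ ?_)
      by_cases hd : deg b = deg b' + 1
      · have hb' : b' ∉ insert b S := by
          intro h
          rcases Finset.mem_insert.1 h with h | h
          · exact hbb h
          · exact hb (hS b b' h hd)
        rw [if_neg hb']
        exact hA.next_Y b b' hd x hx
      · rw [hA.off b b' hbb hd x hx]
        exact zero_mem _
  · rintro j _ ⟨x, hx, rfl⟩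
    rw [hA.deg_eq]
    intro b' _
    by_cases hbb : b' = b
    · subst hbb
      simpa using hx
    · simp [Pi.single_eq_of_ne hbb]
  · rintro _ ⟨x, hx, rfl⟩ b' -
    by_cases hbb : b' = b
    · subst hbb
      simpa using hx
    · simp [Pi.single_eq_of_ne hbb]
  · rintro _ ⟨x, hx, rfl⟩ b' -
    by_cases hbb : b' = b
    · subst hbb
      simpa [hb] using hx
    · simp [Pi.single_eq_of_ne hbb]
  · intro j y hy
    obtain ⟨hy, hyd⟩ := hy
    rw [hA.deg_eq] at hyd
    refine Submodule.mem_sup.2 ⟨Pi.single b (y b), ⟨y b, ⟨?_, ?_⟩, rfl⟩, y - Pi.single b (y b),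
      ⟨fun b' _ => ?_, ?_⟩, add_sub_cancel _ _⟩
    · simpa [hb] using hy b trivial
    · simpa using hyd b trivial
    · by_cases hbb : b' = b
      · subst hbb; simp
      · simpa [hbb, Pi.single_eq_of_ne hbb] using hy b' trivial
    · rw [hA.deg_eq]
      intro b' _
      by_cases hbb : b' = b
      · subst hbb; simp
      · simpa [Pi.single_eq_of_ne hbb] using hyd b' trivial
  · rintro j x ⟨-, hx⟩
    simpa using hx b trivial

end Gd

namespace Meas

variable {T : Type u} [CommRing T] (μ : Meas T) {ι : Type} [Fintype ι] [DecidableEq ι] {F : Type u}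
  [AddCommGroup F] [Module T F] {deg : ι → ℕ} {A : Gd T (ι → F)} {C : Gd T F}
  {X Y : ι → Submodule T F}

/-- Bounds and Euler characteristic by columns. -/
theorem columns (hA : Gd.Cols A C deg X Y) (hf : ∀ b k, μ.hm C (X b) (Y b) k ≠ ∞) (β : T) :
    (∀ k, μ.hm A (Submodule.pi Set.univ X) (Submodule.pi Set.univ Y) k ≠ ∞) ∧
    (∀ k, μ.hm A (Submodule.pi Set.univ X) (Submodule.pi Set.univ Y) k ≤
      ∑ b, μ.hm C (X b) (Y b) (k - deg b)) ∧
    (∀ k, μ.hk A β (Submodule.pi Set.univ X) (Submodule.pi Set.univ Y) k ≤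
      ∑ b, μ.hk C β (X b) (Y b) (k - deg b)) ∧
    ∀ (d : ℕ) (lo hi : ℤ), (∀ b, deg b ≤ d) → (∀ k, k ∉ Finset.Icc lo hi → C.deg k = ⊥) →
      μ.hchi A (Finset.Icc lo (hi + d)) (Submodule.pi Set.univ X) (Submodule.pi Set.univ Y) =
        ∑ b, (-1 : ℝ) ^ deg b * μ.hchi C (Finset.Icc lo hi) (X b) (Y b) := by
  classical
  suffices H : ∀ S : Finset ι, Gd.UpClosed deg S →
      (∀ k, μ.hm A (Gd.mixS X Y S) (Gd.mixS X Y ∅) k ≠ ∞) ∧
      (∀ k, μ.hm A (Gd.mixS X Y S) (Gd.mixS X Y ∅) k ≤
        ∑ b ∈ S, μ.hm C (X b) (Y b) (k - deg b)) ∧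
      (∀ k, μ.hk A β (Gd.mixS X Y S) (Gd.mixS X Y ∅) k ≤
        ∑ b ∈ S, μ.hk C β (X b) (Y b) (k - deg b)) ∧
      ∀ (d : ℕ) (lo hi : ℤ), (∀ b, deg b ≤ d) → (∀ k, k ∉ Finset.Icc lo hi → C.deg k = ⊥) →
        μ.hchi A (Finset.Icc lo (hi + d)) (Gd.mixS X Y S) (Gd.mixS X Y ∅) =
          ∑ b ∈ S, (-1 : ℝ) ^ deg b * μ.hchi C (Finset.Icc lo hi) (X b) (Y b) by
    have := H Finset.univ fun b _ _ _ => Finset.mem_univ b
    rwa [Gd.mixS_univ, Gd.mixS_empty] at this
  intro S
  induction S using Finset.strongInduction with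
  | H S ih =>
    intro hS
    rcases S.eq_empty_or_nonempty with rfl | hne
    · simp [hm_self, hk_self, hchi]
    obtain ⟨b, hb, hmin⟩ := S.exists_min_image deg hne
    set S₀ := S.erase b
    have hins : insert b S₀ = S := Finset.insert_erase hb
    have hS₀ : Gd.UpClosed deg S₀ := fun b₁ b₂ h₂ hd =>
      Finset.mem_erase.2 ⟨fun h => by
        have := hmin b₂ (Finset.mem_of_mem_erase h₂)
        subst h; omega, hS b₁ b₂ (Finset.mem_of_mem_erase h₂) hd⟩
    obtain ⟨i1, i2, i3, i4⟩ := ih S₀ (Finset.erase_ssubset hb) hS₀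
    have hbot : A.bot ≤ Gd.mixS X Y S := Gd.mixS_bot hA
    have h12 : Gd.mixS X Y S ≤ Gd.mixS X Y S₀ := Gd.mixS_anti hA.le (Finset.erase_subset _ _)
    have h20 : Gd.mixS X Y S₀ ≤ Gd.mixS X Y ∅ := Gd.mixS_anti hA.le (Finset.empty_subset _)
    have htop : Gd.mixS X Y ∅ ≤ A.top := Gd.mixS_top hA
    have e : ∀ k, Nonempty (C.H (X b) (Y b) (k - deg b) ≃ₗ[T]
        A.H (Gd.mixS X Y S) (Gd.mixS X Y S₀) k) := fun k => by
      have key : ∀ m, m = k - (deg b : ℤ) + deg b → Nonempty (C.H (X b) (Y b) (k - deg b) ≃ₗ[T]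
          A.H (Gd.mixS X Y S) (Gd.mixS X Y S₀) m) := by
        rintro m rfl
        have := Gd.piece_equiv hA (S := S₀) (Finset.notMem_erase b S) hS₀ (by rwa [hins])
          (k - deg b)
        rwa [hins] at this
      exact key k (by omega)
    have em : ∀ k, μ.hm A (Gd.mixS X Y S) (Gd.mixS X Y S₀) k = μ.hm C (X b) (Y b) (k - deg b) :=
      fun k => (μ.congr (e k).some).symm
    have ek : ∀ k, μ.hk A β (Gd.mixS X Y S) (Gd.mixS X Y S₀) k =
        μ.hk C β (X b) (Y b) (k - deg b) := fun k => (μ.kb_congr β (e k).some).symm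
    have ef : ∀ k, μ.hm A (Gd.mixS X Y S) (Gd.mixS X Y S₀) k ≠ ∞ := fun k => (em k).symm ▸ hf b _
    refine ⟨fun k => ne_top_of_le_ne_top (ENNReal.add_ne_top.2 ⟨ef k, i1 k⟩)
      (μ.hm_mid A hbot h12 h20 htop k), fun k => ?_, fun k => ?_, fun d lo hi hd hC => ?_⟩
    · rw [← Finset.add_sum_erase _ _ hb, ← em k]
      exact (μ.hm_mid A hbot h12 h20 htop k).trans (add_le_add le_rfl (i2 k))
    · rw [← Finset.add_sum_erase _ _ hb, ← ek k]
      exact (μ.hk_mid A hbot h12 h20 htop β k (ef k) (i1 k)).trans (add_le_add le_rfl (i3 k))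
    · have hout : ∀ k, k ∉ Finset.Icc lo (hi + d) → A.deg k = ⊥ := by
        intro k hk
        rw [hA.deg_eq, eq_bot_iff]
        intro x hx
        rw [Submodule.mem_bot]
        funext b'
        have h := hx b' trivial
        simp only [SetLike.mem_coe] at h
        rwa [hC, Submodule.mem_bot] at h
        have := hd b'
        simp only [Finset.mem_Icc] at hk ⊢
        omega
      rw [μ.hchi_add A hbot h12 h20 htop lo (hi + d) hout ef i1, i4 d lo hi hd hC,
        ← Finset.add_sum_erase _ _ hb]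
      congr 1
      rw [hchi, hchi, Finset.mul_sum]
      simp only [em]
      refine (Finset.sum_subset (s₁ := (Finset.Icc lo hi).map (addRightEmbedding (deg b : ℤ)))
        ?_ ?_).symm.trans ?_
      · intro k hk
        simp only [Finset.mem_map, Finset.mem_Icc, addRightEmbedding_apply] at hk ⊢
        obtain ⟨j, hj, rfl⟩ := hk
        have := hd b
        omega
      · intro k _ hk
        rw [μ.hm_of_deg C (hC _ fun h => hk (Finset.mem_map.2 ⟨k - deg b, h, by simp⟩))]
        simp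
      · rw [Finset.sum_map]
        refine Finset.sum_congr rfl fun j _ => ?_
        rw [addRightEmbedding_apply, add_sub_cancel_right, ← mul_assoc]
        congr 1
        rw [← pow_add]
        refine neg_one_pow_congr ?_
        simp [Int.natAbs_even, parity_simps, iff_comm]

end Meas

end Vale.Agent.P202.Mixed2
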