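import Vale.Agent.P202.Mixed2.WinFlatGd

/-!
P202, mixed characteristic, windows: modules killed by a power of the ideal and the almost units,
powers of the ideal, and chains of layers.
-/

open scoped ENNReal

namespace Vale.Agent.P202.Mixed2

universe u

namespace Meas

variable {T : Type u} [CommRing T] (μ : Meas T) {n : ℕ} {U : Fin (n + 1) → T}

/-- A module killed by a power of the ideal and by the almost units is negligible. -/
theorem null_of_killed (hA : Almost μ U) {M : Type u} [AddCommGroup M] [Module T M] (m : ℕ)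
    (hm : ∀ x ∈ aI U ^ m, ∀ v : M, x • v = 0) (hb : ∀ j, ∀ v : M, hA.b j • v = 0) :
    μ.val M = 0 := by
  induction m generalizing M with
  | zero =>
    exact μ.zero M ⟨fun v w => by
      rw [← one_smul T v, ← one_smul T w, hm 1 (by simp) v, hm 1 (by simp) w]⟩
  | succ m ih =>
    set S : Submodule T M := (aI U ^ m) • (⊤ : Submodule T M)
    rw [μ.quot_add S]
    have h1 : μ.val S = 0 := by
      refine μ.val_eq_zero_of_killed hA.b (aI U) hA.tendsto (fun c hc v => Subtype.ext ?_)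
        fun j v => Subtype.ext (hb j v)
      show c • (v : M) = 0
      refine Submodule.smul_induction_on v.2 (fun x hx w _ => ?_) (fun x y hx hy => ?_)
      · rw [smul_smul]
        exact hm _ (by rw [pow_succ']; exact Ideal.mul_mem_mul hc hx) w
      · rw [smul_add, hx, hy, add_zero]
    have h2 : μ.val (M ⧸ S) = 0 := ih (fun x hx v => by
      obtain ⟨v, rfl⟩ := S.mkQ_surjective v
      rw [← map_smul]
      exact (Submodule.Quotient.mk_eq_zero _).2 (Submodule.smul_mem_smul hx trivial))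
      fun j v => by
        obtain ⟨v, rfl⟩ := S.mkQ_surjective v
        rw [← map_smul, hb, map_zero]
    rw [h1, h2, add_zero]

theorem kb_pi_le (β : T) {M : Type u} [AddCommGroup M] [Module T M] (ι : Type) [Fintype ι] :
    μ.kb β (ι → M) ≤ Fintype.card ι * μ.kb β M := by
  classical
  rw [kb, kb, ← μ.pi_fintype]
  let ξ : (ι → M ⧸ LinearMap.range (LinearMap.lsmul T M β)) →ₗ[T]
      (ι → M) ⧸ LinearMap.range (LinearMap.lsmul T (ι → M) β) :=
    ∑ i, ((LinearMap.range (LinearMap.lsmul T M β)).liftQ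
      ((Submodule.mkQ _) ∘ₗ LinearMap.single T (fun _ : ι => M) i) (by
      rintro _ ⟨y, rfl⟩
      rw [LinearMap.mem_ker, LinearMap.comp_apply, Submodule.mkQ_apply,
        Submodule.Quotient.mk_eq_zero]
      exact ⟨LinearMap.single T (fun _ : ι => M) i y, by simp [← Pi.single_smul]⟩)) ∘ₗ
      LinearMap.proj i
  refine μ.le_of_surjective ξ fun y => ?_
  obtain ⟨y, rfl⟩ := Submodule.mkQ_surjective _ y
  refine ⟨fun i => Submodule.Quotient.mk (y i), ?_⟩
  simp only [ξ, LinearMap.sum_apply, LinearMap.comp_apply, LinearMap.proj_apply,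
    Submodule.liftQ_apply, ← map_sum, LinearMap.coe_single, Finset.univ_sum_single]

theorem kb_zero {M : Type u} [AddCommGroup M] [Module T M] (β : T) (h : μ.val M = 0) :
    μ.kb β M = 0 :=
  le_antisymm ((μ.kb_le_val β).trans_eq h) zero_le

variable (U) in
/-- `T` modulo a power of the ideal. -/
theorem pow_fin (hA : Almost μ U) (m : ℕ) :
    μ.val (T ⧸ aI U ^ m) ≠ ∞ ∧ ∀ β : T,
      μ.kb β (T ⧸ aI U ^ m) ≤
        (∑ i ∈ Finset.range m, ((n + 1) ^ i : ℕ) : ℕ) * μ.kb β (T ⧸ aI U) := by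
  classical
  induction m with
  | zero =>
    have h0 : μ.val (T ⧸ aI U ^ 0) = 0 := μ.zero _ (by
      rw [pow_zero, Ideal.one_eq_top]
      exact Submodule.Quotient.subsingleton_iff.2 rfl)
    exact ⟨h0.trans_ne ENNReal.zero_ne_top, fun β => by simp [μ.kb_zero β h0]⟩
  | succ m ih =>
    obtain ⟨hfin, hk⟩ := ih
    have hgen : aI U ^ m = Ideal.span (Set.range fun w : Fin m → Fin (n + 1) => ∏ i, U (w i)) := by
      clear hfin hk
      induction m with
      | zero => simp
      | succ m ih =>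
        rw [pow_succ, ih, Ideal.span_mul_span']
        congr 1
        ext x
        constructor
        · rintro ⟨_, ⟨w, rfl⟩, _, ⟨l, rfl⟩, rfl⟩
          exact ⟨Fin.snoc w l, by simp [Fin.prod_univ_castSucc]⟩
        · rintro ⟨w, rfl⟩
          exact ⟨_, ⟨Fin.init w, rfl⟩, _, ⟨w (Fin.last m), rfl⟩, by
            simp [Fin.prod_univ_castSucc, Fin.init]⟩
    set G := Fin m → Fin (n + 1)
    let f : (G → T ⧸ aI U) →ₗ[T] T ⧸ aI U ^ (m + 1) :=
      ∑ w : G, (Submodule.liftQ (aI U)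
        (LinearMap.toSpanSingleton T _ (Ideal.Quotient.mk (aI U ^ (m + 1)) (∏ i, U (w i))))
        fun c hc => by
          rw [LinearMap.mem_ker, LinearMap.toSpanSingleton_apply]
          show Ideal.Quotient.mk (aI U ^ (m + 1)) (c * ∏ i, U (w i)) = 0
          rw [Ideal.Quotient.eq_zero_iff_mem, pow_succ']
          exact Ideal.mul_mem_mul hc (hgen ▸ Ideal.subset_span ⟨w, rfl⟩)) ∘ₗ LinearMap.proj w
    let g : (T ⧸ aI U ^ (m + 1)) →ₗ[T] T ⧸ aI U ^ m :=
      (Ideal.Quotient.factorₐ T (Ideal.pow_le_pow_right m.le_succ)).toLinearMap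
    have hex : LinearMap.ker g ≤ LinearMap.range f := by
      intro x hx
      obtain ⟨x, rfl⟩ := Ideal.Quotient.mk_surjective x
      have hx' : x ∈ aI U ^ m := Ideal.Quotient.eq_zero_iff_mem.1 hx
      rw [hgen, Ideal.mem_span_range_iff_exists_fun] at hx'
      obtain ⟨d, rfl⟩ := hx'
      refine ⟨fun w => Ideal.Quotient.mk _ (d w), ?_⟩
      rw [map_sum]
      simp only [f, LinearMap.sum_apply, LinearMap.comp_apply, LinearMap.proj_apply]
      exact Finset.sum_congr rfl fun w _ => rfl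
    have hN : μ.val (T ⧸ aI U ^ (m + 1)) ≠ ∞ := by
      refine ne_top_of_le_ne_top ?_ (μ.le_of_exact hex)
      rw [μ.pi_fintype]
      exact ENNReal.add_ne_top.2 ⟨ENNReal.mul_ne_top (ENNReal.natCast_ne_top _) hA.fin, hfin⟩
    refine ⟨hN, fun β => (μ.kb_le_of_exact β hN hfin hex).trans ?_⟩
    rw [Finset.sum_range_succ, Nat.cast_add, add_mul, add_comm]
    refine add_le_add (hk β) ((μ.kb_pi_le β G).trans (le_of_eq ?_))
    simp [G]

section Homology

variable {V : Type u} [AddCommGroup V] [Module T V] (C : Gd T V) {X Y W : Submodule T V}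

/-- Enlarging the bottom by a negligible piece. -/
theorem hm_of_null_bot (hX : C.bot ≤ X) (hXY : X ≤ Y) (hYW : Y ≤ W) (hW : W ≤ C.top)
    (h0 : ∀ k, μ.hm C X Y k = 0) (k : ℤ) (hfin : μ.hm C X W k ≠ ∞) (β : T) :
    μ.hm C Y W k = μ.hm C X W k ∧ μ.hk C β Y W k ≤ μ.hk C β X W k := by
  set f := C.move (X := X) (Y := W) hXY le_rfl k
  set g := C.conn (Y := Y) (W := W) hX hW k
  have hker : LinearMap.ker g = LinearMap.range f := C.ker_conn hX hXY hYW hW k
  have hk0 : μ.val (LinearMap.ker f) = 0 := by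
    rw [C.ker_move_top hX hXY hYW hW k]
    exact μ.null_of_le (μ.range_le _) (h0 k)
  have hc0 : μ.val ((C.H Y W k) ⧸ LinearMap.range f) = 0 := by
    rw [← hker, μ.congr g.quotKerEquivRange]
    exact μ.null_of_le (μ.sub_le _) (h0 (k - 1))
  have he : μ.hm C Y W k = μ.hm C X W k := (μ.eq_of_almost_iso f hk0 hc0).symm
  refine ⟨he, (μ.kb_le_of_exact β (f := f) (g := g) (by rw [← hm, he]; exact hfin)
    (by rw [← hm, h0]; exact ENNReal.zero_ne_top) hker.le).trans ?_⟩
  rw [μ.kb_zero β (h0 (k - 1)), add_zero]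
  exact le_rfl

/-- A chain of layers: bounds and Euler characteristic. -/
theorem hm_windows (A : ℕ → Submodule T V) (anti : Antitone A) (w d : ℕ)
    (hbot : ∀ t ≤ w, C.bot ≤ A t) (htop : ∀ t, A t ≤ C.top)
    (hdeg : ∀ k, k ∉ Finset.Icc (-(d : ℤ)) 0 → C.deg k = ⊥) (v : ℕ → ℕ → ℕ) (m kc : ℝ≥0∞)
    (hfin : m ≠ ∞) (β : T)
    (hlayer : ∀ s q : ℕ, μ.hm C (A (s + 1)) (A s) (-(q : ℤ)) = v s q * m ∧
      μ.hk C β (A (s + 1)) (A s) (-(q : ℤ)) ≤ v s q * kc) :
    (∀ k, μ.hm C (A w) (A 0) k ≠ ∞) ∧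
    (∀ q : ℕ, μ.hm C (A w) (A 0) (-(q : ℤ)) ≤ (∑ s ∈ Finset.range w, v s q : ℕ) * m) ∧
    (∀ q : ℕ, μ.hk C β (A w) (A 0) (-(q : ℤ)) ≤ (∑ s ∈ Finset.range w, v s q : ℕ) * kc) ∧
    (∀ k : ℤ, 0 < k → μ.hm C (A w) (A 0) k = 0) ∧
    μ.hchi C (Finset.Icc (-(d : ℤ)) 0) (A w) (A 0) =
      ∑ s ∈ Finset.range w, ∑ q ∈ Finset.range (d + 1),
        (-1 : ℝ) ^ q * (v s q : ℝ) * m.toReal := by
  classical
  have hpos : ∀ (X Y : Submodule T V) (k : ℤ), 0 < k → μ.hm C X Y k = 0 := fun X Y k hk =>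
    μ.hm_of_deg C (hdeg k (by simp only [Finset.mem_Icc]; omega))
  have hf : ∀ s k, μ.hm C (A (s + 1)) (A s) k ≠ ∞ := fun s k => by
    rcases lt_or_ge 0 k with hk | hk
    · exact (hpos _ _ k hk).trans_ne ENNReal.zero_ne_top
    · obtain ⟨q, rfl⟩ := Int.exists_eq_neg_ofNat hk
      rw [(hlayer s q).1]
      exact ENNReal.mul_ne_top (ENNReal.natCast_ne_top _) hfin
  have hchain := fun k => μ.hm_chain C A anti hbot (fun t _ => htop t) β k (fun s _ => hf s k)
  refine ⟨fun k => (hchain k).1, fun q => ?_, fun q => ?_, hpos _ _, ?_⟩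
  · refine (hchain _).2.1.trans ?_
    rw [Nat.cast_sum, Finset.sum_mul]
    exact (Finset.sum_congr rfl fun s _ => (hlayer s q).1).le
  · refine (hchain _).2.2.trans ?_
    rw [Nat.cast_sum, Finset.sum_mul]
    exact Finset.sum_le_sum fun s _ => (hlayer s q).2
  · suffices H : ∀ t, t ≤ w → (∀ k, μ.hm C (A t) (A 0) k ≠ ∞) ∧
        μ.hchi C (Finset.Icc (-(d : ℤ)) 0) (A t) (A 0) =
          ∑ s ∈ Finset.range t, ∑ q ∈ Finset.range (d + 1),
            (-1 : ℝ) ^ q * (v s q : ℝ) * m.toReal from (H w le_rfl).2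
    intro t
    induction t with
    | zero =>
      intro _
      refine ⟨fun k => (μ.hm_self C _ k).trans_ne ENNReal.zero_ne_top, ?_⟩
      simp [Meas.hchi, Meas.hm_self]
    | succ t ih =>
      intro ht
      obtain ⟨i1, i2⟩ := ih (by omega)
      refine ⟨fun k => ne_top_of_le_ne_top (ENNReal.add_ne_top.2 ⟨hf t k, i1 k⟩)
        (μ.hm_mid C (hbot _ ht) (anti t.le_succ) (anti (Nat.zero_le t)) (htop 0) k), ?_⟩
      rw [μ.hchi_add C (hbot _ ht) (anti t.le_succ) (anti (Nat.zero_le t)) (htop 0) _ _ hdeg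
        (hf t) i1, i2, Finset.sum_range_succ, add_comm]
      refine congrArg₂ (· + ·) rfl ?_
      rw [Meas.hchi]
      refine (Finset.sum_nbij' (fun q : ℕ => -(q : ℤ)) (fun k => k.natAbs) ?_ ?_ ?_ ?_ ?_).symm
      · intro q hq
        simp only [Finset.mem_range] at hq
        simp only [Finset.mem_Icc]
        omega
      · intro k hk
        simp only [Finset.mem_Icc] at hk
        simp only [Finset.mem_range]
        omega
      · intro q _
        simp
      · intro k hk
        simp only [Finset.mem_Icc] at hk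
        omega
      · intro q _
        rw [(hlayer t q).1, ENNReal.toReal_mul, ENNReal.toReal_natCast, Int.natAbs_neg,
          Int.natAbs_natCast, mul_assoc]

/-- The homology only depends on the differential and the grading. -/
theorem hm_same {C C' : Gd T V} (hD : C.D = C'.D) (hdeg : C.deg = C'.deg) (β : T)
    (X Y : Submodule T V) (k : ℤ) :
    μ.hm C X Y k = μ.hm C' X Y k ∧ μ.hk C β X Y k = μ.hk C' β X Y k := by
  cases C
  cases C'
  cases hD
  cases hdeg
  exact ⟨rfl, rfl⟩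

end Homology

end Meas

end Vale.Agent.P202.Mixed2
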