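import Vale.Agent.P202.Char.Flat
import Vale.Agent.P202.Mixed2.WinGraded

/-!
P202, mixed characteristic: the sections of twist `a` have a finite free graded resolution over
the polynomials in the `Y`, of Euler characteristic `n!`.
-/

namespace Vale.Agent.P202.Mixed2

open MvPolynomial Vale.Agent.P202.Char

universe u v

variable {Z : Type u} [CommRing Z] {n : ℕ} {β : Type}

/-- Laurent polynomials with exponents of polynomials of degree `N`. -/
def DegP (a : Fin n → ℤ) (N : ℕ) (μ : Lau Z n) : Prop :=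
  ∀ e ∈ μ.coeff.support, InPoly a e ∧ e.2 = N

theorem DegP.lauMem {a : Fin n → ℤ} {N : ℕ} {μ : Lau Z n} (h : DegP a N μ) (ε : Chart n) :
    LauMem a ε N μ :=
  fun e he => ⟨fun j => ⟨fun _ => ((h e he).1 j).1, fun _ => ((h e he).1 j).2⟩, (h e he).2⟩

theorem degP_zero (a : Fin n → ℤ) (N : ℕ) : DegP (Z := Z) a N 0 := fun e he => by simp at he

theorem DegP.add {a : Fin n → ℤ} {N : ℕ} {μ ν : Lau Z n} (h : DegP a N μ) (h' : DegP a N ν) :
    DegP a N (μ + ν) :=
  inPoly_of_lauMem a fun ε => (h.lauMem ε).add (h'.lauMem ε)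

theorem degP_single {a : Fin n → ℤ} {N : ℕ} {e : Expo n} (he : InPoly a e) (hN : e.2 = N) (r : Z) :
    DegP a N (AddMonoidAlgebra.single e r : Lau Z n) := by
  classical
  intro f hf
  rw [AddMonoidAlgebra.coeff_single] at hf
  obtain rfl := Finset.mem_singleton.1 (Finsupp.support_single_subset hf)
  exact ⟨he, hN⟩

/-- Exponents of degree `N`. -/
noncomputable def expN (a : Fin n → ℤ) (N : ℕ) : Finset (Expo n) :=
  (Fintype.piFinset fun j => Finset.Icc (0 : ℤ) (N + a j)).map
    ⟨fun α => (α, (N : ℤ)), fun _ _ h => (Prod.ext_iff.1 h).1⟩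

theorem mem_expN {a : Fin n → ℤ} {N : ℕ} {e : Expo n} :
    e ∈ expN a N ↔ InPoly a e ∧ e.2 = N := by
  classical
  constructor
  · intro h
    obtain ⟨α, hα, rfl⟩ := Finset.mem_map.1 h
    exact ⟨fun j => Finset.mem_Icc.1 (Fintype.mem_piFinset.1 hα j), rfl⟩
  · rintro ⟨h1, h2⟩
    refine Finset.mem_map.2 ⟨e.1, Fintype.mem_piFinset.2 fun j => Finset.mem_Icc.2 ?_,
      Prod.ext rfl h2.symm⟩
    rw [← h2]
    exact h1 j

theorem DegP.sum_single {a : Fin n → ℤ} {N : ℕ} {μ : Lau Z n} (h : DegP a N μ) :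
    ∑ e ∈ expN a N, μ.coeff e • (AddMonoidAlgebra.single e 1 : Lau Z n) = μ := by
  classical
  conv_rhs => rw [← AddMonoidAlgebra.sum_coeff_single μ, Finsupp.sum]
  rw [Finset.sum_subset (fun e he => mem_expN.2 (h e he)) fun e _ he => by
    simp [Finsupp.notMem_support_iff.1 he]]
  simp

/-- The augmentation. -/
noncomputable def augLin [Fintype β] (lam : Fin (n + 1) → Z) (aug : β → Lau Z n) :
    (β → MvPolynomial (Fin (n + 1)) Z) →ₗ[Z] Lau Z n :=
  ∑ b, LinearMap.mulRight Z (aug b) ∘ₗ (rho lam).toLinearMap ∘ₗ LinearMap.proj b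

theorem augLin_apply [Fintype β] (lam : Fin (n + 1) → Z) (aug : β → Lau Z n)
    (x : β → MvPolynomial (Fin (n + 1)) Z) :
    augLin lam aug x = ∑ b, rho lam (x b) * aug b := by
  simp [augLin]

theorem augLin_degP [Fintype β] (lam : Fin (n + 1) → Z) (a : Fin n → ℤ) (sg : β → ℕ)
    (aug : β → Lau Z n) (haug : ∀ b, DegP a (sg b) (aug b)) {N : ℕ}
    {x : β → MvPolynomial (Fin (n + 1)) Z} (hx : Hom sg N x) :
    DegP a N (augLin lam aug x) := by
  classical
  rw [augLin_apply]
  refine Finset.sum_induction _ (fun μ => DegP a N μ) (fun _ _ h h' => h.add h') (degP_zero a N)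
    fun b _ => ?_
  by_cases hb : N < sg b
  · rw [(hx b).2 hb, map_zero, zero_mul]
    exact degP_zero a N
  · refine inPoly_of_lauMem a fun ε => ?_
    have h := (lauMem_rho lam ε (x b) ((N - sg b : ℕ) : ℤ) fun c hc => ?_).zero_mul
      ((haug b).lauMem ε)
    · rwa [show ((N - sg b : ℕ) : ℤ) + (sg b : ℤ) = N by omega] at h
    · have h1 := (hx b).1 (mem_support_iff.1 hc)
      rw [Finsupp.weight_apply, Finsupp.sum_fintype _ _ fun _ => by simp] at h1
      rw [Finsupp.sum_fintype _ _ fun _ => rfl]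
      simp only [Pi.one_apply, smul_eq_mul, mul_one] at h1
      exact_mod_cast h1

/-- Exact sequences of tuples of one degree. -/
theorem hom_dlin (G : MCx (MvPolynomial (Fin (n + 1)) Z)) (sg : G.β → ℕ)
    (hD : ∀ b, Hom sg (sg b) fun a => G.D a b) (N : ℕ)
    (x : G.β → MvPolynomial (Fin (n + 1)) Z) :
    G.dlin (MvPolynomial (Fin (n + 1)) Z) (hc sg N x) =
      hc sg N (G.dlin (MvPolynomial (Fin (n + 1)) Z) x) := by
  have key : ∀ y, G.dlin (MvPolynomial (Fin (n + 1)) Z) y =
      Fintype.linearCombination (MvPolynomial (Fin (n + 1)) Z) (fun b a => G.D a b) y := fun y => by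
    funext a
    simp [MCx.dlin, Fintype.linearCombination_apply, Finset.sum_apply, mul_comm]
  rw [key, key, hc_lc sg sg hD]

/-- Restriction to one degree of the complex. -/
noncomputable def part {A : Type v} [Zero A] {β : Type} (deg : β → ℕ) (k : ℕ) (x : β → A) :
    β → A :=
  fun b => if deg b = k then x b else 0

theorem dlin_part {A : Type u} [CommRing A] (G : MCx A) (k : ℕ) (y : G.β → A) :
    G.dlin A (part G.deg (k + 1) y) = part G.deg k (G.dlin A y) := by
  classical
  funext a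
  simp only [MCx.dlin, LinearMap.pi_apply, LinearMap.coe_sum, Finset.sum_apply,
    LinearMap.smul_apply, LinearMap.proj_apply, smul_eq_mul, part]
  by_cases h : G.deg a = k
  · rw [if_pos h]
    refine Finset.sum_congr rfl fun b _ => ?_
    by_cases hD : G.D a b = 0
    · simp [hD]
    · rw [if_pos (by rw [G.homog a b hD, h])]
  · rw [if_neg h]
    refine Finset.sum_eq_zero fun b _ => ?_
    by_cases hD : G.D a b = 0
    · simp [hD]
    · rw [if_neg (by rw [G.homog a b hD]; omega), mul_zero]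

theorem hom_part {sg deg : β → ℕ} {N : ℕ} {x : β → MvPolynomial (Fin (n + 1)) Z}
    (hx : Hom sg N x) (k : ℕ) : Hom sg N (part deg k x) := by
  intro b
  by_cases h : deg b = k
  · simpa [part, h] using hx b
  · simp [part, h, isHomogeneous_zero]

variable [IsDomain Z] [IsPrincipalIdealRing Z]

/-- The sections have a finite free resolution of Euler characteristic `n!`. -/
theorem exists_res_sections (lam : Fin (n + 1) → Z) (hlam : Sep lam) (a : Fin n → ℤ)
    (ha : ∀ j, 0 ≤ a j) :
    ∃ (G : MCx (MvPolynomial (Fin (n + 1)) Z)) (sg : G.β → ℕ) (aug : G.β → Lau Z n),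
      (∀ b, G.deg b ≠ 0 → aug b = 0) ∧ (∀ b, DegP a (sg b) (aug b)) ∧
      (∀ b, Hom sg (sg b) fun c => G.D c b) ∧
      (∀ b, ∑ c, rho lam (G.D c b) * aug c = 0) ∧
      (∀ e : Expo n, InPoly a e → 0 ≤ e.2 →
        ∃ x, augLin lam aug x = AddMonoidAlgebra.single e 1) ∧
      (∀ x, G.dlin (MvPolynomial (Fin (n + 1)) Z) x = 0 → augLin lam aug x = 0 →
        x ∈ LinearMap.range (G.dlin (MvPolynomial (Fin (n + 1)) Z))) ∧
      ∑ b, (-1 : ℤ) ^ G.deg b = (n.factorial : ℤ) := by
  classical
  let mL : Module (MvPolynomial (Fin (n + 1)) Z) (Lau Z n) :=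
    Module.compHom _ (rho lam).toRingHom
  have hsm : ∀ (p : MvPolynomial (Fin (n + 1)) Z) (μ : Lau Z n), p • μ = rho lam p * μ :=
    fun _ _ => rfl
  obtain ⟨m₁, hm₁⟩ := poly_generated lam hlam a ha
  set m := m₁.toNat
  set T : Finset (Expo n) := (Finset.range (m + 1)).biUnion (expN a)
  let w : T → Lau Z n := fun e => AddMonoidAlgebra.single e.1 1
  let sg₀ : T → ℕ := fun e => e.1.2.toNat
  have hT : ∀ e : T, InPoly a e.1 ∧ e.1.2 = (sg₀ e : ℤ) := fun e => by
    obtain ⟨N, -, hN⟩ := Finset.mem_biUnion.1 e.2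
    obtain ⟨h1, h2⟩ := mem_expN.1 hN
    exact ⟨h1, by simp [sg₀, h2]⟩
  have hw : ∀ e : T, DegP a (sg₀ e) (w e) := fun e => degP_single (hT e).1 (hT e).2 1
  set f := Fintype.linearCombination (MvPolynomial (Fin (n + 1)) Z) w
  set M := LinearMap.range f
  have hfa : ∀ x, f x = augLin lam w x := fun x => by
    simp only [f, Fintype.linearCombination_apply, augLin_apply, hsm]
  have hfin : ∀ μ : Lau Z n, ∀ N : ℕ, DegP a N μ →
      (∀ e ∈ expN a N, (AddMonoidAlgebra.single e 1 : Lau Z n) ∈ M) → μ ∈ M := by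
    intro μ N hμ he
    rw [← hμ.sum_single]
    refine sum_mem fun e h => ?_
    rw [show μ.coeff e • (AddMonoidAlgebra.single e 1 : Lau Z n) =
      (C (μ.coeff e) : MvPolynomial (Fin (n + 1)) Z) • AddMonoidAlgebra.single e 1 by
        rw [hsm, rho, aeval_C, Algebra.smul_def]]
    exact M.smul_mem _ (he e h)
  -- all monomials of nonnegative degree are generated
  have hgen : ∀ N : ℕ, ∀ e ∈ expN a N, (AddMonoidAlgebra.single e 1 : Lau Z n) ∈ M := by
    intro N
    induction N using Nat.strong_induction_on with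
    | _ N ih =>
      intro e he
      obtain ⟨he1, he2⟩ := mem_expN.1 he
      by_cases hN : N ≤ m
      · exact ⟨Pi.single ⟨e, Finset.mem_biUnion.2 ⟨N, Finset.mem_range.2 (by omega), he⟩⟩ 1,
          by simp [f, w, Fintype.linearCombination_apply_single]⟩
      · obtain ⟨g, hg, hge⟩ := hm₁ e he1 (by omega)
        rw [hge]
        refine sum_mem fun k _ => ?_
        rw [show yImg lam k * g k = (X k : MvPolynomial (Fin (n + 1)) Z) • g k by
          rw [hsm, rho, aeval_X]]
        refine M.smul_mem _ (hfin _ (N - 1) (fun e' he' => ⟨(hg k e' he').1, ?_⟩) (ih _ (by omega)))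
        rw [(hg k e' he').2, he2]
        omega
  have hmem : ∀ N μ, DegP a N μ → μ ∈ M := fun N μ hμ => hfin μ N hμ (hgen N)
  -- the kernel
  have hgr : Gr sg₀ (LinearMap.ker f) := by
    intro N u hu
    rw [LinearMap.mem_ker, hfa] at hu ⊢
    refine AddMonoidAlgebra.ext (Finsupp.ext fun e => ?_)
    obtain ⟨B, hB⟩ := exists_sum_hc sg₀ u
    have hdeg := fun N' => augLin_degP lam a sg₀ w hw (hom_hc sg₀ N' u)
    by_cases he : e ∈ (augLin lam w (hc sg₀ N u)).coeff.support
    · have h := congrArg (fun μ : Lau Z n => μ.coeff e) hu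
      rw [← hB (max B (N + 1)) (le_max_left _ _), map_sum] at h
      simp only [AddMonoidAlgebra.coeff_sum, Finsupp.finsetSum_apply,
        AddMonoidAlgebra.coeff_zero, Finsupp.coe_zero, Pi.zero_apply] at h
      rw [Finset.sum_eq_single N] at h
      · simpa using h
      · intro N' _ hN'
        by_contra h0
        exact hN' (by exact_mod_cast
          ((hdeg N' e (Finsupp.mem_support_iff.2 h0)).2.symm.trans (hdeg N e he).2))
      · exact fun h' => absurd (Finset.mem_range.2 (by omega)) h'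
    · simpa using Finsupp.notMem_support_iff.1 he
  obtain ⟨R'⟩ := exists_res (Z := Z) (d := n + 1) (n + 1) 0 (by omega) T sg₀ (LinearMap.ker f) hgr
    (pure_zero _)
  let R : Res M (DegP a) := R'.cone sg₀ w hw rfl
  -- the rank of the sections
  obtain ⟨m₀, bs, hbs, hspan, hind⟩ := exists_basis lam hlam a ha 0
  set x₀ : MvPolynomial (Fin (n + 1)) Z := X 0
  have hy0 : rho lam x₀ = yImg lam 0 := aeval_X _ _
  have hy : yImg lam (0 : Fin (n + 1)) ≠ 0 := fun h => by
    have h1 := hind (Pi.single ⟨0, n.factorial_pos⟩ x₀) (by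
      rw [Finset.sum_eq_single ⟨0, n.factorial_pos⟩ (fun r _ hr => by simp [hr])
        (fun h' => absurd (Finset.mem_univ _) h'), Pi.single_eq_same, hy0, h, zero_mul])
    exact X_ne_zero (0 : Fin (n + 1)) (by simpa using congrFun h1 ⟨0, n.factorial_pos⟩)
  set K₁ := Finset.univ.sup fun r => (m₀ r).natAbs
  let bs' : Fin n.factorial → Lau Z n := fun r => x₀ ^ K₁ • bs r
  have hind' : LinearIndependent (MvPolynomial (Fin (n + 1)) Z) bs' := by
    rw [Fintype.linearIndependent_iff]
    intro c hc r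
    have h1 := hind (fun r => c r * x₀ ^ K₁) (by
      rw [← hc]
      refine Finset.sum_congr rfl fun r _ => ?_
      simp only [bs', hsm, map_mul, mul_assoc])
    exact (mul_eq_zero.1 (congrFun h1 r)).resolve_right (pow_ne_zero _ (X_ne_zero _))
  set M' := Submodule.span (MvPolynomial (Fin (n + 1)) Z) (Set.range bs')
  have hM' : Module.finrank (MvPolynomial (Fin (n + 1)) Z) M' = n.factorial := by
    rw [finrank_span_eq_card hind', Fintype.card_fin]
  have hle : M' ≤ M := by
    rw [Submodule.span_le]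
    rintro _ ⟨r, rfl⟩
    have hK : (m₀ r).natAbs ≤ K₁ :=
      Finset.le_sup (f := fun r => (m₀ r).natAbs) (Finset.mem_univ r)
    refine hmem ((K₁ : ℤ) + m₀ r).toNat _ (inPoly_of_lauMem a fun ε => ?_)
    have h1 := (lauMem_yImg lam ε 0).pow K₁
    have h2 : LauMem a ε (m₀ r) (bs r) := fun e he =>
      ⟨fun j => ⟨fun _ => ((hbs r e he).1 j).1, fun _ => ((hbs r e he).1 j).2⟩, (hbs r e he).2⟩
    have h3 := h1.zero_mul h2
    simp only [bs', hsm, map_pow, hy0]
    rwa [show (((K₁ : ℤ) + m₀ r).toNat : ℤ) = (K₁ : ℤ) * 1 + m₀ r by omega]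
  choose! NN cc' hcc' using fun (e : T) => hspan (w e) fun e' he' => (hw e e' he').1
  set K₂ := Finset.univ.sup NN + K₁
  have hcov : ∀ x ∈ M, x₀ ^ K₂ • x ∈ M' := by
    rintro _ ⟨u, rfl⟩
    simp only [f, Fintype.linearCombination_apply, Finset.smul_sum]
    refine sum_mem fun e _ => ?_
    rw [smul_comm]
    refine M'.smul_mem _ ?_
    have hK : NN e ≤ Finset.univ.sup NN := Finset.le_sup (Finset.mem_univ e)
    have h1 : x₀ ^ K₂ • w e = x₀ ^ (Finset.univ.sup NN - NN e) • ∑ r, cc' e r • bs' r := by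
      simp only [bs', hsm, map_pow, hy0]
      rw [show K₂ = (Finset.univ.sup NN - NN e) + K₁ + NN e by omega, pow_add, pow_add, mul_assoc,
        hcc' e, mul_assoc, Finset.mul_sum]
      congr 1
      exact Finset.sum_congr rfl fun r _ => by ring
    rw [h1]
    exact M'.smul_mem _ (sum_mem fun r _ => M'.smul_mem _ (Submodule.subset_span ⟨r, rfl⟩))
  have hrank : Module.finrank (MvPolynomial (Fin (n + 1)) Z) M = n.factorial := by
    refine le_antisymm ?_ ?_
    · let g : M →ₗ[MvPolynomial (Fin (n + 1)) Z] M' :=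
        LinearMap.codRestrict M' (x₀ ^ K₂ • M.subtype) fun x => hcov x x.2
      have hg : Function.Injective g := fun x y h => Subtype.ext <| by
        have h' : x₀ ^ K₂ • (x : Lau Z n) = x₀ ^ K₂ • (y : Lau Z n) := congrArg Subtype.val h
        rw [hsm, hsm, map_pow, hy0] at h'
        exact mul_left_cancel₀ (pow_ne_zero _ hy) h'
      have : Module.Finite (MvPolynomial (Fin (n + 1)) Z) M' :=
        Module.Finite.span_of_finite _ (Set.finite_range _)
      exact (LinearMap.finrank_le_finrank_of_injective hg).trans hM'.le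
    · have : Module.Finite (MvPolynomial (Fin (n + 1)) Z) M := Module.Finite.range f
      exact hM'.ge.trans
        (LinearMap.finrank_le_finrank_of_injective (Submodule.inclusion_injective hle))
  have hv : ∀ x, Fintype.linearCombination (MvPolynomial (Fin (n + 1)) Z) R.v x =
      augLin lam R.v x := fun x => by
    simp only [Fintype.linearCombination_apply, augLin_apply, hsm]
  refine ⟨R.G, R.sg, R.v, R.v_deg, fun b => ?_, R.D_hom, R.vD, fun e he h0 => ?_, fun x h1 h2 =>
    R.exact x h1 ((hv x).trans h2), ?_⟩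
  · by_cases h : R.G.deg b = 0
    · exact R.v_hom b h
    · rw [R.v_deg b h]
      exact degP_zero _ _
  · obtain ⟨N, hN⟩ : ∃ N : ℕ, e.2 = N := ⟨e.2.toNat, by omega⟩
    obtain ⟨x, hx⟩ := R.range_eq.ge (hgen N e (mem_expN.2 ⟨he, hN⟩))
    exact ⟨x, (hv x).symm.trans hx⟩
  · rw [R.euler, hrank]

end Vale.Agent.P202.Mixed2
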