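import Vale.Agent.P202.Mixed2.WinKilled
import Vale.Agent.P202.Mixed2.WinFlatGd
import Vale.Agent.P202.Char.Windows

/-!
P202, mixed characteristic, windows: the levels of the total complex below the base `-w`,
`w = n * M + M`. The windows vanish outside degree zero, the homology which survives below them is
killed by a power of `β`, and the deep part agrees with the complex tensor the slice zero.
-/

open scoped ENNReal

namespace Vale.Agent.P202.Mixed2

universe u

namespace Gd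

variable {T : Type u} [CommRing T] {V : Type u} [AddCommGroup V] [Module T V] (C : Gd T V)

theorem move_move_eq_zero {X X₁ X₂ Y : Submodule T V} (h1 : X ≤ X₁) (h2 : X₁ ≤ X₂) (k : ℤ)
    (x : C.cyc X Y k) :
    C.move (Y := Y) h2 le_rfl k (C.move h1 le_rfl k (Submodule.Quotient.mk x)) = 0 ↔
      (x : V) ∈ C.bd X₂ Y k :=
  C.mk_eq_zero _

theorem smul_move_eq_zero {X X₁ Y : Submodule T V} (h1 : X ≤ X₁) (k : ℤ) (x : C.cyc X Y k) {c : T}
    {y : V} (hy : y ∈ Y ⊓ C.deg (k + 1)) (h : c • (x : V) - C.D y ∈ X₁) :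
    c • C.move (Y := Y) h1 le_rfl k (Submodule.Quotient.mk x) = 0 := by
  rw [move_mk, ← Submodule.Quotient.mk_smul, mk_eq_zero]
  refine Submodule.mem_sup.2 ⟨_, ⟨y, hy, rfl⟩, _, ⟨h, ?_⟩, add_sub_cancel _ _⟩
  refine sub_mem (Submodule.smul_mem _ _ x.2.1.2) ?_
  have := C.map_deg (k + 1) ⟨y, hy.2, rfl⟩
  rwa [add_sub_cancel_right] at this

end Gd

namespace Win

open Vale.Agent.P202.Char

variable {T : Type u} [CommRing T] {n : ℕ} {U : Fin (n + 1) → T} {β : T} {L J M : ℕ}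
  (P : Lift U β L J M) (lam : Fin (n + 1) → T) (a : Fin n → ℤ)

/-- The windows of cut slices are governed by the measure of `T` modulo the ideal. -/
def WinFacts (μ : Meas T) (U : Fin (n + 1) → T) (lam : Fin (n + 1) → T) (a : Fin n → ℤ) : Prop :=
  ∀ (W₀ : ℕ) (N₀ : ℤ) (w j : ℕ) (N : ℤ),
    (∀ k, μ.hm (colGd U lam a W₀ N₀) (cut U lam a (j + w) N) (cut U lam a j N) k ≠ ∞) ∧
    (∀ k, 0 < k → μ.hm (colGd U lam a W₀ N₀) (cut U lam a (j + w) N) (cut U lam a j N) k = 0) ∧
    (∀ q : ℕ, μ.hm (colGd U lam a W₀ N₀) (cut U lam a (j + w) N) (cut U lam a j N) (-(q : ℤ)) ≤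
      (∑ s ∈ Finset.range w, (hP a (N + j + s) q : ℝ≥0∞)) * μ.val (T ⧸ aI U)) ∧
    (∀ (γ : T) k, μ.hk (colGd U lam a W₀ N₀) γ (cut U lam a (j + w) N) (cut U lam a j N) k ≤
      (∑ s ∈ Finset.range w, ∑ q ∈ Finset.range (n + 1), (hP a (N + j + s) q : ℝ≥0∞)) *
        μ.kb γ (T ⧸ aI U)) ∧
    μ.hchi (colGd U lam a W₀ N₀) (Finset.Icc (-(n : ℤ)) 0) (cut U lam a (j + w) N)
        (cut U lam a j N) =
      (∑ s ∈ Finset.range w, ∑ q ∈ Finset.range (n + 1), (-1 : ℝ) ^ q * (hP a (N + j + s) q : ℝ)) *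
        (μ.val (T ⧸ aI U)).toReal

namespace Lift

/-- The shift `n * M + M`. -/
abbrev shift (_P : Lift U β L J M) : ℕ := (n + 1) * M

/-- The uniform level `i` below the base. -/
noncomputable abbrev lv (i : ℕ) : Submodule T (P.ι → Chart n → Tot T n ℕ) :=
  P.lev lam a (-(P.shift : ℤ)) fun _ => i

/-- The flat level `i` below the base. -/
noncomputable abbrev fl (i : ℕ) : Submodule T (P.ι → Chart n → Tot T n ℕ) :=
  P.lev lam a (-(P.shift : ℤ)) fun b => P.shift + i + P.deg b * J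

variable {lam a}

theorem fl_mono (i : ℕ) : P.Mono fun b => P.shift + i + P.deg b * J := fun b b' h => by
  dsimp only
  have : P.deg b * J ≤ P.deg b' * J := Nat.mul_le_mul_right J (by omega)
  omega

theorem fl_anti {i i' : ℕ} (h : i' ≤ i) : P.fl lam a i ≤ P.fl lam a i' :=
  P.lev_anti fun b => by beta_reduce; omega

theorem fl_le_lv {i j : ℕ} (h : j ≤ P.shift + i) : P.fl lam a i ≤ P.lv lam a j :=
  P.lev_anti fun b => by beta_reduce; omega

/-- Up to the bottom, a cochain of a cut level is a shift of a cochain. -/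
theorem exists_up {c : ℤ} {v : ℕ} {k : ℤ} {x : P.ι → Chart n → Tot T n ℕ}
    (hx : x ∈ P.lev lam a c (fun _ => v) ⊓ P.degP k) :
    ∃ x' ∈ P.free lam a (c + v) ⊓ P.degP k, ∀ f, x - P.up lam v x' ∈ P.lev lam a c f := by
  classical
  have h : ∀ b ε, ∃ y ∈ freeSlice T a ε ideg (P.slot c b + v),
      x b ε - push lam (upBy n 1 v) y ∈ relSlice lam a ε ideg (rel U) (P.slot c b) ∧
        (x b ε = 0 → y = 0) := by
    intro b ε
    by_cases h0 : x b ε = 0
    · exact ⟨0, zero_mem _, by rw [h0, map_zero, sub_zero]; exact zero_mem _, fun _ => rfl⟩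
    · obtain ⟨r, hr, _, ⟨y, hy, rfl⟩, he⟩ := Submodule.mem_sup.1 (P.mem_lev.1 hx.1 b ε)
      exact ⟨y, hy, by rw [← he, add_sub_cancel_right]; exact hr, fun h => absurd h h0⟩
  choose y hy hyr hy0 using h
  have hs : ∀ b, P.slot (c + v) b = P.slot c b + v := fun b => by
    simp [slot]
    ring
  refine ⟨y, ⟨P.mem_lev.2 fun b ε => ?_, fun b _ => mem_cechDeg.2 fun ε hne =>
    hy0 b ε (mem_cechDeg.1 (hx.2 b trivial) ε hne)⟩, fun f => P.mem_lev.2 fun b ε => ?_⟩
  · rw [cutS_zero, hs]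
    exact hy b ε
  · exact Submodule.mem_sup_left (hyr b ε)

/-- `u ^ v` reflects cut levels. -/
theorem lev_of_up (hlam : Sep lam) (ha : ∀ j, 0 ≤ a j) {c : ℤ} {v : ℕ} {f : P.ι → ℕ}
    {x : P.ι → Chart n → Tot T n ℕ} (hx : x ∈ P.free lam a c)
    (h : P.up lam v x ∈ P.lev lam a (c - v) fun b => f b + v) : x ∈ P.lev lam a c f := by
  intro b _
  show x b ∈ cut U lam a (f b) (P.slot c b)
  rw [P.slot_sub c v b]
  refine mem_cut_of_upC (U := U) (a := a) lam hlam ha ?_ (h b trivial)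
  have hb := hx b trivial
  simp only [SetLike.mem_coe, cut_zero] at hb
  rw [P.slot_sub c v b] at hb
  exact hb

/-- A cycle of a cut level comes from a cycle higher up. -/
theorem cycle_down (hlam : Sep lam) (ha : ∀ j, 0 ≤ a j) {c : ℤ} {v : ℕ} {g : P.ι → ℕ}
    (hg : P.Mono g) {k : ℤ} {x : P.ι → Chart n → Tot T n ℕ}
    (hx : x ∈ P.lev lam a c (fun _ => v) ⊓ P.degP k)
    (hc : P.D0 lam x ∈ P.lev lam a c fun b => g b + v) :
    ∃ x' ∈ P.free lam a (c + v) ⊓ P.degP k, P.D0 lam x' ∈ P.lev lam a (c + v) g ∧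
      ∀ f, x - P.up lam v x' ∈ P.lev lam a c f := by
  obtain ⟨x', hx', hxx⟩ := P.exists_up hx
  refine ⟨x', hx', P.lev_of_up hlam ha (v := v) ?_ ?_, hxx⟩
  · exact P.lev_stable (fun _ _ _ => le_rfl) ⟨x', hx'.1, rfl⟩
  · have hm : P.Mono fun b => g b + v := fun b b' h => by
      exact Nat.add_le_add_right (hg b b' h) v
    have h1 : P.D0 lam (x - P.up lam v x') ∈ P.lev lam a c fun b => g b + v :=
      P.lev_stable hm ⟨_, hxx _, rfl⟩
    have h2 := P.up_D0 (lam := lam) (fun b => g b + v) (v := v) hx'.1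
    rw [show c + (v : ℤ) - v = c by ring] at h2 ⊢
    have h3 := add_mem h2 (sub_mem hc h1)
    rw [map_sub, sub_sub_cancel, sub_add_cancel] at h3
    exact h3

variable {W : ℕ} (hW : P.shift + W + (n + 3) * J ≤ L)

/-- The total complex at the base. -/
noncomputable abbrev sys (lam : Fin (n + 1) → T) (a : Fin n → ℤ)
    (hW : P.shift + W + (n + 3) * J ≤ L) : Gd T (P.ι → Chart n → Tot T n ℕ) :=
  P.tot lam a (-(P.shift : ℤ)) hW

theorem sys_bot {i : ℕ} (hi : i ≤ W) : (P.sys lam a hW).bot ≤ P.fl lam a i :=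
  P.lev_anti fun b => by beta_reduce; omega

theorem sys_top {f : P.ι → ℕ} : P.lev lam a (-(P.shift : ℤ)) f ≤ (P.sys lam a hW).top :=
  P.lev_anti fun _ => Nat.zero_le _

/-- Positive degrees: a cycle of the window is hit from the slices above it, up to `β`. -/
theorem hit_above (hlam : Sep lam) (ha : ∀ j, 0 ≤ a j) {A : ℕ} (hA : P.shift ≤ A) (hAW : A ≤ W)
    {k : ℤ} {x : P.ι → Chart n → Tot T n ℕ}
    (hx : x ∈ (P.sys lam a hW).cyc (P.fl lam a A) (P.lv lam a P.shift) k) :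
    ∃ y ∈ P.lv lam a 0 ⊓ P.degP (k + 1), β ^ (n + 1) • x - P.D0 lam y ∈
      P.fl lam a (A - P.shift) := by
  have hx1 : x ∈ P.lev lam a (-(P.shift : ℤ)) (fun _ => P.shift) ⊓ P.degP k := hx.1
  have hx2 : P.D0 lam x ∈ P.lev lam a (-(P.shift : ℤ)) fun b => P.shift + A + P.deg b * J := hx.2
  have hg : P.Mono fun b => A + P.deg b * J := fun b b' h => by
    have : P.deg b * J ≤ P.deg b' * J := Nat.mul_le_mul_right J (by omega)
    show A + P.deg b * J ≤ A + P.deg b' * J
    omega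
  have hx3 : P.D0 lam x ∈ P.lev lam a (-(P.shift : ℤ))
      fun b => A + P.deg b * J + P.shift :=
    P.lev_anti (fun b => by beta_reduce; omega) hx2
  obtain ⟨x', hx', hD, hxx⟩ := P.cycle_down hlam ha hg hx1 hx3
  rw [neg_add_cancel] at hx' hD
  obtain ⟨y, hy, hxy⟩ := P.killed hlam (W := A) (by omega) hx' hD
  rw [zero_sub] at hy hxy
  refine ⟨y, hy, ?_⟩
  have hs : β ^ (n + 1) • (x - P.up lam P.shift x') ∈ P.fl lam a (A - P.shift) :=
    Submodule.smul_mem _ _ (hxx _)
  have hl : β ^ (n + 1) • P.up lam ((n + 1) * M) x' - P.D0 lam y ∈ P.fl lam a (A - P.shift) :=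
    P.lev_anti (fun b => by beta_reduce; omega) hxy
  have h2 : β ^ (n + 1) • (x - P.up lam P.shift x') +
      (β ^ (n + 1) • P.up lam P.shift x' - P.D0 lam y) ∈ P.fl lam a (A - P.shift) :=
    add_mem hs hl
  rw [smul_sub, sub_add_sub_cancel] at h2
  exact h2

/-- Negative degrees: a cycle of the window which dies modulo the level `2 * w` dies up to `β`. -/
theorem die_below (hlam : Sep lam) (ha : ∀ j, 0 ≤ a j) {A : ℕ} (hA : P.shift ≤ A) (hAW : A ≤ W)
    {k : ℤ} {x : P.ι → Chart n → Tot T n ℕ}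
    (hx : x ∈ (P.sys lam a hW).cyc (P.fl lam a A) (P.lv lam a P.shift) k)
    (h0 : x ∈ (P.sys lam a hW).bd (P.lv lam a (2 * P.shift)) (P.lv lam a P.shift) k) :
    ∃ y ∈ P.lv lam a P.shift ⊓ P.degP (k + 1), β ^ (n + 1) • x - P.D0 lam y ∈
      P.fl lam a (A - P.shift) := by
  obtain ⟨_, ⟨y₀, hy₀, rfl⟩, r, hr, rfl⟩ := Submodule.mem_sup.1 h0
  have hDr : P.D0 lam r ∈ P.fl lam a A := by
    have h1 : P.D0 lam (P.D0 lam y₀) ∈ P.fl lam a A :=
      P.sys_bot hW hAW ((P.sys lam a hW).sq y₀ (P.sys_top hW hy₀.1))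
    have h2 : P.D0 lam (P.D0 lam y₀ + r) ∈ P.fl lam a A := hx.2
    rw [map_add] at h2
    simpa using sub_mem h2 h1
  obtain ⟨r', hr', hD, hrr⟩ := P.cycle_down hlam ha (v := 2 * P.shift)
    (g := fun b => A - P.shift + P.deg b * J) (fun b b' h => by
      dsimp only
      have : P.deg b * J ≤ P.deg b' * J := Nat.mul_le_mul_right J (by omega)
      omega) hr (P.lev_anti (fun b => by beta_reduce; omega) hDr)
  rw [show -(P.shift : ℤ) + ((2 * P.shift : ℕ) : ℤ) = (P.shift : ℤ) by push_cast; ring] at hr' hD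
  obtain ⟨y, hy, hxy⟩ := P.killed hlam (W := A - P.shift) (by omega) hr' hD
  rw [sub_self] at hy hxy
  have hyw : P.up lam P.shift y ∈ P.lv lam a P.shift := by
    have h := P.up_lev (v := P.shift) hy.1
    rw [zero_sub] at h
    exact P.lev_anti (fun b => by beta_reduce; omega) h
  refine ⟨β ^ (n + 1) • y₀ + P.up lam P.shift y, ⟨add_mem (Submodule.smul_mem _ _ hy₀.1) hyw,
    add_mem (Submodule.smul_mem _ _ hy₀.2) fun b _ => mem_cechDeg.2 fun ε hne => ?_⟩, ?_⟩
  · rw [up_apply, mem_cechDeg.1 (hy.2 b trivial) ε hne, map_zero]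
  · have hT := P.up_lev (v := P.shift) hxy
    rw [zero_sub, map_sub, map_smul, up_up, show (n + 1) * M + P.shift = 2 * P.shift from
      (two_mul P.shift).symm] at hT
    have hC := P.up_D0 (lam := lam) (fun b => P.shift + (A - P.shift) + P.deg b * J)
      (v := P.shift) hy.1
    rw [zero_sub] at hC
    have hs : β ^ (n + 1) • (r - P.up lam (2 * P.shift) r') ∈ P.fl lam a (A - P.shift) :=
      Submodule.smul_mem _ _ (hrr _)
    have hl : β ^ (n + 1) • P.up lam (2 * P.shift) r' - P.up lam P.shift (P.D0 lam y) ∈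
        P.fl lam a (A - P.shift) :=
      P.lev_anti (fun b => by beta_reduce; omega) hT
    have h2 : β ^ (n + 1) • (r - P.up lam (2 * P.shift) r') +
        (β ^ (n + 1) • P.up lam (2 * P.shift) r' - P.up lam P.shift (P.D0 lam y)) +
        (P.up lam P.shift (P.D0 lam y) - P.D0 lam (P.up lam P.shift y)) ∈
        P.fl lam a (A - P.shift) :=
      add_mem (add_mem hs hl) hC
    refine (congrArg (· ∈ P.fl lam a (A - P.shift)) ?_).mp h2
    show _ = β ^ (n + 1) • (P.D0 lam y₀ + r) -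
      P.D0 lam (β ^ (n + 1) • y₀ + P.up lam P.shift y)
    rw [map_add, map_smul, smul_sub, smul_add]
    generalize β ^ (n + 1) • r = R
    generalize β ^ (n + 1) • P.up lam (2 * P.shift) r' = R'
    generalize β ^ (n + 1) • P.D0 lam y₀ = Y₀
    generalize P.up lam P.shift (P.D0 lam y) = E
    generalize P.D0 lam (P.up lam P.shift y) = F
    abel

/-- The bound for what `γ` can kill in a window. -/
noncomputable def winC (P : Lift U β L J M) (a : Fin n → ℤ) (i : ℕ) : ℝ≥0∞ :=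
  ∑ b, ∑ s ∈ Finset.range (i + P.deg b * J), ∑ q ∈ Finset.range (n + 1),
    (hP a (-(P.deg b : ℤ) * J + s) q : ℝ≥0∞)

variable {μ : Meas T} (hwin : WinFacts μ U lam a)

include hwin in
/-- The window between a flat level and the top. -/
theorem window_flat {i : ℕ} (hi : i ≤ W) :
    (∀ k, μ.hm (P.sys lam a hW) (P.fl lam a i) (P.lv lam a P.shift) k ≠ ∞) ∧
    ∀ (γ : T) k, μ.hk (P.sys lam a hW) γ (P.fl lam a i) (P.lv lam a P.shift) k ≤
      P.winC a i * μ.kb γ (T ⧸ aI U) := by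
  classical
  have hA := P.cols (lam := lam) (a := a) (c := -(P.shift : ℤ)) hW (P.fl_mono i)
    (g := fun _ => P.shift) (fun _ _ _ => le_rfl) (fun b => by beta_reduce; omega) (fun b => by beta_reduce; omega) 0 0
  have hb : ∀ b, _ := fun b => hwin 0 0 (i + P.deg b * J) P.shift (P.slot (-(P.shift : ℤ)) b)
  have hfin : ∀ b k, μ.hm (colGd U lam a 0 0)
      (cut U lam a (P.shift + i + P.deg b * J) (P.slot (-(P.shift : ℤ)) b))
      (cut U lam a P.shift (P.slot (-(P.shift : ℤ)) b)) k ≠ ∞ := fun b k => by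
    rw [add_assoc]
    exact (hb b).1 k
  refine ⟨fun k => (μ.columns hA hfin 1).1 k, fun γ k => ((μ.columns hA hfin γ).2.2.1 k).trans ?_⟩
  rw [winC, Finset.sum_mul]
  refine Finset.sum_le_sum fun b _ => ?_
  rw [add_assoc]
  refine ((hb b).2.2.2.1 γ _).trans (le_of_eq ?_)
  have e : P.slot (-(P.shift : ℤ)) b + P.shift = -(P.deg b : ℤ) * J := by
    simp [slot]
    ring
  rw [e]

include hwin in
/-- The windows above and below vanish where they are used. -/
theorem window_zero {kk : Fin (n + 1)} (hJ : a = stdTw kk J) (hW2 : 2 * P.shift ≤ W) (k : ℤ) :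
    (0 < k → μ.hm (P.sys lam a hW) (P.lv lam a P.shift) (P.lv lam a 0) (k + 1) = 0) ∧
    (k < 0 → μ.hm (P.sys lam a hW) (P.lv lam a (2 * P.shift)) (P.lv lam a P.shift) k = 0) := by
  classical
  have key : ∀ (v : ℕ), v + P.shift ≤ W → ∀ m : ℤ,
      (∀ b (q : ℕ) (s : ℕ), s < P.shift → m - (P.deg b : ℤ) = -(q : ℤ) →
        hP a (P.slot (-(P.shift : ℤ)) b + v + s) q = 0) →
      μ.hm (P.sys lam a hW) (P.lv lam a (v + P.shift)) (P.lv lam a v) m = 0 := by
    intro v hv m hz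
    have hA := P.cols (lam := lam) (a := a) (c := -(P.shift : ℤ)) hW
      (f := fun _ => v + P.shift) (g := fun _ => v) (fun _ _ _ => le_rfl) (fun _ _ _ => le_rfl)
      (fun b => Nat.le_add_right _ _) (fun b => by beta_reduce; omega) 0 0
    refine μ.null_of_le ((μ.columns hA (fun b k => (hwin 0 0 P.shift v _).1 k) 1).2.1 m)
      (Finset.sum_eq_zero fun b _ => ?_)
    by_cases hpos : 0 < m - (P.deg b : ℤ)
    · exact (hwin 0 0 P.shift v _).2.1 _ hpos
    · obtain ⟨q, hq⟩ : ∃ q : ℕ, m - (P.deg b : ℤ) = -(q : ℤ) := ⟨(m - P.deg b).natAbs, by omega⟩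
      rw [hq]
      refine μ.null_of_le ((hwin 0 0 P.shift v _).2.2.1 q) ?_
      rw [Finset.sum_eq_zero fun s hs => by
        rw [hz b q s (Finset.mem_range.1 hs) hq, Nat.cast_zero], zero_mul]
  subst hJ
  refine ⟨fun hk => ?_, fun hk => ?_⟩
  · have h := key 0 (by omega) (k + 1) fun b q s hs hq => ?_
    · rwa [zero_add] at h
    · have := hP_high kk J (P.deg b) q 0 (P.slot (-(P.shift : ℤ)) b + ((0 : ℕ) : ℤ) + s) (P.deg_le b)
        (by omega) (by simp only [slot, Nat.cast_zero]; omega)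
      simpa using this
  · have h := key P.shift (by omega) k fun b q s hs hq => ?_
    · rwa [← two_mul] at h
    · have := hP_low kk J (P.deg b) q 0 (P.slot (-(P.shift : ℤ)) b + (P.shift : ℤ) + s)
        (Nat.zero_le _) (by omega) (by simp only [slot]; omega)
      simpa using this

include hwin in
/-- Negative degrees below the window. -/
theorem small_neg (hlam : Sep lam) (ha : ∀ j, 0 ≤ a j) {kk : Fin (n + 1)} (hJ : a = stdTw kk J)
    {A B : ℕ} (hB : P.shift ≤ B) (hAB : B + P.shift ≤ A) (hAW : A ≤ W) {k : ℤ} (hk : k < 0)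
    (hle : P.fl lam a A ≤ P.fl lam a B) :
    μ.val (Meas.imH (P.sys lam a hW) hle (P.lv lam a P.shift) k) ≤
      μ.hk (P.sys lam a hW) (β ^ (n + 1)) (P.fl lam a B) (P.lv lam a P.shift) k := by
  have hfin := (P.window_flat hW hwin (i := B) (by omega)).1 k
  have hz : μ.hm (P.sys lam a hW) (P.lv lam a (2 * P.shift)) (P.lv lam a P.shift) k = 0 :=
    (P.window_zero hW hwin hJ (by omega) k).2 hk
  have h2 : P.fl lam a B ≤ P.lv lam a (2 * P.shift) := P.fl_le_lv (by omega)
  set g := (P.sys lam a hW).move (Y := P.lv lam a P.shift) h2 le_rfl k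
  have hker : ∀ z ∈ Meas.imH (P.sys lam a hW) hle (P.lv lam a P.shift) k,
      g z = 0 → β ^ (n + 1) • z = 0 := by
    rintro _ ⟨x, rfl⟩ h0
    induction x using Submodule.Quotient.induction_on with | _ x
    obtain ⟨y, hy, hxy⟩ := P.die_below hW hlam ha (by omega) hAW x.2
      (((P.sys lam a hW).move_move_eq_zero hle h2 k x).1 h0)
    exact (P.sys lam a hW).smul_move_eq_zero hle k x hy (P.fl_anti (by omega) hxy)
  refine (μ.val_le_of_killed_ker (β ^ (n + 1)) hfin g _ hker).trans ?_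
  rw [Meas.hm] at hz
  rw [hz, zero_add]
  exact le_rfl

include hwin in
/-- Positive degrees below the window. -/
theorem small_pos (hlam : Sep lam) (ha : ∀ j, 0 ≤ a j) {kk : Fin (n + 1)} (hJ : a = stdTw kk J)
    {A B : ℕ} (hB : P.shift ≤ B) (hAB : B + P.shift ≤ A) (hAW : A ≤ W) {k : ℤ} (hk : 0 < k)
    (hle : P.fl lam a A ≤ P.fl lam a B) :
    μ.val (Meas.imH (P.sys lam a hW) hle (P.lv lam a P.shift) (k + 1 - 1)) ≤
      μ.hk (P.sys lam a hW) (β ^ (n + 1)) (P.fl lam a B) (P.lv lam a P.shift) (k + 1 - 1) := by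
  have hfin := (P.window_flat hW hwin (i := B) (by omega)).1 (k + 1 - 1)
  have hz := (P.window_zero hW hwin hJ (by omega) k).1 hk
  have hbot : (P.sys lam a hW).bot ≤ P.fl lam a B := P.sys_bot hW (by omega)
  set δ := (P.sys lam a hW).conn (X := P.fl lam a B) (Y := P.lv lam a P.shift)
    (W := P.lv lam a 0) hbot (P.sys_top hW) (k + 1)
  have hconn : μ.val (LinearMap.range δ) = 0 := μ.null_of_le (μ.range_le δ) hz
  have hin : ∀ z ∈ Meas.imH (P.sys lam a hW) hle (P.lv lam a P.shift) (k + 1 - 1),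
      β ^ (n + 1) • z ∈ LinearMap.range δ := by
    rintro _ ⟨x, rfl⟩
    induction x using Submodule.Quotient.induction_on with | _ x
    obtain ⟨y, hy, hxy⟩ := P.hit_above hW hlam ha (by omega) hAW x.2
    rw [show k + 1 - 1 + 1 = k + 1 by ring] at hy
    have hyw : P.D0 lam y ∈ P.lv lam a P.shift := by
      have h1 : β ^ (n + 1) • (x : P.ι → Chart n → Tot T n ℕ) ∈ P.lv lam a P.shift :=
        Submodule.smul_mem _ _ x.2.1.1
      have h2 : β ^ (n + 1) • (x : P.ι → Chart n → Tot T n ℕ) - P.D0 lam y ∈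
          P.lv lam a P.shift := P.fl_le_lv (by omega) hxy
      simpa using sub_mem h1 h2
    refine ⟨Submodule.Quotient.mk ⟨y, hy, hyw⟩, ?_⟩
    rw [Gd.conn_mk, Gd.move_mk, ← Submodule.Quotient.mk_smul, Gd.mk_eq]
    refine Submodule.mem_sup_right ⟨?_, sub_mem ?_ (Submodule.smul_mem _ _ x.2.1.2)⟩
    · have := neg_mem (P.fl_anti (lam := lam) (a := a) (show B ≤ A - P.shift by omega) hxy)
      rwa [neg_sub] at this
    · exact (P.sys lam a hW).map_deg (k + 1) ⟨y, hy.2, rfl⟩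
  refine (μ.val_le_add_kb (β ^ (n + 1)) hfin hin).trans ?_
  rw [hconn, zero_add]
  exact le_rfl

include hwin in
/-- Below the window only what `β` kills survives outside degree zero. -/
theorem small (hlam : Sep lam) (ha : ∀ j, 0 ≤ a j) {kk : Fin (n + 1)} (hJ : a = stdTw kk J)
    {A B : ℕ} (hB : P.shift ≤ B) (hAB : B + P.shift ≤ A) (hAW : A ≤ W) {k : ℤ} (hk : k ≠ 0)
    (hle : P.fl lam a A ≤ P.fl lam a B) :
    μ.val (Meas.imH (P.sys lam a hW) hle (P.lv lam a P.shift) k) ≤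
      P.winC a B * μ.kb (β ^ (n + 1)) (T ⧸ aI U) := by
  refine le_trans ?_ ((P.window_flat hW hwin (i := B) (by omega)).2 (β ^ (n + 1)) k)
  rcases lt_or_gt_of_ne hk with hk | hk
  · exact P.small_neg hW hwin hlam ha hJ hB hAB hAW hk hle
  · have key : ∀ m, m = k + 1 - 1 → μ.val (Meas.imH (P.sys lam a hW) hle (P.lv lam a P.shift) m) ≤
        μ.hk (P.sys lam a hW) (β ^ (n + 1)) (P.fl lam a B) (P.lv lam a P.shift) m := by
      rintro m rfl
      exact P.small_pos hW hwin hlam ha hJ hB hAB hAW hk hle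
    exact key k (by omega)

end Lift

end Win

end Vale.Agent.P202.Mixed2
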