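import Vale.Agent.P202.Mixed2.WinCut
import Vale.Agent.P202.Mixed2.WinPieces

/-!
P202, mixed characteristic, windows: the total complex of a lifted complex with entries in
`a ^ J`; the column of degree `i` carries the slice `c - i * J` cut by `u ^ (W + i * J)`.
-/

namespace Vale.Agent.P202.Mixed2.Win

universe u

open Vale.Agent.P202.Char

variable {T : Type u} [CommRing T] {n : ℕ}

/-- A complex over `T ⧸ a ^ L` lifted to `T`, with entries in `a ^ J` and null homotopies for
`β * U l ^ M`. -/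
structure Lift (U : Fin (n + 1) → T) (β : T) (L J M : ℕ) where
  /-- The basis. -/
  ι : Type
  [fin : Fintype ι]
  [dec : DecidableEq ι]
  /-- The degrees. -/
  deg : ι → ℕ
  deg_le : ∀ b, deg b ≤ n + 1
  /-- The differential. -/
  D : Matrix ι ι T
  mem : ∀ a b, D a b ∈ aI U ^ J
  homog : ∀ a b, deg b ≠ deg a + 1 → D a b = 0
  sq : ∀ a c, (D * D) a c ∈ aI U ^ L
  /-- The homotopies. -/
  h : Fin (n + 1) → Matrix ι ι T
  h_deg : ∀ l a b, deg a ≠ deg b + 1 → h l a b = 0
  htpy : ∀ l a c,
    (D * h l + h l * D) a c - (if a = c then β * U l ^ M else 0) ∈ aI U ^ L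

attribute [instance] Lift.fin Lift.dec

namespace Lift

variable {U : Fin (n + 1) → T} {β : T} {L J M : ℕ} (P : Lift U β L J M)

/-- The slice of the column `b` at level `c`. -/
def slot (c : ℤ) (b : P.ι) : ℤ := c - (P.deg b : ℤ) * J

theorem slot_step {c : ℤ} {b b' : P.ι} (h : P.deg b' = P.deg b + 1) :
    P.slot c b = P.slot c b' + (J : ℤ) := by
  simp only [slot, h]
  push_cast
  ring

theorem exists_form (b b' : P.ι) : ∃ p : ℕ → (ℕ →₀ MvPolynomial (Fin (n + 1)) T),
    Acts U (J : ℤ) (P.D b b') p := by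
  suffices H : ∀ D, ∀ c ∈ aI U ^ D, ∃ f : MvPolynomial (Fin (n + 1)) T, f.IsHomogeneous D ∧
      MvPolynomial.aeval U f = c by
    obtain ⟨f, hf, hfc⟩ := H J _ (P.mem b b')
    exact ⟨formBy f, hfc ▸ acts_formBy hf⟩
  intro D
  induction D with
  | zero => exact fun c _ => ⟨MvPolynomial.C c, MvPolynomial.isHomogeneous_C _ _, by simp⟩
  | succ D ih =>
    intro c hc
    rw [pow_succ] at hc
    refine Submodule.mul_induction_on hc (fun y hy z hz => ?_) (fun y z hy hz => ?_)
    · obtain ⟨f, hf, rfl⟩ := ih y hy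
      obtain ⟨d, rfl⟩ := (Ideal.mem_span_range_iff_exists_fun).1 hz
      exact ⟨f * ∑ l, MvPolynomial.C (d l) * MvPolynomial.X l, hf.mul
        (MvPolynomial.IsHomogeneous.sum _ _ _ fun l _ => MvPolynomial.isHomogeneous_C_mul_X _ _),
        by simp [map_sum]⟩
    · obtain ⟨f, hf, rfl⟩ := hy
      obtain ⟨g, hg, rfl⟩ := hz
      exact ⟨f + g, hf.add hg, map_add _ _ _⟩

/-- The family of an entry. -/
noncomputable def fam (b b' : P.ι) : ℕ → (ℕ →₀ MvPolynomial (Fin (n + 1)) T) :=
  (P.exists_form b b').choose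

theorem fam_acts (b b' : P.ι) : Acts U (J : ℤ) (P.D b b') (P.fam b b') :=
  (P.exists_form b b').choose_spec

variable (lam : Fin (n + 1) → T)

/-- An entry on one chart. -/
noncomputable def entry (b b' : P.ι) : Tot T n ℕ →ₗ[T] Tot T n ℕ :=
  if P.deg b' = P.deg b + 1 then push lam (P.fam b b') else 0

/-- The total differential. -/
noncomputable def D0 : (P.ι → Chart n → Tot T n ℕ) →ₗ[T] (P.ι → Chart n → Tot T n ℕ) :=
  LinearMap.pi fun b => (∑ b', (P.entry lam b b').compLeft (Chart n) ∘ₗ LinearMap.proj b') +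
    ((-1 : T) ^ P.deg b) • (cechD T ∘ₗ LinearMap.proj b)

theorem D0_apply (x : P.ι → Chart n → Tot T n ℕ) (b : P.ι) (ε : Chart n) :
    P.D0 lam x b ε =
      (∑ b', P.entry lam b b' (x b' ε)) + ((-1 : T) ^ P.deg b) • cechD T (x b) ε := by
  simp [D0, LinearMap.pi_apply]

/-- The cochains whose column `b` lies in the cut by `u ^ (f b)`. -/
noncomputable def lev (a : Fin n → ℤ) (c : ℤ) (f : P.ι → ℕ) :
    Submodule T (P.ι → Chart n → Tot T n ℕ) :=
  Submodule.pi Set.univ fun b => cut U lam a (f b) (P.slot c b)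

/-- The cochains in the right slices. -/
noncomputable abbrev free (a : Fin n → ℤ) (c : ℤ) : Submodule T (P.ι → Chart n → Tot T n ℕ) :=
  P.lev lam a c fun _ => 0

/-- The uniform cut. -/
noncomputable abbrev tail (a : Fin n → ℤ) (c : ℤ) (W : ℕ) :
    Submodule T (P.ι → Chart n → Tot T n ℕ) :=
  P.lev lam a c fun b => W + P.deg b * J

/-- The exponents may not drop when the degree goes up. -/
def Mono (f : P.ι → ℕ) : Prop := ∀ b b', P.deg b' = P.deg b + 1 → f b ≤ f b'

variable {lam} {a : Fin n → ℤ} {c : ℤ}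

theorem mem_lev {f : P.ι → ℕ} {x : P.ι → Chart n → Tot T n ℕ} :
    x ∈ P.lev lam a c f ↔ ∀ b ε, x b ε ∈ cutS U lam a (f b) ε (P.slot c b) := by
  simp [lev, mem_cut]

theorem lev_anti {f g : P.ι → ℕ} (h : ∀ b, f b ≤ g b) : P.lev lam a c g ≤ P.lev lam a c f :=
  fun _ hx => P.mem_lev.2 fun b ε => cutS_anti lam (h b) (P.mem_lev.1 hx b ε)

theorem entry_cut {W W' : ℕ} {b b' : P.ι} (hW : P.deg b' = P.deg b + 1 → W' ≤ W) {ε : Chart n}
    {x : Tot T n ℕ} (hx : x ∈ cutS U lam a W ε (P.slot c b')) :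
    P.entry lam b b' x ∈ cutS U lam a W' ε (P.slot c b) := by
  unfold entry
  split_ifs with h
  · rw [P.slot_step h]
    exact push_cutS lam (P.fam_acts b b') (hW h) hx
  · exact zero_mem _

theorem cech_cut {W : ℕ} {N : ℤ} {x : Chart n → Tot T n ℕ}
    (hx : ∀ ε, x ε ∈ cutS U lam a W ε N) (ε : Chart n) :
    cechD T x ε ∈ cutS U lam a W ε N := by
  rw [cechD_apply]
  refine Submodule.sum_mem _ fun l hl => Submodule.smul_mem _ _ (Submodule.sub_mem _ ?_ ?_) <;>
    refine cutS_chart lam (fun i => ?_) (hx _) <;>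
    by_cases hi : i = l <;> simp_all

theorem lev_stable {f : P.ι → ℕ} (hf : P.Mono f) :
    (P.lev lam a c f).map (P.D0 lam) ≤ P.lev lam a c f := by
  rintro _ ⟨x, hx, rfl⟩
  refine P.mem_lev.2 fun b ε => ?_
  rw [D0_apply]
  exact add_mem (sum_mem fun b' _ => P.entry_cut (hf b b') (P.mem_lev.1 hx b' ε))
    (Submodule.smul_mem _ _ (cech_cut (P.mem_lev.1 hx b) ε))

/-- Two entries compose to a family of value the entry of D squared. -/
theorem sq_cut {W : ℕ} (hW : W + (n + 3) * J ≤ L) {x : P.ι → Chart n → Tot T n ℕ}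
    (hx : x ∈ P.free lam a c) : P.D0 lam (P.D0 lam x) ∈ P.tail lam a c W := by
  classical
  refine P.mem_lev.2 fun b ε => ?_
  have hxf : ∀ b'' η, x b'' η ∈ freeSlice T a η ideg (P.slot c b'') := fun b'' η => by
    have := P.mem_lev.1 hx b'' η
    rwa [cutS_zero] at this
  simp only [D0_apply]
  have hlin : ∀ b', P.entry lam b b'
      ((∑ b'', P.entry lam b' b'' (x b'' ε)) + ((-1 : T) ^ P.deg b') • cechD T (x b') ε) =
      (∑ b'', P.entry lam b b' (P.entry lam b' b'' (x b'' ε))) +
        ((-1 : T) ^ P.deg b') • P.entry lam b b' (cechD T (x b') ε) := fun b' => by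
    rw [map_add, map_sum, map_smul]
  simp only [hlin, Finset.sum_add_distrib]
  have hc : cechD T (P.D0 lam x b) ε =
      ∑ b', P.entry lam b b' (cechD T (x b') ε) := by
    have h1 : P.D0 lam x b = (∑ b', (P.entry lam b b').compLeft (Chart n) (x b')) +
        ((-1 : T) ^ P.deg b) • cechD T (x b) := by
      simp [D0, LinearMap.pi_apply]
    rw [h1, map_add, map_sum, map_smul, show cechD T (cechD T (x b)) = 0 from
      LinearMap.congr_fun cechD_sq (x b), smul_zero, add_zero, Finset.sum_apply]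
    exact Finset.sum_congr rfl fun b' _ => (cechD_map (P.entry lam b b') (x b') ε).symm
  have hsign : (∑ b', ((-1 : T) ^ P.deg b') • P.entry lam b b' (cechD T (x b') ε)) +
      ((-1 : T) ^ P.deg b) • cechD T (P.D0 lam x b) ε = 0 := by
    rw [hc, Finset.smul_sum, ← Finset.sum_add_distrib]
    refine Finset.sum_eq_zero fun b' _ => ?_
    by_cases h : P.deg b' = P.deg b + 1
    · rw [← add_smul, h, pow_succ]
      convert zero_smul T _ using 2
      ring
    · simp [entry, h]
  rw [add_assoc, hsign, add_zero, Finset.sum_comm]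
  refine sum_mem fun b'' _ => ?_
  set mid := Finset.univ.filter fun b' => P.deg b' = P.deg b + 1 ∧ P.deg b'' = P.deg b' + 1
  have hterm : ∀ b', P.entry lam b b' (P.entry lam b' b'' (x b'' ε)) =
      if b' ∈ mid then push lam (compFam (P.fam b b') (P.fam b' b'')) (x b'' ε) else 0 := fun b' => by
    unfold entry
    by_cases h1 : P.deg b' = P.deg b + 1
    · by_cases h2 : P.deg b'' = P.deg b' + 1
      · rw [if_pos h1, if_pos h2, push_comp,
          if_pos (Finset.mem_filter.2 ⟨Finset.mem_univ _, h1, h2⟩)]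
      · rw [if_pos h1, if_neg h2, LinearMap.zero_apply, map_zero,
          if_neg fun h => h2 (Finset.mem_filter.1 h).2.2]
    · rw [if_neg h1, LinearMap.zero_apply, if_neg fun h => h1 (Finset.mem_filter.1 h).2.1]
  rw [Finset.sum_congr rfl fun b' _ => hterm b', Finset.sum_ite_mem, Finset.univ_inter,
    ← push_sum_fam]
  by_cases hmid : mid.Nonempty
  · obtain ⟨b', hb'⟩ := hmid
    obtain ⟨h1, h2⟩ := (Finset.mem_filter.1 hb').2
    rw [P.slot_step h1, P.slot_step h2, add_assoc]
    have hval : ∑ b' ∈ mid, P.D b b' * P.D b' b'' ∈ aI U ^ L := by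
      refine (congrArg (· ∈ aI U ^ L) ?_).mp (P.sq b b'')
      rw [Matrix.mul_apply]
      refine (Finset.sum_subset (Finset.subset_univ mid) fun i _ hi => ?_).symm
      simp only [mid, Finset.mem_filter, Finset.mem_univ, true_and, not_and_or] at hi
      rcases hi with hi | hi
      · rw [P.homog b i hi, zero_mul]
      · rw [P.homog i b'' hi, mul_zero]
    have hA := acts_sum (U := U) mid fun i _ => (P.fam_acts b i).comp (P.fam_acts i b'')
    have hd : P.deg b ≤ n + 1 := P.deg_le b
    have hWJ : W + P.deg b * J + (J + J) ≤ L := by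
      have := Nat.mul_le_mul_right J hd
      rw [show (n + 3) * J = (n + 1) * J + (J + J) by ring] at hW
      omega
    rw [show ((J : ℤ) + J) = ((J + J : ℕ) : ℤ) by push_cast; ring] at hA ⊢
    exact push_small lam hval hWJ hA (hxf b'' ε)
  · rw [Finset.not_nonempty_iff_eq_empty.1 hmid, Finset.sum_empty, push_zero_fam]
    exact zero_mem _

theorem D0_deg (k : ℤ) :
    (Submodule.pi Set.univ fun b => cechDeg T (Tot T n ℕ) (k - P.deg b)).map (P.D0 lam) ≤
      Submodule.pi Set.univ fun b => cechDeg T (Tot T n ℕ) (k - 1 - P.deg b) := by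
  rintro _ ⟨x, hx, rfl⟩ b -
  rw [SetLike.mem_coe, mem_cechDeg]
  intro ε hε
  have hx' : ∀ b' η, -(chartDeg η : ℤ) ≠ k - P.deg b' → x b' η = 0 := fun b' η hη =>
    mem_cechDeg.1 (hx b' trivial) η hη
  rw [D0_apply, Finset.sum_eq_zero fun b' _ => ?_, zero_add]
  · have h1 := (cechGC T n (Tot T n ℕ)).map_deg (k - P.deg b) ⟨x b, hx b trivial, rfl⟩
    rw [show (cechGC T n (Tot T n ℕ)).D (x b) = cechD T (x b) from rfl] at h1
    rw [mem_cechDeg.1 h1 ε (by omega), smul_zero]
  · unfold entry
    split_ifs with h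
    · rw [hx' b' ε (by rw [h]; push_cast; omega), map_zero]
    · rfl

end Lift

variable (U : Fin (n + 1) → T) (lam : Fin (n + 1) → T) (a : Fin n → ℤ)

/-- The Cech complex of the slice `N` modulo `u ^ W`. -/
noncomputable def colGd (W : ℕ) (N : ℤ) : Gd T (Chart n → Tot T n ℕ) where
  D := cechD T
  deg := cechDeg T (Tot T n ℕ)
  bot := cut U lam a W N
  top := freeCech T a ideg N
  map_deg := (cechGC T n (Tot T n ℕ)).map_deg
  sq x _ := by
    rw [show cechD T (cechD T x) = 0 from LinearMap.congr_fun cechD_sq x]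
    exact zero_mem _

variable {U lam a} {β : T} {L J M : ℕ} (P : Lift U β L J M)

/-- The total complex at level `c`, modulo the cut by `u ^ W`. -/
noncomputable def Lift.tot (lam : Fin (n + 1) → T) (a : Fin n → ℤ) (c : ℤ) {W : ℕ}
    (hW : W + (n + 3) * J ≤ L) : Gd T (P.ι → Chart n → Tot T n ℕ) where
  D := P.D0 lam
  deg k := Submodule.pi Set.univ fun b => cechDeg T (Tot T n ℕ) (k - P.deg b)
  bot := P.tail lam a c W
  top := P.free lam a c
  map_deg := P.D0_deg
  sq _ hx := P.sq_cut hW hx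

/-- Between two levels the total complex is made of cut slices. -/
theorem Lift.cols {c : ℤ} {W : ℕ} (hW : W + (n + 3) * J ≤ L) {f g : P.ι → ℕ}
    (hf : P.Mono f) (hg : P.Mono g) (hgf : ∀ b, g b ≤ f b) (hfW : ∀ b, f b ≤ W + P.deg b * J)
    (N₀ : ℤ) (W₀ : ℕ) :
    Gd.Cols (P.tot lam a c hW) (colGd U lam a W₀ N₀) P.deg
      (fun b => cut U lam a (f b) (P.slot c b)) (fun b => cut U lam a (g b) (P.slot c b)) := by
  classical
  have hsingle : ∀ (b b' : P.ι) (x : Chart n → Tot T n ℕ) (ε : Chart n),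
      (P.tot lam a c hW).D (Pi.single b x) b' ε =
        P.entry lam b' b (x ε) +
          (if b' = b then ((-1 : T) ^ P.deg b') • cechD T x ε else 0) := by
    intro b b' x ε
    show P.D0 lam _ b' ε = _
    rw [P.D0_apply, Finset.sum_eq_single b (fun i _ hi => by simp [Pi.single_eq_of_ne hi])
      (by simp), Pi.single_eq_same]
    by_cases h : b' = b
    · subst h
      rw [if_pos rfl, Pi.single_eq_same]
    · rw [if_neg h, Pi.single_eq_of_ne h, map_zero, Pi.zero_apply, smul_zero]
  refine ⟨fun k => rfl, fun b => cut_anti U lam a (hgf b) _,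
    show P.lev lam a c _ ≤ P.lev lam a c f from P.lev_anti hfW,
    show P.lev lam a c g ≤ P.lev lam a c _ from P.lev_anti fun b => Nat.zero_le _,
    fun b x hx => ?_, fun b b' hne hd x _ => ?_, fun b b' hd x hx => ?_, fun b b' hd x hx => ?_,
    fun b => cut_isSub U lam a _ _, fun b => cut_isSub U lam a _ _⟩
  · rw [mem_cut]
    intro ε
    rw [Pi.sub_apply, hsingle, if_pos rfl, Pi.smul_apply, show (colGd U lam a W₀ N₀).D x = cechD T x
      from rfl, add_sub_cancel_right]
    unfold Lift.entry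
    rw [if_neg (by omega)]
    exact zero_mem _
  · funext ε
    rw [hsingle, if_neg hne, add_zero, Pi.zero_apply]
    unfold Lift.entry
    rw [if_neg hd]
    rfl
  · rw [mem_cut] at hx ⊢
    intro ε
    have hne : b' ≠ b := fun h => by subst h; omega
    rw [hsingle, if_neg hne, add_zero]
    exact P.entry_cut (hf b' b) (hx ε)
  · rw [mem_cut] at hx ⊢
    intro ε
    have hne : b' ≠ b := fun h => by subst h; omega
    rw [hsingle, if_neg hne, add_zero]
    exact P.entry_cut (hg b' b) (hx ε)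

end Vale.Agent.P202.Mixed2.Win
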